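import Vale.Agent.P287Q.Lz.PkT

/-! The dressed vertex is the bare vertex up to terms of lower degree. -/

namespace Vale.Agent.P287Q.Lz.Pk

open Finset TensorProduct

variable {K H R ι : Type} [Field K] [CharZero K] [CommRing H] [Algebra K H] [DecidableEq R]
  {P : Pk K H R} {φ : ι → H} {Ty : ℤ → Submodule K H}

namespace PkC

/-- multisets of insertions of cardinality `n + 1` -/
abbrev Mn (H : Type) (n : ℕ) : Type := {s : Ms H // s.card = n + 1}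

/-- the bare vertex with additional insertions -/
def Fv (P : Pk K H R) (n : ℕ) (p : (R →₀ ℕ) × Ms H) : Mn H n → K :=
  fun s => P.E p.1 0 (s.1 + p.2) 0

/-- the span of the bare vertices with degrees in `Q` -/
def Sp (P : Pk K H R) (Ty : ℤ → Submodule K H) (Q : (R →₀ ℕ) → Prop) (n : ℕ) :
    Submodule K (Mn H n → K) :=
  Submodule.span K (Fv P n '' {p | Q p.1 ∧ ∀ x ∈ p.2, x.2 ∈ Ty 0})

omit [CharZero K] in
theorem Sp_mono {Q Q' : (R →₀ ℕ) → Prop} (h : ∀ d, Q d → Q' d) (n : ℕ) :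
    Sp P Ty Q n ≤ Sp P Ty Q' n :=
  Submodule.span_mono (Set.image_mono fun _ hp => ⟨h _ hp.1, hp.2⟩)

/-- one more insertion -/
def cons (x : ℕ × H) (n : ℕ) (s : Mn H n) : Mn H (n + 1) :=
  ⟨x ::ₘ s.1, by rw [Multiset.card_cons, s.2]⟩

omit [CharZero K] in
theorem Sp_cons {Q : (R →₀ ℕ) → Prop} {n : ℕ} {x : ℕ × H} (hx : x.2 ∈ Ty 0)
    {g : Mn H (n + 1) → K} (hg : g ∈ Sp P Ty Q (n + 1)) :
    (fun s => g (cons x n s)) ∈ Sp P Ty Q n := by
  have : Sp P Ty Q (n + 1) ≤ (Sp P Ty Q n).comap (LinearMap.funLeft K K (cons x n)) := by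
    refine Submodule.span_le.2 ?_
    rintro _ ⟨p, hp, rfl⟩
    refine Submodule.subset_span ⟨(p.1, x ::ₘ p.2), ⟨hp.1, fun y hy => ?_⟩, ?_⟩
    · rcases Multiset.mem_cons.1 hy with rfl | hy
      exacts [hx, hp.2 y hy]
    · funext s
      change P.E p.1 0 (s.1 + x ::ₘ p.2) 0 = P.E p.1 0 (x ::ₘ s.1 + p.2) 0
      rw [Multiset.add_cons, Multiset.cons_add]
  exact this hg

omit [CharZero K] in
theorem Sp_out {Q : (R →₀ ℕ) → Prop} {n : ℕ} {g : Mn H n → K} (hg : g ∈ Sp P Ty Q n) :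
    ∃ c : (R →₀ ℕ) × Ms H →₀ K, (∀ p ∈ c.support, Q p.1 ∧ ∀ x ∈ p.2, x.2 ∈ Ty 0) ∧
      ∀ s : Mn H n, g s = c.sum fun p a => a * P.E p.1 0 (s.1 + p.2) 0 := by
  obtain ⟨c, hc, rfl⟩ := (Finsupp.mem_span_image_iff_linearCombination K).1 hg
  refine ⟨c, fun p hp => hc hp, fun s => ?_⟩
  rw [Finsupp.linearCombination_apply, Finsupp.sum, Finsupp.sum, Finset.sum_apply]
  rfl

omit [CharZero K] in
theorem cv_mem {S α : Type} (V : Submodule K (S → K))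
    {Φ : S → (R →₀ ℕ) → Multiset α → (R →₀ ℕ) → Multiset α → K} {d : R →₀ ℕ} {t : Multiset α}
    (h : ∀ d₁ t₁ d₂ t₂, d₁ + d₂ = d → t₁ + t₂ = t → (fun s => Φ s d₁ t₁ d₂ t₂) ∈ V) :
    (fun s => cv (Φ s) d t) ∈ V := by
  have e : (fun s => cv (Φ s) d t) = cv (fun d₁ t₁ d₂ t₂ => fun s => Φ s d₁ t₁ d₂ t₂) d t := by
    funext s
    simp only [cv, Finset.sum_apply, Pi.multiset_sum_apply, Multiset.map_map, Function.comp_def]
  rw [e]
  refine V.sum_mem fun p hp => multiset_sum_mem _ fun g hg => ?_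
  obtain ⟨u, hu, rfl⟩ := Multiset.mem_map.1 hg
  exact h _ _ _ _ (mem_antidiagonal.1 hp) (Multiset.mem_antidiagonal.1 hu)

omit [CommRing H] in
theorem ne_zero {n : ℕ} (s : Mn H n) : s.1 ≠ 0 := fun h => by
  have := s.2
  rw [h, Multiset.card_zero] at this
  omega

theorem T_zero (h : P.Typed Ty) (j d) {k : ℤ} (hk : k ≠ 0) {y : H} (hy : y ∈ Ty k) {t : Ms H}
    (ht : ∀ x ∈ t, x.2 ∈ Ty 0) : P.T j d y t = 0 := by
  have := h.T_eq j d hy (t := t.map fun x => ((0 : ℤ), x)) (fun x hx => by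
    obtain ⟨z, hz, rfl⟩ := Multiset.mem_map.1 hx
    exact ht z hz) (by simpa [Multiset.map_map] using hk)
  simpa [Multiset.map_map] using this

theorem step (h : P.Typed Ty) {k : ℕ}
    (ih : ∀ d n (t : Ms H), (∀ x ∈ t, x.2 ∈ Ty 0) →
      (fun s : Mn H n => P.E d k s.1 t) ∈ Sp P Ty (· ≤ d) n)
    (d n) {t : Ms H} (ht : ∀ x ∈ t, x.2 ∈ Ty 0) :
    (fun s : Mn H n => P.E d (k + 1) s.1 t) ∈ Sp P Ty (· < d) n := by
  obtain ⟨N, hN⟩ := P.tail d k n t.card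
  obtain ⟨B, _, e, f, τ, hτ, hc⟩ := h.exists_cas
  have hk : ((k : K) + 1) ≠ 0 := by exact_mod_cast Nat.succ_ne_zero k
  have e1 : (fun s : Mn H n => P.E d (k + 1) s.1 t) = ((k : K) + 1)⁻¹ • fun s : Mn H n =>
      cv (fun d₁ t₁ d₂ t₂ => ∑ b, ∑ j ∈ range N,
        P.T j d₂ (f b) t₂ * P.E d₁ k ((j, e b) ::ₘ s.1) t₁) d t := by
    funext s
    rw [Pi.smul_apply, smul_eq_mul, eq_inv_mul_iff_mul_eq₀ hk, hN s.1 t s.2 rfl]
    refine cv_congr fun d₁ t₁ d₂ t₂ _ _ => ?_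
    rw [Finset.sum_comm, Finset.sum_comm (s := univ)]
    refine Finset.sum_congr rfl fun j _ => ?_
    rw [P.sum_cas hc (Φ := fun x y => P.E d₁ k ((j, x) ::ₘ s.1) t₁ * P.T j d₂ y t₂)
      (fun y => ⟨fun x x' => by rw [(P.linE₁ _ _ _ _ _).map_add, add_mul],
        fun c x => by rw [(P.linE₁ _ _ _ _ _).map_smul, smul_mul_assoc]⟩)
      (fun x => ⟨fun y y' => by rw [(P.linT _ _ _).map_add, mul_add],
        fun c y => by rw [(P.linT _ _ _).map_smul, mul_smul_comm]⟩)]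
    exact Finset.sum_congr rfl fun b _ => mul_comm _ _
  rw [e1]
  refine Submodule.smul_mem _ _ (cv_mem _ fun d₁ t₁ d₂ t₂ hd htt => ?_)
  have e2 : (fun s : Mn H n => ∑ b, ∑ j ∈ range N,
      P.T j d₂ (f b) t₂ * P.E d₁ k ((j, e b) ::ₘ s.1) t₁) = ∑ b, ∑ j ∈ range N,
      P.T j d₂ (f b) t₂ • fun s : Mn H n => P.E d₁ k ((j, e b) ::ₘ s.1) t₁ := by
    funext s
    simp only [Finset.sum_apply, Pi.smul_apply, smul_eq_mul]
  rw [e2]
  refine Submodule.sum_mem _ fun b _ => Submodule.sum_mem _ fun j _ => ?_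
  by_cases h2 : d₂ = 0
  · rw [h2, P.tl0, zero_smul]
    exact Submodule.zero_mem _
  by_cases h3 : τ b = 0
  · refine Submodule.smul_mem _ _ ?_
    have hlt : d₁ < d := by
      rw [← hd]
      exact lt_add_of_pos_right _ (pos_iff_ne_zero.2 h2)
    have h4 := ih d₁ (n + 1) t₁ fun x hx => ht x (by
      rw [← htt]; exact Multiset.mem_add.2 (Or.inl hx))
    have h5 : e b ∈ Ty 0 := h3 ▸ (hτ b).1
    have h6 := Sp_cons (x := (j, e b)) h5 h4
    exact Sp_mono (Q := (· ≤ d₁)) (Q' := (· < d)) (fun _ h7 => lt_of_le_of_lt h7 hlt) n h6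
  · rw [T_zero h j d₂ (neg_ne_zero.2 h3) (hτ b).2 fun x hx => ht x (by
      rw [← htt]; exact Multiset.mem_add.2 (Or.inr hx)), zero_smul]
    exact Submodule.zero_mem _

theorem mem_le (h : P.Typed Ty) (k : ℕ) : ∀ d n (t : Ms H), (∀ x ∈ t, x.2 ∈ Ty 0) →
    (fun s : Mn H n => P.E d k s.1 t) ∈ Sp P Ty (· ≤ d) n := by
  induction k with
  | zero =>
    intro d n t ht
    refine Submodule.subset_span ⟨(d, t), ⟨le_rfl, ht⟩, ?_⟩
    funext s
    exact (P.vtx d s.1 t (ne_zero s)).symm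
  | succ k ih => exact fun d n t ht => Sp_mono (fun _ => le_of_lt) n (step h ih d n ht)

theorem mem_lt (h : P.Typed Ty) (d k n) {t : Ms H} (ht : ∀ x ∈ t, x.2 ∈ Ty 0) :
    (fun s : Mn H n => P.E d (k + 1) s.1 t) ∈ Sp P Ty (· < d) n := step h (mem_le h k) d n ht

omit [CharZero K] in
open Classical in
theorem coeff_ext₁ (B : H →ₗ[K] H →ₗ[K] H →ₗ[K] Sr K R ι) (z : Md K H R ι) (x y : H)
    (m : R ⊕ ι →₀ ℕ) : MvPowerSeries.coeff m (ext3 B z (1 ⊗ₜ x) (1 ⊗ₜ y)) =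
      ∑ p ∈ antidiagonal m, MvPowerSeries.coeff p.2 (B (cf p.1 z) x y) := by
  induction z using TensorProduct.induction_on with
  | zero => simp
  | tmul s w =>
    rw [ext3_tmul, mul_one, mul_one, MvPowerSeries.coeff_mul]
    refine Finset.sum_congr rfl fun p _ => ?_
    rw [cf_tmul, map_smul, LinearMap.smul_apply, LinearMap.smul_apply, map_smul, smul_eq_mul]
  | add z z' h1 h2 =>
    simp only [map_add, LinearMap.add_apply, h1, h2, Finset.sum_add_distrib]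

omit [CharZero K] in
open Classical in
theorem coeff_ext₂ (B : H →ₗ[K] H →ₗ[K] H →ₗ[K] Sr K R ι) (z : Md K H R ι) (x y : H)
    (m : R ⊕ ι →₀ ℕ) : MvPowerSeries.coeff m (ext3 B (1 ⊗ₜ x) z (1 ⊗ₜ y)) =
      ∑ p ∈ antidiagonal m, MvPowerSeries.coeff p.2 (B x (cf p.1 z) y) := by
  induction z using TensorProduct.induction_on with
  | zero => simp
  | tmul s w =>
    rw [ext3_tmul, one_mul, mul_one, MvPowerSeries.coeff_mul]
    refine Finset.sum_congr rfl fun p _ => ?_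
    rw [cf_tmul, map_smul, LinearMap.smul_apply, map_smul, smul_eq_mul]
  | add z z' h1 h2 =>
    simp only [map_add, LinearMap.add_apply, h1, h2, Finset.sum_add_distrib]

omit [DecidableEq R] in
theorem dgm_add (m m' : R ⊕ ι →₀ ℕ) : dgm (m + m') = dgm m + dgm m' := by
  simp only [dgm, map_add, Prod.fst_add]

end PkC

/-- **(C2)** -/
theorem Typed.E_span (h : P.Typed Ty) (d k n) {t : Ms H} (ht : ∀ x ∈ t, x.2 ∈ Ty 0) :
    ∃ c : (R →₀ ℕ) × Ms H →₀ K, (∀ p ∈ c.support, p.1 < d ∧ ∀ x ∈ p.2, x.2 ∈ Ty 0) ∧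
      ∀ s : Ms H, s.card = n + 1 →
        P.E d (k + 1) s t = c.sum fun p a => a * P.E p.1 0 (s + p.2) 0 := by
  obtain ⟨c, h1, h2⟩ := PkC.Sp_out (PkC.mem_lt h d k n ht)
  exact ⟨c, h1, fun s hs => h2 ⟨s, hs⟩⟩

theorem Typed.C_span (h : P.Typed Ty) (d n) {t : Ms H} (ht : ∀ x ∈ t, x.2 ∈ Ty 0) :
    ∃ c : (R →₀ ℕ) × Ms H →₀ K, (∀ p ∈ c.support, p.1 < d ∧ ∀ x ∈ p.2, x.2 ∈ Ty 0) ∧
      ∀ s : Ms H, s.card = n + 1 → P.C d s t =
        P.E d 0 (s + t) 0 + c.sum fun p a => a * P.E p.1 0 (s + p.2) 0 := by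
  obtain ⟨N, hN⟩ := P.sum d
  obtain ⟨c, h1, h2⟩ := PkC.Sp_out (Submodule.sum_mem (PkC.Sp P Ty (· < d) n)
    (t := range N) fun k _ => PkC.mem_lt h d k n ht)
  refine ⟨c, h1, fun s hs => ?_⟩
  have h0 := PkC.ne_zero ⟨s, hs⟩
  rw [← h2 ⟨s, hs⟩, Finset.sum_apply, hN s t h0, Finset.sum_range_succ', P.vtx d s t h0, add_comm]

/-- in degree zero nothing is dressed -/
theorem C_zero (P : Pk K H R) {s : Ms H} (hs : s ≠ 0) (t : Ms H) :
    P.C 0 s t = P.E 0 0 (s + t) 0 := by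
  obtain ⟨N, hN⟩ := P.sum 0
  obtain ⟨n, hn⟩ := Nat.exists_eq_succ_of_ne_zero (mt Multiset.card_eq_zero.1 hs)
  rw [hN s t hs, Finset.sum_range_succ', P.vtx 0 s t hs, Finset.sum_eq_zero, zero_add]
  intro k _
  obtain ⟨M, hM⟩ := P.tail 0 k n t.card
  have hk : ((k : K) + 1) ≠ 0 := by exact_mod_cast Nat.succ_ne_zero k
  refine (mul_eq_zero.1 ((hM s t hn rfl).trans ?_)).resolve_left hk
  refine (cv_congr fun d₁ t₁ d₂ t₂ hd _ => ?_).trans (cv_zero _ _)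
  have h2 : d₂ = 0 := (add_eq_zero.1 hd).2
  simp only [h2, P.tl0, mul_zero, Finset.sum_const_zero]

omit [CharZero K] in
open Classical in
/-- the coefficients of the product with two markings on one vertex -/
theorem η_cf_mid (P : Pk K H R) (φ : ι → H) (z : Md K H R ι) (x y : H) (m : R ⊕ ι →₀ ℕ) :
    P.η (cf m (P.mid φ (1 ⊗ₜ x) z) * y) = ∑ p ∈ antidiagonal m,
      (fac K p.2)⁻¹ * P.C (dgm p.2) {(0, cf p.1 z), (0, y)} ((0, x) ::ₘ ins φ p.2) := by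
  rw [← P.coeff_ηM, mid, P.ηM_op, PkC.coeff_ext₂]
  exact Finset.sum_congr rfl fun p _ => rfl

omit [CharZero K] in
open Classical in
theorem PkC.η_cf_circ (P : Pk K H R) (φ : ι → H) (z : Md K H R ι) (x y : H) (m : R ⊕ ι →₀ ℕ) :
    P.η (cf m (P.circ φ z (1 ⊗ₜ x)) * y) = ∑ p ∈ antidiagonal m,
      (fac K p.2)⁻¹ * P.C (dgm p.2) {(0, cf p.1 z), (0, x), (0, y)} (ins φ p.2) := by
  rw [← P.coeff_ηM, circ, P.ηM_op, PkC.coeff_ext₁]
  exact Finset.sum_congr rfl fun p _ => rfl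

open Classical in
/-- the branch map is the identity up to terms of positive degree -/
theorem cf_U_of_deg (P : Pk K H R) (φ : ι → H) (x : H) {m : R ⊕ ι →₀ ℕ} (hm : dgm m = 0) :
    cf m (P.U φ (1 ⊗ₜ x)) = if m = 0 then x else 0 := by
  have h1 : cf m (P.U φ (1 ⊗ₜ x)) = cf m (P.circ φ (P.unit φ) (1 ⊗ₜ x)) := by
    refine P.eq_of_η fun y => ?_
    rw [PkC.η_cf_circ, U, LinearMap.flip_apply, η_cf_mid]
    refine Finset.sum_congr rfl fun p hp => ?_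
    have h2 : dgm p.2 = 0 := by
      rw [← mem_antidiagonal.1 hp, PkC.dgm_add] at hm
      exact (add_eq_zero.1 hm).2
    rw [h2, P.C_zero (s := {(0, _), (0, y)}) Multiset.cons_ne_zero,
      P.C_zero (s := {(0, _), (0, x), (0, y)}) Multiset.cons_ne_zero]
    congr 2
    simp only [Multiset.insert_eq_cons, Multiset.cons_add, Multiset.add_cons,
      Multiset.singleton_add]
    rw [Multiset.cons_swap]
  rw [h1, unit_circ, cf_tmul, MvPowerSeries.coeff_one]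
  split_ifs
  exacts [one_smul _ _, zero_smul _ _]

omit [CharZero K] in
open Classical in
/-- the coefficients of the dressed product -/
theorem η_cf_circ (P : Pk K H R) (φ : ι → H) (z : Md K H R ι) (x y : H) (m : R ⊕ ι →₀ ℕ) :
    P.η (cf m (P.circ φ z (1 ⊗ₜ x)) * y) = ∑ p ∈ antidiagonal m,
      (fac K p.2)⁻¹ * P.C (dgm p.2) {(0, cf p.1 z), (0, x), (0, y)} (ins φ p.2) :=
  PkC.η_cf_circ P φ z x y m

end Vale.Agent.P287Q.Lz.Pk
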