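import Vale.Agent.P287Q.Lz.PkA
import Vale.Agent.P287Q.Lz.PkC

/-! Theorem B on the level of numbers. -/

namespace Vale.Agent.P287Q.Lz

open Module Polynomial TensorProduct Finset

theorem B_gen {V I : Type} [AddCommGroup V] [Module ℂ V] [Finite I] (G : Submodule ℂ V)
    (S : I → Submodule ℂ V) (h : ∀ i, ∃ x ∈ G, x ∉ S i) : ∃ x ∈ G, ∀ i, x ∉ S i := by
  obtain ⟨x, hx⟩ := Submodule.exists_forall_notMem_of_forall_ne_top
    (fun i => (S i).comap G.subtype) fun i e => by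
      obtain ⟨x, h1, h2⟩ := h i
      exact h2 (e.ge (Submodule.mem_top (x := ⟨x, h1⟩)))
  exact ⟨x, x.2, hx⟩

theorem B_ne {k V : Type} [Field k] [AddCommGroup V] [Module k V] {N : Submodule k V}
    (h : finrank k N ≠ 0) : ∃ v ∈ N, v ≠ 0 :=
  Submodule.exists_mem_ne_zero_of_ne_bot fun e => h (by rw [e, finrank_bot])

variable {K H R ι : Type} [Field K] [CommRing H] [Algebra K H]

theorem B_span {n : Type} {u : n → H} {a x : H} (h : ∀ i, u i * a = 0)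
    (hx : x ∈ Submodule.span K (Set.range u)) : x * a = 0 :=
  (Submodule.span_le (p := LinearMap.ker (LinearMap.mulRight K a))).2 (Set.range_subset_iff.2 h) hx

theorem B_li {n₁ n₂ n₃ : Type} {u₁ : n₁ → H} {u₂ : n₂ → H} {u₃ : n₃ → H} {g : H} {r₁ r₂ r₃ : K}
    (l₁ : LinearIndependent K u₁) (l₂ : LinearIndependent K u₂) (l₃ : LinearIndependent K u₃)
    (h₁ : ∀ i, u₁ i * g = r₁ • u₁ i) (h₂ : ∀ i, u₂ i * g = r₂ • u₂ i)
    (h₃ : ∀ i, u₃ i * g = r₃ • u₃ i) (h12 : r₁ ≠ r₂) (h13 : r₁ ≠ r₃) (h23 : r₂ ≠ r₃) :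
    LinearIndependent K (Sum.elim (Sum.elim u₁ u₂) u₃) := by
  simp only [Algebra.smul_def] at h₁ h₂ h₃
  refine (l₁.sum_type l₂ (Submodule.disjoint_def.2 fun x a b => ?_)).sum_type l₃
    (Submodule.disjoint_def.2 fun x a b => ?_)
  · have a := B_span (a := g - algebraMap K H r₁) (fun i => by linear_combination h₁ i) a
    have b := B_span (a := g - algebraMap K H r₂) (fun i => by linear_combination h₂ i) b
    refine (smul_eq_zero.1 ?_).resolve_left (sub_ne_zero.2 h12)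
    rw [Algebra.smul_def, map_sub]
    linear_combination b - a
  · have a := B_span (a := (g - algebraMap K H r₁) * (g - algebraMap K H r₂)) (by
      rintro (i | i)
      · rw [Sum.elim_inl]
        linear_combination (g - algebraMap K H r₂) * h₁ i
      · rw [Sum.elim_inr]
        linear_combination (g - algebraMap K H r₁) * h₂ i) a
    have b := B_span (a := g - algebraMap K H r₃) (fun i => by linear_combination h₃ i) b
    refine (smul_eq_zero.1 ?_).resolve_left (mul_ne_zero (sub_ne_zero.2 h13) (sub_ne_zero.2 h23))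
    rw [Algebra.smul_def, map_mul, map_sub, map_sub]
    linear_combination a - (g + algebraMap K H r₃ - algebraMap K H r₁ - algebraMap K H r₂) * b

variable [DecidableEq R] [Algebra ℂ K] [Algebra ℂ H] [IsScalarTower ℂ K H] {P : Pk K H R}
  {Ty : ℤ → Submodule K H}

namespace Pk

/-- the classes with polynomial values -/
noncomputable def pv (lam : K) (f : H →ₗ[K] Sr K R ι) : Submodule ℂ H where
  carrier := {x | f x ∈ (io R ι lam).range}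
  add_mem' a b := by
    rw [Set.mem_ofPred_eq, map_add]
    exact add_mem a b
  zero_mem' := ⟨0, by simp⟩
  smul_mem' c x hx := by
    rw [Set.mem_ofPred_eq, ← algebraMap_smul K, map_smul, MvPowerSeries.smul_eq_C_mul]
    exact mul_mem ⟨MvPowerSeries.C (Polynomial.C c), by simp⟩ hx

variable (P) in
/-- a matrix coefficient -/
noncomputable def evp (φ : ι → H) (x y : H) : H →ₗ[K] Sr K R ι :=
  (PkX_pr P y ∘ₗ (P.circ φ).flip (1 ⊗ₜ x) ∘ₗ P.U φ).restrictScalars K ∘ₗ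
    TensorProduct.mk K (Sr K R ι) H 1

omit [Algebra ℂ K] [Algebra ℂ H] [IsScalarTower ℂ K H] in
theorem evp_eq [CharZero K] {φ : ι → H} {x y g : H} {θ : Sr K R ι} (hy : P.η (x * y) = 1)
    (h : P.circ φ (P.U φ (1 ⊗ₜ g)) (1 ⊗ₜ x) = θ • (1 : Sr K R ι) ⊗ₜ[K] x) : P.evp φ x y g = θ := by
  change P.ηM (P.circ φ (P.U φ (1 ⊗ₜ g)) (1 ⊗ₜ x) * 1 ⊗ₜ y) = θ
  rw [h, smul_mul_assoc, map_smul, PkX_η, hy, map_one, smul_eq_mul, mul_one]

omit [DecidableEq R] [Algebra ℂ H] [IsScalarTower ℂ K H] in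
theorem B_sp (lam : K) (S : Set R) (x : Sr K R ι) (hx : x ∈ (io R ι lam).range) :
    sp0 K ι S x ∈ (io R ι lam).range := by
  rw [Alg.mem_range_mv] at hx ⊢
  intro m
  rw [coeff_sp0]
  split_ifs
  exacts [hx m, zero_mem _]

omit [DecidableEq R] [Algebra ℂ K] in
theorem B_cc (S : Set R) (x : Sr K R ι) :
    MvPowerSeries.constantCoeff (sp0 K ι S x) = MvPowerSeries.constantCoeff x := by
  simpa [dgm_zero, exm_zero] using coeff_sp0 S x 0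

omit [DecidableEq R] [Algebra ℂ K] in
theorem B_sp_sp {S S₁ : Set R} (h : S₁ ⊆ S) (x : Sr K R ι) :
    sp0 K ι S₁ (sp0 K ι S x) = sp0 K ι S₁ x := by
  ext m
  rw [coeff_sp0, coeff_sp0, coeff_sp0]
  split_ifs with a b
  exacts [rfl, (b ⟨a.1.trans h, a.2⟩).elim, rfl]

namespace MsB

variable {lam : K} {Λ : Subalgebra ℂ H} {S S₁ : Set R} {p e₁ e₂ e₃ g : H} {z₁ z₂ z₃ : H →ₗ[K] K}
  {φ : R →₀ ℕ} {V₁ V₂ Γ₁ Γ₂ : Type} [AddCommGroup V₁] [Module ℂ V₁] [AddCommGroup V₂]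
  [Module ℂ V₂] [Fintype Γ₁] [Fintype Γ₂] {j₁ : V₁ →ₗ[ℂ] H} {π₁ : Γ₁ → End ℂ V₁}
  {j₂ : V₂ →ₗ[ℂ] H} {π₂ : Γ₂ → End ℂ V₂} {τ : ι → H} [CharZero K]
  (h : P.MsB lam Ty Λ S S₁ p e₁ e₂ e₃ g z₁ z₂ z₃ φ j₁ π₁ j₂ π₂ τ)
include h

/-- on the small face the source is classical -/
theorem src {x : H} (hx : x ∈ Ty 0) :
    (P.cut S₁).evl (0 : ι → H) z₁ x = MvPowerSeries.C (z₁ x) := by
  classical
  have hq := h.toMsC.qc h.sub
  have e0 : ∀ m : R ⊕ ι →₀ ℕ, m ≠ 0 →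
      cf m ((P.cut S₁).star (0 : ι → H) (1 ⊗ₜ x) (1 ⊗ₜ (p * e₁))) = 0 := fun m hm =>
    (P.cut S₁).eq_of_η fun y => by
      rw [← coeff_ηM, ηM_star, coeff_ser, zero_mul, map_zero, mul_eq_zero]
      right
      rcases (ins (0 : ι → H) m).empty_or_exists_mem with e | ⟨a, ha⟩
      · by_cases e1 : ↑(dgm m).support ⊆ S₁
        · rw [e]
          exact cut_C0 _ (h.supp₁ _ e1 (fun e2 => hm (eq_zero_of_dgm_ins _ e2 e)) _ _ _)
        · exact if_neg e1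
      · obtain ⟨t, ht⟩ := Multiset.exists_cons_of_mem ha
        obtain ⟨_, -, rfl⟩ := Multiset.mem_map.1 ha
        rw [ht, Multiset.cons_swap (0, y)]
        exact ((P.cut S₁).linF₃ _ _ _ _ _ _).map_zero
  ext m
  by_cases hm : m = 0
  · simp [hm, cc_evl]
  · have := Q_pert hq.vm₁ h.ne₁ (by rw [mul_left_comm, h.id₁]) (by rw [mul_comm, h.pz₁])
      (hq.eig₁ (φ := (0 : ι → H)) (fun _ => zero_mem _) hx) hm fun m' _ => e0 m'
    rw [e0 m hm, mul_zero] at this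
    rw [(smul_eq_zero.1 this).resolve_right h.ne₁, MvPowerSeries.coeff_C, if_neg hm]

/-- the eigenvalue of the centre has a pole -/
theorem ctr (h0 : ∃ x ∈ Ty 2, e₃ * x ≠ 0) :
    (P.cut S₁).evl (0 : ι → H) z₃ g ∉ (io R ι lam).range := by
  obtain ⟨l, A, A', q, q', l1, l0, a2, a3, o1, o2, q1, q2, q3, q4, hl⟩ := h.pole h0
  have := P.findim
  have ht := h.ty.cut S₁
  have hφ : ∀ a, (0 : ι → H) a ∈ Ty 0 := fun _ => zero_mem _
  obtain ⟨m, h1, h2⟩ := Q_pert' (φ := (0 : ι → H)) (θ := (P.cut S₁).evl 0 z₃ g) (h.vm₃.cut S₁)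
    (A := A) (fun e => q4 (by
      rw [e] at q3
      rw [chi_inj h.tr (a₁ := q') (a₂ := 0) (q3.symm.trans
        ((P.linF₂ l 0 _ _ 0).map_zero.trans (map_zero _).symm)), coeff_zero])) a3
    (by rw [mul_comm, ← a3, h.sc₃ A a2 g h.gT]) (Q_scal
      (N := (Ty 2).map (LinearMap.mulLeft K e₃)) (by
        rintro _ ⟨x, hx, rfl⟩
        exact ht.evl_eig hφ (((h.mv₃ x hx).cut _).circ _) (h.sc₃ x hx) h.gT)
      (mem_TyM.2 fun m => ⟨_, mem_TyM.1 (ht.U_mem hφ (Q_mem a2)) m, (Q_cf_mul _ _ _).symm⟩)) l0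
    fun d hd d0 y => cut_C0 _ (hl d hd d0 y)
  refine A_pole h.tr (m := m) q2 q4 ?_
  have h3 := h.onto _ (by simpa using mem_TyM.1 (ht.star_mem hφ (Q_mem h.gT) (Q_mem a2)) m)
  have h4 := (Submodule.span_le (p := LinearMap.ker (P.η ∘ₗ LinearMap.mulRight K A'))).2 (by
    rintro _ (⟨v, rfl⟩ | ⟨v, rfl⟩)
    exacts [o1 v, o2 v]) h3
  rw [LinearMap.mem_ker, map_sub, ← h1, map_smul, sub_eq_zero] at h4
  rw [← q1, ← q3, ← cut_C l1, ← h2]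
  exact h4.symm

theorem sep' {v : Γ₂ → V₂} {w : Γ₂ → H} (hv : ∀ γ, v γ ∈ LinearMap.range (π₂ γ))
    (hw : ∀ γ, P.η (j₂ (v γ) * w γ) = 1) {γ γ' : Γ₂} (hγ : γ ≠ γ') : ∃ x ∈ Λ, x ∈ Ty 0 ∧
      P.evp τ (j₂ (v γ)) (w γ) x ≠ P.evp τ (j₂ (v γ')) (w γ') x := by
  classical
  by_contra hn
  push Not at hn
  obtain ⟨d, h1, x, hx, t, c, c', h2, h3, h4⟩ := h.sep γ γ' hγ
  obtain ⟨θ, hθ⟩ := h.nd₂.eig h.ty h.τT hx
  refine h.ty.sep h.τT hx (h.ty.U_mem h.τT (Q_mem hx)) (fun m hm => ?_)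
    ((hw γ).trans (hw γ').symm) (d := d) (I := t) (fun d' hd s hs => ?_) ?_ (hθ _ _ (hv γ))
    (hθ _ _ (hv γ')) ?_
  · rw [cf_U_of_deg _ _ _ hm, cf_tmul, MvPowerSeries.coeff_one]
    split_ifs <;> simp
  · obtain ⟨a, ha⟩ := h.nd₂.sca γ d' s hs
    obtain ⟨a', ha'⟩ := h.nd₂.sca γ' d' s hs
    rw [ha _ ⟨_, hv γ, rfl⟩, ha' _ ⟨_, hv γ', rfl⟩, hw, hw, h1 d' hd s a a' hs ha ha']
  · rwa [h3 _ ⟨_, hv γ, rfl⟩, h4 _ ⟨_, hv γ', rfl⟩, hw, hw, mul_one, mul_one]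
  · rw [← evp_eq (hw γ) (hθ _ _ (hv γ)), ← evp_eq (hw γ') (hθ _ _ (hv γ'))]
    exact (Submodule.span_le (p := LinearMap.eqLocus _ _)).2 (fun y hy => hn y hy.1 hy.2) (h.sp0 hx)

/-- a general class -/
theorem gen : ∃ x ∈ Λ, x ∈ Ty 0 ∧ z₁ x ≠ z₂ x ∧ z₁ x ≠ z₃ x ∧ z₂ x ≠ z₃ x ∧
    (P.cut S).evl (0 : ι → H) z₁ x ∉ (io R ι lam).range ∧
    ((∃ y ∈ Ty 2, e₃ * y ≠ 0) → (P.cut S₁).evl (0 : ι → H) z₃ x ∉ (io R ι lam).range) ∧
    ∀ θ : Γ₂ → Sr K R ι, (∀ γ, ∀ v ∈ LinearMap.range (π₂ γ),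
      P.circ τ (P.U τ (1 ⊗ₜ x)) (1 ⊗ₜ j₂ v) = θ γ • ((1 : Sr K R ι) ⊗ₜ[K] j₂ v)) →
      Function.Injective θ := by
  have h1 : ∀ γ, ∃ v ∈ LinearMap.range (π₂ γ), ∃ w, P.η (j₂ v * w) = 1 := fun γ => by
    obtain ⟨v, hv, h0⟩ := Submodule.exists_mem_ne_zero_of_ne_bot
      (mt LinearMap.range_eq_bot.1 (h.ne γ))
    obtain ⟨w, hw⟩ := not_forall.1 (mt P.S_nondeg (h.nd₂.ne h0))
    exact ⟨v, hv, (P.η (j₂ v * w))⁻¹ • w, by
      rw [mul_smul_comm, map_smul, smul_eq_mul, inv_mul_cancel₀ hw]⟩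
  choose v hv w hw using h1
  obtain ⟨x, hx, h2⟩ := B_gen (I := Fin 4 ⊕ PLift (∃ y ∈ Ty 2, e₃ * y ≠ 0) ⊕
      {a : Γ₂ × Γ₂ // a.1 ≠ a.2}) (Λ.toSubmodule ⊓ (Ty 0).restrictScalars ℂ)
    (Sum.elim ![(LinearMap.eqLocus z₁ z₂).restrictScalars ℂ,
      (LinearMap.eqLocus z₁ z₃).restrictScalars ℂ, (LinearMap.eqLocus z₂ z₃).restrictScalars ℂ,
      pv lam ((P.cut S).evl (0 : ι → H) z₁)]
      (Sum.elim (fun _ => pv lam ((P.cut S₁).evl (0 : ι → H) z₃)) fun a =>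
      (LinearMap.eqLocus (P.evp τ (j₂ (v a.1.1)) (w a.1.1))
        (P.evp τ (j₂ (v a.1.2)) (w a.1.2))).restrictScalars ℂ)) (by
    rintro (i | ⟨⟨a⟩⟩ | ⟨a, ha⟩)
    · refine ⟨g, ⟨h.gΛ, h.gT⟩, ?_⟩
      fin_cases i
      exacts [fun e => h.toMsC.r0 (e.trans h.g₂), h.g₃.2.symm,
        fun e => h.g₃.1 (e.symm.trans h.g₂), h.toMsC.pole]
    · exact ⟨g, ⟨h.gΛ, h.gT⟩, h.ctr a⟩
    · obtain ⟨x, a, b, c⟩ := h.sep' hv hw ha
      exact ⟨x, ⟨a, b⟩, c⟩)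
  refine ⟨x, hx.1, hx.2, h2 (.inl 0), h2 (.inl 1), h2 (.inl 2), h2 (.inl 3),
    fun a => h2 (.inr (.inl ⟨a⟩)), fun θ hθ γ γ' e => by_contra fun a => ?_⟩
  exact h2 (.inr (.inr ⟨(γ, γ'), a⟩)) ((evp_eq (hw γ) (hθ _ _ (hv γ))).trans
    (e.trans (evp_eq (hw γ') (hθ _ _ (hv γ'))).symm))

end MsB

end Pk

/-- **Theorem B** on the level of numbers. -/
theorem pkB : StPkB := by
  intro K H R _ _ _ _ _ _ _ P lam Ty Λ S S₁ p e₁ e₂ e₃ g z₁ z₂ z₃ φ V₁ V₂ Γ₁ Γ₂ ι _ _ _ _ _ _ j₁ π₁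
    j₂ π₂ τ h
  classical
  have : CharZero K := (algebraMap ℂ K).charZero_iff (algebraMap ℂ K).injective |>.1 inferInstance
  have : CharZero (Sr K R ι) := (algebraMap K _).charZero_iff (algebraMap K _).injective |>.1 this
  have := Q_dom (K := K) (R := R) (ι := ι)
  have := P.findim
  have := h.nd₁.fin
  have := h.nd₂.fin
  obtain ⟨x, xΛ, xT, h12, h13, h23, ha, hθ, hi⟩ := h.gen
  have hq := h.toMsC.qc le_rfl
  have hφ : ∀ a, (0 : ι → H) a ∈ Ty 0 := fun _ => zero_mem _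
  obtain ⟨r, b, w, F, hw, -, hF, hF'⟩ := h.toMsC.lt.poly h.sp2 h.τΛ xΛ
    fun y hy => by simpa using h.ty.star_mem h.τT (Q_mem xT) hy
  obtain ⟨θ₁, hθ₁⟩ := h.nd₁.eig h.ty h.τT xT
  obtain ⟨θ₂, hθ₂⟩ := h.nd₂.eig h.ty h.τT xT
  obtain ⟨t, n, ht, hn⟩ := hq.quad (h.toMsC.lt.cut S) h.pΛ hφ (fun _ => zero_mem _) xT xΛ
  obtain ⟨β₁, hβ₁⟩ := A_basis h.nd₁.coi
  obtain ⟨β₂, hβ₂⟩ := A_basis h.nd₂.coi
  set M := (Ty 2).map (LinearMap.mulLeft K e₃) with hM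
  have hp : ∀ γ, finrank ℂ (LinearMap.range (π₂ γ)) ≠ 0 := fun γ e =>
    h.ne γ (LinearMap.range_eq_bot.1 (Submodule.finrank_eq_zero.1 e))
  have := Alg.thB (Alg.map_mv_inj (Pk.chi_inj h.tr)) (Alg.cic_mv (Pk.chi_inj h.tr)
    (Q_cic (Pk.chi_inj h.tr)) _) MvPowerSeries.constantCoeff hF (θ₁ := θ₁) (θ₂ := θ₂)
    (m₁ := fun γ => finrank ℂ (LinearMap.range (π₁ γ))) (θ₃ := P.evl τ z₃ x) (g := finrank K M)
    ?_ (hi θ₂ hθ₂) hp ?_ h12 h13 h23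
    (fun γ a => (B_ne a).elim fun v hv => Pk.cc_eig (h.nd₁.ne hv.2) (h.sc₁ _ _ xT) (hθ₁ _ _ hv.1))
    (fun γ => (B_ne (hp γ)).elim fun v hv => Pk.cc_eig (h.nd₂.ne hv.2) (h.sc₂ _ _ xT)
      (hθ₂ _ _ hv.1)) (Pk.cc_evl _ _)
    (k₀ := sp0 K ι S) (k₁ := sp0 K ι S₁) (Pk.B_sp lam S) (Pk.B_sp lam S₁) (Pk.B_cc S) (Pk.B_cc S₁)
    (Pk.B_sp_sp h.sub) (a := (P.cut S).evl 0 z₁ x) (t := t) (n := n) (by rw [ht, hn]; ring) ha
    (Pk.cc_evl _ _) (by rw [ht, add_sub_cancel_left, Pk.cc_evl]) (fun γ a => ?_) ?_ fun a => ?_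
  · simpa [h.dim] using this
  · have m3 : ∀ i, ∃ y ∈ Ty 2, e₃ * y = (finBasis K M i).1 := fun i => (finBasis K M i).2
    rw [hF', h.ty.charpoly h.τT hw (Q_mem xT), hw.Q_dec
      (fun y hy => by simpa using h.ty.circ_mem h.τT (h.ty.U_mem h.τT (Q_mem xT)) hy) ?_
      (B_li (h.nd₁.li β₁) (h.nd₂.li β₂)
        ((finBasis K M).linearIndependent.map' M.subtype M.ker_subtype)
        (fun i => h.sc₁ _ _ xT) (fun i => h.sc₂ _ _ xT) (fun i => ?_) h12 h13 h23)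
      (θ := Sum.elim (Sum.elim (fun i => θ₁ i.1) fun i => θ₂ i.1) fun _ => P.evl τ z₃ x) ?_]
    · simp [Fintype.prod_sum_type, Fintype.prod_sigma]
    · refine le_antisymm (Submodule.span_le.2 ?_) fun y hy => ?_
      · rintro _ ⟨(i | i) | i, rfl⟩
        · exact h.nd₁.mem _
        · exact h.nd₂.mem _
        · obtain ⟨y, hy, e⟩ := m3 i
          simpa [← e] using h.ty.mul _ _ _ h.ty₃ _ hy
      · rw [← sub_add_cancel y (e₃ * y)]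
        refine add_mem (Submodule.span_le.2 ?_ (h.onto y hy)) ?_
        · rintro _ (⟨v, rfl⟩ | ⟨v, rfl⟩)
          · rw [← β₁.sum_repr v, map_sum]
            exact sum_mem fun i _ => map_smul j₁ _ _ ▸ Submodule.smul_of_tower_mem _ _
              (Submodule.subset_span ⟨.inl (.inl i), rfl⟩)
          · rw [← β₂.sum_repr v, map_sum]
            exact sum_mem fun i _ => map_smul j₂ _ _ ▸ Submodule.smul_of_tower_mem _ _
              (Submodule.subset_span ⟨.inl (.inr i), rfl⟩)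
        · have := congrArg Subtype.val ((finBasis K M).sum_repr ⟨e₃ * y, y, hy, rfl⟩)
          rw [Submodule.coe_sum] at this
          exact this.subst (motive := (· ∈ _)) (sum_mem fun i _ => Submodule.smul_mem _ _
            (Submodule.subset_span ⟨.inr i, rfl⟩))
    · rintro ((i | i) | i)
      · exact hθ₁ _ _ (hβ₁ i)
      · exact hθ₂ _ _ (hβ₂ i)
      · obtain ⟨y, hy, e⟩ := m3 i
        simpa [← e] using h.ty.evl_eig h.τT ((h.mv₃ y hy).circ _) (h.sc₃ y hy) xT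
    · obtain ⟨y, hy, e⟩ := m3 i
      simpa [← e] using h.sc₃ y hy x xT
  · simpa [finrank_eq_card_basis β₁, finrank_eq_card_basis β₂] using h.dim
  · obtain ⟨v, hv, h0⟩ := B_ne a
    obtain ⟨c, hc, e⟩ := h.mv₁ v
    exact Q_smul_inj (h.nd₁.ne h0) ((Pk.sp_eig S (hθ₁ _ _ hv)).symm.trans
      (hq.ty.evl_eig hφ (e ▸ Pk.Q_mv hc.cut hq.vm₁) (h.sc₁ _) xT))
  · obtain ⟨q, e⟩ := h.zΛ x xΛ
    refine ⟨MvPowerSeries.C q, ?_⟩
    rw [← Pk.sp_evl (φ := τ), RingHom.coe_coe, Pk.B_sp_sp h.sub, Pk.sp_evl, h.src xT, e]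
    simp
  · rw [RingHom.coe_coe, Pk.sp_evl]
    obtain ⟨_, ⟨y, hy, rfl⟩, e⟩ := B_ne a
    exact hθ ⟨y, hy, e⟩

end Vale.Agent.P287Q.Lz
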