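import Vale.Agent.P287Q.Lz.Fam
import Vale.Agent.P287Q.G.Qrr.Fac

/-! The contribution of a vertex over a fixed divisor: definitions. -/

set_option linter.unusedSectionVars false

namespace Vale.Agent.P269.Lz

open Set Function Topology Filter TensorProduct B Vale.Agent.P291Z Vale.Agent.P269.Ch
  Vale.Agent.P269.Loc LG

variable {R J K σ ν : Type} [Fintype R] [Fintype J] [Fintype K] [Fintype σ] [Fintype ν]

namespace TT

variable (P : TT R J K σ) (ρ : σ → R → ℤ) (j : J)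

/-- the fields in `T` vanish -/
@[reducible] def zro (T : Set J) : TT R J K σ := { P with mov := P.mov \ T, zer := P.zer ∪ T }

/-- the fields of nonzero weight along the fixed part with the label `ρ` -/
def mv : Set J := {j | nw P.E.toWt P.wt ρ j ≠ 0}

/-- the fixed part with the label `ρ` as a target -/
abbrev V : TT R J K σ := P.zro (P.mv ρ)

theorem cone_V : (P.V ρ).E.cone ⊆ P.Fix := fun _ h =>
  have a := mem_cone.1 h
  ⟨mem_cone.2 ⟨a.1, a.2.1, fun j b => a.2.2.1 j (.inl b), a.2.2.2⟩, ρ, fun j b => a.2.2.1 j (.inr b)⟩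

/-- the inclusion in the fixed locus -/
noncomputable def iV : C((P.V ρ).E.X (P.V ρ).E.cone, P.X) :=
  (EqM.incl (act := P.E.actT) (P.cone_V ρ)).map

/-- the fixed part with the label `ρ` is the divisor cut out transversally by the field `j` -/
structure End : Prop where
  mov : j ∈ P.mov
  mv : j ∈ P.mv ρ
  ne : (P.mov \ P.mv ρ).Nonempty
  cut : ∀ z ∈ P.E.cone, z.2 j = 0 → OvP P.E.toWt P.wt z.2 ρ
  tr : ∀ z ∈ P.E.cone, z.2 j = 0 → ∃ η ∈ P.E.vert z, η j ≠ 0

/-- the weight of the normal direction -/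
noncomputable def bw (a : σ → ℂ) : ℂ := ∑ i, (nw P.E.toWt P.wt ρ j i : ℂ) * a i

/-- connected curves in the fixed part with the label `ρ` -/
def Qv (m : AM1 R J ν) : Prop := m.Conn ∧ Vert P.E.toWt P.wt m {ρ}

end TT

variable [DecidableEq R] [DecidableEq σ] {P : TT R J K σ} (k D : ℕ) {g : ℤ} {d : R → ℤ}

/-- the classes and the contribution of the maps to the fixed part with the label `ρ` -/
structure Vx1 (a : σ → ℂ) (τ : Md P ν g d) (ρ : σ → R → ℤ) (j : J)
    (e : C((P.V ρ).X0 ν k D g d, τ.A)) : Prop where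
  rp : ∀ y m, τ.Rp (e y) m ↔ (P.V ρ).E.At y m
  psi : ∀ n, inF _ (pbE e (τ.ψ n)) = 1 ⊗ₜ hcls (psiF (.inl n))
  ev : ∀ (z : GZ (P.V ρ).E ℓs ((P.V ρ).E.Zs (Fin 0) k D g d (0 : ν → J → ℕ))) n,
    (τ.ev n).comp e = (P.iV ρ).comp (z.eqh_vl (.inl n) (z.vl_cone _)).toEqv.qm
  loc : ∀ x u, pb F e x = 1 ⊗ₜ u → τ.I (inF _ (τ.id (P.Qv ρ)) * x) =
    (P.bw ρ j a • tt) ^ (-(∑ r, P.w j r * d r + 1 - g)) * Fock.Hat.ofPS ℂ (.mk fun m =>
      intg ((P.V ρ).E.vir (Fin 0) k D g d 0) (hcls (ind ((P.V ρ).E.sel fun m => m.Conn)) *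
        ((Qrr.evC (indC (P.V ρ).E.toWt _) (Qrr.th {j} (fun _ => P.bw ρ j a) id m)).1 * u)))

end Vale.Agent.P269.Lz
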