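import Vale.Agent.P287Q.Lz.Cmb
import Vale.Agent.P269.LG.FixA
import Vale.Agent.P269.Gen.Act
import Vale.Agent.P269.Cv.P1
import Mathlib.Algebra.Module.CharacterModule

/-! Labels of fixed points: the lattice lemmas. -/

set_option linter.unusedSectionVars false

namespace Vale.Agent.P269.Lz

open Set Function Topology Filter Cv

variable {R J K σ ν : Type} [Fintype R] [Fintype J] [Fintype K] [Fintype σ] [Fintype ν]

namespace FxA

variable {w : J → R → ℤ} {wt : J → σ → ℤ} {A : Set J}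

variable (w A) in
/-- the weights in `A` generate the lattice -/
def Sp : Prop := ∀ x : R → ℤ, ∃ a : J → ℤ, (∀ j ∉ A, a j = 0) ∧ ∑ j, a j • w j = x

theorem sp_of_free (h : ∀ t : R → ℂ, (∀ r, t r ≠ 0) → (∀ j ∈ A, ∏ r, t r ^ w j r = 1) → t = 1) :
    Sp w A := by
  classical
  let Λ : Submodule ℤ (R → ℤ) :=
    (Submodule.pi Aᶜ fun _ => ⊥).map (Fintype.linearCombination ℤ w)
  intro x
  by_contra hx
  have x0 : Λ.mkQ x ≠ 0 := fun e => by
    obtain ⟨a, b, d⟩ := (Submodule.Quotient.mk_eq_zero Λ).1 e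
    exact hx ⟨a, fun j hj => b j hj, (Fintype.linearCombination_apply ℤ w a).symm.trans d⟩
  obtain ⟨c, hc⟩ := CharacterModule.exists_character_apply_ne_zero_of_ne_zero x0
  choose q hq using fun r : R =>
    QuotientAddGroup.mk_surjective (c (Λ.mkQ (Pi.single r 1)))
  have key : ∀ v : R → ℤ, c (Λ.mkQ v) = ((∑ r, v r • q r : ℚ) : AddCircle (1 : ℚ)) := fun v => by
    conv_lhs => rw [pi_eq_sum_univ' v]
    simp only [map_sum, map_zsmul, ← hq]
    rw [QuotientAddGroup.mk_sum]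
    rfl
  have ex : ∀ v : R → ℤ, ∏ r, Complex.exp (q r * (2 * Real.pi * Complex.I)) ^ v r = 1 ↔
      c (Λ.mkQ v) = 0 := fun v => by
    rw [key, AddCircle.coe_eq_zero_iff]
    simp only [← Complex.exp_int_mul, ← Complex.exp_sum, ← mul_assoc _ (q _ : ℂ), ← Finset.sum_mul,
      Complex.exp_eq_one_iff, mul_left_inj' Complex.two_pi_I_ne_zero]
    refine exists_congr fun n => ?_
    rw [eq_comm, zsmul_eq_mul, mul_one, ← Rat.cast_inj (α := ℂ)]
    simp
  have t1 := h _ (fun r => Complex.exp_ne_zero _) fun j hj => (ex (w j)).2 (by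
    rw [show Λ.mkQ (w j) = 0 from (Submodule.Quotient.mk_eq_zero Λ).2 ⟨Pi.single j 1,
      fun i hi => Pi.single_eq_of_ne (fun e : i = j => hi (e ▸ hj)) _, by simp⟩, map_zero])
  exact hc ((ex x).1 (Finset.prod_eq_one fun r _ => by rw [congrFun t1 r, Pi.one_apply, one_zpow]))

theorem Sp.unique (h : Sp w A) {a b : R → ℤ}
    (e : ∀ j ∈ A, ∑ r, a r * w j r = ∑ r, b r * w j r) : a = b := funext fun r => by
  classical
  obtain ⟨c, c0, hc⟩ := h (Pi.single r 1)
  have k : ∀ a : R → ℤ, a r = ∑ j, c j * ∑ r, a r * w j r := fun a => by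
    have : a r = ∑ r', a r' * (∑ j, c j • w j) r' := by rw [hc]; simp [Pi.single_apply]
    rw [this]
    simp only [Finset.sum_apply, Pi.smul_apply, smul_eq_mul, Finset.mul_sum]
    exact Finset.sum_comm.trans (Finset.sum_congr rfl fun j _ => Finset.sum_congr rfl
      fun r' _ => mul_left_comm _ _ _)
  rw [k a, k b]
  refine Finset.sum_congr rfl fun j _ => ?_
  by_cases hj : j ∈ A
  · rw [e j hj]
  · rw [c0 j hj, zero_mul, zero_mul]

theorem Sp.factor (h : Sp w A)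
    (e : ∀ a : J → ℤ, (∀ j ∉ A, a j = 0) → ∑ j, a j • w j = 0 → ∑ j, a j • wt j = 0) :
    ∃ ρ : σ → R → ℤ, ∀ j ∈ A, ∀ i, wt j i = ∑ r, ρ i r * w j r := by
  classical
  choose c c0 hc using fun r : R => h (Pi.single r 1)
  have k : ∀ {T : Type} (u : J → T → ℤ) (j : J),
      ∑ l, (Pi.single j 1 - ∑ r, w j r • c r : J → ℤ) l • u l = u j - ∑ r, w j r • ∑ l, c r l • u l := fun u j => by
    simp only [Pi.sub_apply, sub_smul, Finset.sum_sub_distrib, Finset.sum_apply, Pi.smul_apply,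
      Finset.sum_smul, Finset.smul_sum, smul_assoc]
    rw [Finset.sum_comm]
    simp [Pi.single_apply]
  refine ⟨fun i r => ∑ l, c r l * wt l i, fun j hj i => ?_⟩
  have := e (Pi.single j 1 - ∑ r, w j r • c r) (fun l hl => by
    simp [c0 _ l hl, Pi.single_eq_of_ne (fun e : l = j => hl (e ▸ hj))])
    (by rw [k, sub_eq_zero]; simp only [hc]; exact pi_eq_sum_univ' _)
  rw [k, sub_eq_zero] at this
  simp only [this, Finset.sum_apply, Pi.smul_apply, smul_eq_mul, mul_comm]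

/-- a character that is trivial on the compact torus -/
theorem eq_zero_of_chr {v : σ → ℤ}
    (h : ∀ s : σ → ℂ, (∀ i, ‖s i‖ = 1) → ∏ i, s i ^ v i = 1) : v = 0 := funext fun i => by
  classical
  by_contra a
  have b : (v i : ℂ) ≠ 0 := Int.cast_ne_zero.2 a
  have := h (Pi.mulSingle i (Complex.exp ((Real.pi / v i : ℝ) * Complex.I))) fun l => by
    by_cases e : l = i
    · rw [e, Pi.mulSingle_eq_same, Complex.norm_exp_ofReal_mul_I]
    · rw [Pi.mulSingle_eq_of_ne e, norm_one]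
  rw [Finset.prod_eq_single i (fun l _ e => by rw [Pi.mulSingle_eq_of_ne e, one_zpow]) (by simp),
    Pi.mulSingle_eq_same, ← Complex.exp_int_mul, show (v i : ℂ) * ((Real.pi / v i : ℝ) * Complex.I) =
      Real.pi * Complex.I by push_cast; field_simp, Complex.exp_pi_mul_I] at this
  norm_num at this

theorem prod_zpow_zpow {S : Type} [Fintype S] {t : S → ℂ} (ht : ∀ i, t i ≠ 0) (u : J → S → ℤ)
    (a : J → ℤ) : ∏ j, (∏ i, t i ^ u j i) ^ a j = ∏ i, t i ^ (∑ j, a j • u j) i := by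
  simp only [← Finset.prod_zpow, Finset.sum_apply, Pi.smul_apply, smul_eq_mul]
  rw [Finset.prod_comm]
  refine Finset.prod_congr rfl fun i _ => ?_
  rw [zpow_sum_ne (ht i)]
  exact Finset.prod_congr rfl fun j _ => by rw [← zpow_mul, mul_comm]

end FxA

open FxA

variable {F : Fam Empty Empty R J K} {W : Wt Empty Empty R J} {wt : J → σ → ℤ} {m : AM1 R J ν}
  {ρ ρ' : σ → R → ℤ} {z z' : m.X} {y : J → ℂ} {x : (Empty → ℂ) × (J → ℂ)}

variable (F) in
/-- the torus of the target acts freely on the cone -/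
def Free : Prop := ∀ t : R → ℂ, IsUnit t → ∀ z ∈ F.cone, F.actT (1, t) z = z → t = 1

theorem free_of_good [DecidableEq R] (h : F.Good) : Free F := h.free

theorem nw_eq_zero {j : J} : nw W wt ρ j = 0 ↔ ∀ i, wt j i = ∑ r, ρ i r * W.w j r :=
  funext_iff.trans (forall_congr' fun _ => sub_eq_zero)

theorem actT_snd (t : R → ℂ) (τ : Empty → ℂ) (x : (Empty → ℂ) × (J → ℂ)) (j : J) :
    (W.actT (τ, t) x).2 j = (∏ r, t r ^ W.w j r) * x.2 j := by
  simp [Wt.actT]

theorem Free.sp (h : Free F) (hx : x ∈ F.cone) {A : Set J} (hA : ∀ j, x.2 j ≠ 0 → j ∈ A) :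
    Sp F.w A := sp_of_free fun t ht e => h t (isUnit_pi_iff.2 ht) x hx
  (Prod.ext (Subsingleton.elim _ _) (funext fun j => by
    rw [actT_snd]
    by_cases a : x.2 j = 0
    · rw [a, mul_zero]
    · rw [e j (hA j a), one_mul]))

/-- two gauges with the same effect on a point of the cone agree -/
theorem Free.gauge (h : Free F) (hx : x ∈ F.cone) {t t' : R → ℂ} (ht : ∀ r, t r ≠ 0)
    (ht' : ∀ r, t' r ≠ 0)
    (e : ∀ j, (∏ r, t r ^ F.w j r) * x.2 j = (∏ r, t' r ^ F.w j r) * x.2 j) : t = t' := by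
  have := h (t / t') (isUnit_pi_iff.2 fun r => div_ne_zero (ht r) (ht' r)) x hx
    (Prod.ext (Subsingleton.elim _ _) (funext fun j => by
      simp only [actT_snd, Pi.div_apply, div_zpow, Finset.prod_div_distrib]
      rw [div_mul_eq_mul_div, e, mul_div_cancel_left₀ _ (prod_zpow_ne ht' _)]))
  exact funext fun r => (div_eq_one_iff_eq (ht' r)).1 (congrFun this r)

theorem OvP.unique (h : Free F) (hx : x ∈ F.cone) (a : OvP F.toWt wt x.2 ρ)
    (b : OvP F.toWt wt x.2 ρ') : ρ = ρ' := funext fun i =>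
  (h.sp hx (A := {j | x.2 j ≠ 0}) fun _ => id).unique fun j hj =>
    (nw_eq_zero.1 (not_not.1 (mt (a j) hj)) i).symm.trans (nw_eq_zero.1 (not_not.1 (mt (b j) hj)) i)

/-- only finitely many labels occur -/
theorem finite_lbl (h : Free F) (wt : J → σ → ℤ) : (Lbl F wt).Finite :=
  Finite.of_injOn (f := fun ρ => {j | nw F.toWt wt ρ j = 0}) (t := univ) (mapsTo_univ _ _)
    (fun _ ⟨_, hx, a⟩ ρ' _ e => a.unique h hx fun j hj =>
      a j fun b => hj (e.le b : j ∈ {j | nw F.toWt wt ρ' j = 0})) finite_univ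

/-- the torus acts on a point with label `ρ` through the gauge `s ^ ρ` -/
theorem OvP.tc_mul (a : OvP W wt y ρ) {s : σ → ℂ} (hs : ∀ i, s i ≠ 0) (j : J) :
    tc wt s j * y j = (∏ r, (∏ i, s i ^ ρ i r) ^ W.w j r) * y j := by
  by_cases b : nw W wt ρ j = 0
  · rw [prod_zpow_zpow hs fun r i => ρ i r, tc]
    simp only [nw_eq_zero.1 b, Finset.sum_apply, Pi.smul_apply, smul_eq_mul, mul_comm (W.w j _)]
  · rw [a j b, mul_zero, mul_zero]

/-- a point of the cone whose orbit is fixed has a label -/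
theorem exists_ovP (h : Free F) (hx : x ∈ F.cone)
    (e : ∀ s : σ → ℂ, (∀ i, ‖s i‖ = 1) → ∃ t : R → ℂ, (∀ r, t r ≠ 0) ∧
      ∀ j, tc wt s j * x.2 j = (∏ r, t r ^ F.w j r) * x.2 j) : ∃ ρ, OvP F.toWt wt x.2 ρ := by
  obtain ⟨ρ, a⟩ := (h.sp hx (A := {j | x.2 j ≠ 0}) fun _ => id).factor (wt := wt) fun a a0 ha =>
    eq_zero_of_chr fun s hs => by
      obtain ⟨t, t0, ht⟩ := e s hs
      rw [← prod_zpow_zpow fun i => norm_ne_zero_iff.1 (by rw [hs i]; exact one_ne_zero)]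
      refine (Finset.prod_congr rfl fun j _ => ?_).trans ((prod_zpow_zpow t0 F.w a).trans
        (by rw [ha]; simp))
      by_cases b : x.2 j = 0
      · rw [a0 j (not_not.2 b), zpow_zero, zpow_zero]
      · exact congrArg (· ^ a j) (mul_right_cancel₀ b (ht j))
  exact ⟨ρ, fun j hj => by_contra fun b => hj (nw_eq_zero.2 (a j b))⟩

theorem fixed_iff (h : Free F) (hx : x ∈ F.cone) : (∃ ρ, OvP F.toWt wt x.2 ρ) ↔
    ∀ s : σ → ℂ, (∀ i, ‖s i‖ = 1) → ∃ t : R → ℂ, (∀ r, t r ≠ 0) ∧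
      ∀ j, tc wt s j * x.2 j = (∏ r, t r ^ F.w j r) * x.2 j :=
  ⟨fun ⟨ρ, a⟩ s hs =>
    have b : ∀ i, s i ≠ 0 := fun i => norm_ne_zero_iff.1 (by rw [hs i]; exact one_ne_zero)
    ⟨_, fun r => prod_zpow_ne b fun i => ρ i r, a.tc_mul b⟩, exists_ovP h hx⟩

theorem ov_iff : Ov W wt m z ρ ↔ OvP W wt (m.vl z).2 ρ := Iff.rfl

theorem Ov.unique (h : Free F) (hs : m.Sol F) (a : Ov F.toWt wt m z ρ) (b : Ov F.toWt wt m z ρ') :
    ρ = ρ' := OvP.unique h (hs.2.2 z) a b

theorem Ov.mem_lbl (hs : m.Sol F) (a : Ov F.toWt wt m z ρ) : ρ ∈ Lbl F wt := ⟨_, hs.2.2 z, a⟩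

theorem Ov.jn (hs : m.Sec W) (a : Ov W wt m z ρ) (j : Jn m.N z z') : Ov W wt m z' ρ := fun l hl =>
  ((mem_H0_iff.1 (hs l)).2 _ _ j).symm.trans (a l hl)

theorem isoD_y {m' : AM1 R J ν} {e : m.X ≃ m'.X} {t : R → m.X → ℂ} {τ : Empty → ℂ}
    (h : AM.IsoD W univ m m' e t τ) (j : J) (z : m.X) :
    m'.y j (e z) = (∏ r, t r z ^ W.w j r) * m.y j z := (h.y j trivial z).trans (actT_snd _ _ _ _)

/-- **(c)** special points of a fixed map have a label -/
theorem Str.ov (h : Free F) (hs : m.Sol F) (a : Str F.toWt wt m) (hz : Spc m z) :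
    ∃ ρ, Ov F.toWt wt m z ρ := exists_ovP h (hs.2.2 z) fun s s1 =>
  let ⟨_, t, b, c, _⟩ := a s s1
  ⟨fun r => t r z, fun r => b.ne r z, fun j => by
    have := isoD_y b j z
    rwa [c z hz] at this⟩

theorem Str.existsUnique_ov (h : Free F) (hs : m.Sol F) (a : Str F.toWt wt m) (hz : Spc m z) :
    ∃! ρ, Ov F.toWt wt m z ρ :=
  existsUnique_of_exists_of_unique (a.ov h hs hz) fun _ _ => Ov.unique h hs

theorem Str.cm (h : Free F) (hs : m.Sol F) (a : Str F.toWt wt m) (n : ν) :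
    ∃ ρ, Cm F.toWt wt m n ρ := a.ov h hs (.inl ⟨_, rfl⟩)

theorem clopen_cc (m : AM1 R J ν) (z : m.X) : IsClopen (connectedComponent z) :=
  (exists_comp (R := m.R) z).1

theorem cc_sub_gen (hs : m.Sec W) {j : J} (hz : z' ∈ connectedComponent z)
    (a : z' ∈ Gen (m.y j)) : connectedComponent z ⊆ Gen (m.y j) :=
  LG.FixA.sub_gen (clopen_cc m z) isConnected_connectedComponent (fun x _ => (hs j).1 x) hz a

/-- **(d)** a component that is not a vertex carries a monomial of weight zero with a nonzero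
weight for the extra torus -/
theorem exists_rel (h : Free F) (hs : m.Sol F) (hz : ¬OnV F.toWt wt m z) : ∃ a : J → ℤ,
    ∑ j, a j • F.w j = 0 ∧ ∑ j, a j • wt j ≠ 0 ∧
      ∀ j, a j ≠ 0 → connectedComponent z ⊆ Gen (m.y j) := by
  by_contra! k
  obtain ⟨ρ, a⟩ := (h.sp (hs.2.2 z) (A := {j | z ∈ Gen (m.y j)})
    fun j b => ((hs.2.1 j).1 z).mem_gen b).factor (wt := wt) fun a a0 ha => by_contra fun b =>
      let ⟨j, c, d⟩ := k a ha b
      c (a0 j fun e => d (cc_sub_gen hs.2.1 mem_connectedComponent e))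
  exact hz ⟨ρ, fun z' hz' j hj => by_contra fun b => hj (nw_eq_zero.2 (a j
    (cc_sub_gen hs.2.1 hz' (((hs.2.1 j).1 z').mem_gen b) mem_connectedComponent)))⟩

/-- conversely, on a vertex every such monomial has weight zero -/
theorem OnV.rel (hz : OnV W wt m z) {a : J → ℤ} (ha : ∑ j, a j • W.w j = 0)
    (g : ∀ j, a j ≠ 0 → z ∈ Gen (m.y j)) : ∑ j, a j • wt j = 0 := by
  obtain ⟨ρ, b⟩ := hz
  funext i
  have k : ∀ j, a j * wt j i = ∑ r, ρ i r * (a j * W.w j r) := fun j => by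
    by_cases c : a j = 0
    · simp [c]
    · rw [nw_eq_zero.1 (by_contra fun d => LG.FixA.not_gen m.R (clopen_cc m z).isOpen
        mem_connectedComponent (fun y hy => b y hy j d) (g j c)) i, Finset.mul_sum]
      exact Finset.sum_congr rfl fun r _ => mul_left_comm _ _ _
  have l : ∀ r, ∑ j, a j * W.w j r = 0 := fun r => by simpa using congrFun ha r
  simp only [Finset.sum_apply, Pi.smul_apply, smul_eq_mul, k, Pi.zero_apply]
  rw [Finset.sum_comm]
  simp only [← Finset.mul_sum, l, mul_zero, Finset.sum_const_zero]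

end Vale.Agent.P269.Lz
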