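import Vale.Agent.P287Q.Lz.Defs
import Vale.Agent.P287Q.Lz.FxA
import Vale.Agent.P287Q.G.Vir.RP
import Vale.Agent.P287Q.G.Prj.Tgt

/-! The families of a target with a torus action: elementary properties. -/

set_option linter.unusedSectionVars false

namespace Vale.Agent.P269.Lz

open Set Function Topology Filter Cv B LG

variable {R J K σ S Λ ν ν' κ : Type} [Fintype R] [Fintype J] [Fintype K] [Fintype σ] [Fintype S]
  [Fintype Λ] [Fintype ν] [Fintype ν'] [Fintype κ] {P : TT R J K σ}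

namespace TT

variable {wt : J → S → ℤ} {wk : K → S → ℤ} {wl : Λ → S → ℤ} {B : Set (Λ → ℂ)}

theorem fib_F (l : Λ → ℂ) (k : K) : ((P.fam wt wk wl B).fib l).F k = P.G k := by
  change MvPolynomial.map _ (MvPolynomial.map _ _) = _
  rw [MvPolynomial.map_map, show (MvPolynomial.eval l).comp MvPolynomial.C = RingHom.id ℂ from
    RingHom.ext fun _ => MvPolynomial.eval_C _, MvPolynomial.map_id]

theorem fib_eq (l : Λ → ℂ) : (P.fam wt wk wl B).fib l = P.E.fib Empty.elim :=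
  congrArg (fun F => (⟨P.w, (P.E.fib Empty.elim).U, F, P.θ⟩ : Tgt R J K))
    (funext fun k => (fib_F l k).trans (fib_F _ k).symm)

theorem eqn (z : (Λ → ℂ) × (J → ℂ)) (k : K) :
    (P.fam wt wk wl B).eqn z k = MvPolynomial.eval z.2 (P.G k) := by rw [Fam.eqn, fib_F]

theorem jac (z : (Λ → ℂ) × (J → ℂ)) (k : K) (j : J) :
    (P.fam wt wk wl B).jac z k j = MvPolynomial.eval z.2 (MvPolynomial.pderiv j (P.G k)) := by
  rw [Fam.jac, fib_F]

theorem mem_cone {z : (Λ → ℂ) × (J → ℂ)} : z ∈ (P.fam wt wk wl B).cone ↔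
    z.1 ∈ B ∧ z.2 ∈ P.U ∧ (∀ j ∈ P.zer, z.2 j = 0) ∧ ∀ k, MvPolynomial.eval z.2 (P.G k) = 0 := by
  simp only [Fam.mem_cone, eqn, Fam.bs, mem_ofPred_eq, mem_univ, true_and]
  exact ⟨fun ⟨⟨a, b⟩, c, d⟩ => ⟨a, c, b, d⟩, fun ⟨a, c, b, d⟩ => ⟨⟨a, b⟩, c, d⟩⟩

theorem cone_iff {z : (Λ → ℂ) × (J → ℂ)} :
    z ∈ (P.fam wt wk wl B).cone ↔ z.1 ∈ B ∧ (Empty.elim, z.2) ∈ P.E.cone := by
  rw [mem_cone, mem_cone]
  exact and_congr_right' (and_iff_right trivial).symm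

theorem mem_E {l : Empty → ℂ} {z : (Λ → ℂ) × (J → ℂ)} (h : z ∈ (P.fam wt wk wl B).cone) :
    (l, z.2) ∈ P.E.cone := mem_cone.2 ⟨trivial, (mem_cone.1 h).2⟩

theorem mem_fam {l : Λ → ℂ} {z : (Empty → ℂ) × (J → ℂ)} (h : z ∈ P.E.cone) (hl : l ∈ B) :
    (l, z.2) ∈ (P.fam wt wk wl B).cone := mem_cone.2 ⟨hl, (mem_cone.1 h).2⟩

theorem supp_eq (k : K) : ((P.fam wt wk wl B).G k).support = (P.G k).support :=
  MvPolynomial.support_map_of_injective _ (MvPolynomial.C_injective _ _)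

theorem supp_G (k : K) : ((P.fam wt wk wl B).G k).support = (P.E.G k).support :=
  (supp_eq k).trans (supp_eq k).symm

theorem tdeg_G (k : K) : ((P.fam wt wk wl B).G k).totalDegree = (P.E.G k).totalDegree := by
  rw [MvPolynomial.totalDegree, supp_G, MvPolynomial.totalDegree]

theorem abs (hA : P.movᶜ ⊆ P.zer) : (P.fam wt wk wl B).Abs := ⟨hA, rfl⟩

theorem cont : Continuous fun z : (Λ → ℂ) × (J → ℂ) =>
    ((Empty.elim, z.2) : (Empty → ℂ) × (J → ℂ)) := by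
  fun_prop

theorem vert_eq (z : (Λ → ℂ) × (J → ℂ)) :
    (P.fam wt wk wl B).vert z = P.E.vert (Empty.elim, z.2) := by
  simp only [Fam.vert, fib_F]

--REG
theorem reg {K₀ : RD R} (h : P.E.Reg K₀) : (P.fam wt wk wl B).Reg K₀ := by
  refine h.of_eq rfl (fun _ => Empty.elim) (fun z hz => ?_) (fun z hz => mem_E hz)
    fun z _ => vert_eq z
  obtain ⟨K₁, a⟩ := h.loc _ (mem_E (l := Empty.elim) hz)
  refine ⟨K₁, fun c => (a.ind c).imp fun η b => ⟨b.1, fun k hk => ?_⟩,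
    ((cont.tendsto z).eventually a.cut).mono fun z' b c d => ?_⟩
  · simpa only [jac] using b.2 k hk
  · simp only [eqn] at b d ⊢
    exact b ⟨trivial, trivial, c.2.2⟩ d
--GER

theorem act_one (t : R → ℂ) (z : (Λ → ℂ) × (J → ℂ)) :
    (P.fam wt wk wl B).actT (1, t) z = (z.1, (P.E.actT (1, t) (Empty.elim, z.2)).2) :=
  Prod.ext (Wt.actL_one _ _) (funext fun j => by
    simp only [Wt.actT, Pi.one_apply, one_zpow, Finset.prod_const_one])

variable [DecidableEq R] [DecidableEq σ] {K₀ : RD R} {k D : ℕ}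

theorem ample {θ₀ N} (h : P.E.Ample θ₀ N) : (P.fam wt wk wl B).Ample θ₀ N :=
  ⟨h.1, h.2.1, fun c hc _ hz => h.2.2 c hc _ (cone_iff.1 hz).2⟩

omit [DecidableEq R] in
theorem inv_fam (h : (P.fam wt wk Empty.elim univ).Inv) (h1 : IsLocallyClosed B)
    (h2 : ∀ τ, IsUnit τ → ∀ l ∈ B, (P.fam wt wk wl B).actL τ l ∈ B) : (P.fam wt wk wl B).Inv where
  hom k α hα := h.hom k α ((supp_eq k).ge ((supp_eq k).le hα))
  homS k α hα β hβ i := by
    classical
    have a : α ∈ (P.G k).support := (supp_eq k).le hα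
    have b := h.homS k α ((supp_eq k).ge a) 0 (by
      rw [MvPolynomial.coeff_map, MvPolynomial.mem_support_iff, MvPolynomial.coeff_zero_C]
      exact MvPolynomial.mem_support_iff.1 a) i
    rw [MvPolynomial.coeff_map, MvPolynomial.mem_support_iff, MvPolynomial.coeff_C] at hβ
    obtain rfl : 0 = β := not_not.1 fun e => hβ (if_neg e)
    simpa using b
  openU := h.openU.preimage cont
  invU t ht z hz := h.invU t ht (Empty.elim, z.2) hz
  closedE := isClosed_univ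
  invE _ _ _ _ := trivial
  baseE _ _ _ _ _ := trivial
  zer_base := h.zer_base
  lcB := h1
  invB := h2

theorem Ok.good_fam (h : P.Ok K₀ k D) (h0 : (P.fam wt wk Empty.elim univ).Inv)
    (h1 : IsLocallyClosed B) (h2 : ∀ τ, IsUnit τ → ∀ l ∈ B, (P.fam wt wk wl B).actL τ l ∈ B)
    (h3 : ∀ τ, IsUnit τ → ∀ l ∈ B, (P.fam wt wk wl B).actL τ l = l → τ = 1)
    (h4 : ∀ (τ : ℕ → S → ℂ) (l : ℕ → Λ → ℂ) l₀ l₁, (∀ n, IsUnit (τ n)) → (∀ n, l n ∈ B) →
      l₀ ∈ B → l₁ ∈ B → Tendsto l atTop (𝓝 l₀) →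
      Tendsto (fun n => (P.fam wt wk wl B).actL (τ n) (l n)) atTop (𝓝 l₁) →
      ∃ C : ℝ, ∀ n i, ‖τ n i‖ ≤ C ∧ ‖(τ n i)⁻¹‖ ≤ C) : (P.fam wt wk wl B).Good where
  toInv := inv_fam h0 h1 h2
  deg k := (tdeg_G k).trans_ne (h.good.deg k)
  freeB := h3
  properB := h4
  free t ht z hz e := h.good.free t ht _ (cone_iff.1 hz).2
    (Prod.ext (Subsingleton.elim _ _) (congrArg Prod.snd ((act_one t z).symm.trans e) :))
  proper t z z' ht hz hz' y hy e := h.good.proper t _ _ ht (cone_iff.1 hz).2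
    (cone_iff.1 hz').2 y hy fun j hj =>
      (e j hj).congr fun n => congrFun (congrArg Prod.snd (act_one (t n) (z.1, y n))) j
  cpt B' hB hc := by
    obtain ⟨C, a, b, c⟩ := h.good.cpt univ Subset.rfl (subsingleton_univ.isCompact)
    refine ⟨B' ×ˢ (Prod.snd '' C), ?_, hc.prod (b.image continuous_snd), fun z hz e => ?_⟩
    · rintro z ⟨d, z', e, f⟩
      exact cone_iff.2 ⟨hB d, mem_of_eq_of_mem (Prod.ext (Subsingleton.elim _ _) f.symm) (a e)⟩
    · obtain ⟨t, d, f⟩ := c _ (cone_iff.1 hz).2 trivial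
      refine ⟨t, d, ?_⟩
      rw [act_one]
      exact ⟨e, mem_image_of_mem _ f⟩
  ample := let ⟨_, _, a⟩ := h.good.ample; ⟨_, _, ample a⟩
  mov_ne := h.good.mov_ne

omit [DecidableEq R] in
theorem actL_EM {M : ℕ} (τ : σ → ℂ) (l : σ × Fin (M + 1) → ℂ) (a : σ × Fin (M + 1)) :
    (P.EM M).actL τ l a = τ a.1 * l a := by
  refine congrArg (· * l a) ((Finset.prod_eq_single a.1 (fun i _ e => ?_) (by simp)).trans ?_)
  · simp [e]
  · simp

omit [DecidableEq R] in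
theorem inv_EM (h : P.ET.Inv) (M : ℕ) : (P.EM M).Inv :=
  inv_fam h (isOpen_PMs M).isLocallyClosed fun τ a l b i => (b i).imp fun _ d =>
    (actL_EM τ l _).trans_ne (mul_ne_zero (isUnit_pi_iff.1 a i) d)

theorem Ok.inv_EM (h : P.Ok K₀ k D) {M : ℕ} : (P.EM M).Inv := TT.inv_EM h.invT M

theorem Ok.good_EM (h : P.Ok K₀ k D) (M : ℕ) : (P.EM M).Good := by
  refine h.good_fam h.invT (isOpen_PMs M).isLocallyClosed h.inv_EM.invB
    (fun τ _ l b e => funext fun i => ?_) fun τ l l₀ l₁ a _ b c d e => ?_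
  · obtain ⟨c, d⟩ := b i
    exact (mul_eq_right₀ d).1 ((actL_EM τ l _).symm.trans (congrFun e (i, c)))
  · have d' := tendsto_pi_nhds.1 d
    have e' : ∀ x, Tendsto (fun n => τ n x.1 * l n x) atTop (𝓝 (l₁ x)) := fun x =>
      (tendsto_pi_nhds.1 e x).congr fun n => actL_EM _ _ _
    choose u hu using b
    choose v hv using c
    have h1 : Tendsto τ atTop (𝓝 fun i => l₁ (i, u i) / l₀ (i, u i)) := tendsto_pi_nhds.2 fun i =>
      ((e' _).div (d' _) (hu i)).congr' (((d' _).eventually_ne (hu i)).mono fun n f =>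
        mul_div_cancel_right₀ _ f)
    have h2 : Tendsto (fun n i => (τ n i)⁻¹) atTop (𝓝 fun i => l₀ (i, v i) / l₁ (i, v i)) :=
      tendsto_pi_nhds.2 fun i => ((d' _).div (e' _) (hv i)).congr'
        (((e' _).eventually_ne (hv i)).mono fun n f => div_mul_cancel_right₀ (right_ne_zero_of_mul f) _)
    obtain ⟨C, hC⟩ := h1.norm.bddAbove_range
    obtain ⟨C', hC'⟩ := h2.norm.bddAbove_range
    exact ⟨max C C', fun n i => ⟨((norm_le_pi_norm _ i).trans (hC ⟨n, rfl⟩)).trans (le_max_left _ _),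
      ((norm_le_pi_norm (fun i => (τ n i)⁻¹) i).trans (hC' ⟨n, rfl⟩)).trans (le_max_right _ _)⟩⟩

theorem Ok.big_fam (h : P.Ok K₀ k D) : (P.fam wt wk wl B).Big k :=
  let ⟨_, _, a, b⟩ := h.big; ⟨_, _, ample a, b⟩

theorem Ok.bigD_fam (h : P.Ok K₀ k D) : (P.fam wt wk wl B).BigD k D := h.bigD

theorem Ok.reg_fam (h : P.Ok K₀ k D) : (P.fam wt wk wl B).Reg K₀ := TT.reg h.reg

theorem Ok.abs_fam (h : P.Ok K₀ k D) : (P.fam wt wk wl B).Abs := TT.abs h.abs

theorem Ok.free (h : P.Ok K₀ k D) : Free P.E := free_of_good h.good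

omit [DecidableEq R] [DecidableEq σ] in
theorem sm_of_open {F : Fam S Λ R J K} (h : IsOpen F.B) : F.Sm (Fintype.card Λ) := fun l =>
  Module.finrank_fintype_fun_eq_card ℂ (η := Λ) ▸ (Holo.IsMfd.of_lh (Holo.lh_of_range_mem
    IsEmbedding.subtypeVal (Subtype.range_coe.symm ▸ h.mem_nhds l.2))).1

omit [DecidableEq R] [DecidableEq σ] in
theorem sm_E : P.E.Sm 0 := Fintype.card_empty ▸ sm_of_open isOpen_univ

omit [DecidableEq R] in
theorem sm_EM (M : ℕ) : (P.EM M).Sm (Fintype.card σ * (M + 1)) := by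
  simpa only [Fintype.card_prod, Fintype.card_fin] using
    sm_of_open (F := P.EM M) (isOpen_PMs M)

omit [DecidableEq R] [DecidableEq σ] in
theorem cp_E : P.E.Cp := inferInstanceAs (CompactSpace (Quot _))

section fix

omit [DecidableEq R] [DecidableEq σ]

theorem ovP_act {y : J → ℂ} {ρ : σ → R → ℤ} (h : OvP P.E.toWt P.wt y ρ) (c : J → ℂ) :
    OvP P.E.toWt P.wt (fun j => c j * y j) ρ := fun j hj => mul_eq_zero_of_right _ (h j hj)

theorem fix_sub : P.Fix ⊆ P.E.cone := fun _ h => h.1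

theorem isClosed_ovP (ρ : σ → R → ℤ) :
    IsClosed {z : (Empty → ℂ) × (J → ℂ) | OvP P.E.toWt P.wt z.2 ρ} :=
  Fam.isClosed_fld {j | nw P.E.toWt P.wt ρ j ≠ 0}

end fix

theorem Ok.fix_eq (h : P.Ok K₀ k D) : ∃ C, IsClosed C ∧ P.Fix = P.E.cone ∩ C :=
  ⟨⋃ ρ ∈ Lbl P.E P.wt, {z | OvP P.E.toWt P.wt z.2 ρ},
    (finite_lbl h.free P.wt).isClosed_biUnion fun ρ _ => isClosed_ovP ρ,
    Set.ext fun z => and_congr_right fun hz => ⟨fun ⟨_, a⟩ => mem_biUnion ⟨z, hz, a⟩ a,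
      fun a => let ⟨ρ, _, b⟩ := mem_iUnion₂.1 a; ⟨ρ, b⟩⟩⟩

theorem Ok.fix_act (h : P.Ok K₀ k D) (t) (ht : IsUnit t) (z) (hz : z ∈ P.Fix) :
    P.E.actT t z ∈ P.Fix :=
  ⟨h.good.cone_act ht hz.1, hz.2.imp fun _ a => ovP_act a _⟩

theorem Ok.fp_fix (h : P.Ok K₀ k D) : Mono.FP P.E.actT P.Fix :=
  let ⟨_, a, b⟩ := h.fix_eq
  h.good.fp_of fix_sub h.fix_act (b ▸ h.good.lc_cone.inter a.isLocallyClosed)

theorem Ok.nice_X (h : P.Ok K₀ k D) : P291Z.Nice P.X := haveI := h.fp_fix; inferInstance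

theorem Ok.compact_X (h : P.Ok K₀ k D) : CompactSpace P.X :=
  let ⟨_, a, b⟩ := h.fix_eq
  h.good.compact_of cp_E b a h.fix_act

end TT

end Vale.Agent.P269.Lz
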