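import Vale.Agent.P287Q.Lz.TG
import Vale.Agent.P287Q.Lz.Fam
import Vale.Agent.P287Q.G.LG.EB
import Vale.Agent.P287Q.G.LG.Lab
import Vale.Agent.P287Q.G.LG.HNA
import Vale.Agent.P287Q.G.Bas.RelC

/-! The evaluation maps and the class of the diagonal on the fixed loci. -/

set_option linter.unusedSectionVars false
set_option linter.style.haveILetI false

namespace Vale.Agent.P269.Lz

open Set Function Topology Filter TensorProduct B Vale.Agent.P291Z Vale.Agent.P269.Ch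
  Vale.Agent.P269.Loc LG HNA

variable {R J K σ ν : Type} [Fintype R] [Fintype J] [Fintype K] [Fintype σ] [Fintype ν]
  [DecidableEq R] [DecidableEq σ] {P : TT R J K σ} {K₀ : RD R} {k D : ℕ} {g : ℤ} {d : R → ℤ}
  {a : σ → ℂ} {τ : Md P ν g d}

namespace D3c

theorem nice_EM (h : P.Ok K₀ k D) (M : ℕ) : (P.EM M).Nice 0 :=
  h.abs_fam.nice (h.good_EM M) h.reg_fam (TT.sm_EM M)

theorem nice_E (h : P.Ok K₀ k D) : P.E.Nice 0 := h.abs_fam.nice h.good h.reg TT.sm_E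

theorem gz_EM (h : P.Ok K₀ k D) (M : ℕ) :
    GZ (P.EM M) ℓs ((P.EM M).Zs (Fin 0) k D g d (0 : ν → J → ℕ)) :=
  (nice_EM h M).gz (Fin 0) h.big_fam h.bigD_fam g d 0

omit [DecidableEq R] in
theorem cp_EM (M : ℕ) : (P.EM M).Cp := by
  haveI := Classical.decEq R
  let C : Set (σ → Fin (M + 1) → ℂ) := univ.pi fun _ => Metric.sphere 0 1
  have := isCompact_iff_compactSpace.1 (isCompact_univ_pi fun _ => isCompact_sphere _ _ : IsCompact C)
  have h : ∀ x : C, uncurry x.1 ∈ PMs σ M := fun x i => ne_iff.1 (norm_ne_zero_iff.1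
    ((mem_sphere_zero_iff_norm.1 (x.2 i trivial)).trans_ne one_ne_zero))
  refine Surjective.compactSpace (f := fun x : C => Quo.mk (P.EM M).actL ⟨_, h x⟩)
    (Tq.continuous_mk.comp ((continuous_pi fun a => (continuous_apply a.2).comp
      ((continuous_apply a.1).comp continuous_subtype_val)).subtype_mk _)) fun z => ?_
  obtain ⟨⟨l, hl⟩, rfl⟩ := Tq.mk_surj z
  have e : ∀ i, (‖curry l i‖ : ℂ) ≠ 0 := fun i =>
    Complex.ofReal_ne_zero.2 (norm_ne_zero_iff.2 (ne_iff.2 (hl i)))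
  refine ⟨⟨fun i => (‖curry l i‖ : ℂ)⁻¹ • curry l i, fun i _ => mem_sphere_zero_iff_norm.2 ?_⟩,
    Quot.sound ⟨fun i => ‖curry l i‖, isUnit_pi_iff.2 e, funext fun a =>
      ((TT.actL_EM _ _ a).trans (mul_inv_cancel_left₀ (e a.1) _)).symm⟩⟩
  rw [norm_smul, norm_inv, Complex.norm_real, norm_norm]
  exact inv_mul_cancel₀ (Complex.ofReal_ne_zero.1 (e i))

theorem ext_bp {A Y : Type} [TopologicalSpace A] [TopologicalSpace Y] {M : ℕ}
    {f f' : C(A × Bs σ M, Y)} (h : ∀ z q, f (z, bp q) = f' (z, bp q)) : f = f' :=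
  ContinuousMap.ext fun ⟨z, b⟩ => let ⟨q, e⟩ := isOpenQuotientMap_bp.surjective b; e ▸ h z q

end D3c

variable (G : Geo k D a τ) (t : TG P a) {M : ℕ}
  (hz : GZ (P.EM M) ℓs ((P.EM M).Zs (Fin 0) k D g d (0 : ν → J → ℕ)))

/-- the evaluation maps on the fixed locus -/
theorem Geo.ev1 (n : ν) (hA) : (hz.eqh_vl (.inl n) (A := (P.EM M).cone) hA).toEqv.qm.comp (G.i M) =
    (t.i M).comp (pr (τ.ev n) M) := D3c.ext_bp fun z q => by
  obtain ⟨m, a1⟩ := τ.ex z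
  obtain ⟨x, b1, b2⟩ := G.pt M _ q m a1
  obtain ⟨u, u1, u2⟩ := b2.vl (W := (P.EM M).toWt) (hz.base _ x.2) hz.wt
  obtain ⟨c, c1⟩ := τ.evp n a1
  obtain ⟨e, e1⟩ := t.i_mk M ⟨_, c⟩ q
  exact (congrArg (hz.eqh_vl (.inl n) hA).toEqv.qm b1).trans (Eq.symm ((congrArg
    (fun y => t.i M (y, bp q)) c1).trans (e1.trans (Quot.sound ⟨(1, u (.inl n)),
      Prod.isUnit_iff.2 ⟨isUnit_one, u1 _⟩, u2 (.inl n)⟩))))

/-- the evaluation at two points on the fixed locus -/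
theorem Geo.ev2 (n n' : ν) : (hz.eqh_vl2 (.inl n) (.inl n')).toEqv.qm.comp (G.i M) =
    (t.i2 M).comp (pr ((τ.ev n).prodMk (τ.ev n')) M) := D3c.ext_bp fun z q => by
  obtain ⟨m, a1⟩ := τ.ex z
  obtain ⟨x, b1, b2⟩ := G.pt M _ q m a1
  obtain ⟨u, u1, u2⟩ := b2.vl (W := (P.EM M).toWt) (hz.base _ x.2) hz.wt
  obtain ⟨c, c1⟩ := τ.evp n a1
  obtain ⟨c', c2⟩ := τ.evp n' a1
  obtain ⟨e, e1⟩ := t.i2_mk M ⟨_, c⟩ ⟨_, c'⟩ q
  exact (congrArg (hz.eqh_vl2 (.inl n) (.inl n')).toEqv.qm b1).trans (Eq.symm ((congrArg₂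
    (fun y y' => t.i2 M ((y, y'), bp q)) c1 c2).trans (e1.trans (Quot.sound
      ⟨(1, u (.inl n), u (.inl n')), Prod.isUnit_iff.2 ⟨isUnit_one, Prod.isUnit_iff.2 ⟨u1 _, u1 _⟩⟩,
        Prod.ext (congrArg Prod.fst (u2 (.inl n)) :) (Prod.ext (congrArg Prod.snd (u2 (.inl n)) :)
          (congrArg Prod.snd (u2 (.inl n')) :))⟩))))

omit hz

/-- **the class of the diagonal on the fixed locus** -/
theorem Geo.dg3 (hP : P.Ok K₀ k D) (n n' : ν) {u} (hu : Nd.IsD3 (P.EM M) u) :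
    H.map (G.i M) (hcls (evT (.inl n) (.inl n') (P.EM M).cone3 u)) =
      evA τ.A M (inH _ (pbR ((τ.ev n).prodMk (τ.ev n')) t.δ)) := by
  have hz := D3c.gz_EM (ν := ν) (g := g) (d := d) hP M
  rw [hz.evT_eq, ← H.map_hcls _ (hu.co.elim fun _ a => a.cocycle), H.map_map, G.ev2 t hz,
    ← H.map_map, t.hδ M u hu, map_evA, inH_pbR]

theorem TG.bc_dg (n n' : ν) : bc _ (chiA a) (inH _ (pbR ((τ.ev n).prodMk (τ.ev n')) t.δ)) =
    inF _ (τ.dg t.dg n n') := (inF_bc _ _).symm.trans (congrArg _ (pbE_bc _ _ _).symm)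

end Vale.Agent.P269.Lz
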