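import Vale.Agent.P287Q.Hb.QM

/-! Base change of Gysin classes along transverse zero sets. -/

set_option linter.unusedSectionVars false
set_option linter.style.haveILetI false

namespace Vale.Agent.P269.DgA

open Set Function Topology Filter Module P291Z Holo Mono Coh Tq Loc

variable {A A' B B' W W' U U' ι : Type} [NormedRing A] [NormedAlgebra ℂ A] [NormedAddCommGroup W]
  [NormedSpace ℂ W] [NormedRing A'] [NormedAlgebra ℂ A'] [NormedAddCommGroup W'] [NormedSpace ℂ W']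
  [NormedRing B] [NormedAlgebra ℂ B] [NormedAddCommGroup U] [NormedSpace ℂ U]
  [NormedRing B'] [NormedAlgebra ℂ B'] [NormedAddCommGroup U'] [NormedSpace ℂ U']
  [FiniteDimensional ℂ A] [FiniteDimensional ℂ W] [FiniteDimensional ℂ A'] [FiniteDimensional ℂ W']
  [FiniteDimensional ℂ B] [FiniteDimensional ℂ U] [FiniteDimensional ℂ B'] [FiniteDimensional ℂ U']
  {act : A → W → W} {act' : A' → W' → W'} {bct : B → U → U} {bct' : B' → U' → U'} {S Z : Set W}
  {S' : Set W'} {T Y : Set U} {T' : Set U'} [IsAct act univ] [IsAct act' univ] [IsAct bct univ]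
  [IsAct bct' univ] {n m n' m' : ℤ} [Fintype ι]

/-- `Z` is the transverse zero set of `s` -/
structure Tz (S Z : Set W) (s : W → ι → ℂ) : Prop where
  mem : ∀ x, x ∈ Z ↔ x ∈ S ∧ s x = 0
  an : ∀ x ∈ Z, AnalyticAt ℂ s x
  tr : ∀ x (hx : x ∈ S), x ∈ Z → ∀ w, ∃ v ∈ tan (Subtype.val : S → W) ⟨x, hx⟩, fderiv ℂ s x v = w

theorem Tz.sub {s : W → ι → ℂ} (z : Tz S Z s) : Z ⊆ S := fun x hx => ((z.mem x).1 hx).1

theorem tz_of_line (s : W →L[ℂ] ι → ℂ)
    (ht : ∀ x ∈ S, s x = 0 → ∀ w, ∃ v, s v = w ∧ ∀ᶠ ε : ℂ in 𝓝 0, x + ε • v ∈ S) :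
    Tz S {x | x ∈ S ∧ s x = 0} s :=
  ⟨fun _ => Iff.rfl, fun x _ => s.analyticAt x, fun x hx a w => by
    obtain ⟨v, h1, h2⟩ := ht x hx a.2 w
    have := Arc.mem_tan (S := S) (a := x) (c := fun ε => x + ε • v)
      ⟨analyticAt_const.add (analyticAt_id.smul analyticAt_const), by simp, h2⟩ hx
    rw [(((hasDerivAt_id' (0 : ℂ)).smul_const v).const_add x).deriv, one_smul] at this
    exact ⟨v, this, by rw [s.fderiv, h1]⟩⟩

section one

variable {c : ι → A → ℂ} {s : W → ι → ℂ}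

theorem isCo [FP act S] (hs : Tq.Sec act S c s) (z : Tz S Z s) :
    IsCo (range (qinc act z.sub)) (Fintype.card ι) hs.isSec.eul :=
  ⟨hs.isSec.isCo.cocycle, hs.isSec.isCo.deg, hs.isSec.isCo.supp.trans (by
    rintro _ ⟨t, ht, rfl⟩
    exact ⟨Sp.mk (Sp.of act t.val ((z.mem _).2 ⟨t.val_mem, ht⟩)), rfl⟩)⟩

theorem emb (h : QM act S n) (k : QM act Z m) (e : Z ⊆ S) : IsClosedEmbedding (qinc act e) :=
  haveI := h.fp
  haveI := k.cpt
  (qinc act e).continuous.isClosedEmbedding (h.qinc_injective e)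

/-- the Euler cocycle cuts out the zero set -/
theorem gys_eul (h : QM act S n) (hs : Tq.Sec act S c s) (z : Tz S Z s) :
    haveI := h.fp; gys (qinc act z.sub) hs.isSec.eul (fnd act S) = fnd act Z := by
  have k := h.zero hs z.mem z.an z.tr
  have := h.fp
  have := k.fp
  rcases Z.eq_empty_or_nonempty with h0 | ⟨x, hx⟩
  · have : IsEmpty (Quo act Z) := ⟨mk_surj.forall.2 fun x => h0.subset x.2⟩
    exact Orb.BM_eq_of_isEmpty _ _
  have h1 : 0 ≤ n - Fintype.card ι := not_lt.1 fun hn => (k.neg hn).subset hx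
  have hd := h.dim
  rw [show n.toNat = (n - Fintype.card ι).toNat + Fintype.card ι by omega] at hd
  obtain ⟨-, -, -, h4⟩ := (hd.ho h.lin).gys_eul_hol rfl (E := Ch.chars fun i => (hs.hm i).ρ) rfl
    hs.isSec (Sp.isEmbedding_incl (act := act) z.sub) (Sp.incl_smul z.sub)
    (fun t => (Sp.mem_range_incl z.sub).trans ((z.mem _).trans (and_iff_right t.val_mem)))
    (fun y => ⟨s, z.an _ y.val_mem, .of_forall fun _ => rfl, fun w _ => z.tr _ _ y.val_mem w⟩)
    Orb.isQuo_sp (i := qinc act z.sub) fun _ => rfl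
  rw [k.dim.fnd_eq, hd.fnd_eq]
  exact h4

end one

theorem deg_le {X : Type} [TopologicalSpace X] [Nice X] [Nonempty X] {d d' : ℤ}
    {β β' : BM X} (h : Orb.Ori d β) (h' : Orb.Ori d' β') : d ≤ d' := not_lt.1 fun e => by
  obtain ⟨a, -, ha⟩ := h.gen (Classical.arbitrary X)
  exact ha (by rw [h'.eq_zero_of_lt h.deg e, ev_eq, LinearMap.zero_apply])

theorem homeo {θ : A' → A} {f : W' → W} (h' : QM act' S' m) (h : QM act S n)
    (φ : Hol act' act S' S θ f) (hb : Bijective φ.q) : IsHomeomorph φ.q :=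
  haveI := h'.cpt
  haveI := h.fp
  isHomeomorph_iff_continuous_bijective.2 ⟨φ.q.continuous, hb⟩

theorem intg_bij {θ : A' → A} {f : W' → W} (h' : QM act' S' m) (h : QM act S n)
    (φ : Hol act' act S' S θ f) (hb : Bijective φ.q) (b : H (Quo act S)) :
    intg (fnd act' S') (H.map φ.q b) = intg (fnd act S) b := by
  refine h'.J_map ?_ φ hb b
  rcases S'.eq_empty_or_nonempty with e | ⟨x, hx⟩
  · have e' : S = ∅ := eq_empty_of_forall_notMem fun y hy => by
      obtain ⟨z, -⟩ := hb.2 (Quo.mk act ⟨y, hy⟩)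
      exact e.subset z.out.2
    exact ⟨h.fp, h.lin, h.cpt, fun y hy => (e'.subset hy).elim, fun _ => e'⟩
  · have := h.fp
    have := h'.fp
    have : Nonempty (Quo act' S') := ⟨Quo.mk act' ⟨x, hx⟩⟩
    have k := h.ori.res (homeo h' h φ hb).isOpenEmbedding
    have := deg_le h'.ori k
    have := deg_le k h'.ori
    rwa [show m = n by omega]

variable {θ : A → B} {f : W → U} {c : ι → B → ℂ} {s : U → ι → ℂ}

theorem sec_pull (d : Eqh act bct S T θ f) (hs : Tq.Sec bct T c s) :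
    Tq.Sec act S (fun i a => c i (θ a)) fun x => s (f x) :=
  ⟨fun i => d.hm.comp (hs.hm i), hs.cont.comp d.cont d.maps, fun a ha x hx i => by
    rw [d.eqv a ha x hx, hs.eqv _ (d.hm.isUnit ha) _ (d.maps hx)]⟩

theorem cohom_eul [FP act S] [FP bct T] (d : Eqh act bct S T θ f) (hs : Tq.Sec bct T c s)
    (z : Tz S Z fun x => s (f x)) : Cohom (range (qinc act z.sub)) (sec_pull d hs).isSec.eul
      (pull d.toEqv.qm hs.isSec.eul) := by
  have a : Ch.Iso d.mor (Ch.chars fun i => ((sec_pull d hs).hm i).ρ) (Ch.chars fun i => (hs.hm i).ρ)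
      fun _ => LinearMap.id :=
    ⟨⟨fun _ _ h => h, continuous_snd.comp continuous_subtype_val, fun _ _ _ _ => rfl⟩,
      fun _ _ _ h => h, fun _ w h => ⟨w, h, rfl⟩⟩
  have b := a.cohom_eul (sec_pull d hs).isSec hs.isSec fun _ => rfl
  rw [d.mor_map] at b
  refine b.mono ?_
  rintro _ ⟨t, ht, rfl⟩
  exact ⟨Sp.mk (Sp.of act t.val ((z.mem _).2 ⟨t.val_mem, ht⟩)), rfl⟩

theorem maps (d : Eqh act bct S T θ f) (z : Tz S Z fun x => s (f x)) (y : Tz T Y s) :
    MapsTo f Z Y := fun x hx => (y.mem _).2 ⟨d.maps (z.sub hx), ((z.mem x).1 hx).2⟩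

/-- **base change to transverse zero sets** -/
theorem intg_zero (h : QM act S n) (k : QM bct T m) (d : Eqh act bct S T θ f)
    (hd : Injective d.toEqv.qm) {t : Coch (Quo bct T)} {r : ℕ} (ht : IsCo (range d.toEqv.qm) r t)
    (hg : Gys d.toEqv.qm t (fnd bct T) (fnd act S)) (hs : Tq.Sec bct T c s)
    (z : Tz S Z fun x => s (f x)) (y : Tz T Y s) (b : H (Quo bct Y)) :
    intg (fnd bct Y) (H.map (qinc bct y.sub) (hcls t) * b) =
      intg (fnd act Z) (H.map (d.mono z.sub (maps d z y)).toEqv.qm b) := by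
  have h' := h.zero (sec_pull d hs) z.mem z.an z.tr
  have k' := k.zero hs y.mem y.an y.tr
  have := h.fp
  have := k.fp
  have := h'.fp
  have := k'.fp
  have := h.cpt
  have := h'.cpt
  have := k'.cpt
  let d' := (d.mono z.sub (maps d z y)).toEqv.qm
  have sq : ∀ x, d.toEqv.qm (qinc act z.sub x) = qinc bct y.sub (d' x) :=
    mk_surj.forall.2 fun _ => rfl
  have e1 := d.toEqv.qm.continuous.isClosedEmbedding hd
  have e2 := emb k k' y.sub
  have e3 := emb h h' z.sub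
  have e4 : IsClosedEmbedding d' := d'.continuous.isClosedEmbedding fun x x' e =>
    e3.injective (hd ((sq x).trans ((congrArg _ e).trans (sq x').symm)))
  have hr : d.toEqv.qm ⁻¹' range (qinc bct y.sub) ⊆ range (qinc act z.sub) :=
    mk_surj.forall.2 fun x ⟨u, hu⟩ => by
      obtain ⟨u, rfl⟩ := mk_surj u
      obtain ⟨a, a1, a2⟩ := QMA.mk_eq (x := ⟨u.1, y.sub u.2⟩) (y := ⟨f x, d.maps x.2⟩) hu
      refine ⟨Quo.mk act ⟨x, (z.mem _).2 ⟨x.2, funext fun i => ?_⟩⟩, rfl⟩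
      rw [show f x = bct a u from a2, hs.eqv a a1 _ (y.sub u.2), ((y.mem _).1 u.2).2, Pi.zero_apply,
        mul_zero]
  have c1 := isCo hs y
  have c2 := isCo (sec_pull d hs) z
  have c3 := cocycle_pull (qinc bct y.sub).continuous ht.cocycle
  have c4 : supp (pull (qinc bct y.sub) t) ⊆ range d' := fun x hx => by
    obtain ⟨u, hu⟩ := ht.supp (supp_pull (qinc bct y.sub).continuous t hx)
    obtain ⟨v, rfl⟩ := hr ⟨x, hu.symm⟩
    exact ⟨v, e2.injective ((sq v).symm.trans hu)⟩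
  have g := gys_comm e1 e2 e4 e3 sq hr ht c1 (fnd bct T)
  rw [(Gys_iff e1 ht.cocycle ht.supp).1 hg, gys_eul k hs y, ← gys_congr e3 c2.cocycle c2.supp
    (cocycle_pull d.toEqv.qm.continuous c1.cocycle) ((supp_pull d.toEqv.qm.continuous _).trans
      ((preimage_mono c1.supp).trans hr)) (cohom_eul d hs z), gys_eul h (sec_pull d hs) z] at g
  rw [← intg_push, g, push_gys_eq_cap e4 c3 c4, intg_cap, H.map_hcls _ ht.cocycle,
    Ch.Hev.commute (Ch.mem_Hev (hcls_isDeg (ht.deg.pull _)))]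

/-- **base change**: the square `φ, ψ, d, d'` is cartesian and transverse -/
theorem intg_sq {θ' : A' → B'} {f' : W' → U'} {η : A' → A} {g : W' → W} {ζ : B' → B} {l : U' → U}
    (h : QM act S n) (k : QM bct T m) (h' : QM act' S' n') (k' : QM bct' T' m')
    (d : Eqh act bct S T θ f) (d' : Eqh act' bct' S' T' θ' f') (φ : Hol act' act S' S η g)
    (ψ : Hol bct' bct T' T ζ l) (hd : Injective d.toEqv.qm) (hφ : Injective φ.q)
    (hψ : Injective ψ.q) (sq : ∀ x, d.toEqv.qm (φ.q x) = ψ.q (d'.toEqv.qm x))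
    {t : Coch (Quo bct T)} {r : ℕ} (ht : IsCo (range d.toEqv.qm) r t)
    (hg : Gys d.toEqv.qm t (fnd bct T) (fnd act S)) (hs : Tq.Sec bct T c s)
    (z : Tz S Z fun x => s (f x)) (y : Tz T Y s) (hz : MapsTo g S' Z) (hy : MapsTo l T' Y)
    (sz : ∀ x ∈ Z, ∃ x' ∈ S', ∃ a, IsUnit a ∧ x = act a (g x'))
    (sy : ∀ x ∈ Y, ∃ x' ∈ T', ∃ a, IsUnit a ∧ x = bct a (l x')) (b : H (Quo bct' T')) :
    intg (fnd bct' T') (H.map ψ.q (hcls t) * b) = intg (fnd act' S') (H.map d'.toEqv.qm b) := by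
  have h₁ := h.zero (sec_pull d hs) z.mem z.an z.tr
  have k₁ := k.zero hs y.mem y.an y.tr
  have φ₁ := φ.mono Subset.rfl hz
  have ψ₁ := ψ.mono Subset.rfl hy
  have e1 : (qinc act z.sub).comp φ₁.q = φ.q := ContinuousMap.ext (mk_surj.forall.2 fun _ => rfl)
  have e2 : (qinc bct y.sub).comp ψ₁.q = ψ.q := ContinuousMap.ext (mk_surj.forall.2 fun _ => rfl)
  have b1 : Bijective φ₁.q := ⟨.of_comp (f := qinc act z.sub) (e1 ▸ hφ :), φ₁.q_surjective sz⟩
  have b2 : Bijective ψ₁.q := ⟨.of_comp (f := qinc bct y.sub) (e2 ▸ hψ :), ψ₁.q_surjective sy⟩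
  obtain ⟨b, rfl⟩ := (H.map_bijective_of_homeomorph ((homeo k' k₁ ψ₁ b2).homeomorph _)).2 b
  have e3 : ψ₁.q.comp d'.toEqv.qm = (d.mono z.sub (maps d z y)).toEqv.qm.comp φ₁.q :=
    ContinuousMap.ext fun x => k.qinc_injective y.sub (((DFunLike.congr_fun e2 _).trans
      (sq x).symm).trans (by obtain ⟨x, rfl⟩ := mk_surj x; rfl))
  change intg _ (_ * H.map ψ₁.q b) = intg _ (H.map _ (H.map ψ₁.q b))
  rw [← e2, ← H.map_map, ← map_mul, intg_bij k' k₁ ψ₁ b2, intg_zero h k d hd ht hg hs z y,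
    H.map_map, e3, ← H.map_map, intg_bij h' h₁ φ₁ b1]

end Vale.Agent.P269.DgA
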