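import Vale.Agent.P287Q.Lz.TG
import Vale.Agent.P287Q.Lz.DgA
import Vale.Agent.P287Q.Lz.FxA
import Vale.Agent.P287Q.G.Glu.Cas0
import Vale.Agent.P287Q.G.LG.EB
import Vale.Agent.P269.LG.Kun

/-! The equivariant class of the diagonal of the target. -/

set_option linter.unusedSectionVars false
set_option linter.style.haveILetI false

namespace Vale.Agent.P269.Lz

open Set Function Topology Filter TensorProduct B Vale.Agent.P291Z Vale.Agent.P269.Ch
  Vale.Agent.P269.Loc LG Tq X3 Mono Holo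

variable {R J K σ S Λ : Type} [Fintype R] [Fintype J] [Fintype K] [Fintype σ] [Fintype S]
  [Fintype Λ] [DecidableEq R] [DecidableEq σ] {P : TT R J K σ} {M : ℕ}

namespace D3b

theorem exists_deg {X : ℕ → Type} [∀ M, TopologicalSpace (X M)] {k : ∀ M, C(X M, X (M + 1))}
    {c : ∀ M, H (X M)} (hd : ∀ M, ∃ m : ℤ, H.IsDeg (2 * m) (c M))
    (hc : ∀ M, H.map (k M) (c (M + 1)) = c M) : ∃ m : ℤ, ∀ M, H.IsDeg (2 * m) (c M) := by
  by_cases h : ∀ M, c M = 0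
  · exact ⟨0, fun M => (h M).symm ▸ (H.deg _ _).zero_mem⟩
  obtain ⟨N, hN⟩ := not_forall.1 h
  obtain ⟨m, hm⟩ := hd N
  refine ⟨m, fun M => (le_total N M).elim (fun e => And.right (a := c M ≠ 0) ?_) fun e => ?_⟩
  · refine Nat.le_induction ⟨hN, hm⟩ (fun M _ ⟨a, b⟩ => ?_) M e
    obtain ⟨m', c'⟩ := hd (M + 1)
    have := c'.map (k M)
    rw [hc] at this
    exact ⟨fun f => a (by rw [← hc, f, map_zero]),
      (by_contra fun f => a (b.comp_eq.symm.trans (this.comp_ne f)) : 2 * m = 2 * m') ▸ c'⟩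
  · exact Nat.decreasingInduction (fun M _ b => hc M ▸ b.map (k M)) hm e

theorem cone_iff {wt : J → S → ℤ} {wk : K → S → ℤ} {wl : Λ → S → ℤ} {B : Set (Λ → ℂ)} {z} :
    z ∈ (P.fam wt wk wl B).cone ↔ z.1 ∈ B ∧ (Empty.elim, z.2) ∈ P.E.cone := by
  have e : ∀ {Λ : Type} (l : Λ → ℂ) k, MvPolynomial.map (MvPolynomial.eval l)
      (MvPolynomial.map MvPolynomial.C (P.G k)) = P.G k := fun l k => by
    rw [MvPolynomial.map_map, show (MvPolynomial.eval l).comp MvPolynomial.C = RingHom.id ℂ from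
      RingHom.ext fun _ => MvPolynomial.eval_C _, MvPolynomial.map_id]
  refine and_congr_right' (Iff.trans ?_ (and_iff_right (mem_univ _)).symm)
  exact and_congr_right' (forall_congr' fun k => (congrArg (MvPolynomial.eval z.2 · = 0)
    ((e z.1 k).trans (e Empty.elim k).symm)).to_iff)

theorem actL_EM (τ : σ → ℂ) (l : σ × Fin (M + 1) → ℂ) (a : σ × Fin (M + 1)) :
    (P.EM M).actL τ l a = τ a.1 * l a := by
  refine congrArg (· * l a) ((Finset.prod_eq_single a.1 (fun i _ e => ?_) (by simp)).trans ?_)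
  · simp [e]
  · simp

/-- the inclusion of the parameter spaces -/
def up (l : σ × Fin (M + 1) → ℂ) (a : σ × Fin (M + 1 + 1)) : ℂ :=
  (Fin.cons 0 (curry l a.1) : Fin (M + 1 + 1) → ℂ) a.2

theorem up_mem {l : σ × Fin (M + 1) → ℂ} : up l ∈ PMs σ (M + 1) ↔ l ∈ PMs σ M :=
  forall_congr' fun _ => Fin.exists_fin_succ.trans (or_iff_right fun h => h rfl)

theorem up_inj : Injective (up : (σ × Fin (M + 1) → ℂ) → _) := fun _ _ e =>
  funext fun a => congrFun e (a.1, a.2.succ)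

theorem up_dn {l : σ × Fin (M + 1 + 1) → ℂ} (h : ∀ i, l (i, 0) = 0) :
    up (fun a => l (a.1, a.2.succ)) = l :=
  funext fun ⟨i, j⟩ => Fin.cases (h i).symm (fun _ => rfl) j

theorem an_up (l : σ × Fin (M + 1) → ℂ) : AnalyticAt ℂ up l :=
  analyticAt_pi_iff.2 fun ⟨i, j⟩ => Fin.cases analyticAt_const
    (fun j => analyticAt_pi_iff.1 analyticAt_id (i, j)) j

theorem up_act (τ : σ → ℂ) (l : σ × Fin (M + 1) → ℂ) :
    up ((P.EM M).actL τ l) = (P.EM (M + 1)).actL τ (up l) :=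
  funext fun ⟨_, j⟩ => Fin.cases (mul_zero _).symm (fun _ => rfl) j

theorem up_cone {l y} : (up l, y) ∈ (P.EM (M + 1)).cone ↔ (l, y) ∈ (P.EM M).cone :=
  cone_iff.trans ((and_congr_left' up_mem).trans (cone_iff (z := (l, y))).symm)

theorem line {l : σ × Fin (M + 1) → ℂ} (hl : l ∈ PMs σ M) (v : σ × Fin (M + 1) → ℂ) :
    ∀ᶠ ε : ℂ in 𝓝 0, l + ε • v ∈ PMs σ M :=
  ((continuous_const.add (continuous_id.smul continuous_const)).tendsto' 0 l (by simp)).eventually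
    ((isOpen_PMs M).mem_nhds hl)

end D3b

open D3b

variable (P M)

/-- the inclusion of the approximations of the target -/
theorem TT.k1 : Hol (P.EM M).actT (P.EM (M + 1)).actT (P.EM M).cone (P.EM (M + 1)).cone (fun a => a)
    fun z => (up z.1, z.2) :=
  .of_an Hm.id (fun _ => up_cone.2) (fun _ _ => ((an_up _).comp analyticAt_fst).prod analyticAt_snd)
    fun _ _ _ _ => Prod.ext (up_act _ _) rfl

/-- the inclusion of the approximations of the fibre product -/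
theorem TT.k3 : Hol (P.EM M).act3 (P.EM (M + 1)).act3 (P.EM M).cone3 (P.EM (M + 1)).cone3
    (fun a => a) fun z => (up z.1, z.2) :=
  .of_an Hm.id (fun _ h => ⟨up_cone.2 h.1, up_cone.2 h.2⟩)
    (fun _ _ => ((an_up _).comp analyticAt_fst).prod analyticAt_snd)
    fun _ _ _ _ => Prod.ext (up_act _ _) rfl

variable {P M}

/-- **the classes of the diagonals are compatible** -/
theorem TT.map_k3 (hN : ∀ M, (P.EM M).Nice 0) (hc : ∀ M, (P.EM M).Cp) {t t'}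
    (ht : Nd.IsD3 (P.EM M) t) (ht' : Nd.IsD3 (P.EM (M + 1)) t') :
    H.map (P.k3 M).q (hcls t') = hcls t := by
  have q : ∀ M, ∃ n, QM (P.EM M).actT (P.EM M).cone n := fun M =>
    haveI := (hN M).toGood.fp
    haveI := (hN M).toGood.compact (hc M)
    (hN M).exists_dim.elim fun _ a => ⟨_, .of_dim (P.EM M).lin_actT a⟩
  obtain ⟨_, q1⟩ := q (M + 1)
  obtain ⟨_, q2⟩ := q M
  obtain ⟨_, q3⟩ := (hN (M + 1)).qm3 (hc _)
  obtain ⟨_, q4⟩ := (hN M).qm3 (hc _)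
  obtain ⟨⟨r, a1⟩, a2⟩ := ht'
  rw [d3_eq] at a1 a2
  let s₀ : (σ × Fin (M + 1 + 1) → ℂ) →L[ℂ] σ → ℂ := .pi fun i => .proj (i, 0)
  have hs : Tq.Sec (P.EM (M + 1)).act3 (P.EM (M + 1)).cone3 (fun (i : σ) t => t.1 i)
      (s₀ ∘L .fst ℂ _ _) := ⟨fun i => ⟨rfl, fun _ _ _ _ => rfl, fun _ _ => by fun_prop⟩,
    (ContinuousLinearMap.continuous _).continuousOn, fun a _ x _ i => actL_EM (P := P) a.1 x.1 (i, 0)⟩
  refine q4.ps.ext_left fun b => Eq.trans ?_ (intg_d3 (hN M).toGood (hc M) ht b).symm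
  refine DgA.intg_sq q1 q3 q2 q4 (hold _).toEqh (hold _).toEqh (P.k1 M) (P.k3 M) (emb (hN _).toGood).injective
    ((P.k1 M).q_injective fun x _ y _ a ha e => ⟨a, ha, Prod.ext
      (up_inj ((congrArg Prod.fst e).trans (up_act _ _).symm)) (congrArg Prod.snd e :)⟩)
    ((P.k3 M).q_injective fun x _ y _ a ha e => ⟨a, ha, Prod.ext
      (up_inj ((congrArg Prod.fst e).trans (up_act _ _).symm)) (congrArg Prod.snd e :)⟩)
    (mk_surj.forall.2 fun _ => rfl) a1 a2 hs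
    (DgA.tz_of_line (s₀ ∘L .fst ℂ _ (J → ℂ)) fun x hx _ w => ⟨(fun a => w a.1, 0), rfl,
      (line hx.1 _).mono fun ε e => cone_iff.2 ⟨e, by simpa using (cone_iff.1 hx).2⟩⟩)
    (DgA.tz_of_line _ fun x hx _ w => ⟨(fun a => w a.1, 0), rfl,
      (line hx.1.1 _).mono fun ε e => ⟨cone_iff.2 ⟨e, by simpa using (cone_iff.1 hx.1).2⟩,
        cone_iff.2 ⟨e, by simpa using (cone_iff.1 hx.2).2⟩⟩⟩)
    (fun x hx => ⟨(P.k1 M).maps hx, rfl⟩) (fun x hx => ⟨(P.k3 M).maps hx, rfl⟩)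
    (fun x hx => ?_) (fun x hx => ?_) b
  · obtain ⟨l, y⟩ := x
    obtain ⟨l, rfl⟩ : ∃ l', up l' = l := ⟨_, up_dn (congrFun hx.2)⟩
    exact ⟨(l, y), up_cone.1 hx.1, 1, isUnit_one, (Wt.actT_one _ _).symm⟩
  · obtain ⟨l, y⟩ := x
    obtain ⟨l, rfl⟩ : ∃ l', up l' = l := ⟨_, up_dn (congrFun hx.2)⟩
    exact ⟨(l, y), ⟨up_cone.1 hx.1.1, up_cone.1 hx.1.2⟩, 1, isUnit_one, (Wt.act3_one _ _).symm⟩

theorem TT.isAct_Fix (h : P.E.Inv) : IsAct P.E.actT P.Fix :=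
  IsAct.mono inferInstance (subset_univ _) fun _ ha _ ⟨a, ρ, b⟩ => ⟨h.cone_act ha a, ρ, fun j e => by
    simp only [Wt.actT, b j e, mul_zero]⟩

theorem TT.mem_EM (z : P.Fix) (p : PM σ M) : (uncurry p.val, z.1.2) ∈ (P.EM M).cone :=
  cone_iff.2 ⟨mem_PMs p, (cone_iff (z := z.1).1 z.2.1).2⟩

/-- a fixed point is moved inside its orbit -/
theorem TT.exists_gauge {z z' : P.Fix} (e : (Quo.mk _ z : P.X) = Quo.mk _ z') (s : Tor σ)
    (l : σ × Fin (M + 1) → ℂ) :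
    ∃ t, IsUnit t ∧ z'.1.2 = ((P.EM M).actT (fun i => s i, t) (l, z.1.2)).2 := by
  obtain ⟨a, a1, a2⟩ := QMA.mk_eq e
  obtain ⟨ρ, hρ⟩ := z.2.2
  have a3 := isUnit_pi_iff.1 (Prod.isUnit_iff.1 a1).2
  have b : ∀ r, ∏ i, (s i : ℂ) ^ ρ i r ≠ 0 := fun r =>
    Finset.prod_ne_zero_iff.2 fun i _ => zpow_ne_zero _ (s i).ne_zero
  refine ⟨fun r => a.2 r / ∏ i, (s i : ℂ) ^ ρ i r, isUnit_pi_iff.2 fun r => div_ne_zero (a3 r) (b r),
    funext fun j => ?_⟩
  change _ = tc P.wt (fun i => s i) j * _ * _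
  rw [mul_right_comm, hρ.tc_mul fun i => (s i).ne_zero, mul_right_comm, ← Finset.prod_mul_distrib, a2]
  refine (actT_snd a.2 a.1 _ j).trans (congrArg (· * _) (Finset.prod_congr rfl fun r _ => ?_))
  rw [← mul_zpow, mul_div_cancel₀ _ (b r)]

theorem TT.exists_i2' (h : P.E.Inv) (M : ℕ) : ∃ i2 : C((P.X × P.X) × Bs σ M, (P.EM M).X3),
    ∀ (z z' : P.Fix) (p : PM σ M), i2 ((Quo.mk _ z, Quo.mk _ z'), bp p) =
      Quo.mk _ (S := (P.EM M).cone3) ⟨(uncurry p.val, z.1.2, z'.1.2), TT.mem_EM z p, TT.mem_EM z' p⟩ := by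
  haveI := TT.isAct_Fix h
  have o := Holo.Sp.isOpenQuotientMap_mk (act := P.E.actT) (S := P.Fix)
  have q := ((o.prodMap o).prodMap (isOpenQuotientMap_bp (σ := σ) (M := M))).isQuotientMap
  let f : C((P.Fix × P.Fix) × PM σ M, (P.EM M).X3) :=
    ⟨fun z => Quo.mk _ (S := (P.EM M).cone3) ⟨(uncurry z.2.val, z.1.1.1.2, z.1.2.1.2), TT.mem_EM _ _, TT.mem_EM _ _⟩,
      Tq.continuous_mk.comp (Continuous.subtype_mk (Continuous.prodMk (continuous_pi
        fun a : σ × Fin (M + 1) => (continuous_apply a.2).comp ((continuous_apply a.1).comp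
          (PM.continuous_val.comp continuous_snd))) (by fun_prop)) _)⟩
  have hf : FactorsThrough f (⟨_, q.continuous⟩ : C(_, _)) := fun z z' e => by
    obtain ⟨s, e2⟩ := bp_eq.1 (congrArg Prod.snd e)
    obtain ⟨t, t1, t2⟩ := TT.exists_gauge (congrArg (·.1.1) e) s (uncurry z.2.val)
    obtain ⟨u, u1, u2⟩ := TT.exists_gauge (congrArg (·.1.2) e) s (uncurry z.2.val)
    exact Quot.sound ⟨(fun i => s i, t, u), Prod.isUnit_iff.2 ⟨isUnit_pi_iff.2 fun i => (s i).ne_zero,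
      Prod.isUnit_iff.2 ⟨t1, u1⟩⟩, Prod.ext (funext fun a => ((actL_EM _ _ a).trans
        (congrArg (·.val a.1 a.2) e2)).symm) (Prod.ext t2 u2)⟩
  exact ⟨IsQuotientMap.lift (f := ⟨_, q.continuous⟩) q f hf, fun z z' p => DFunLike.congr_fun
    (IsQuotientMap.lift_comp (f := ⟨_, q.continuous⟩) q f hf) ((z, z'), p)⟩

/-- **the restriction of the class of the diagonal** -/
theorem TT.exists_i2 [Nice P.X] (h : P.E.Inv) (hN : ∀ M, (P.EM M).Nice 0) (hc : ∀ M, (P.EM M).Cp) :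
    ∃ (i2 : ∀ M, C((P.X × P.X) × Bs σ M, (P.EM M).X3)) (δ : Loc.R σ ⊗[ℂ] Hev (P.X × P.X)),
      (∀ M (z z' : P.Fix) (p : PM σ M), ∃ h, i2 M ((Quo.mk _ z, Quo.mk _ z'), bp p) =
        Quo.mk _ ⟨(uncurry p.val, z.1.2, z'.1.2), h⟩) ∧
      ∀ M t, Nd.IsD3 (P.EM M) t → H.map (i2 M) (hcls t) = evA _ M (inH _ δ) := by
  choose i2 hi using TT.exists_i2' h
  choose t ht using fun M => X3.exists_isD3 (hN M)
  have e : ∀ M, (i2 (M + 1)).comp (incA _ M) = (P.k3 M).q.comp (i2 M) := fun M =>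
    ContinuousMap.ext fun ⟨⟨x, y⟩, b⟩ => by
      obtain ⟨x, rfl⟩ := mk_surj x
      obtain ⟨y, rfl⟩ := mk_surj y
      obtain ⟨p, rfl⟩ := isOpenQuotientMap_bp.surjective b
      exact (congrArg (fun b => i2 (M + 1) (_, b)) (Mor.map_π _ _)).trans
        ((hi _ x y p.inc).trans (congrArg (P.k3 M).q (hi M x y p)).symm)
  have c : ∀ M, H.map (incA _ M) (H.map (i2 (M + 1)) (hcls (t (M + 1)))) =
      H.map (i2 M) (hcls (t M)) := fun M => by
    rw [H.map_map, e, ← H.map_map, TT.map_k3 hN hc (ht M) (ht _)]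
  obtain ⟨m, hm⟩ := exists_deg (c := fun M => H.map (i2 M) (hcls (t M)))
    (fun M => (ht M).co.elim fun r a => ⟨r, (hcls_isDeg a.deg).map _⟩) c
  obtain ⟨δ, hδ⟩ := exists_evA_ev hm c
  refine ⟨i2, δ, fun M z z' p => ⟨_, hi M z z' p⟩, fun M t' ht' => Eq.trans ?_ (hδ M).symm⟩
  obtain ⟨_, q⟩ := (hN M).qm3 (hc M)
  exact congrArg _ (q.ps.ext_left fun b => (intg_d3 (hN M).toGood (hc M) ht' b).trans
    (intg_d3 (hN M).toGood (hc M) (ht M) b).symm)

end Vale.Agent.P269.Lz
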