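import Vale.Agent.P287Q.Lz.Lev
import Vale.Agent.P287Q.Lz.Dg3
import Vale.Agent.P287Q.Lz.DgB
import Vale.Agent.P287Q.G.Bas.Supp

/-! The global localisation formula. -/

set_option linter.unusedSectionVars false
set_option linter.style.haveILetI false
set_option maxSynthPendingDepth 3

namespace Vale.Agent.P269.Lz

open Set Function Topology Filter TensorProduct B Vale.Agent.P291Z Vale.Agent.P269.Ch
  Vale.Agent.P269.Loc LG

namespace HGP

theorem exists_poly {σ : Type} (a : σ → ℂ) (Q : Loc.R σ) : ∃ q : Polynomial ℂ,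
    Polynomial.aeval tt q = chiA a Q ∧ q.coeff 0 = MvPolynomial.constantCoeff Q := by
  refine ⟨MvPolynomial.aeval (fun i => a i • Polynomial.X) Q, ?_, ?_⟩
  · exact AlgHom.congr_fun (MvPolynomial.algHom_ext (f := (Polynomial.aeval tt).comp
      (MvPolynomial.aeval fun i => a i • Polynomial.X)) (g := chiA a) fun i => by simp [chiA]) Q
  · exact RingHom.congr_fun (MvPolynomial.ringHom_ext (f := Polynomial.constantCoeff.comp
      (MvPolynomial.aeval fun i => a i • Polynomial.X : Loc.R σ →ₐ[ℂ] _).toRingHom)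
      (g := MvPolynomial.constantCoeff) (by simp) (by simp)) Q

variable {X Y : ℕ → Type} [∀ M, TopologicalSpace (X M)] [∀ M, TopologicalSpace (Y M)]
  {k : ∀ M, C(X M, X (M + 1))} {l : ∀ M, C(Y M, Y (M + 1))}

/-- pull-back along a map of towers -/
theorem tws_comp (f : ∀ M, C(X M, Y M)) (hf : ∀ M x, f (M + 1) (k M x) = l M (f M x))
    {α : ∀ M, H (Y M)} (h : α ∈ Tws l) : (fun M => H.map (f M) (α M)) ∈ Tws k := by
  induction h using Submodule.span_induction with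
  | zero => exact mem_of_eq_of_mem (funext fun M => map_zero _) (zero_mem _)
  | add x y _ _ hx hy => exact mem_of_eq_of_mem (funext fun M => map_add _ _ _) (add_mem hx hy)
  | smul z x _ hx =>
    exact mem_of_eq_of_mem (funext fun M => H.map_smulC _ _ _) (Submodule.smul_mem _ z hx)
  | mem x hx =>
    obtain ⟨a, n, b⟩ := hx
    refine Tws.of (fun M => ?_) fun M => (b M).map _
    rw [← a M, H.map_map, H.map_map]
    exact congrArg (H.map · _) (ContinuousMap.ext (hf M))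

theorem tws_e {σ A B W P : Type} [Fintype σ] [NormedRing A] [NormedAlgebra ℂ A] [NormedRing B]
    [NormedAlgebra ℂ B] [NormedAddCommGroup W] [NormedSpace ℂ W] [AddCommGroup P] [Module ℂ P]
    [TopologicalSpace P] [FiniteDimensional ℂ A] [FiniteDimensional ℂ B] [FiniteDimensional ℂ W]
    {act₀ : A → W → W} {act : B → W → W} {D : KD B W P} {Z : Set W} [IsTopologicalAddGroup P]
    [ContinuousSMul ℂ P] [T2Space P] {c : TC σ act₀ act D Z} {V : ℕ → Type}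
    [∀ M, NormedAddCommGroup (V M)] [∀ M, NormedSpace ℂ (V M)] [∀ M, FiniteDimensional ℂ (V M)]
    {ac : ∀ M, B → V M → V M} {ZM : ∀ M, Set (V M)} (L : ∀ M, c.Lv M (ac M) (ZM M)) (i : σ) :
    (fun M => (L M).e (.X i)) ∈ Tws fun M => (L M).inc (L (M + 1)) :=
  Tws.of (fun M => by
    rw [TC.Lv.e_apply, TC.Lv.e_apply, ← c.h.toTS.map_inc_e M, H.map_map, H.map_map]
    exact congrArg (H.map · _) (ContinuousMap.ext ((L M).j_inc _)))
    fun M => (TS.e_deg _ M (MvPolynomial.isHomogeneous_X _ i)).map _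

theorem map_ind {A A' : Type} [TopologicalSpace A] [TopologicalSpace A'] (f : C(A', A)) {U : Set A}
    (hU : IsClopen U) {V : Set A'} (e : f ⁻¹' U = V) :
    H.map f (hcls (fn (U.indicator 1))) = hcls (fn (V.indicator 1)) :=
  e ▸ TopP.map_fn' f (TopP.lc_ind hU)

end HGP

open HGP

section lf

variable {σ : Type} [Fintype σ] {X Y : ℕ → Type} [∀ M, TopologicalSpace (X M)]
  [∀ M, TopologicalSpace (Y M)] {A A' : Type} [TopologicalSpace A] [TopologicalSpace A']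
  {k : ∀ M, C(X M, X (M + 1))} {l : ∀ M, C(Y M, Y (M + 1))} {i : ∀ M, C(A × Bs σ M, X M)}
  {j : ∀ M, C(A' × Bs σ M, Y M)} {χ : Loc.R σ →ₐ[ℂ] F} {α α' : ∀ M, H (X M)} {y y' : F ⊗[ℂ] H A}

theorem Lf.mul (h : Lf k i χ α y) (h' : Lf k i χ α' y') : Lf k i χ (α * α') (y * y') :=
  let ⟨a, x, b, c⟩ := h
  let ⟨a', x', b', c'⟩ := h'
  ⟨Tws.mul a a', x * x', fun M => by rw [map_mul, ← b, ← b', ← map_mul]; rfl, by rw [map_mul, c, c']⟩

theorem Lf.add (h : Lf k i χ α y) (h' : Lf k i χ α' y') : Lf k i χ (α + α') (y + y') :=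
  let ⟨a, x, b, c⟩ := h
  let ⟨a', x', b', c'⟩ := h'
  ⟨add_mem a a', x + x', fun M => by rw [map_add, ← b, ← b', ← map_add]; rfl, by rw [map_add, c, c']⟩

theorem Lf.one : Lf k i χ 1 1 :=
  ⟨Tws.one, 1, fun _ => (map_one _).trans (map_one _).symm, map_one _⟩

theorem Lf.smul (h : Lf k i χ α y) (z : ℂ) : Lf k i χ (z • α) (z • y) :=
  let ⟨a, x, b, c⟩ := h
  ⟨Submodule.smul_mem _ z a, z • x, fun M => by rw [map_smul, ← b, ← H.map_smulC]; rfl,
    by rw [map_smul, c]⟩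

variable (k i χ) in
/-- the restrictions of equivariant classes -/
noncomputable def lfA : Subalgebra ℂ (F ⊗[ℂ] H A) where
  carrier := {y | ∃ α, Lf k i χ α y}
  mul_mem' := fun ⟨_, a⟩ ⟨_, b⟩ => ⟨_, a.mul b⟩
  add_mem' := fun ⟨_, a⟩ ⟨_, b⟩ => ⟨_, a.add b⟩
  algebraMap_mem' z := ⟨_, Algebra.algebraMap_eq_smul_one (A := F ⊗[ℂ] H A) z ▸ Lf.one.smul z⟩

/-- pull-back along a map of towers -/
theorem Lf.pull {β : ∀ M, H (Y M)} {z : F ⊗[ℂ] H A'} (h : Lf l j χ β z) (f : ∀ M, C(X M, Y M))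
    (hf : ∀ M x, f (M + 1) (k M x) = l M (f M x)) {φ : C(A, A')}
    (e : ∀ M x, f M (i M x) = j M (pr φ M x)) :
    Lf k i χ (fun M => H.map (f M) (β M)) (pb F φ z) :=
  let ⟨a, x, b, c⟩ := h
  ⟨tws_comp f hf a, pb _ φ x, fun M => by
    rw [← map_evA, ← b, H.map_map, H.map_map]
    exact congrArg (H.map · _) (ContinuousMap.ext (e M)), by rw [bc_pb, c]⟩

end lf

variable {R J K σ ν : Type} [Fintype R] [Fintype J] [Fintype K] [Fintype σ] [Fintype ν]
  [DecidableEq R] [DecidableEq σ] {P : TT R J K σ} {K₀ : RD R} {k D : ℕ} {g : ℤ}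
  {d : R → ℤ} {a : σ → ℂ} {τ : Md P ν g d}

/-- the class of the diagonal is the restriction of an equivariant class -/
theorem TG.lf_dg (t : TG P a) (h : P.Ok K₀ k D) :
    ∃ α, Lf (fun M => (P.k3 M).q) t.i2 (chiA a) α (inF _ t.dg) := by
  choose u hu using fun M => X3.exists_isD3 (D3c.nice_EM h M)
  have c := fun M => TT.map_k3 (D3c.nice_EM h) D3c.cp_EM (hu M) (hu (M + 1))
  obtain ⟨m, hm⟩ := D3b.exists_deg (c := fun M => hcls (u M))
    (fun M => (hu M).co.elim fun r b => ⟨r, hcls_isDeg b.deg⟩) c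
  exact ⟨_, Tws.of c hm, inH _ t.δ, fun M => t.hδ M _ (hu M), (inF_bc _ _).symm⟩

namespace Geo

variable (G : Geo k D a τ) (hP : P.Ok K₀ k D)
  {O : Set ((P.ch ν k D g d).WF ν (Fin 0) Empty)} {N : ℕ} (h : P.As K₀ O N)

/-- the inclusion in the Borel construction -/
noncomputable def iM (M : ℕ) : C(τ.A × Bs σ M,
    Quo (actF (P.EM M).toWt) (P.ZM ν (Fin 0) (P.ch ν k D g d) M)) := G.i M

/-- restrictions of equivariant classes -/
abbrev Lf := Lz.Lf (fun M => (h.lv M).inc (h.lv (M + 1))) G.iM (chiA a)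

include hP

theorem i_eq (M : ℕ) : G.iM M = (h.lv M).i.comp (pr (G.φ hP h : C(_, _)) M) :=
  ContinuousMap.ext fun z => (G.i_φ hP h M z.1 z.2).symm

theorem map_e (M : ℕ) (f : Loc.R σ) : H.map (G.iM M) ((h.lv M).e f) = evA _ M (f ⊗ₜ 1) := by
  haveI := fun M => (h.lv M).nice
  rw [G.i_eq hP h, ← H.map_map, TC.map_i_e h.lv, map_evA, pb_tmul, map_one]

theorem lf_e (i : σ) : G.Lf h (fun M => (h.lv M).e (.X i)) ((a i • tt) ⊗ₜ 1) :=
  ⟨tws_e h.lv i, .X i ⊗ₜ 1, fun M => G.map_e hP h M _, by rw [bc_tmul, chiA_X]⟩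

theorem lf_psi (n : ν) : G.Lf h (fun _ => hcls (psiF (.inl n))) (inF _ (τ.ψ n)) :=
  let ⟨x, b, c⟩ := G.psi n
  ⟨h.psi_tws _, inH _ x, c, by rw [← b, inF_bc]⟩

theorem lf_ev (t : TG P a) (n : ν) {α y} (e : Lz.Lf t.k t.i (chiA a) α y) :
    G.Lf h (fun M => H.map (h.evM M (.inl n)) (α M)) (pb F (τ.ev n) y) := by
  refine e.pull _ (fun M z => ?_) fun M =>
    DFunLike.congr_fun (G.ev1 t (h.gzM M) n fun _ b => vl_mem b.1 _)
  obtain ⟨x, hx, p, rfl⟩ := (h.lv M).cl_surj z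
  rw [TC.Lv.inc_cl]
  exact (t.k_mk M p (vl x (.inl n)).2 _).2.symm

theorem lf_ev2 (t : TG P a) (n n' : ν) {α y}
    (e : Lz.Lf (fun M => (P.k3 M).q) t.i2 (chiA a) α y) :
    G.Lf h (fun M => H.map ((h.gzM M).eqh_vl2 (.inl n) (.inl n')).toEqv.qm (α M))
      (pb F ((τ.ev n).prodMk (τ.ev n')) y) := by
  refine e.pull _ (fun M z => ?_) fun M => DFunLike.congr_fun (G.ev2 t (h.gzM M) n n')
  obtain ⟨x, hx, p, rfl⟩ := (h.lv M).cl_surj z
  rw [TC.Lv.inc_cl]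
  rfl

variable {Q : AM1 R J ν → Prop} (hQ : ∀ m m', m.Same m' → Q m → Q m')
include hQ

omit hP in
theorem mem_sl {M : ℕ} {y : P.XM ν k D g d M} {l m} (e : (P.EM M).At y (par l m)) :
    y ∈ (P.EM M).sel (fun m => Q (par Empty.elim m)) ↔ Q m :=
  let ⟨_, b, c⟩ := e
  b ▸ (Fam.mem_sel (P := fun m => Q (par Empty.elim m)) (fun _ _ e => hQ _ _ e.same) c).trans
    ⟨hQ _ _ (AM.Same.refl m), hQ _ _ (AM.Same.refl m)⟩

theorem clopen_sl (M : ℕ) :
    IsClopen ((P.EM M).sel (fun m => Q (par Empty.elim m)) : Set (P.XM ν k D g d M)) :=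
  Fam.isClopen_sel_of_same hP.bigD_fam fun _ _ e => hQ _ _ e

omit hP in
theorem pre_sel (M : ℕ) :
    G.i M ⁻¹' (P.EM M).sel (fun m => Q (par Empty.elim m)) = Prod.fst ⁻¹' τ.sel Q :=
  Set.ext fun ⟨z, b⟩ => by
    obtain ⟨p, rfl⟩ := isOpenQuotientMap_bp.surjective b
    obtain ⟨m, hm⟩ := τ.ex z
    exact (mem_sl hQ (G.pt M z p m hm)).trans
      ⟨fun e => ⟨m, hm, e⟩, fun ⟨_, r, e⟩ => hQ _ _ ((τ.iso r).1 hm).same e⟩

include G in
/-- properties of the numerical type select open and closed parts -/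
theorem clopen_sm : IsClopen (τ.sel Q) :=
  have c := (clopen_sl hP hQ 0).preimage (G.i 0).continuous
  (G.pre_sel hQ 0 ▸ c).preimage (.prodMk_left (bp ⟨1, fun _ => one_ne_zero⟩ : Bs σ 0))

theorem lf_same : G.Lf h (fun M => hcls (fn (((P.EM M).sel fun m => Q (par Empty.elim m) :
    Set (P.XM ν k D g d M)).indicator 1))) (inF _ (τ.id Q)) := by
  refine ⟨Tws.of (fun M => map_ind _ (clopen_sl hP hQ _) (Set.ext fun z => ?_))
    fun M => hcls_isDeg (isDeg_fn _), 1 ⊗ₜ hcls (fn ((τ.sel Q).indicator 1)), fun M => ?_,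
    by rw [bc_tmul, map_one]; rfl⟩
  · obtain ⟨x, hx, p, rfl⟩ := (h.lv M).cl_surj z
    obtain ⟨m, r⟩ := (Fam.chart_lat (F := P.E) hP.bigD).exists_rep_sol hx.1
    have e := (h.lv M).inc_cl (h.lv (M + 1)) x hx p
    exact (mem_sl hQ (M := M + 1) ⟨⟨_, (h.lv (M + 1)).mem_pm hx p.inc⟩, e,
      rep_μA.2 r⟩).trans (mem_sl hQ ⟨⟨_, (h.lv M).mem_pm hx p⟩, rfl, rep_μA.2 r⟩).symm
  · rw [evA_tmul, map_one, map_one, one_mul, map_ind _ (G.clopen_sm hP hQ) rfl]
    exact map_ind (G.i M) (clopen_sl hP hQ M) (G.pre_sel hQ M)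

omit hQ

theorem loc_lf (ha : LinearIndependent ℚ a) {α y} (e : G.Lf h α y) : ∃ Q : Polynomial ℂ,
    Polynomial.aeval tt Q = τ.I y ∧ Q.coeff 0 = intg h.tc.β₀ (H.map (h.lv 0).base (α 0)) := by
  haveI := fun M => (h.lv M).nice
  obtain ⟨b, x, c, rfl⟩ := e
  obtain ⟨Q, u, v⟩ := TC.loc h.lv (chiA_lin_ne ha) (G.isLoc hP h ha) b
    (x := pb _ ((G.φ hP h).symm : C(_, _)) x) fun M => by
      rw [← map_evA, ← c, H.map_map]
      exact congrArg (H.map · _) (ContinuousMap.ext fun z => (congrArg (fun t => (h.lv M).i (t, z.2))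
        ((G.φ hP h).apply_symm_apply _).symm).trans (G.i_φ hP h M _ _))
  obtain ⟨q, r, s⟩ := exists_poly a Q
  refine ⟨q, r.trans (u.trans (congrArg τ.I ?_)), s.trans v⟩
  rw [bc_pb, AlgHom.toLinearMap_apply, pb_pb, Homeomorph.symm_comp_toContinuousMap, pb_id]

end Geo

/-- **the global formula** -/
theorem GeoT.hG {T : Th P} (G : GeoT k D a T) (hP : P.Ok K₀ k D) (ha : LinearIndependent ℚ a)
    (t : TG P a) : HG t T := fun ν _ g d =>
  let ⟨_, h⟩ := hP.exists_as ν g d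
  ⟨lfA (fun M => (h.lv M).inc (h.lv (M + 1))) (G ν g d).iM (chiA a),
    fun _ ⟨_, e⟩ => ((G ν g d).loc_lf hP h ha e).imp fun _ b => b.1,
    fun i => ⟨_, (G ν g d).lf_e hP h i⟩, fun n => ⟨_, (G ν g d).lf_psi hP h n⟩,
    fun n _ ⟨_, e⟩ => ⟨_, (G ν g d).lf_ev hP h t n e⟩, fun n n' =>
      let ⟨_, e⟩ := t.lf_dg hP
      ⟨_, (pb_inF _ t.dg).subst (motive := (G ν g d).Lf h _) ((G ν g d).lf_ev2 hP h t n n' e)⟩,
    ⟨_, (G ν g d).lf_same hP h fun _ _ => AM.Same.conn⟩⟩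

end Vale.Agent.P269.Lz
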