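import Vale.Agent.P287Q.Lz.FxA
import Vale.Agent.P269.Pt.Split
import Vale.Agent.P269.Pt.Cmp
import Vale.Agent.P269.Pt.Glue
import Mathlib.Dynamics.PeriodicPts.Lemmas

/-! Fixed maps are strongly fixed; being strongly fixed is a local condition. -/

set_option linter.unusedSectionVars false

namespace Vale.Agent.P269.Lz

open Set Function Topology Filter Cv

variable {R J K σ ν ν' ν₁ ν₂ : Type} [Fintype R] [Fintype J] [Fintype K] [Fintype σ] [Fintype ν]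
  [Fintype ν'] [Fintype ν₁] [Fintype ν₂] {F : Fam Empty Empty R J K} {W : Wt Empty Empty R J}
  {wt : J → σ → ℤ} {m m' m'' : AM1 R J ν} {ρ ρ' : σ → R → ℤ} {z z' : m.X} {c c' : J → ℂ}
  {T : Set (σ → R → ℤ)}

theorem finite_spc (m : AM1 R J ν) : {z | Spc m z}.Finite :=
  ((finite_range m.p).union ((m.N.finite_toSet.image Prod.fst).union
    (m.N.finite_toSet.image Prod.snd))).subset fun _ hz => hz.imp id fun a => by_contra fun b =>
      a fun n hn => ⟨fun e => b (.inl ⟨n, hn, e⟩), fun e => b (.inr ⟨n, hn, e⟩)⟩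

theorem exists_p_iff : (∃ n, m.p n = z) ↔ ∃ n, m.p (.inl n) = z :=
  ⟨fun ⟨n, h⟩ => by
    rcases n with n | ⟨q, -⟩
    exacts [⟨n, h⟩, q.elim0], fun ⟨n, h⟩ => ⟨_, h⟩⟩

theorem spc_iff : Spc m z ↔ (∃ n, m.p (.inl n) = z) ∨ ¬Sm m.N z := or_congr_left exists_p_iff

theorem spc_p (n : Ch.Mk ν (Fin 0)) : Spc m (m.p n) := .inl ⟨n, rfl⟩

theorem spc_jn (h : Jn m.N z z') : Spc m z := .inr fun a => sm_iff.1 a _ h

theorem Vx.ov (h : z ∈ Vx W wt m ρ) : Ov W wt m z ρ := h z mem_connectedComponent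

theorem mem_Vx_congr (h : z' ∈ connectedComponent z) : z' ∈ Vx W wt m ρ ↔ z ∈ Vx W wt m ρ := by
  simp only [Vx, mem_ofPred_eq, connectedComponent_eq h]

theorem onV_congr (h : z' ∈ connectedComponent z) : OnV W wt m z' ↔ OnV W wt m z :=
  exists_congr fun _ => mem_Vx_congr h

theorem clopen_of_cc {U : Set m.X} (h : ∀ x, ∀ y ∈ connectedComponent x, y ∈ U ↔ x ∈ U) :
    IsClopen U :=
  ⟨⟨isOpen_iff_mem_nhds.2 fun z hz => mem_of_superset
      ((clopen_cc m z).isOpen.mem_nhds mem_connectedComponent) fun z' hz' a => hz ((h z z' hz').1 a)⟩,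
    isOpen_iff_mem_nhds.2 fun z hz => mem_of_superset
      ((clopen_cc m z).isOpen.mem_nhds mem_connectedComponent) fun z' hz' => (h z z' hz').2 hz⟩

theorem clopen_Vx (ρ : σ → R → ℤ) : IsClopen (Vx W wt m ρ) := clopen_of_cc fun _ _ => mem_Vx_congr

theorem clopen_onV : IsClopen {z | OnV W wt m z} := clopen_of_cc fun _ _ => onV_congr

theorem disjoint_Vx (h : Free F) (hs : m.Sol F) (hi : ρ ≠ ρ') :
    Disjoint (Vx F.toWt wt m ρ) (Vx F.toWt wt m ρ') :=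
  disjoint_left.2 fun _ a b => hi ((Vx.ov a).unique h hs (Vx.ov b))

theorem vert_univ : Vert W wt m univ ↔ ∀ z, OnV W wt m z :=
  forall_congr' fun _ => exists_congr fun _ => and_iff_right trivial

theorem vert_single : Vert W wt m {ρ} ↔ ∀ j, nw W wt ρ j ≠ 0 → m.y j = 0 :=
  ⟨fun h l hl => funext fun z => let ⟨_, a, b⟩ := h z; Vx.ov b l (a ▸ hl),
    fun h _ => ⟨ρ, rfl, fun z _ l hl => congrFun (h l hl) z⟩⟩

theorem Vert.mono {T' : Set (σ → R → ℤ)} (h : Vert W wt m T) (e : T ⊆ T') : Vert W wt m T' :=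
  fun z => (h z).imp fun _ a => ⟨e a.1, a.2⟩

theorem Vert.sat (hF : Free F) (hs : m.Sol F) (h : Vert F.toWt wt m T) (ρ : σ → R → ℤ) :
    m.Sat (Vx F.toWt wt m ρ) :=
  ⟨clopen_Vx ρ, fun _ a y b =>
    let ⟨_, _, c⟩ := h y; (Vx.ov c).unique hF hs ((Vx.ov a).jn hs.2.1 b) ▸ c⟩

/-- a connected curve of vertices has one label -/
theorem Vert.single (hF : Free F) (hs : m.Sol F) (hc : m.Conn) (h : Vert F.toWt wt m T)
    (a : Ov F.toWt wt m z ρ) : Vert F.toWt wt m {ρ} := fun x => by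
  obtain ⟨_, -, b⟩ := h z
  obtain rfl := (Vx.ov b).unique hF hs a
  exact ⟨_, rfl, ((AC.conn_iff_sat.1 hc).2 _ (h.sat hF hs _)).resolve_left
    (Nonempty.ne_empty ⟨z, b⟩) ▸ mem_univ x⟩

/-! ### Transport of the combinatorics -/

/-- `m₁` has the combinatorics of a union of components of `m` -/
structure Tr (m₁ : AM1 R J ν₁) (m : AM1 R J ν) (f : ν₁ → ν) (j : m₁.X → m.X) : Prop where
  liso : LIso m₁.R m.R j
  inj : Injective j
  node : ∀ x z, Jn m.N (j x) z ↔ ∃ y, Jn m₁.N x y ∧ z = j y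
  mark : ∀ n, j (m₁.p (.inl n)) = m.p (.inl (f n))
  all : ∀ n x, m.p (.inl n) = j x → ∃ n', n = f n'
  L : ∀ r U, IsClopen U → degOn (m.L r) (j '' U) = degOn (m₁.L r) U
  y : ∀ l x, m.y l (j x) = 0 ↔ m₁.y l x = 0

namespace Tr

variable {m₁ : AM1 R J ν₁} {f : ν₁ → ν} {j : m₁.X → m.X} (h : Tr m₁ m f j) {x y : m₁.X}
include h

theorem cc (x : m₁.X) : connectedComponent (j x) = j '' connectedComponent x :=
  ((h.liso.isClopen_image (clopen_cc m₁ x)).connectedComponent_subset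
    (mem_image_of_mem j mem_connectedComponent)).antisymm
    (h.liso.cont.image_connectedComponent_subset x)

theorem forall_cc {p : m.X → Prop} :
    (∀ z ∈ connectedComponent (j x), p z) ↔ ∀ z ∈ connectedComponent x, p (j z) := by
  rw [h.cc, forall_mem_image]

theorem mem_cc : j y ∈ connectedComponent (j x) ↔ y ∈ connectedComponent x := by
  rw [h.cc, h.inj.mem_set_image]

theorem ov : Ov W wt m (j x) ρ ↔ Ov W wt m₁ x ρ := forall₂_congr fun l _ => h.y l x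

theorem vx : j x ∈ Vx W wt m ρ ↔ x ∈ Vx W wt m₁ ρ :=
  h.forall_cc.trans (forall₂_congr fun _ _ => h.ov)

theorem onV : OnV W wt m (j x) ↔ OnV W wt m₁ x := exists_congr fun _ => h.vx

theorem pre_vx : j ⁻¹' Vx W wt m ρ = Vx W wt m₁ ρ := Set.ext fun _ => h.vx

theorem image_vx : j '' Vx W wt m₁ ρ = Vx W wt m ρ ∩ range j := by
  rw [← h.pre_vx, image_preimage_eq_inter_range]

theorem sm : Sm m.N (j x) ↔ Sm m₁.N x := by
  simp only [sm_iff, h.node]
  exact ⟨fun a y b => a _ ⟨y, b, rfl⟩, fun a _ ⟨y, b, _⟩ => a y b⟩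

theorem jn : Jn m.N (j x) (j y) ↔ Jn m₁.N x y :=
  (h.node x _).trans ⟨fun ⟨_, a, e⟩ => h.inj e ▸ a, fun a => ⟨y, a, rfl⟩⟩

theorem inj_f : Injective f := fun n n' a =>
  Sum.inl_injective (m₁.inj (h.inj (by rw [h.mark, h.mark, a])))

theorem p_eq {n : ν₁} : m.p (.inl (f n)) = j x ↔ m₁.p (.inl n) = x := by
  rw [← h.mark, h.inj.eq_iff]

theorem spc : Spc m (j x) ↔ Spc m₁ x := by
  rw [spc_iff, spc_iff, h.sm]
  refine or_congr_left ⟨fun ⟨n, a⟩ => ?_, fun ⟨n, a⟩ => ⟨f n, h.p_eq.2 a⟩⟩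
  obtain ⟨n, rfl⟩ := h.all n x a
  exact ⟨n, h.p_eq.1 a⟩

theorem cm (n : ν₁) : Cm W wt m (f n) ρ ↔ Cm W wt m₁ n ρ := by rw [Cm, ← h.mark, h.ov, Cm]

theorem onV_p (n : ν₁) : OnV W wt m (m.p (.inl (f n))) ↔ OnV W wt m₁ (m₁.p (.inl n)) := by
  rw [← h.mark, h.onV]

theorem vert (hj : Surjective j) : Vert W wt m T ↔ Vert W wt m₁ T :=
  hj.forall.trans (forall_congr' fun _ => exists_congr fun _ => and_congr_right fun _ => h.vx)

end Tr

theorem tr_emb {m₁ : AM1 R J ν₁} {f : ν₁ → ν} {ψ : Fin 0 → Fin 0} {j : m₁.X → m.X}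
    (h : AM.Emb m₁ m f ψ j) : Tr m₁ m f j :=
  ⟨h.liso, h.inj, h.node, h.mark_inl, fun _ _ a => let ⟨n, b, _⟩ := h.eq_inl a.symm; ⟨n, b⟩,
    fun r _ hU => (h.degOn_L r hU).symm, fun l x => by rw [h.y]⟩

theorem tr_iso {e : m.X ≃ m'.X} {t τ} (h : AM.IsoD W univ m m' e t τ) : Tr m m' id e :=
  ⟨h.liso, e.injective, AM.CmpP.node h, fun _ => h.mark _, fun n _ _ => ⟨n, rfl⟩,
    fun r U _ => h.degOn_L r U, fun l x => by
      rw [isoD_y h]
      exact mul_eq_zero.trans (or_iff_right (prod_zpow_ne (fun i => h.ne i x) _))⟩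

theorem tr_rl (m : AM1 R J ν) (φ : ν' ≃ ν) : Tr (rl m φ) m φ id :=
  ⟨LIso.id _, injective_id, fun _ _ => ⟨fun a => ⟨_, a, rfl⟩, fun ⟨_, a, b⟩ => b ▸ a⟩, fun _ => rfl,
    fun n _ _ => ⟨φ.symm n, (φ.apply_symm_apply n).symm⟩, fun r U _ => by rw [image_id],
    fun _ _ => Iff.rfl⟩

/-! ### Isomorphisms with a given underlying map -/

variable (W m m') in
/-- an isomorphism with underlying map `e` -/
def IsoE (e : m.X ≃ m'.X) : Prop := ∃ t, AM.IsoD W univ m m' e t 1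

theorem isoE_mk {e : m.X ≃ m'.X} {t : R → m.X → ℂ} (h : LIso m.R m'.R e)
    (hN : ∀ x y, Jn m.N x y ↔ Jn m'.N (e x) (e y)) (hp : ∀ n, e (m.p n) = m'.p n)
    (ht : ∀ i, t i ∈ H0 m.N (h.pb (m'.L i) / m.L i)) (t0 : ∀ i x, t i x ≠ 0)
    (hy : ∀ j x, m'.y j (e x) = (∏ r, t r x ^ W.w j r) * m.y j x) :
    AM.IsoD W univ m m' e t 1 :=
  ⟨h, isUnit_one, hN, hp, ht, t0, fun _ q => q.elim0, Subsingleton.elim _ _,
    fun j _ x => (hy j x).trans (actT_snd (W := W) (fun r => t r x) 1 (m.vl x) j).symm⟩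

theorem iso_iff_isoE : AM.Iso W univ m m' ↔ ∃ e, IsoE W m m' e :=
  AM.iso_iff.trans (exists_congr fun _ => ⟨fun ⟨t, τ, h⟩ => ⟨t, Subsingleton.elim τ 1 ▸ h⟩,
    fun ⟨t, h⟩ => ⟨t, 1, h⟩⟩)

theorem IsoE.tr {e : m.X ≃ m'.X} (h : IsoE W m m' e) : Tr m m' id e := tr_iso h.choose_spec

theorem IsoE.trans {e : m.X ≃ m'.X} {e' : m'.X ≃ m''.X} (h : IsoE W m m' e) (h' : IsoE W m' m'' e') :
    IsoE W m m'' (e.trans e') := by
  obtain ⟨t, h⟩ := h
  obtain ⟨t', h'⟩ := h'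
  refine ⟨fun i => (fun x => t' i (e x)) * t i, isoE_mk (h'.liso.comp h.liso)
    (fun x y => (h.node x y).trans (h'.node _ _))
    (fun n => (congrArg e' (h.mark n)).trans (h'.mark n)) (fun i => ?_)
    (fun i x => mul_ne_zero (h'.ne i _) (h.ne i _)) fun j x => ?_⟩
  · have := H0.mul_mem ((h.liso.mem0_iff h.node).2 (h'.mem i)) (h.mem i)
    rwa [map_div, div_mul_div_cancel] at this
  · simp only [Equiv.trans_apply, isoD_y h', isoD_y h, Pi.mul_apply, mul_zpow,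
      Finset.prod_mul_distrib, mul_assoc]

theorem IsoE.symm {e : m.X ≃ m'.X} (h : IsoE W m m' e) : IsoE W m' m e.symm := by
  obtain ⟨t, h⟩ := h
  refine ⟨fun i => (fun y => t i (e.symm y))⁻¹, isoE_mk (h.liso.symm e) (jn_symm h.node)
    (fun n => e.symm_apply_eq.2 (h.mark n).symm) (fun i => ?_)
    (fun i x => inv_ne_zero (h.ne i _)) fun j x => ?_⟩
  · have := H0.inv_mem (((h.liso.symm e).mem0_iff (jn_symm h.node)).2 (h.mem i)) fun x => h.ne i _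
    rwa [map_div, h.liso.pb_symm, inv_div] at this
  · obtain ⟨x, rfl⟩ := e.surjective x
    simp only [isoD_y h, e.symm_apply_apply, Pi.inv_apply, inv_zpow, Finset.prod_inv_distrib]
    rw [inv_mul_cancel_left₀ (prod_zpow_ne (fun i => h.ne i x) (W.w j))]

theorem IsoE.tor {e : m.X ≃ m'.X} (h : IsoE W m m' e) (c : J → ℂ) :
    IsoE W (tor c m) (tor c m') e :=
  let ⟨t, h⟩ := h
  ⟨t, isoE_mk (m := Lz.tor c m) (m' := Lz.tor c m') h.liso h.node h.mark h.mem h.ne fun j x =>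
    (congrArg (c j * ·) (isoD_y h j x)).trans (mul_left_comm _ _ _)⟩

theorem IsoE.tor_tor {e : m.X ≃ m'.X} (h : IsoE W m (Lz.tor c (Lz.tor c' m')) e) :
    IsoE W m (Lz.tor (c * c') m') e :=
  let ⟨t, h⟩ := h
  ⟨t, isoE_mk (m' := Lz.tor (c * c') m') h.liso h.node h.mark h.mem h.ne fun j x =>
    (mul_assoc _ _ _).trans (isoD_y h j x)⟩

theorem isoE_one : IsoE W m (tor 1 m) (Equiv.refl _) :=
  ⟨fun _ => 1, isoE_mk (m' := tor 1 m) (LIso.id _) (fun _ _ => Iff.rfl) (fun _ => rfl)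
    (fun i => (div_self' (m.L i)).symm ▸ H0.one_mem) (fun _ _ => one_ne_zero) fun j x => by simp⟩

theorem IsoE.pow {e : Equiv.Perm m.X} (h : IsoE W m (Lz.tor c m) e) (n : ℕ) :
    IsoE W m (Lz.tor (c ^ n) m) (e ^ n : Equiv.Perm m.X) := by
  induction n with
  | zero => rw [pow_zero, pow_zero]; exact isoE_one
  | succ n ih => rw [pow_succ', pow_succ]; exact (h.trans (ih.tor c)).tor_tor

theorem str_iff : Str W wt m ↔ ∀ s : σ → ℂ, (∀ i, ‖s i‖ = 1) → ∃ e,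
    IsoE W m (tor (tc wt s) m) e ∧ (∀ z, Spc m z → e z = z) ∧ ∀ z, e z ∈ connectedComponent z :=
  forall₂_congr fun _ _ => exists_congr fun _ => exists_and_right

theorem Str.fixd (h : Str W wt m) : Fixd W wt m := fun s hs =>
  let ⟨_, _, a, _⟩ := h s hs; a.iso

theorem exists_period {α : Type} {S : Set α} (hS : S.Finite) : ∃ N ≠ 0, ∀ f : α → α,
    Injective f → MapsTo f S S → ∀ x ∈ S, IsPeriodicPt f N x :=
  have := hS.fintype
  ⟨(Fintype.card S).factorial, Nat.factorial_ne_zero _, fun _ hi h x hx =>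
    (h.coe_iterate_restrict ⟨x, hx⟩ _).symm.trans (congrArg Subtype.val (congrFun
      (injective_iff_iterate_factorial_card_eq_id.1 (h.restrict_inj.2 hi.injOn)) ⟨x, hx⟩))⟩

theorem tc_pow (s : σ → ℂ) (n : ℕ) : tc wt s ^ n = tc wt (s ^ n) := funext fun j => by
  rw [Pi.pow_apply, tc, tc, ← Finset.prod_pow]
  exact Finset.prod_congr rfl fun i _ => by
    rw [Pi.pow_apply, ← zpow_natCast, ← zpow_natCast, ← zpow_mul, ← zpow_mul, mul_comm]

/-- **(a)** fixed maps are strongly fixed -/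
theorem Fixd.str (h : Fixd W wt m) : Str W wt m := str_iff.2 fun s hs => by
  obtain ⟨N, N0, hN⟩ := exists_period (finite_spc m)
  obtain ⟨M, M0, hM⟩ := exists_period ((finite_clopen m.R).subset
    (range_subset_iff.2 (clopen_cc m) : range connectedComponent ⊆ _))
  have k : (fun i => s i ^ ((N * M : ℕ) : ℂ)⁻¹) ^ (N * M) = s :=
    funext fun i => Complex.cpow_nat_inv_pow _ (mul_ne_zero N0 M0)
  obtain ⟨e, he⟩ := iso_iff_isoE.1 (h _ fun i => (pow_eq_one_iff_of_nonneg (norm_nonneg _)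
    (mul_ne_zero N0 M0)).1 (by rw [← norm_pow, ← hs i, ← congrFun k i, Pi.pow_apply]))
  have a := he.pow (N * M)
  rw [tc_pow, k] at a
  refine ⟨_, a, fun z hz => ?_, fun z => ?_⟩
  · exact (congrFun (Equiv.Perm.coe_pow e _) z).trans
      ((hN e e.injective (fun x hx => he.tr.spc.2 hx) z hz).mul_const M)
  · have b : ∀ n, e^[n] z ∈ (image e)^[n] (connectedComponent z) := fun n => by
      induction n with
      | zero => exact mem_connectedComponent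
      | succ n ih => rw [iterate_succ_apply', iterate_succ_apply']; exact mem_image_of_mem _ ih
    have d := (hM (image e) e.injective.image_injective (by
      rintro _ ⟨x, rfl⟩
      exact ⟨e x, he.tr.cc x⟩) _ (mem_range_self z)).const_mul N
    exact (congrFun (Equiv.Perm.coe_pow e _) z).symm ▸ d.eq ▸ b _

theorem fixd_iff_str : Fixd W wt m ↔ Str W wt m := ⟨Fixd.str, Str.fixd⟩

/-! ### Locality -/

theorem Str.iso (e : AM.Iso W univ m m') (h : Str W wt m) : Str W wt m' :=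
  Fixd.str fun s hs => e.symm.trans ((h.fixd s hs).trans
    (let ⟨j, a⟩ := iso_iff_isoE.1 e; iso_iff_isoE.2 ⟨j, a.tor _⟩))

/-- the conditions at the nodes and at the marked points are automatic -/
theorem isoD_of_weak (hF : Free F) (hs : m.Sol F) {e : m.X ≃ m.X} {t : R → m.X → ℂ}
    (h : LIso m.R m.R e) (he : ∀ z, Spc m z → e z = z)
    (ht : ∀ i, t i ∈ (h.pb (m.L i) / m.L i).Γ) (t0 : ∀ i x, t i x ≠ 0)
    (hy : ∀ j x, c j * m.y j (e x) = (∏ r, t r x ^ F.w j r) * m.y j x) :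
    AM.IsoD F.toWt univ m (tor c m) e t 1 := by
  refine isoE_mk (m' := tor c m) h (fun x y => ⟨fun a => ?_, fun a => ?_⟩) (fun n => he _ (spc_p n))
    (fun i => mem_H0_iff.2 ⟨ht i, fun x y a => ?_⟩) t0 hy
  · rwa [he x (spc_jn a), he y (spc_jn a.symm)]
  · rwa [e.injective (he _ (spc_jn a)), e.injective (he _ (spc_jn a.symm))] at a
  · refine congrFun (hF.gauge (hs.2.2 x) (t := fun r => t r x) (t' := fun r => t r y)
      (fun r => t0 r x) (fun r => t0 r y) fun j => ?_) i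
    have b := (mem_H0_iff.1 (hs.2.1 j)).2 x y a
    have d := hy j x
    have f := hy j y
    rw [he x (spc_jn a)] at d
    rw [he y (spc_jn a.symm), ← b] at f
    exact d.symm.trans f

/-- a map with vertices only is fixed -/
theorem Vert.str (hF : Free F) (hs : m.Sol F) (h : Vert F.toWt wt m T) : Str F.toWt wt m :=
  fun s s1 => by
    choose ρ _ hρ using h
    have s0 : ∀ i, s i ≠ 0 := fun i => norm_ne_zero_iff.1 (by rw [s1 i]; exact one_ne_zero)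
    refine ⟨Equiv.refl _, fun r x => ∏ i, s i ^ ρ x i r, isoD_of_weak hF hs (LIso.id _)
      (fun _ _ => rfl) (fun r x => ?_) (fun r x => prod_zpow_ne s0 fun i => ρ x i r)
      fun j x => OvP.tc_mul (y := (m.vl x).2) (Vx.ov (hρ x)) s0 j, fun _ _ => rfl,
      fun _ => mem_connectedComponent⟩
    refine (div_self' (m.L r)).symm ▸ ((LB.one_mem x).smul (∏ i, s i ^ ρ x i r)).congr ?_
    refine Eventually.mono ((clopen_cc m x).isOpen.mem_nhds mem_connectedComponent) fun y hy => ?_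
    simp only [(Vx.ov (hρ y)).unique hF hs (hρ x y hy), Pi.smul_apply, Pi.one_apply, smul_eq_mul,
      mul_one]

theorem emb_tor {m₁ : AM1 R J ν₁} {f : ν₁ → ν} {ψ : Fin 0 → Fin 0} {j : m₁.X → m.X}
    (h : AM.Emb m₁ m f ψ j) (c : J → ℂ) : AM.Emb (tor c m₁) (tor c m) f ψ j :=
  ⟨h.liso, h.inj, h.node, h.mark, h.all, h.L, h.l, fun i x => congrArg (c i * ·) (h.y i x)⟩

theorem Str.emb {m₁ : AM1 R J ν₁} {f : ν₁ → ν} {ψ : Fin 0 → Fin 0} {j : m₁.X → m.X}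
    (h : AM.Emb m₁ m f ψ j) (a : Str W wt m) : Str W wt m₁ := fun s s1 => by
  obtain ⟨e, t, b, c, d⟩ := a s s1
  have k := h.liso.isClopen_range
  obtain ⟨e₁, u, v⟩ := h.isoD (emb_tor h _) b (Subset.antisymm
    (image_subset_iff.2 fun x hx => k.connectedComponent_subset hx (d x)) fun x hx => by
      obtain ⟨x, rfl⟩ := e.surjective x
      exact mem_image_of_mem _ (k.connectedComponent_subset hx
        (connectedComponent_eq (d x) ▸ mem_connectedComponent)))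
  exact ⟨e₁, _, v, fun z hz => h.inj ((u z).trans (c _ ((tr_emb h).spc.2 hz))),
    fun z => (tr_emb h).mem_cc.1 (u z ▸ d _)⟩

section split

variable {m₁ : AM1 R J ν₁} {m₂ : AM1 R J ν₂} {φ : ν₁ ⊕ ν₂ ≃ ν} {j₁ : m₁.X → m.X}
  {j₂ : m₂.X → m.X} (h : AM.Split m m₁ m₂ φ e00 j₁ j₂) {g₁ g₂ : ℤ} {d₁ d₂ : R → ℤ}
include h

theorem str_split : Str W wt m ↔ Str W wt m₁ ∧ Str W wt m₂ := by
  refine ⟨fun a => ⟨a.emb h.one, a.emb h.two⟩, fun ⟨a, b⟩ s s1 => ?_⟩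
  obtain ⟨e₁, t₁, a₁, a₂, a₃⟩ := a s s1
  obtain ⟨e₂, t₂, b₁, b₂, b₃⟩ := b s s1
  obtain ⟨e, t, u, v₁, v₂, -⟩ := h.isoD ⟨emb_tor h.one _, emb_tor h.two _, h.compl⟩ a₁ b₁
  exact ⟨e, t, u, h.forall_iff.2
    ⟨fun x hx => (v₁ x).trans (congrArg j₁ (a₂ x ((tr_emb h.one).spc.1 hx))),
      fun x hx => (v₂ x).trans (congrArg j₂ (b₂ x ((tr_emb h.two).spc.1 hx)))⟩, h.forall_iff.2
    ⟨fun x => v₁ x ▸ (tr_emb h.one).mem_cc.2 (a₃ x), fun x => v₂ x ▸ (tr_emb h.two).mem_cc.2 (b₃ x)⟩⟩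

theorem vert_split : Vert W wt m T ↔ Vert W wt m₁ T ∧ Vert W wt m₂ T :=
  h.forall_iff.trans (and_congr
    (forall_congr' fun _ => exists_congr fun _ => and_congr_right fun _ => (tr_emb h.one).vx)
    (forall_congr' fun _ => exists_congr fun _ => and_congr_right fun _ => (tr_emb h.two).vx))

theorem Fx.sum (h₁ : Fx F wt m₁ g₁ d₁) (h₂ : Fx F wt m₂ g₂ d₂) :
    Fx F wt m (g₁ + g₂ - 1) (d₁ + d₂) :=
  ⟨h.sol.2 ⟨h₁.sol, h₂.sol⟩, h.stable.2 ⟨h₁.stable, h₂.stable⟩, h.typ h₁.typ h₂.typ,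
    (str_split h).2 ⟨h₁.str, h₂.str⟩⟩

theorem Fx.split (a : Fx F wt m (g₁ + g₂ - 1) (d₁ + d₂)) (h₁ : m₁.Typ g₁ d₁) :
    Fx F wt m₁ g₁ d₁ ∧ Fx F wt m₂ g₂ d₂ := by
  refine ⟨⟨(h.sol.1 a.sol).1, (h.stable.1 a.stable).1, h₁, ((str_split h).1 a.str).1⟩,
    (h.sol.1 a.sol).2, (h.stable.1 a.stable).2, ⟨?_, fun r => ?_⟩, ((str_split h).1 a.str).2⟩
  · linarith [h.gen_add, a.typ.1, h₁.1]
  · have : deg (m.L r) = d₁ r + d₂ r := a.typ.2 r
    linarith [h.deg_L r, h₁.2 r]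

end split

section rl

variable (φ : ν' ≃ ν) {g : ℤ} {d : R → ℤ}

theorem spc_rl : Spc (rl m φ) z ↔ Spc m z := (tr_rl m φ).spc.symm

theorem cm_rl (n : ν') : Cm W wt (rl m φ) n ρ ↔ Cm W wt m (φ n) ρ := Iff.rfl

theorem vert_rl : Vert W wt (rl m φ) T ↔ Vert W wt m T := Iff.rfl

theorem onV_rl : OnV W wt (rl m φ) z ↔ OnV W wt m z := Iff.rfl

theorem str_rl : Str W wt (rl m φ) ↔ Str W wt m :=
  fixd_iff_str.symm.trans ((forall₂_congr fun s _ =>
    AM.iso_re (m' := tor (tc wt s) m) φ (Equiv.refl _)).trans fixd_iff_str)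

theorem fx_rl : Fx F wt (rl m φ) g d ↔ Fx F wt m g d :=
  ⟨fun a => ⟨a.sol, (AM.re_stable _).1 a.stable, a.typ, (str_rl φ).1 a.str⟩,
    fun a => ⟨a.sol, (AM.re_stable _).2 a.stable, a.typ, (str_rl φ).2 a.str⟩⟩

end rl

/-- the two branches of a normalised node -/
abbrev qq (b : Bool) : ν ⊕ Unit × Bool := .inr ((), b)

section ctp

variable {n : Unit × Bool → m.X} (h : m.Nds n) {g : ℤ} {d : R → ℤ}

theorem ctp_p_inl (a : ν) : (ctp m h).p (.inl (.inl a)) = m.p (.inl a) := rfl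

theorem ctp_p_qq (b : Bool) : (ctp m h).p (.inl (qq b)) = n ((), b) := rfl

theorem sm_ctp : Sm (ctp m h).N z ↔ Sm m.N z ∨ z ∈ range n := by
  simp only [sm_iff, AC.jn_cut h, not_and', ← or_iff_not_imp_left]
  exact forall_or_left.trans or_comm

theorem spc_ctp : Spc (ctp m h) z ↔ Spc m z := by
  refine ⟨?_, ?_⟩
  · rintro (⟨(a | a) | a, rfl⟩ | a)
    exacts [.inl ⟨.inl a, rfl⟩, .inr (h.not_sm a), a.1.elim0, .inr fun b => a ((sm_ctp h).2 (.inl b))]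
  · rintro (⟨a | a, rfl⟩ | a)
    · exact .inl ⟨.inl (.inl a), rfl⟩
    · exact a.1.elim0
    · exact (em (z ∈ range n)).imp (fun ⟨c, e⟩ => ⟨.inl (.inr c), e⟩) fun b c =>
        ((sm_ctp h).1 c).elim a b

theorem cm_ctp (a : ν) : Cm W wt (ctp m h) (.inl a) ρ ↔ Cm W wt m a ρ := Iff.rfl

theorem cm_ctp_qq (hs : m.Sec W) :
    Cm W wt (ctp m h) (qq false) ρ ↔ Cm W wt (ctp m h) (qq true) ρ :=
  forall₂_congr fun l _ => Eq.congr_left ((hs.cut h).2 l ())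

theorem vert_ctp : Vert W wt (ctp m h) T ↔ Vert W wt m T := Iff.rfl

theorem onV_ctp : OnV W wt (ctp m h) z ↔ OnV W wt m z := Iff.rfl

theorem iso_ctp {n' : Unit × Bool → m'.X} (h' : m'.Nds n') {e : m.X ≃ m'.X} {t τ}
    (a : AM.IsoD W univ m m' e t τ) (hn : ∀ b, e (n b) = n' b) :
    AM.IsoD W univ (ctp m h) (ctp m' h') e t τ :=
  (a.cut h h' hn).re _ fun _ q => q.elim0

theorem Str.ctp (a : Str W wt m) : Str W wt (ctp m h) := fun s s1 =>
  let ⟨e, t, b, c, d⟩ := a s s1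
  ⟨e, t, iso_ctp h (m' := tor (tc wt s) m) h b fun q => c _ (.inr (h.not_sm q)),
    fun z hz => c z ((spc_ctp h).1 hz), d⟩

theorem str_ctp (hF : Free F) (hs : m.Sol F) : Str F.toWt wt (ctp m h) ↔ Str F.toWt wt m :=
  ⟨fun a s s1 =>
    let ⟨e, t, b, c, d⟩ := a s s1
    have k : ∀ z, Spc m z → e z = z := fun z hz => c z ((spc_ctp h).2 hz)
    ⟨e, t, isoD_of_weak hF hs b.liso k (fun i => (b.mem i).1) b.ne (isoD_y b), k, d⟩,
    Str.ctp h⟩

theorem card_ctp : (ctp m h).N.card + 1 = m.N.card := AC.card_cut h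

theorem Fx.ctp (a : Fx F wt m (g + 1) d) : Fx F wt (Lz.ctp m h) g d :=
  ⟨((AM.sol_cut h).1 a.sol).1, (AM.re_stable _).2 ((AM.stable_cut h).2 a.stable),
    (AM.typ_cut h).2 a.typ, a.str.ctp h⟩

theorem Fx.of_ctp (hF : Free F) (hs : m.Sol F) (a : Fx F wt (Lz.ctp m h) g d) :
    Fx F wt m (g + 1) d :=
  ⟨hs, (AM.stable_cut h).1 ((AM.re_stable _).1 a.stable), (AM.typ_cut h).1 a.typ,
    (str_ctp h hF hs).1 a.str⟩

end ctp

theorem exists_nds (h : ¬Sm m.N z) : ∃ n : Unit × Bool → m.X, m.Nds n ∧ n ((), true) = z := by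
  obtain ⟨y, a⟩ := not_forall_not.1 (mt sm_iff.2 h)
  refine ⟨fun c => bif c.2 then z else y, ⟨?_, fun _ => a.symm⟩, rfl⟩
  rintro ⟨_, _ | _⟩ ⟨_, _ | _⟩ e
  exacts [rfl, (a.ne m.nd e.symm).elim, (a.ne m.nd e).elim, rfl]

theorem Fx.iso (hF : F.Inv) {g : ℤ} {d : R → ℤ} (e : AM.Iso F.toWt univ m m')
    (a : Fx F wt m g d) : Fx F wt m' g d :=
  ⟨e.sol hF a.sol, e.stable a.stable, e.typ a.typ, a.str.iso e⟩

end Vale.Agent.P269.Lz
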