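import Vale.Agent.P287Q.Lz.Defs
import Vale.Agent.P287Q.Lz.FxB
import Vale.Agent.P287Q.Trr.Sep

/-! The localised relation `ψ_a + ψ_b = D(a | b)`: the statement. -/

set_option linter.unusedSectionVars false

namespace Vale.Agent.P269.Lz

open Set Function Topology Filter TensorProduct B Vale.Agent.P291Z Vale.Agent.P269.Ch
  Vale.Agent.P269.Loc LG

variable {R J K σ ν : Type} [Fintype R] [Fintype J] [Fintype K] [Fintype σ] [Fintype ν]
  {P : TT R J K σ}

/-- two components, `a` on the component of the first branch and `b` on the other one -/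
abbrev SpQ (a b : ν) : AM1 R J (ν ⊕ Unit × Bool) → Prop :=
  AM.Sep (.inl (.inl a)) (.inl (.inl b)) (.inl (qq false)) (.inl (qq true))

/-- the relation for two fixed loci -/
def LRel (δ : F ⊗[ℂ] Hev (P.X × P.X)) {g g' : ℤ} {d : R → ℤ} (τ : Md P ν g d)
    (τ' : Md P (ν ⊕ Unit × Bool) g' d) {A : Type} [TopologicalSpace A] (φ : C(A, τ.A))
    (φ' : C(A, τ'.A)) : Prop :=
  ∀ a b, a ≠ b → IsClopen (τ'.sel (SpQ a b)) ∧ ∀ x x', pb F φ x = pb F φ' x' →
    τ.I (inF _ (τ.id (fun m => m.Conn) * (τ.ψ a + τ.ψ b)) * x) =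
      τ'.I (inF _ (τ'.id (SpQ a b)) * inF _ (τ'.dg δ (qq false) (qq true)) * x')

/-- **the localised recursion relation** -/
def HL (T : Th P) (δ : F ⊗[ℂ] Hev (P.X × P.X)) : Prop :=
  ∀ (ν : Type) [Fintype ν] (d : R → ℤ),
    ∃ (A : Type) (_ : TopologicalSpace A) (_ : Nice A) (_ : CompactSpace A) (φ : C(A, _))
      (φ' : C(A, _)), Nod δ (T ν 0 d) (T (ν ⊕ Unit × Bool) (-1) d) φ φ' ∧
        LRel δ (T ν 0 d) (T (ν ⊕ Unit × Bool) (-1) d) φ φ'

end Vale.Agent.P269.Lz
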