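import Vale.Agent.P287Q.Lz.Pk
import Vale.Agent.P287Q.Alg.Ant

/-! Generating series: products, sums, derivatives. -/

namespace Vale.Agent.P287Q.Lz

open Finset

section cv

variable {R α β γ : Type} [DecidableEq R] [AddCommMonoid β] [AddCommMonoid γ]

theorem cv_congr {Φ Ψ : (R →₀ ℕ) → Multiset α → (R →₀ ℕ) → Multiset α → β} {d : R →₀ ℕ}
    {t : Multiset α} (h : ∀ d₁ t₁ d₂ t₂, d₁ + d₂ = d → t₁ + t₂ = t → Φ d₁ t₁ d₂ t₂ = Ψ d₁ t₁ d₂ t₂) :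
    cv Φ d t = cv Ψ d t := by
  refine sum_congr rfl fun p hp => congrArg _ (Multiset.map_congr rfl fun u hu => ?_)
  exact h _ _ _ _ (mem_antidiagonal.1 hp) (Multiset.mem_antidiagonal.1 hu)

theorem cv_zero (d : R →₀ ℕ) (t : Multiset α) : cv (fun _ _ _ _ => (0 : β)) d t = 0 := by
  simp [cv]

theorem cv_eq_zero {Φ : (R →₀ ℕ) → Multiset α → (R →₀ ℕ) → Multiset α → β} {d : R →₀ ℕ}
    {t : Multiset α} (h : ∀ d₁ t₁ d₂ t₂, d₁ + d₂ = d → t₁ + t₂ = t → Φ d₁ t₁ d₂ t₂ = 0) :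
    cv Φ d t = 0 := (cv_congr h).trans (cv_zero d t)

theorem cv_add (Φ Ψ : (R →₀ ℕ) → Multiset α → (R →₀ ℕ) → Multiset α → β) (d : R →₀ ℕ)
    (t : Multiset α) :
    cv (fun d₁ t₁ d₂ t₂ => Φ d₁ t₁ d₂ t₂ + Ψ d₁ t₁ d₂ t₂) d t = cv Φ d t + cv Ψ d t := by
  simp [cv, Multiset.sum_map_add, sum_add_distrib]

theorem cv_sum {A : Type*} (s : Finset A)
    (Φ : A → (R →₀ ℕ) → Multiset α → (R →₀ ℕ) → Multiset α → β) (d : R →₀ ℕ) (t : Multiset α) :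
    cv (fun d₁ t₁ d₂ t₂ => ∑ a ∈ s, Φ a d₁ t₁ d₂ t₂) d t = ∑ a ∈ s, cv (Φ a) d t := by
  classical
  induction s using Finset.induction_on with
  | empty => simp [cv]
  | insert a s ha ih => simp only [sum_insert ha, cv_add, ih]

theorem map_cv {F : Type*} [FunLike F β γ] [AddMonoidHomClass F β γ] (g : F)
    (Φ : (R →₀ ℕ) → Multiset α → (R →₀ ℕ) → Multiset α → β) (d : R →₀ ℕ) (t : Multiset α) :
    g (cv Φ d t) = cv (fun d₁ t₁ d₂ t₂ => g (Φ d₁ t₁ d₂ t₂)) d t := by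
  simp only [cv, map_sum, map_multiset_sum, Multiset.map_map, Function.comp_def]

theorem cv_swap (Φ : (R →₀ ℕ) → Multiset α → (R →₀ ℕ) → Multiset α → β) (d : R →₀ ℕ)
    (t : Multiset α) : cv (fun d₁ t₁ d₂ t₂ => Φ d₂ t₂ d₁ t₁) d t = cv Φ d t := by
  unfold cv
  rw [Finsupp.sum_antidiagonal_swap d fun a b =>
    (t.antidiagonal.map fun u => Φ a u.1 b u.2).sum]
  refine sum_congr rfl fun p _ => ?_
  conv_rhs => rw [← Multiset.map_swap_antidiagonal, Multiset.map_map]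
  rfl

theorem cv_mem {S : Type*} [SetLike S β] [AddSubmonoidClass S β] (W : S)
    {Φ : (R →₀ ℕ) → Multiset α → (R →₀ ℕ) → Multiset α → β} {d : R →₀ ℕ} {t : Multiset α}
    (h : ∀ d₁ t₁ d₂ t₂, d₁ + d₂ = d → t₁ + t₂ = t → Φ d₁ t₁ d₂ t₂ ∈ W) : cv Φ d t ∈ W := by
  refine sum_mem fun p hp => multiset_sum_mem _ fun x hx => ?_
  obtain ⟨u, hu, rfl⟩ := Multiset.mem_map.1 hx
  exact h _ _ _ _ (mem_antidiagonal.1 hp) (Multiset.mem_antidiagonal.1 hu)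

theorem cv_map {α' : Type} (g : α' → α) (Φ : (R →₀ ℕ) → Multiset α → (R →₀ ℕ) → Multiset α → β)
    (d : R →₀ ℕ) (t : Multiset α') :
    cv Φ d (t.map g) = cv (fun d₁ t₁ d₂ t₂ => Φ d₁ (t₁.map g) d₂ (t₂.map g)) d t := by
  simp only [cv, Alg.antidiagonal_map, Multiset.map_map, Function.comp_def, Prod.map_fst,
    Prod.map_snd]

theorem cv_cons (Φ : (R →₀ ℕ) → Multiset α → (R →₀ ℕ) → Multiset α → β) (d : R →₀ ℕ) (x : α)
    (t : Multiset α) : cv Φ d (x ::ₘ t) = cv (fun d₁ t₁ d₂ t₂ => Φ d₁ (x ::ₘ t₁) d₂ t₂) d t +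
      cv (fun d₁ t₁ d₂ t₂ => Φ d₁ t₁ d₂ (x ::ₘ t₂)) d t := by
  simp only [cv, Multiset.antidiagonal_cons, Multiset.map_add, Multiset.sum_add, Multiset.map_map,
    Function.comp_def, Prod.map_fst, Prod.map_snd, id, sum_add_distrib]
  rw [add_comm]

theorem cv_zero_zero (Φ : (R →₀ ℕ) → Multiset α → (R →₀ ℕ) → Multiset α → β) :
    cv Φ 0 0 = Φ 0 0 0 0 := by
  simp [cv]

/-- the form of the splitting sum that comes from the geometry -/
theorem cv_univ {ν : Type} [Fintype ν] [DecidableEq ν] (x : ν → α)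
    (Φ : (R →₀ ℕ) → Multiset α → (R →₀ ℕ) → Multiset α → β) (d : R →₀ ℕ) :
    cv Φ d (univ.val.map x) =
      ∑ p ∈ antidiagonal d, ∑ T : Finset ν, Φ p.1 (T.val.map x) p.2 (Tᶜ.val.map x) :=
  sum_congr rfl fun p _ => (Alg.sum_finset x fun s t => Φ p.1 s p.2 t).symm

theorem cv_finset {ν : Type} [DecidableEq ν] (s : Finset ν) (x : ν → α)
    (Φ : (R →₀ ℕ) → Multiset α → (R →₀ ℕ) → Multiset α → β) (d : R →₀ ℕ) :
    cv Φ d (s.val.map x) =
      ∑ p ∈ antidiagonal d, ∑ T ∈ s.powerset, Φ p.1 (T.val.map x) p.2 ((s \ T).val.map x) :=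
  sum_congr rfl fun p _ => (Alg.sum_powerset s x fun s t => Φ p.1 s p.2 t).symm

end cv

variable {K H R ι : Type} [Field K]

theorem dgm_add (m n : R ⊕ ι →₀ ℕ) : dgm (m + n) = dgm m + dgm n := by
  rw [dgm, map_add]; rfl

theorem exm_add (m n : R ⊕ ι →₀ ℕ) : exm (m + n) = exm m + exm n := by
  rw [exm, map_add]; rfl

theorem dgm_apply (m : R ⊕ ι →₀ ℕ) (r : R) : dgm m r = m (.inl r) := rfl

theorem exm_apply (m : R ⊕ ι →₀ ℕ) (a : ι) : exm m a = m (.inr a) := rfl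

theorem dgm_zero : dgm (0 : R ⊕ ι →₀ ℕ) = 0 := by rw [dgm, map_zero]; rfl

theorem exm_zero : exm (0 : R ⊕ ι →₀ ℕ) = 0 := by rw [exm, map_zero]; rfl

theorem ins_add (φ : ι → H) (m n : R ⊕ ι →₀ ℕ) : ins φ (m + n) = ins φ m + ins φ n := by
  simp [ins, exm_add]

theorem ins_zero (φ : ι → H) : ins φ (0 : R ⊕ ι →₀ ℕ) = 0 := by simp [ins, exm_zero]

theorem eq_zero_of_dgm_ins (φ : ι → H) {m : R ⊕ ι →₀ ℕ} (h1 : dgm m = 0) (h2 : ins φ m = 0) :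
    m = 0 := by
  have h3 : exm m = 0 := by
    rw [ins, Multiset.map_eq_zero] at h2
    classical
    rw [← Finsupp.toMultiset_toFinsupp (exm m), h2, map_zero]
  ext (r | a)
  · exact DFunLike.congr_fun h1 r
  · exact DFunLike.congr_fun h3 a

theorem fac_eq (m : R ⊕ ι →₀ ℕ) : fac K m = (Alg.fc (exm m) : K) := by
  simp [fac, Alg.fc, Finsupp.prod]

theorem fac_ne [CharZero K] (m : R ⊕ ι →₀ ℕ) : fac K m ≠ 0 := by
  rw [fac_eq]; exact Nat.cast_ne_zero.2 (Alg.fc_ne _)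

theorem fac_zero : fac K (0 : R ⊕ ι →₀ ℕ) = 1 := by simp [fac, exm_zero]

theorem coeff_ser (φ : ι → H) (Φ : (R →₀ ℕ) → Ms H → K) (m : R ⊕ ι →₀ ℕ) :
    MvPowerSeries.coeff m (ser φ Φ) = (fac K m)⁻¹ * Φ (dgm m) (ins φ m) := rfl

theorem constantCoeff_ser (φ : ι → H) (Φ : (R →₀ ℕ) → Ms H → K) :
    MvPowerSeries.constantCoeff (ser φ Φ) = Φ 0 0 := by
  rw [← MvPowerSeries.coeff_zero_eq_constantCoeff_apply, coeff_ser, fac_zero, dgm_zero, ins_zero,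
    inv_one, one_mul]

theorem ser_congr (φ : ι → H) {Φ Ψ : (R →₀ ℕ) → Ms H → K}
    (h : ∀ d (t : Multiset ι), Φ d (t.map fun a => (0, φ a)) = Ψ d (t.map fun a => (0, φ a))) :
    ser φ Φ = ser φ Ψ := by
  ext m
  rw [coeff_ser, coeff_ser, ins, h]

/-- every degree and every multiset of coordinates is given by a monomial -/
theorem exists_mon (d : R →₀ ℕ) (t : Multiset ι) :
    ∃ m : R ⊕ ι →₀ ℕ, dgm m = d ∧ Finsupp.toMultiset (exm m) = t := by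
  classical
  exact ⟨Finsupp.sumFinsuppAddEquivProdFinsupp.symm (d, Multiset.toFinsupp t), by simp [dgm],
    by simp [exm]⟩

theorem ser_inj [CharZero K] (φ : ι → H) {Φ Ψ : (R →₀ ℕ) → Ms H → K} (h : ser φ Φ = ser φ Ψ)
    (d : R →₀ ℕ) (t : Multiset ι) :
    Φ d (t.map fun a => (0, φ a)) = Ψ d (t.map fun a => (0, φ a)) := by
  obtain ⟨m, rfl, rfl⟩ := exists_mon d t
  have := congrArg (MvPowerSeries.coeff m) h
  rw [coeff_ser, coeff_ser] at this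
  exact mul_left_cancel₀ (inv_ne_zero (fac_ne m)) this

theorem ser_zero (φ : ι → H) : ser φ (fun (_ : R →₀ ℕ) _ => (0 : K)) = 0 := by
  ext m; simp [coeff_ser]

theorem ser_add (φ : ι → H) (Φ Ψ : (R →₀ ℕ) → Ms H → K) :
    ser φ (fun d t => Φ d t + Ψ d t) = ser φ Φ + ser φ Ψ := by
  ext m; simp [coeff_ser, mul_add]

theorem ser_sub (φ : ι → H) (Φ Ψ : (R →₀ ℕ) → Ms H → K) :
    ser φ (fun d t => Φ d t - Ψ d t) = ser φ Φ - ser φ Ψ := by
  ext m; simp [coeff_ser, mul_sub]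

theorem ser_smul (φ : ι → H) (c : K) (Φ : (R →₀ ℕ) → Ms H → K) :
    ser φ (fun d t => c * Φ d t) = c • ser φ Φ := by
  ext m; simp [coeff_ser, mul_left_comm]

theorem ser_sum (φ : ι → H) {A : Type*} (s : Finset A) (Φ : A → (R →₀ ℕ) → Ms H → K) :
    ser φ (fun d t => ∑ a ∈ s, Φ a d t) = ∑ a ∈ s, ser φ (Φ a) := by
  ext m; simp [coeff_ser, mul_sum]

/-- The product of two generating series. -/
theorem ser_mul [CharZero K] [DecidableEq R] (φ : ι → H) (Φ Ψ : (R →₀ ℕ) → Ms H → K) :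
    ser φ Φ * ser φ Ψ = ser φ (cv fun d₁ t₁ d₂ t₂ => Φ d₁ t₁ * Ψ d₂ t₂) := by
  classical
  ext m
  let g : ι → ℕ × H := fun a => (0, φ a)
  rw [MvPowerSeries.coeff_mul, coeff_ser, ins, cv_map, cv, mul_sum]
  refine Eq.trans ?_ ((Alg.sum_antidiagonal_sum m fun u v =>
    ((Alg.fc u.2 : K)⁻¹ * (Alg.fc v.2 : K)⁻¹) • (Φ u.1 ((Finsupp.toMultiset u.2).map g) *
      Ψ v.1 ((Finsupp.toMultiset v.2).map g))).trans ?_)
  · refine sum_congr rfl fun p _ => ?_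
    rw [coeff_ser, coeff_ser, fac_eq, fac_eq, smul_eq_mul, mul_mul_mul_comm]
    rfl
  · refine sum_congr rfl fun p _ => ?_
    rw [fac_eq, ← smul_eq_mul]
    exact (Alg.sum_antidiagonal K (fun s t => Φ p.1 (s.map g) * Ψ p.2 (t.map g)) (exm m)).symm

theorem sum_ser_mul [CharZero K] [DecidableEq R] (φ : ι → H) {A : Type*} (s : Finset A)
    (Φ Ψ : A → (R →₀ ℕ) → Ms H → K) :
    ∑ a ∈ s, ser φ (Φ a) * ser φ (Ψ a) =
      ser φ (cv fun d₁ t₁ d₂ t₂ => ∑ a ∈ s, Φ a d₁ t₁ * Ψ a d₂ t₂) := by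
  simp only [ser_mul, ← ser_sum]
  exact ser_congr φ fun d t => (cv_sum s _ d _).symm

theorem pderiv_ser [CharZero K] (φ : ι → H) (Φ : (R →₀ ℕ) → Ms H → K) (a : ι) :
    MvPowerSeries.pderiv K (.inr a) (ser φ Φ) = ser φ fun d t => Φ d ((0, φ a) ::ₘ t) := by
  ext m
  have h1 : dgm (m + Finsupp.single (.inr a) 1) = dgm m := by
    ext r; simp [dgm_apply]
  have h2 : exm (m + Finsupp.single (.inr a) 1) = exm m + Finsupp.single a 1 := by
    classical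
    ext b; simp [exm_apply, Finsupp.single_apply]
  rw [MvPowerSeries.coeff_pderiv, coeff_ser, coeff_ser, h1, fac_eq, fac_eq, ins, ins, h2,
    Alg.fc_add_single, Finsupp.toMultiset_add, Finsupp.toMultiset_single, one_smul,
    add_comm (Finsupp.toMultiset (exm m)),
    Multiset.singleton_add, Multiset.map_cons, exm_apply]
  have h3 : ((m (.inr a) : K) + 1) ≠ 0 := Nat.cast_add_one_ne_zero _
  have h4 : (Alg.fc (exm m) : K) ≠ 0 := Nat.cast_ne_zero.2 (Alg.fc_ne _)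
  push_cast
  field_simp

end Vale.Agent.P287Q.Lz
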