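import Vale.Agent.P287Q.Lz.Cut
import Vale.Agent.P287Q.Lz.HLd
import Vale.Agent.P287Q.Lz.Ser

/-! The localised genus zero correlators as functions of multisets: definitions. -/

set_option linter.unusedSectionVars false

namespace Vale.Agent.P269.Lz

open Set Function Topology Filter TensorProduct Cv B Vale.Agent.P291Z Vale.Agent.P269.Ch
  Vale.Agent.P269.Loc LG

variable {R J K σ ν : Type} [Fintype R] [Fintype J] [Fintype K] [Fintype σ] [Fintype ν]
  {P : TT R J K σ}

/-- all parts of curves have non-negative degrees -/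
def TT.Eff (P : TT R J K σ) : Prop := ∀ (ν : Type) [Fintype ν] (m : AM1 R J ν), m.Sol P.E →
  ∀ r U, IsClopen U → 0 ≤ degOn (m.L r) U

/-- the degree as an integral vector -/
def dz (d : R →₀ ℕ) : R → ℤ := fun r => d r

variable (P) in
/-- connected curves with the marked points in `S` on one vertex -/
def CS (S : Set ν) (m : AM1 R J ν) : Prop := m.Conn ∧ Com P.E.toWt P.wt m S

variable (P) in
/-- moreover the vertex has `k` tails -/
def ES (k : ℕ) (S : Set ν) (m : AM1 R J ν) : Prop :=
  CS P S m ∧ ∀ a ∈ S, ntl P.E.toWt P.wt m a = k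

variable (T : Th P) (δ : F ⊗[ℂ] Hev (P.X × P.X)) (I : F ⊗[ℂ] H P.X →ₗ[F] F)

/-- three marked points in degree zero -/
def HZ : Prop := ∃ u : C(P.X, (T (Fin 3) 0 0).A), (∀ n, ((T (Fin 3) 0 0).ev n).comp u = .id _) ∧
  ∀ x, (T (Fin 3) 0 0).I (inF _ ((T (Fin 3) 0 0).id fun m => m.Conn) * x) = I (pb F u x)

/-- all hypotheses on a system of fixed loci -/
structure Hp [DecidableEq R] {A : Type} [Fintype A] (e f : A → F ⊗[ℂ] H P.X) : Prop
    extends Hy T δ where
  eff : P.Eff
  hL : HL T δ
  hZ : HZ T I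
  dec : inF _ δ = ∑ b, pb F .fst (e b) * pb F .snd (f b)
  cas : ∀ y, ∑ b, I (y * e b) • f b = y
  ev : ∀ x, I (((parH _).bc F).σ x) = I x

/-- weights depending on a tagging of the marked points -/
abbrev Wg (P : TT R J K σ) : Type 1 := ∀ (ν : Type) [Fintype ν] (d : R → ℤ) (τ : Md P ν 0 d),
  (ν → Bool) → F ⊗[ℂ] Hev τ.A

/-- the weight of `C` -/
noncomputable def wC : Wg P := fun _ _ _ τ b => τ.id (CS P {n | b n})

/-- the weight of `E` -/
noncomputable def wE (k : ℕ) : Wg P := fun _ _ _ τ b => τ.id (ES P k {n | b n})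

/-- the weight of `T` -/
noncomputable def wT (j : ℕ) : Wg P := fun _ _ _ τ b =>
  τ.id (fun m => m.Conn) * ∏ n, bif b n then iv (-τ.ψ n) ^ (j + 1) else 1

variable (P) in
/-- tagged insertions -/
abbrev Tg : Type := Bool × ℕ × HH P

/-- the number for a family of tagged insertions -/
noncomputable def nm (w : Wg P) (d : R →₀ ℕ) (X : ν → Tg P) : F :=
  (T ν 0 (dz d)).Je (w ν _ (T ν 0 (dz d)) (fun n => (X n).1) * (T ν 0 (dz d)).ins fun n => (X n).2)

/-- the number for a multiset of tagged insertions -/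
noncomputable def Nm (w : Wg P) (d : R →₀ ℕ) (u : Multiset (Tg P)) : F := nm T w d u.toList.get

/-- tagging -/
def tag {α : Type} (s t : Multiset α) : Multiset (Bool × α) :=
  s.map (Prod.mk true) + t.map (Prod.mk false)

/-- the insertions on a part of a splitting, `y` at the node -/
def op {α ν : Type} (p : ν → Prop) (y : α) (X : ν → α) (o : Option {a // p a}) : α :=
  o.elim y fun a => X a.1

/-- the weight is compatible with relabelling -/
def Rl (w : Wg P) : Prop := ∀ (ν ν' : Type) [Fintype ν] [Fintype ν'] (φ : ν' ≃ ν) (d : R →₀ ℕ)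
  (X : ν → Tg P), nm T w d (X ∘ φ) = nm T w d X

/-- correlators -/
noncomputable def pC (d : R →₀ ℕ) (s t : Multiset (ℕ × HH P)) : F := Nm T wC d (tag s t)

/-- correlators with a given number of tails -/
noncomputable def pE (d : R →₀ ℕ) (k : ℕ) (s t : Multiset (ℕ × HH P)) : F :=
  Nm T (wE k) d (tag s t)

/-- tails -/
noncomputable def pT (j : ℕ) (d : R →₀ ℕ) (y : HH P) (t : Multiset (ℕ × HH P)) : F :=
  Nm T (wT j) d (tag {(0, y)} t)

end Vale.Agent.P269.Lz
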