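import Vale.Agent.P287Q.Lz.Glob0
import Vale.Agent.P287Q.Lz.Hy
import Vale.Agent.P287Q.Lz.Dg3
import Vale.Agent.P287Q.Lz.Amb
import Vale.Agent.P287Q.Lam.SyB
import Vale.Agent.P287Q.G.Br.Fund
import Vale.Agent.P287Q.G.Bas.Supp
import Vale.Agent.P287Q.G.Prj.TgtM
import Vale.Agent.P287Q.H3.Brg

/-! Global correlators of classes of non-zero total weight vanish. -/

set_option linter.unusedSectionVars false
set_option linter.style.haveILetI false
set_option maxSynthPendingDepth 3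

namespace Vale.Agent.P269.Lz

open Set Function Topology Filter TensorProduct B Vale.Agent.P291Z Vale.Agent.P269.Ch
  Vale.Agent.P269.Loc LG P287Q.Glob

variable {R J K σ ν : Type} [Fintype R] [Fintype J] [Fintype K] [Fintype σ] [Fintype ν]
  [DecidableEq R] [DecidableEq σ] {P : TT R J K σ} {K₀ : RD R} {k D : ℕ} {g : ℤ} {d : R → ℤ}
  {a : σ → ℂ} {τ : Lz.Md P ν g d}

section chart

variable {ι : Type} [Fintype ι] [DecidableEq ι] {ch : Ch ι J} {e : K → ι → ℕ} {ℓ : R → ι → ℤ}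
  {O : Set (ch.WF ν (Fin 0) Empty)} {N : ℕ} (h : P.Am e K₀ ℓ O N)

/-- classes whose equivariant integrals vanish do not contribute -/
theorem TT.Am.loc_zero (ha : LinearIndependent ℚ a) {A : Type} [TopologicalSpace A] [Nice A]
    [CompactSpace A] [∀ M, Nice (Quo (actF (P.EM M).toWt) (P.ZM ν (Fin 0) ch M))]
    {j : C(A, h.tc.Y.X)}
    {i : ∀ M, C(A × Bs σ M, Quo (actF (P.EM M).toWt) (P.ZM ν (Fin 0) ch M))}
    {β : ∀ M, BM (Quo (actF (P.EM M).toWt) (P.ZM ν (Fin 0) ch M))}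
    {α : ∀ M, H (Quo (actF (P.EM M).toWt) (P.ZM ν (Fin 0) ch M))}
    {I : F ⊗[ℂ] H A →ₗ[F] F} {x : Loc.R σ ⊗[ℂ] H A}
    (hp : Pc h.tc.h.toTS h.tc.k.Zs (fun M => (h.lv M).j) j i)
    (hr : h.tc.Y.π '' (h.tc.h.toTS.Fix ∩ h.tc.k.Zs) ⊆ range j) (hI : IsLoc (chiA a) β i I)
    (hx : ∀ M, H.map (i M) (α M) = evA _ M x)
    (h0 : ∀ M f, intg (β M) (α M * (h.lv M).e f) = 0) : I (bc _ (chiA a) x) = 0 := by
  haveI := fun M => (h.lv M).compactSpace
  have S := hp.sy (k := fun M => (h.lv M).inc (h.lv (M + 1))) (chiA_lin_ne ha) hr fun M =>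
    (h.lv M).j_inc _
  refine (S.loc hI hx (rep_zero.congr fun M f => ?_)).symm.trans (map_zero _)
  rw [eb_bs]
  exact h0 M f

theorem TT.Am.ww (hI : P287Q.H3.Inp) (hc : P287Q.H3.StC1) {M : ℕ}
    (z : GZ (P.EM M) ℓ (P.ZM ν (Fin 0) ch M))
    (an : ∀ x ∈ P.ZM ν (Fin 0) ch M, P287Q.H3.An (P.ZM ν (Fin 0) ch M) x) {w : ℤ}
    {c α : H (Quo (actF (P.EM M).toWt) (P.ZM ν (Fin 0) ch M))} (h0 : H.IsDeg 0 c)
    (h1 : α ∈ Sf (P.EM M) (P.ZM ν (Fin 0) ch M) w) (f : Loc.R σ) :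
    (show H (P287Q.H3.zsp z.toOZ).X from c * α * (h.lv M).e f) ∈
      Ww (P287Q.H3.zsp z.toOZ) (P287Q.H3.zvl z.toOZ) w := by
  haveI := z.act
  refine Ww.mul_poly hI.mul (Y := P287Q.H3.zsp z.toOZ) (h.lv M).e (fun i => ?_)
    (Ww.ty_mul hI.mul (Sf.ww hI.fac z an h1) (P287Q.H3.ty_deg0 hI.zero h0)) f
  exact mem_of_eq_of_mem
    (s := {u | P287Q.H3.Ty (P287Q.H3.zvl z.toOZ) (P287Q.H3.zsp z.toOZ).π 1 1 u}) ((h.lv M).e_X i)
    (ty_lcq hc z.orb an (c := fun b => b.1 i) ⟨rfl, fun _ _ _ _ => rfl, fun _ _ =>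
      ((continuous_apply i).comp continuous_fst).continuousAt⟩
      (((ContinuousLinearMap.proj i : (σ → ℂ) →L[ℂ] ℂ).analyticAt _).comp analyticAt_fst))

end chart

/-- classes of weight `w` on the Borel construction of the target -/
noncomputable abbrev TT.Wc (P : TT R J K σ) (w : ℤ) (M : ℕ) : Submodule ℂ (H (P.XE M)) :=
  P287Q.Glob.Wc (Subtype.val : (P.EM M).cone → _) (Quo.mk (P.EM M).actT) w

/-- restrictions of families of classes of weight `w` -/
noncomputable def TG.Tw (t : TG P a) (w : ℤ) : Submodule F (HH P) :=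
  Submodule.span F {y | ∃ (α : ∀ M, H (P.XE M)) (x : Loc.R σ ⊗[ℂ] H P.X),
    (∀ M, α M ∈ P.Wc w M) ∧ (∀ M, H.map (t.i M) (α M) = evA _ M x) ∧ bc _ (chiA a) x = inF _ y}

variable (G : Lz.Geo k D a τ)

/-- restrictions of families of classes of weight `w` on the moduli spaces -/
noncomputable def Geo.Nw (w : ℤ) : Submodule F (F ⊗[ℂ] H τ.A) :=
  Submodule.span F {y | ∃ (α : ∀ M, H (P.XM ν k D g d M)) (x : Loc.R σ ⊗[ℂ] H τ.A),
    (∀ M, α M ∈ Sf (P.EM M) ((P.EM M).Zs (Fin 0) k D g d (0 : ν → J → ℕ)) w) ∧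
      (∀ M, H.map (G.i M) (α M) = evA _ M x) ∧ bc _ (chiA a) x = y}

namespace Geo

variable {w w' : ℤ} {y y' : F ⊗[ℂ] H τ.A}

theorem nw_one : 1 ∈ G.Nw 0 := Submodule.subset_span
  ⟨1, 1, fun _ => Sf.one, fun _ => (map_one _).trans (map_one _).symm, map_one _⟩

theorem nw_mul (h : y ∈ G.Nw w) (h' : y' ∈ G.Nw w') : y * y' ∈ G.Nw (w + w') := by
  induction h using Submodule.span_induction with
  | zero => rw [zero_mul]; exact zero_mem _
  | add x y _ _ hx hy => rw [add_mul]; exact add_mem hx hy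
  | smul z x _ hx => rw [smul_mul_assoc]; exact Submodule.smul_mem _ _ hx
  | mem x hx =>
    induction h' using Submodule.span_induction with
    | zero => rw [mul_zero]; exact zero_mem _
    | add x y _ _ hx hy => rw [mul_add]; exact add_mem hx hy
    | smul z x _ hx => rw [mul_smul_comm]; exact Submodule.smul_mem _ _ hx
    | mem y hy =>
      obtain ⟨α, x, h1, h2, rfl⟩ := hx
      obtain ⟨α', x', h3, h4, rfl⟩ := hy
      exact Submodule.subset_span ⟨fun M => α M * α' M, x * x', fun M => Sf.mul (h1 M) (h3 M),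
        fun M => by rw [map_mul, map_mul, h2, h4], map_mul _ _ _⟩

theorem nw_pow (h : y ∈ G.Nw 0) : ∀ n : ℕ, y ^ n ∈ G.Nw 0
  | 0 => by rw [pow_zero]; exact G.nw_one
  | n + 1 => by rw [pow_succ, ← add_zero (0 : ℤ)]; exact G.nw_mul (nw_pow h n) h

theorem nw_psi (n : ν) : inF _ (τ.ψ n) ∈ G.Nw 0 :=
  let ⟨x, b, c⟩ := G.psi n
  Submodule.subset_span ⟨_, inH _ x, fun _ => Sf.psi _, c, by rw [← b, inF_bc]⟩

theorem nw_ev (hP : P.Ok K₀ k D) (t : TG P a) (n : ν) {z : HH P} (h : z ∈ t.Tw w) :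
    inF _ (pbE (τ.ev n) z) ∈ G.Nw w := by
  induction h using Submodule.span_induction with
  | zero => rw [map_zero, map_zero]; exact zero_mem _
  | add x y _ _ hx hy => rw [map_add, map_add]; exact add_mem hx hy
  | smul z x _ hx => rw [map_smul, map_smul]; exact Submodule.smul_mem _ _ hx
  | mem z hz =>
    obtain ⟨α, x, h1, h2, h3⟩ := hz
    have hz := fun M => D3c.gz_EM (ν := ν) (g := g) (d := d) hP M
    refine Submodule.subset_span ⟨_, pb _ (τ.ev n) x,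
      fun M => Sf.ev (hz M) (.inl n) (fun _ b => vl_mem b.1 _) (h1 M), fun M => ?_, ?_⟩
    · rw [H.map_map, G.ev1 t (hz M) n fun _ b => vl_mem b.1 _, ← H.map_map, h2, map_evA]
    · rw [bc_pb, h3, pb_inF]

theorem nw_ins (hP : P.Ok K₀ k D) (t : TG P a) {x : ν → ℕ × HH P} {w : ν → ℤ}
    (h : ∀ n, (x n).2 ∈ t.Tw (w n)) : inF _ (τ.ins x) ∈ G.Nw (∑ n, w n) := by
  classical
  rw [Md.ins]
  induction (Finset.univ : Finset ν) using Finset.induction_on with
  | empty => rw [Finset.prod_empty, Finset.sum_empty, map_one]; exact G.nw_one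
  | insert n s e ih =>
    rw [Finset.prod_insert e, Finset.sum_insert e, map_mul, map_mul, map_pow, ← zero_add (w n)]
    exact G.nw_mul (G.nw_mul (G.nw_pow (G.nw_psi n) _) (G.nw_ev hP t n (h n))) ih

theorem map_conn (hP : P.Ok K₀ k D) (M : ℕ) :
    H.map (G.i M) (hcls (ind ((P.EM M).sel fun m => m.Conn))) = evA τ.A M
      (1 ⊗ₜ hcls (fn ((τ.sel fun m => m.Conn).indicator 1))) := by
  haveI := G.nice M
  have s : ∀ {S Λ : Type} [Fintype S] [Fintype Λ] {F : Fam S Λ R J K}, F.BigD k D →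
      IsClopen (F.sel (fun m => m.Conn) : Set (F.Mod (Fin 0) k D g d (0 : ν → J → ℕ))) :=
    fun h => Fam.isClopen_sel_of_same h fun _ _ => AM.Same.conn
  have c : IsClopen (τ.sel fun m => m.Conn) := by
    refine mem_of_eq_of_mem (s := {U | IsClopen U}) (Set.ext fun z => ?_)
      ((s hP.bigD).preimage G.g0.continuous)
    obtain ⟨m, c⟩ := τ.ex z
    obtain ⟨x, e, r⟩ := (G.rp z m).1 c
    rw [τ.mem_sel (Q := fun m => m.Conn) (fun _ _ b => b.same.conn) c, mem_preimage, e,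
      Fam.mem_sel (fun _ _ b => b.same.conn) r]
  rw [evA_tmul, map_one, map_one, one_mul, ind_eq_fn, TopP.map_fn' _ (TopP.lc_ind (s hP.bigD_fam)),
    TopP.map_fn' _ (TopP.lc_ind c)]
  refine congrArg (fun u => hcls (fn u)) (funext fun ⟨z, b⟩ => ?_)
  obtain ⟨p, rfl⟩ := isOpenQuotientMap_bp.surjective b
  obtain ⟨m, c⟩ := τ.ex z
  obtain ⟨x, f, r⟩ := G.pt M z p m c
  refine indicator_eq_indicator ?_ rfl
  rw [f, Fam.mem_sel (fun _ _ b => b.same.conn) r]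
  exact (τ.mem_sel (Q := fun m => m.Conn) (fun _ _ b => b.same.conn) c).symm

variable (hI : P287Q.H3.Inp) (hc : P287Q.H3.StC1) (hP : P.Ok K₀ k D) (ha : LinearIndependent ℚ a)
include hI hc hP

omit G in
theorem lvl_zero {O N} (h : P.As K₀ O N) (M : ℕ) {c α : H (P.XM ν k D g d M)} (h0 : H.IsDeg 0 c)
    (h1 : α ∈ Sf (P.EM M) ((P.EM M).Zs (Fin 0) k D g d (0 : ν → J → ℕ)) w) (hw : w ≠ 0)
    (f : Loc.R σ) : intg (P.vM ν k D g d M)
      (c * α * show H (P.XM ν k D g d M) from (h.lv M).e f) = 0 := by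
  have n := D3c.nice_EM hP M
  have an := hI.an (κ := Fin 0) (g := g) (d := d) (u := (0 : ν → ℕ)) n hP.big_fam hP.bigD_fam
  have z := n.gz (Fin 0) hP.big_fam hP.bigD_fam g d (0 : ν → ℕ)
  haveI := P287Q.H3.hdg_compact (κ := Fin 0) (g := g) (d := d) (u := (0 : ν → ℕ)) n hP.big_fam
    hP.bigD_fam (D3c.cp_EM M)
  exact Ww.eq_zero (Y := P287Q.H3.zsp z.toOZ) (l := intg (P.vM ν k D g d M))
    (fun p q η => hI.wk n hP.big_fam hP.bigD_fam) hw (h.ww hI hc z an h0 h1 f)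

include ha

theorem nw_zero (h : y ∈ G.Nw w) (hw : w ≠ 0) : τ.I (inF _ (τ.id fun m => m.Conn) * y) = 0 := by
  induction h using Submodule.span_induction with
  | zero => rw [mul_zero, map_zero]
  | add x y _ _ hx hy => rw [mul_add, map_add, hx, hy, add_zero]
  | smul z x _ hx => rw [mul_smul_comm, map_smul, hx, smul_zero]
  | mem z hz =>
    obtain ⟨α, x, h1, h2, rfl⟩ := hz
    obtain ⟨O, h⟩ := hP.exists_as ν g d
    haveI := fun M => (h.lv M).nice
    have e : ∀ M, H.map (G.i M) (hcls (ind ((P.EM M).sel fun m => m.Conn)) * α M) = evA _ M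
        (1 ⊗ₜ hcls (fn ((τ.sel fun m => m.Conn).indicator 1)) * x) := fun M => by
      rw [map_mul, map_mul, h2, G.map_conn hP]
    have := h.loc_zero ha (G.pc hP h) (G.range_gY hP h).ge G.loc e fun M =>
      lvl_zero hI hc hP h M (hcls_isDeg (P287Q.H3.hdg_ind _)) (h1 M) hw
    rwa [map_mul, bc_tmul, map_one] at this

include G in
/-- **global correlators of non-zero total weight vanish** -/
theorem glob (t : TG P a) {x : ν → ℕ × HH P} {w : ν → ℤ} (h : ∀ n, (x n).2 ∈ t.Tw (w n))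
    (hw : ∑ n, w n ≠ 0) : τ.Je (τ.id (fun m => m.Conn) * τ.ins x) = 0 := by
  rw [Md.Je_apply, map_mul]
  exact G.nw_zero hI hc hP ha (G.nw_ins hP t h) hw

end Geo

/-- classes of Hodge type on the Borel construction -/
theorem TT.Ok.wc (hP : P.Ok K₀ k D) (M : ℕ) (w : ℤ) :
    ⨆ p, P287Q.Hb.QT (P.EM M).actT (P.EM M).cone p (p - w) ≤ P.Wc w M := iSup_le fun p c hc => by
  haveI := (hP.good_EM M).fp
  obtain ⟨n, h⟩ := (D3c.nice_EM hP M).exists_dim
  by_cases e : 0 ≤ p ∧ 0 ≤ p - w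
  · obtain ⟨q, rfl⟩ := Int.eq_ofNat_of_zero_le e.1
    obtain ⟨r, hr⟩ := Int.eq_ofNat_of_zero_le e.2
    exact Submodule.subset_span ⟨q, r, by omega, P287Q.H3.ty_of_dim h (hr ▸ hc)⟩
  · rw [P287Q.Hb.QT, P287Q.Hb.HT, if_neg e, Submodule.mem_bot] at hc
    exact hc ▸ zero_mem _

end Vale.Agent.P269.Lz
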