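import Vale.Agent.P287Q.Lz.Mov3
import Vale.Agent.P287Q.Top.CubV
import Vale.Agent.P287Q.Mf.Api

/-!
# Classes of type `(p, q)`, `p ≠ q`, vanish on rational curves
-/

set_option linter.unusedSectionVars false

namespace Vale.Agent.P287Q.Mov

open Set Function Topology Filter TensorProduct Vale.Agent.P291Z Vale.Agent.P269 Vale.Agent.P269.Cv
  Vale.Agent.P269.Ch Vale.Agent.P269.Holo Vale.Agent.P269.Lz Vale.Agent.P269.LG Vale.Agent.P269.B

open Classical in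
/-- the point of the projective line with the given homogeneous coordinates -/
noncomputable def hp (y : Fin 2 → ℂ) : OnePoint ℂ :=
  if y 1 = 0 then OnePoint.infty else (y 0 / y 1 : ℂ)

theorem hp_loc {x : Fin 2 → ℂ} (hx : x ≠ 0) : ∃ τ : (Fin 2 → ℂ) → ℂ, AnalyticAt ℂ τ x ∧ τ x = 0 ∧
    ∀ᶠ y in 𝓝 x, hp y = P1.i (hp x) (τ y) := by
  have a : ∀ i, AnalyticAt ℂ (fun y : Fin 2 → ℂ => y i) x := fun i =>
    (ContinuousLinearMap.proj (R := ℂ) (φ := fun _ : Fin 2 => ℂ) i).analyticAt x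
  by_cases h : x 1 = 0
  · have h0 : x 0 ≠ 0 := fun e => hx (funext (Fin.forall_fin_two.2 ⟨e, h⟩))
    refine ⟨fun y => y 1 / y 0, (a 1).div (a 0) h0, by simp [h],
      ((a 0).continuousAt.eventually_ne h0).mono fun y hy => ?_⟩
    rw [hp, hp, if_pos h]
    change _ = iv (y 1 / y 0)
    split_ifs with e
    · rw [e, zero_div, iv_zero]
    · rw [iv_ne (div_ne_zero e hy), inv_div]
  · refine ⟨fun y => y 0 / y 1 - x 0 / x 1, ((a 0).div (a 1) h).sub analyticAt_const, sub_self _,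
      ((a 1).continuousAt.eventually_ne h).mono fun y hy => ?_⟩
    rw [hp, hp, if_neg h, if_neg hy]
    exact congrArg OnePoint.some (sub_add_cancel _ _).symm

/-- the projective line as an orbit space -/
abbrev L1 : Type := Quo (scl (Cub.π₀ (Fin 2))) ({0}ᶜ : Set (Fin 2 → ℂ))

/-- the identification of the two models -/
noncomputable def toP1 : C(L1, OnePoint ℂ) where
  toFun := Quot.lift (fun y => hp y.1) fun x y ⟨t, ht, e⟩ => by
    have := isUnit_pi_iff.1 ht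
    simp [e, hp, scl, this, Cub.π₀, mul_div_mul_left]
  continuous_toFun := continuous_quot_lift _ (continuous_iff_continuousAt.2 fun x => by
    obtain ⟨τ, h1, h2, h3⟩ := hp_loc x.2
    refine ContinuousAt.comp (g := hp) (Tendsto.congr' (h3.mono fun _ => Eq.symm) ?_)
      continuous_subtype_val.continuousAt
    exact (P1.tends_i _).comp (h2 ▸ h1.continuousAt))

theorem exists_sec : ∃ s : C(OnePoint ℂ, L1), ∀ z, toP1 (s z) = z := by
  have n1 : ∀ a : ℂ, ![a, 1] ∈ ({0}ᶜ : Set (Fin 2 → ℂ)) := fun a e => one_ne_zero (congrFun e 1)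
  have n0 : ∀ a : ℂ, ![1, a] ∈ ({0}ᶜ : Set (Fin 2 → ℂ)) := fun a e => one_ne_zero (congrFun e 0)
  have c1 : Continuous fun a : ℂ => (Quo.mk _ ⟨_, n1 a⟩ : L1) :=
    continuous_quot_mk.comp (Continuous.subtype_mk (by fun_prop) _)
  have c0 : Continuous fun a : ℂ => (Quo.mk _ ⟨_, n0 a⟩ : L1) :=
    continuous_quot_mk.comp (Continuous.subtype_mk (by fun_prop) _)
  refine ⟨⟨fun z => z.elim (Quo.mk _ ⟨_, n0 0⟩) fun a => Quo.mk _ ⟨_, n1 a⟩,
    (OnePoint.continuous_iff _).2 ⟨?_, c1⟩⟩, fun z => ?_⟩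
  · rw [cob_eq]
    refine ((c0.tendsto 0).comp tendsto_inv₀_cobounded).congr'
      ((Bornology.eventually_ne_cobounded 0).mono fun a ha => Quot.sound ⟨fun _ => a,
        isUnit_pi_iff.2 fun _ => ha, funext (Fin.forall_fin_two.2 ⟨?_, ?_⟩)⟩)
    · exact (mul_one a).symm
    · exact (mul_inv_cancel₀ ha).symm
  · induction z using OnePoint.rec with
    | infty => exact if_pos rfl
    | coe a => exact (if_neg one_ne_zero).trans (congrArg OnePoint.some (div_one a))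

/-- a class of type `(p, q)`, `p ≠ q`, vanishes on a holomorphic projective line -/
theorem map_eq_zero {W Y : Type} [NormedAddCommGroup W] [NormedSpace ℂ W] [FiniteDimensional ℂ W]
    [TopologicalSpace Y] {A : Set W} {π : A → Y} {p q : ℕ} (e : p ≠ q) {w : H Y}
    (hw : w ∈ Hb.HN A π p q) (f : C(OnePoint ℂ, Y)) (hf : ∀ z, ∃ Φ : ℂ → W, AnalyticAt ℂ Φ 0 ∧
      ∀ᶠ t in 𝓝 0, ∃ h, f (P1.i z t) = π ⟨Φ t, h⟩) : H.map f w = 0 := by
  obtain ⟨s, hs⟩ := exists_sec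
  have : H.map (f.comp toP1) w ∈ Hb.HN _ (Quo.mk (scl (Cub.π₀ (Fin 2)))) p q :=
    Mf.IsHd.pull_lift' (fun x hx => ⟨_, (Top.cubV_pvP 1).mfd x hx⟩) _ (fun x => by
      obtain ⟨τ, h1, h2, h3⟩ := hp_loc x.2
      obtain ⟨Φ, k1, k2⟩ := hf (hp x.1)
      refine ⟨Φ ∘ τ, k1.comp_of_eq h1 h2, ?_⟩
      filter_upwards [continuous_subtype_val.continuousAt.eventually
        (h3.and ((h2 ▸ h1.continuousAt : Tendsto τ _ (𝓝 0)).eventually k2))] with y ⟨a, b, c⟩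
      exact ⟨b, (congrArg f a).trans c⟩) hw
  rw [Top.cubV_HN 1 e, Submodule.mem_bot] at this
  rw [show f = (f.comp toP1).comp s from ContinuousMap.ext fun z => congrArg f (hs z).symm,
    ← H.map_map, this, map_zero]

variable {R J K σ ν : Type} [Fintype R] [Fintype J] [Fintype K] [Fintype σ] [Fintype ν]
  [DecidableEq R] [DecidableEq σ] {P : TT R J K σ} {K₀ : RD R} {k D : ℕ} {d : R → ℤ} {a : σ → ℂ}

theorem lift_fix (h : P.Ok K₀ k D) {f : OnePoint ℂ → P.X} (hf : Rc P.E (jX P ∘ f))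
    (z : OnePoint ℂ) : ∃ Φ : ℂ → (Empty → ℂ) × (J → ℂ), AnalyticAt ℂ Φ 0 ∧
      ∀ t, ∃ h, f (P1.i z t) = Quo.mk _ ⟨Φ t, h⟩ := (hf z).imp fun Φ b => ⟨b.1, fun t => by
  have := h.good.fp
  obtain ⟨c, e⟩ := b.2 t
  obtain ⟨y, hy⟩ := Quot.exists_rep (f (P1.i z t))
  obtain ⟨g, hg⟩ := Sp.mk_eq_iff.1 ((congrArg (jX P) hy).trans e)
  exact ⟨mem_of_eq_of_mem (congrArg Sp.val hg).symm (h.fix_act _ g.isUnit _ y.2),
    (emb_jX h).injective e⟩⟩

theorem kil_of_HN (h : P.Ok K₀ k D) {p q : ℕ} (e : p ≠ q) {w : H P.X}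
    (hw : w ∈ Hb.HN P.Fix (Quo.mk _) p q) : Kil P.E (jX P) w := fun f hf =>
  map_eq_zero e hw f fun z => (lift_fix h hf z).imp fun _ b => ⟨b.1, .of_forall b.2⟩

/-- **(VM)** for the classes of holomorphic or antiholomorphic two-forms on the fixed locus. -/
theorem vm_HN (h : P.Ok K₀ k D) {τ : Lz.Md P ν 0 d} (G : Lz.Geo k D a τ) {Q : AM1 R J ν → Prop}
    (hQ : IsClopen (τ.sel Q)) (hc : ∀ m, P.Fx m 0 d → Q m → m.Conn ∧ ∀ z, m.vl z ∈ P.Fix)
    {w : Hev P.X} (hw : w.1 ∈ Hb.HN P.Fix (Quo.mk _) 2 0 ∨ w.1 ∈ Hb.HN P.Fix (Quo.mk _) 0 2)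
    (n n' : ν) (z : F) : τ.id Q * pbE (τ.ev n) (z ⊗ₜ w) = τ.id Q * pbE (τ.ev n') (z ⊗ₜ w) :=
  hw.elim (fun b => vm h G hQ hc (Mf.IsHd.isDeg b) (kil_of_HN h (by simp) b) n n' z)
    fun b => vm h G hQ hc (Mf.IsHd.isDeg b) (kil_of_HN h (by simp) b) n n' z

end Vale.Agent.P287Q.Mov
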