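import Vale.Agent.P287Q.Lz.HVd
import Vale.Agent.P287Q.G.Vir.RD

/-! The contribution of a vertex over a fixed divisor: the families are admissible. -/

set_option linter.unusedSectionVars false

namespace Vale.Agent.P269.Lz

open Set Function Topology Filter

variable {S Λ R J K σ : Type} [Fintype S] [Fintype Λ] [Fintype R] [Fintype J] [Fintype K]
  [Fintype σ]

namespace HVo

open MvPolynomial hiding funext

variable {F : Fam S Λ R J K} {T : Set J} {K₁ : Set K} {z : (Λ → ℂ) × (J → ℂ)} {η : J → ℂ}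

theorem mem_zro : z ∈ (F.zro T).cone ↔ z ∈ F.cone ∧ ∀ j ∈ T, z.2 j = 0 :=
  ⟨fun h => ⟨⟨h.1, ⟨h.2.1.1, h.2.1.2.1, fun j a => h.2.1.2.2 j (.inl a)⟩, h.2.2⟩,
    fun j a => h.2.1.2.2 j (.inr a)⟩, fun h => ⟨h.1.1, ⟨h.1.2.1.1, h.1.2.1.2.1,
      fun j a => a.elim (h.1.2.1.2.2 j) (h.2 j)⟩, h.1.2.2⟩⟩

theorem bs_sub (h : z ∈ (F.zro T).bs) : z ∈ F.bs := ⟨h.1, h.2.1, fun j a => h.2.2 j (.inl a)⟩

theorem inv_zro (h : F.Inv) (T : Set J) : (F.zro T).Inv :=
  ⟨h.hom, h.homS, h.openU, h.invU, h.closedE, h.invE,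
    fun l y y' a => h.baseE l y y' fun j b => a j fun c => b c.1,
    disjoint_union_left.2 ⟨h.zer_base.mono_right sdiff_subset, disjoint_sdiff_right⟩, h.lcB, h.invB⟩

theorem ample_zro [DecidableEq R] {θ₀ N} (h : F.Ample θ₀ N) (T : Set J) : (F.zro T).Ample θ₀ N :=
  ⟨h.1, h.2.1, fun c a z b => h.2.2 c a z (mem_zro.1 b).1⟩

theorem good_zro [DecidableEq R] (h : F.Good) (hn : (F.mov \ T).Nonempty) : (F.zro T).Good where
  toInv := inv_zro h.toInv T
  deg := h.deg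
  freeB := h.freeB
  properB := h.properB
  free t a z b := h.free t a z (mem_zro.1 b).1
  proper t z z' a b c := h.proper t z z' a (mem_zro.1 b).1 (mem_zro.1 c).1
  cpt B' a b := by
    obtain ⟨C, c, d, e⟩ := h.cpt B' a b
    refine ⟨C ∩ {z | ∀ j ∈ T, z.2 j = 0}, fun z f => mem_zro.2 ⟨c f.1, f.2⟩,
      d.inter_right (Fam.isClosed_fld T), fun z f g => (e z (mem_zro.1 f).1 g).imp fun t i =>
        ⟨i.1, i.2, fun j k => mul_eq_zero_of_right _ ((mem_zro.1 f).2 j k)⟩⟩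
  ample := let ⟨_, _, a⟩ := h.ample; ⟨_, _, ample_zro a T⟩
  mov_ne := hn

theorem vert_zro : η ∈ (F.zro T).vert z ↔ η ∈ F.vert z ∧ ∀ j ∈ T, η j = 0 := by
  rw [RP.mem_vert, RP.mem_vert]
  exact ⟨fun h => ⟨⟨fun j a => h.1 j fun b => a b.1, h.2⟩, fun j a => h.1 j fun b => b.2 a⟩,
    fun h => ⟨fun j a => (em (j ∈ T)).elim (h.2 j) fun b => h.1.1 j fun c => a ⟨c, b⟩, h.1.2⟩⟩

/-- a field that vanishes on the cone vanishes on its tangent spaces -/
theorem vert_zero (hF : F.Inv) (h : F.RegAt K₁ z) (hz : z ∈ F.cone) {i : J}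
    (h0 : ∀ z ∈ F.cone, z.2 i = 0) (hη : η ∈ F.vert z) : η i = 0 := by
  classical
  let F' : Fam S Λ R J (Option K) := F.eqs (fun o => o.elim (F.w i) F.χ)
    (fun o => o.elim (F.wt i) F.wk) (fun o => o.elim (X i) F.G) F.U
  have e1 : ∀ z, F'.eqn z none = z.2 i := fun z => by simp [F', Fam.eqn, Fam.fib]
  have e2 : ∑ j, F'.jac z none j * η j = η i := by
    simp [F', Fam.jac, Fam.fib, pderiv_X, Pi.single_apply, apply_ite]
  have e3 : ∀ {α}, α ∈ (F'.G none).support → α = Finsupp.single i 1 := fun a =>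
    Finset.mem_singleton.1 (support_X (R := MvPolynomial Λ ℂ) (n := i) ▸ a)
  have i1 : F'.Inv := ⟨Option.rec (fun α a r => by simp [e3 a, F', Finsupp.single_apply]) hF.hom,
    Option.rec (fun α a β b r => by
      obtain rfl := e3 a
      change β ∈ (coeff (Finsupp.single i 1) (X i : MvPolynomial J (MvPolynomial Λ ℂ))).support at b
      rw [coeff_X_same, MvPolynomial.support_one, Finset.mem_singleton] at b
      simp [b, F', Finsupp.single_apply]) hF.homS,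
    hF.openU, hF.invU, hF.closedE, hF.invE, hF.baseE, hF.zer_base, hF.lcB, hF.invB⟩
  have a := F.mem_cone.1 hz
  have r : F'.RegAt (some '' K₁) z := ⟨fun c => (h.ind fun k => c (some k)).imp fun _ b =>
    ⟨b.1, forall_mem_image.2 b.2⟩, by
      filter_upwards [h.cut, hF.openU.mem_nhds a.2.1] with y b c d e
      have f := b d (forall_mem_image.1 e)
      exact Option.rec ((e1 y).trans (h0 y (F.mem_cone.2 ⟨d, c, f⟩))) f⟩
  exact e2.symm.trans ((r.jac i1 (F'.mem_cone.2 ⟨a.1, a.2.1,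
    Option.rec ((e1 z).trans (h0 z hz)) a.2.2⟩)).red η (RP.mem_vert.1 hη).1
      (forall_mem_image.2 fun k _ => (RP.mem_vert.1 hη).2 k) none)

/-- a transversal field is set to zero -/
theorem regAt_one (h : F.RegAt K₁ z) {j : J} (hη : η ∈ F.vert z) (h0 : η j ≠ 0) :
    (F.zro {j}).RegAt K₁ z := by
  refine ⟨fun c => ?_, h.cut.mono fun y a b => a (bs_sub b)⟩
  obtain ⟨ξ, a, b⟩ := h.ind c
  obtain ⟨d, e⟩ := RP.mem_vert.1 hη
  refine ⟨fun i => ξ i - ξ j / η j * η i, fun i f => ?_, fun k f => ?_⟩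
  · beta_reduce
    by_cases g : i = j
    · rw [g, div_mul_cancel₀ _ h0, sub_self]
    · have f' : i ∉ F.mov := fun m => f ⟨m, g⟩
      rw [a i f', d i f', mul_zero, sub_zero]
  · change ∑ i, F.jac z k i * _ = _
    simp only [mul_sub, mul_left_comm _ (ξ j / η j), Finset.sum_sub_distrib, ← Finset.mul_sum]
    rw [e k, b k f, mul_zero, sub_zero]

theorem reg_one {K₀ : RD R} (h : F.Reg K₀) {j : J}
    (tr : ∀ z ∈ F.cone, z.2 j = 0 → ∃ η ∈ F.vert z, η j ≠ 0) :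
    (F.zro {j}).Reg (K₀.sub ⟨1, F.w j⟩) ∧ ((F.zro {j}).cone.Nonempty → 1 ≤ K₀.n) := by
  have t : ∀ z ∈ (F.zro {j}).cone, ∃ η ∈ F.vert z, η j ≠ 0 := fun z a =>
    tr z (mem_zro.1 a).1 ((mem_zro.1 a).2 j rfl)
  have s : ∀ z ∈ (F.zro {j}).cone, ∀ c : Unit → ℂ, ∃ η ∈ F.vert z, (η ∘ fun _ => j) = c :=
    fun z a c => let ⟨η, b, d⟩ := t z a
      ⟨(c () / η j) • η, Submodule.smul_mem _ _ b, funext fun _ => div_mul_cancel₀ _ d⟩
  refine ⟨?_, fun ⟨z, a⟩ => h.card_le (mem_zro.1 a).1 (s z a)⟩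
  simpa using h.slice' (F₁ := F.zro {j}) id (fun _ : Unit => j) rfl (fun z a =>
    let ⟨_, b, d⟩ := t z a
    (h.loc z (mem_zro.1 a).1).imp fun _ r => regAt_one r b d) (fun z a => (mem_zro.1 a).1)
    (fun z _ η => vert_zro.trans (and_congr_right' ⟨fun a => funext fun _ => a j rfl,
      fun a i b => b ▸ congrFun a ()⟩)) s

theorem eval_zero {p : MvPolynomial J ℂ} {y : J → ℂ} (hy : ∀ i ∈ T, y i = 0)
    (hp : ∀ α ∈ p.support, ∃ i ∈ T, α i ≠ 0) : eval y p = 0 := by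
  rw [eval_eq']
  refine Finset.sum_eq_zero fun α a => mul_eq_zero_of_right _ ?_
  obtain ⟨i, b, c⟩ := hp α a
  exact Finset.prod_eq_zero (Finset.mem_univ i) (by rw [hy i b, zero_pow c])

theorem supp_pderiv {p : MvPolynomial J ℂ} {i : J} {α : J →₀ ℕ} (h : α ∈ (pderiv i p).support) :
    α + Finsupp.single i 1 ∈ p.support :=
  mem_support_iff.2 (left_ne_zero_of_mul (coeff_pderiv p α ▸ mem_support_iff.1 h))

end HVo

open HVo

variable {P : TT R J K σ} {ρ : σ → R → ℤ} {j : J}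

namespace TT

theorem zro_E (T : Set J) : (P.zro T).E = P.E.zro T := rfl

theorem zro_ET (T : Set J) : (P.zro T).ET = P.ET.zro T := rfl

theorem mem_zro_E {T : Set J} {z} : z ∈ (P.zro T).E.cone ↔ z ∈ P.E.cone ∧ ∀ j ∈ T, z.2 j = 0 :=
  mem_zro (F := P.E)

theorem End.cone (e : P.End ρ j) : (P.zro {j}).E.cone = (P.V ρ).E.cone :=
  Set.ext fun z => mem_zro_E.trans (Iff.trans (and_congr_right fun a =>
    ⟨fun b => e.cut z a (b j rfl), fun b _ c => c ▸ b j e.mv⟩) mem_zro_E.symm)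

/-- the weight of a monomial of an equation along a fixed part -/
theorem sum_nw (h : P.ET.Inv) (ρ : σ → R → ℤ) {q : K} {α : J →₀ ℕ} (hα : α ∈ (P.G q).support)
    (s : σ) : ∑ i, α i * nw P.E.toWt P.wt ρ i s = P.wk q s - ∑ r, ρ s r * P.χ q r := by
  classical
  have a := h.hom q α ((supp_eq q).ge hα)
  have b := h.homS q α ((supp_eq q).ge hα) 0 (by
    rw [MvPolynomial.coeff_map, MvPolynomial.mem_support_iff, MvPolynomial.coeff_zero_C]
    exact MvPolynomial.mem_support_iff.1 hα) s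
  simp only [Finset.univ_eq_empty, Finset.sum_empty, add_zero] at a b
  simp only [nw, mul_sub, Finset.sum_sub_distrib, b, ← a, Finset.mul_sum, mul_left_comm]
  rw [Finset.sum_comm]

theorem exists_mv {α : J →₀ ℕ} (h : ∃ s, ∑ i, α i * nw P.E.toWt P.wt ρ i s ≠ 0) :
    ∃ i ∈ P.mv ρ, α i ≠ 0 := by
  obtain ⟨s, h⟩ := h
  obtain ⟨i, -, a⟩ := Finset.exists_ne_zero_of_sum_ne_zero h
  exact ⟨i, fun b => right_ne_zero_of_mul a (congrFun b s),
    Nat.cast_ne_zero.1 (left_ne_zero_of_mul a)⟩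

theorem kil_of_inv (h : P.ET.Inv) (ρ : σ → R → ℤ) (q : K)
    (hq : P.wk q ≠ fun s => ∑ r, ρ s r * P.χ q r) :
    ∀ α ∈ (P.G q).support, ∃ i ∈ P.mv ρ, α i ≠ 0 := fun _ a =>
  exists_mv ((ne_iff.1 hq).imp fun s b => (sum_nw h ρ a s).trans_ne (sub_ne_zero.2 b))

/-- equations of weight zero do not see the moving fields to first order -/
theorem jac_mv (h : P.ET.Inv) {q : K} (hq : P.wk q = fun s => ∑ r, ρ s r * P.χ q r) {i : J}
    (hi : i ∈ P.mv ρ) {z : (Empty → ℂ) × (J → ℂ)} (hz : ∀ i ∈ P.mv ρ, z.2 i = 0) :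
    P.E.jac z q i = 0 := by
  classical
  refine (jac z q i).trans (eval_zero hz fun α a => exists_mv ((ne_iff.1 hi).imp fun s b c => b ?_))
  have d := sum_nw h ρ (supp_pderiv a) s
  simpa [hq, add_mul, Finset.sum_add_distrib, c, Finsupp.single_apply] using d

theorem regAt_V (h : P.ET.Inv) {K₁ : Set K} {z : (Empty → ℂ) × (J → ℂ)} (r : P.E.RegAt K₁ z)
    (hz : ∀ i ∈ P.mv ρ, z.2 i = 0) :
    (P.V ρ).E.RegAt (K₁ ∩ {q | P.wk q = fun s => ∑ r, ρ s r * P.χ q r}) z := by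
  classical
  refine ⟨fun c => ?_, r.cut.mono fun y a b c => a (bs_sub (F := P.E) b) fun q d => ?_⟩
  · obtain ⟨η, a, b⟩ := r.ind c
    refine ⟨fun i => if i ∈ P.mv ρ then 0 else η i, fun i d => ?_, fun q d => ?_⟩
    · exact ite_eq_left_iff.2 fun f => a i fun g => d ⟨g, f⟩
    · refine Eq.trans (Finset.sum_congr rfl fun i _ => ?_) (b q d.1)
      change P.E.jac z q i * ite _ _ _ = _
      split_ifs with f
      · rw [jac_mv h d.2 f hz, zero_mul, zero_mul]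
      · rfl
  · by_cases f : P.wk q = fun s => ∑ r, ρ s r * P.χ q r
    exacts [c q ⟨d, f⟩, (eqn y q).trans
      (eval_zero (fun i g => b.2.2 i (.inr g)) (kil_of_inv h ρ q f))]

variable [DecidableEq R] {K₀ : RD R} {k D : ℕ}

theorem Ok.hv_nice (h : P.Ok K₀ k D) : P.E.Nice 0 where
  toGood := h.good
  reg := ⟨_, h.reg⟩
  sm := ⟨_, sm_E⟩
  pol := ⟨∅, nofun, (eq_univ_of_forall fun _ _ e => nomatch e).symm⟩
  sh := ⟨0, nofun, 0, 1, nofun, linearIndependent_empty_type, nofun, fun _ a b => (b (h.abs a)).elim,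
    fun _ _ _ => ⟨analyticAt_const, one_ne_zero⟩, fun _ a b => (b (h.abs a)).elim,
    fun _ a b => (b (h.abs a)).elim, fun _ _ _ _ _ =>
      iff_of_true trivial fun _ a b => (b (h.abs a)).elim, fun _ _ => rfl⟩

theorem Ok.one (h : P.Ok K₀ k D) : P.E.One k :=
  ⟨h.hv_nice, TT.abs h.abs, ⟨Empty.elim, eq_singleton_iff_unique_mem.2
    ⟨trivial, fun _ _ => Subsingleton.elim _ _⟩⟩, h.big⟩

theorem Ok.zro_good (h : P.Ok K₀ k D) (T : Set J) (hn : (P.mov \ T).Nonempty) :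
    (P.zro T).E.Good := good_zro (F := P.E) h.good hn

theorem Ok.kil (h : P.Ok K₀ k D) (ρ : σ → R → ℤ) (q : K)
    (hq : P.wk q ≠ fun s => ∑ r, ρ s r * P.χ q r) :
    ∀ α ∈ (P.G q).support, ∃ i ∈ P.mv ρ, α i ≠ 0 := kil_of_inv h.invT ρ q hq

theorem Ok.zro (h : P.Ok K₀ k D) {T : Set J} (hn : (P.mov \ T).Nonempty) {K₁ : RD R}
    (hr : (P.zro T).E.Reg K₁) : (P.zro T).Ok K₁ k D :=
  ⟨h.zro_good T hn, hr, fun i a => (em (i ∈ T)).elim .inr fun b => .inl (h.abs fun c => a ⟨c, b⟩),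
    inv_zro h.invT T, let ⟨_, _, a, b⟩ := h.big; ⟨_, _, ample_zro (F := P.E) a T, b⟩, h.bigD⟩

theorem End.ne_one (e : P.End ρ j) : (P.mov \ {j}).Nonempty :=
  e.ne.mono (sdiff_subset_sdiff_right (singleton_subset_iff.2 e.mv))

theorem End.ok_one (h : P.Ok K₀ k D) (e : P.End ρ j) :
    (P.zro {j}).Ok (K₀.sub ⟨1, P.w j⟩) k D := h.zro e.ne_one (reg_one h.reg e.tr).1

theorem End.vert (h : P.Ok K₀ k D) (e : P.End ρ j) {z} (hz : z ∈ (P.V ρ).E.cone) :
    (P.V ρ).E.vert z = (P.zro {j}).E.vert z := by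
  have o := e.ok_one h
  obtain ⟨_, r⟩ := o.reg.loc z (e.cone.ge hz)
  refine Submodule.ext fun η => (vert_zro (F := P.E)).trans ⟨fun a => (vert_zro (F := P.E)).2
    ⟨a.1, fun i b => a.2 i (b ▸ e.mv)⟩, fun a => ⟨((vert_zro (F := P.E)).1 a).1, fun i b => ?_⟩⟩
  exact vert_zero o.good.toInv r (e.cone.ge hz) (fun y c => (mem_zro_E.1 (e.cone.le c)).2 i b) a

theorem End.ok_V (h : P.Ok K₀ k D) (e : P.End ρ j) : (P.V ρ).Ok (K₀.sub ⟨1, P.w j⟩) k D :=
  h.zro e.ne ((e.ok_one h).reg.of_eq rfl id (fun z a => let ⟨_, r⟩ := h.reg.loc z (mem_zro_E.1 a).1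
    ⟨_, regAt_V h.invT r (mem_zro_E.1 a).2⟩) (fun _ a => e.cone.ge a) fun _ a => e.vert h a)

theorem End.one_le (h : P.Ok K₀ k D) (e : P.End ρ j) (hn : (P.V ρ).E.cone.Nonempty) : 1 ≤ K₀.n :=
  (reg_one h.reg e.tr).2 (hn.mono e.cone.ge)

/-- **The divisor and the fixed part are admissible targets with the same data.** -/
theorem End.ok (h : P.Ok K₀ k D) (e : P.End ρ j) : ∃ K₁ : RD R,
    ((P.V ρ).E.cone.Nonempty → K₀.n = K₁.n + 1 ∧ K₀.γ = K₁.γ + P.w j) ∧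
      (P.zro {j}).Ok K₁ k D ∧ (P.V ρ).Ok K₁ k D :=
  ⟨_, fun a => ⟨(Nat.sub_add_cancel (e.one_le h a)).symm, (sub_add_cancel _ _).symm⟩,
    e.ok_one h, e.ok_V h⟩

end TT

end Vale.Agent.P269.Lz
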