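import Vale.Agent.P287Q.Lz.HN
import Vale.Agent.P287Q.G.Bas.Supp
import Vale.Agent.P287Q.G.Br.Fund

/-! The fixed locus of the space of maps with a labelled node; selectors of numerical type. -/

set_option linter.unusedSectionVars false
set_option linter.style.haveILetI false

namespace Vale.Agent.P269.Lz

open Set Function Topology Filter TensorProduct B Vale.Agent.P291Z Vale.Agent.P269.Ch
  Vale.Agent.P269.Loc LG HNA

variable {R J K σ ν : Type} [Fintype R] [Fintype J] [Fintype K] [Fintype σ] [Fintype ν]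
  [DecidableEq R] [DecidableEq σ] {P : TT R J K σ} {K₀ : RD R} {k D : ℕ} {g g' : ℤ} {d : R → ℤ}
  {a : σ → ℂ}

section same

variable {τ : Md P ν g d} (G : Geo k D a τ) (hP : P.Ok K₀ k D) {Q : AM1 R J ν → Prop}
  (hQ : ∀ m m', m.Same m' → Q m → Q m')
include G hP hQ

theorem Geo.clopen_same : IsClopen (τ.sel Q) := by
  refine mem_of_eq_of_mem (s := {U | IsClopen U}) (Set.ext fun z => ?_)
    ((Fam.isClopen_sel_of_same hP.bigD hQ).preimage G.g0.continuous)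
  obtain ⟨m, c⟩ := τ.ex z
  obtain ⟨x, e, r⟩ := (G.rp z m).1 c
  rw [τ.mem_sel (fun _ _ b => hQ _ _ b.same) c, mem_preimage, e,
    Fam.mem_sel (fun _ _ b => hQ _ _ b.same) r]

/-- the restriction of an idempotent to the fixed locus -/
theorem Geo.map_ind {M : ℕ} {Q' : AM (σ × Fin (M + 1)) R J ν (Fin 0) → Prop}
    (hQ' : ∀ m m', m.Same m' → Q' m → Q' m') (e : ∀ l m, Q' (par l m) ↔ Q m) :
    H.map (G.i M) (hcls (ind ((P.EM M).sel Q'))) =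
      evA τ.A M (inH _ (1 ⊗ₜ ⟨hcls (fn ((τ.sel Q).indicator 1)), fn_mem_Hev _⟩)) := by
  haveI := G.nice M
  refine Eq.trans ?_ (evA_tmul M 1 _).symm
  rw [map_one, map_one, one_mul, ind_eq_fn,
    TopP.map_fn' _ (TopP.lc_ind (Fam.isClopen_sel_of_same hP.bigD_fam hQ'))]
  refine Eq.trans (congrArg (fun u => hcls (fn u)) (funext fun ⟨z, b⟩ => ?_))
    (TopP.map_fn' _ (TopP.lc_ind (G.clopen_same hP hQ))).symm
  obtain ⟨p, rfl⟩ := isOpenQuotientMap_bp.surjective b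
  obtain ⟨m, c⟩ := τ.ex z
  obtain ⟨x, f, r⟩ := G.pt M z p m c
  refine indicator_eq_indicator ?_ rfl
  rw [f, Fam.mem_sel (fun _ _ b => hQ' _ _ b.same) r, e]
  exact (τ.mem_sel (fun _ _ b => hQ _ _ b.same) c).symm

omit G hP hQ in
theorem Md.bc_ind (τ : Md P ν g d) (Q : AM1 R J ν → Prop) : bc _ (chiA a)
    (1 ⊗ₜ ⟨hcls (fn ((τ.sel Q).indicator 1)), fn_mem_Hev _⟩ : Loc.R σ ⊗[ℂ] Hev τ.A) = τ.id Q :=
  congrArg (· ⊗ₜ[ℂ] _) (map_one (chiA a))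

end same

/-- the fixed locus `A` of the space of maps with a labelled node -/
structure NodL {τ : Md P ν g d} {τ' : Md P (ν ⊕ Unit × Bool) g' d} (G : Geo k D a τ)
    (G' : Geo k D a τ') (δ : F ⊗[ℂ] Hev (P.X × P.X))
    (Ψ : ∀ M, C((P.EM M).ML ν k D g g' d, P.XM ν k D g d M))
    (Φ : ∀ M, C((P.EM M).ML ν k D g g' d, P.XM (ν ⊕ Unit × Bool) k D g' d M))
    [∀ M, Nice ((P.EM M).ML ν k D g g' d)] {A : Type} [TopologicalSpace A] (φ : C(A, τ.A))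
    (φ' : C(A, τ'.A)) (i : ∀ M, C(A × Bs σ M, (P.EM M).ML ν k D g g' d))
    (v : ∀ M, BM ((P.EM M).ML ν k D g g' d)) (I : F ⊗[ℂ] H A →ₗ[F] F) : Prop where
  nod : Nod δ τ τ' φ φ'
  isV : ∀ M, ((P.EM M).kdL ν k D g g' d).IsV ((P.EM M).acL ν k D g g' d)
    ((P.EM M).SL ν k D g g' d) ((P.EM M).OL ν k D g g' d) (v M)
  loc : IsLoc (chiA a) v i I
  eq : ∀ x, I (pb F φ' x) = τ'.I (inF _ (τ'.dg δ (qq false) (qq true)) * x)
  sq : ∀ M z, Φ M (i M z) = G'.i M (pr φ' M z)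
  sq' : ∀ M z, Ψ M (i M z) = G.i M (pr φ M z)
  rng : ∀ M, Φ M ⁻¹' range (G'.i M) ⊆ range (i M)
  rng' : ∀ M, Ψ M ⁻¹' range (G.i M) ⊆ range (i M)

section ex

variable {τ : Md P ν (g + 1) d} {τ' : Md P (ν ⊕ Unit × Bool) g d} (G : Geo k D a τ)
  (G' : Geo k D a τ') (hP : P.Ok K₀ k D) {O : Set ((P.ch ν k D (g + 1) d).WF ν (Fin 0) Empty)}
  {N : ℕ} (h : P.Al ν k D g d K₀ O N)

theorem Geo.rng' {Ψ₀ Φ₀}
    (N₀ : P.E.GNc (ν := ν) (k := k) (D := D) (g := g + 1) (g' := g) (d := d) Ψ₀ Φ₀) {M : ℕ}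
    {Ψ : C(P.LM ν k D g d M, P.XM ν k D (g + 1) d M)}
    {Φ : C(P.LM ν k D g d M, P.XM (ν ⊕ Unit × Bool) k D g d M)} (hN : (P.EM M).GNc Ψ Φ) :
    Ψ ⁻¹' range (G.i M) ⊆ range (hP.ll h M).i := fun y hy => by
  obtain ⟨x, hx, p, rfl⟩ := (hP.ll h M).cl_surj y
  obtain ⟨m, r⟩ := (Fam.chart_lat (F := P.E) hP.bigD).exists_rep_sol hx.2
  obtain ⟨_, e⟩ := hN.fst ⟨_, (hP.ll h M).mem_pm hx p⟩
  have f := G.fx_of_range hP (p := p) (m := m) ⟨_, e, rep_μA.2 r⟩ hy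
  exact ((hP.ll h M).mem_range_i hx p).2 (h.mem_FZ hP N₀ hx
    ((hP.mem_FZ h.toAm (h.mp.mapsZ hx) r).2 f.str.fixd))

theorem TT.Ok.isV_ll (M : ℕ) : ((P.EM M).kdL ν k D (g + 1) g d).IsV
    ((P.EM M).acL ν k D (g + 1) g d) ((P.EM M).SL ν k D (g + 1) g d)
    ((P.EM M).OL ν k D (g + 1) g d) (hP.ll h M).β :=
  have v : ∀ e, e = P.td ν k D (g + 1) d → ((P.ch ν k D (g + 1) d).kdL ν (Fin 0) Unit _ (P.EM M)
      e).IsV _ _ (Zf (P.EM M) (P.TM ν k D g d M)) (hP.ll h M).β := fun _ e =>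
    e ▸ h.isV (T' := P.TM ν k D g d M) hP.mem_TL
  v _ (TT.td_eq ν k D _ d)

theorem Geo.ll_eq (t : TG P a) {Ψ Φ φ'} (w : G.Pw G' hP h Ψ Φ φ')
    (hN : ∀ M, (P.EM M).GNc (Ψ M) (Φ M)) {I : F ⊗[ℂ] H h.tl.F →ₗ[F] F}
    (hI : haveI := fun M => (hP.ll h M).nice
      IsLoc (chiA a) (fun M => (hP.ll h M).β) (fun M => (hP.ll h M).i) I) (x) :
    I (pb F φ' x) = τ'.I (inF _ (τ'.dg t.dg (qq false) (qq true)) * x) := by
  haveI := fun M => (hP.ll h M).nice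
  haveI := G'.nice
  choose u hu using fun M => (hN M).dg
  refine (hI.push_eq (G'.loc.cap fun M => G'.dg3 t hP _ _ (hu M))
    (fun M => .of_isClosedEmbedding (TT.isPr (hN M))) (fun M => hP.push_eq h (hN M) (hu M))
    w.sq w.rng x).trans (congrArg τ'.I ?_)
  rw [t.bc_dg, inF_comm]
  rfl

end ex

/-- **the labelled fixed locus** -/
theorem Geo.exists_nodL {τ : Md P ν g d} {τ' : Md P (ν ⊕ Unit × Bool) g' d} (G : Geo k D a τ)
    (G' : Geo k D a τ') (hP : P.Ok K₀ k D) (hG : St.GNc) (ha : LinearIndependent ℚ a) (t : TG P a)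
    (hg : g = g' + 1) {Ψ Φ} [∀ M, Nice ((P.EM M).ML ν k D g g' d)]
    (hN : ∀ M, (P.EM M).GNc (Ψ M) (Φ M)) :
    ∃ (A : Type) (_ : TopologicalSpace A) (_ : Nice A) (_ : CompactSpace A) (φ : C(A, _))
      (φ' : C(A, _)), ∃ i v I, NodL G G' t.dg Ψ Φ φ φ' i v I := by
  subst hg
  obtain ⟨Ψ₀, Φ₀, N₀⟩ := hP.gnc (ν := ν) (g := g') (d := d) hG hP.good TT.sm_E TT.cp_E
  obtain ⟨O, N, h⟩ := hP.exists_al N₀.cpt
  obtain ⟨φ', e⟩ := G.exists_φ' G' hP h N₀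
  have w := G.pw G' hP h N₀ e hN
  haveI := fun M => (hP.ll h M).nice
  obtain ⟨I, hI⟩ := TC.exists_isLoc (hP.ll h) (chiA_lin_ne ha)
  exact ⟨_, _, inferInstance, inferInstance, _, φ', fun M => (hP.ll h M).i, fun M => (hP.ll h M).β,
    I, w.nod G G' hP h hN ha t, hP.isV_ll h, hI, G.ll_eq G' hP h t w hN hI, w.sq, w.sq', w.rng,
    fun M => G.rng' hP h N₀ (hN M)⟩

end Vale.Agent.P269.Lz
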