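import Mathlib

/-! The abstract package of localised genus zero correlators. -/

namespace Vale.Agent.P287Q.Lz

open Finset TensorProduct

/-- multisets of insertions `ψ ^ i * x` -/
abbrev Ms (H : Type) : Type := Multiset (ℕ × H)

/-- sum over the splittings of the degree and of the free insertions -/
noncomputable def cv {R α β : Type} [DecidableEq R] [AddCommMonoid β]
    (Φ : (R →₀ ℕ) → Multiset α → (R →₀ ℕ) → Multiset α → β) (d : R →₀ ℕ) (t : Multiset α) : β :=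
  ∑ p ∈ antidiagonal d, (t.antidiagonal.map fun u => Φ p.1 u.1 p.2 u.2).sum

/-- `C d s t`: the markings `s` lie on one vertex, the markings `t` are free; `E d k s t`: moreover
the vertex has `k` tails; `T j d y t`: tails with root `y`. -/
structure Pk (K H R : Type) [Field K] [CommRing H] [Algebra K H] [DecidableEq R] where
  /-- index set of the Casimir element -/
  A : Type
  [fA : Fintype A]
  /-- the Casimir element -/
  e : A → H
  /-- the Casimir element -/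
  f : A → H
  /-- the integral -/
  η : H →ₗ[K] K
  /-- correlators -/
  C : (R →₀ ℕ) → Ms H → Ms H → K
  /-- correlators with a given number of tails -/
  E : (R →₀ ℕ) → ℕ → Ms H → Ms H → K
  /-- tails -/
  T : ℕ → (R →₀ ℕ) → H → Ms H → K
  cas : ∀ x, ∑ a, η (x * e a) • f a = x
  linC₁ : ∀ d i s t, IsLinearMap K fun x => C d ((i, x) ::ₘ s) t
  linC₂ : ∀ d i s t, IsLinearMap K fun x => C d s ((i, x) ::ₘ t)
  linE₁ : ∀ d k i s t, IsLinearMap K fun x => E d k ((i, x) ::ₘ s) t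
  linT : ∀ j d t, IsLinearMap K fun y => T j d y t
  zero₃ : ∀ x y z, C 0 {(0, x), (0, y), (0, z)} 0 = η (x * y * z)
  zero₂ : ∀ x y z, C 0 {(0, y), (0, z)} {(0, x)} = η (x * y * z)
  zero₀ : ∀ x y z, C 0 0 {(0, x), (0, y), (0, z)} = η (x * y * z)
  sum : ∀ d, ∃ N, ∀ s t, s ≠ 0 → C d s t = ∑ k ∈ range (N + 1), E d k s t
  vtx : ∀ d s t, s ≠ 0 → E d 0 s t = E d 0 (s + t) 0
  tail : ∀ d (k : ℕ) n n', ∃ N, ∀ s t, s.card = n + 1 → t.card = n' →
    ((k : K) + 1) * E d (k + 1) s t = cv (fun d₁ t₁ d₂ t₂ => ∑ a, ∑ j ∈ range N,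
      E d₁ k ((j, e a) ::ₘ s) t₁ * T j d₂ (f a) t₂) d t
  tl0 : ∀ j y t, T j 0 y t = 0
  tlG : ∀ j d t, ∃ c : ℕ →₀ K, ∀ y, T j d y t = c.sum fun i k => k * C d 0 ((i, y) ::ₘ t)
  oneG : ∀ j d t, ∃ c : ℕ →₀ K, ∀ y, C d {(j, y)} t = c.sum fun i k => k * C d 0 ((i, y) ::ₘ t)
  w1 : ∀ d t x y z w,
    cv (fun d₁ t₁ d₂ t₂ => ∑ a, C d₁ {(0, x), (0, y), (0, e a)} t₁ *
      C d₂ {(0, f a), (0, z), (0, w)} t₂) d t =
    cv (fun d₁ t₁ d₂ t₂ => ∑ a, C d₁ {(0, x), (0, z), (0, e a)} t₁ *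
      C d₂ {(0, f a), (0, y), (0, w)} t₂) d t
  w2 : ∀ d t v x y z,
    cv (fun d₁ t₁ d₂ t₂ => ∑ a, C d₁ {(0, x), (0, e a)} ((0, v) ::ₘ t₁) *
      C d₂ {(0, f a), (0, y), (0, z)} t₂) d t =
    cv (fun d₁ t₁ d₂ t₂ => ∑ a, C d₁ {(0, y), (0, e a)} ((0, v) ::ₘ t₁) *
      C d₂ {(0, f a), (0, x), (0, z)} t₂) d t
  w3 : ∀ d t u v x y,
    cv (fun d₁ t₁ d₂ t₂ => ∑ a, C d₁ 0 ((0, u) ::ₘ (0, v) ::ₘ (0, e a) ::ₘ t₁) *
      C d₂ {(0, x), (0, y)} ((0, f a) ::ₘ t₂)) d t =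
    cv (fun d₁ t₁ d₂ t₂ => ∑ a, C d₁ {(0, x), (0, e a)} ((0, u) ::ₘ t₁) *
      C d₂ {(0, f a), (0, y)} ((0, v) ::ₘ t₂)) d t

attribute [instance] Pk.fA

variable {K H R ι : Type} [Field K] [CommRing H] [Algebra K H] [DecidableEq R]

/-- the insertions `x` with types `x.1` -/
def Hm (Ty : ℤ → Submodule K H) (s : Multiset (ℤ × ℕ × H)) : Prop := ∀ x ∈ s, x.2.2 ∈ Ty x.1

namespace Pk

variable (P : Pk K H R)

/-- a grading by types that is respected by the global correlators -/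
structure Typed (Ty : ℤ → Submodule K H) : Prop where
  top : ⨆ k, Ty k = ⊤
  one : 1 ∈ Ty 0
  mul : ∀ k l, ∀ x ∈ Ty k, ∀ y ∈ Ty l, x * y ∈ Ty (k + l)
  glob : ∀ d t, Hm Ty t → (t.map Prod.fst).sum ≠ 0 → P.C d 0 (t.map Prod.snd) = 0

/-- the class `a` moves between the markings of a vertex without tails -/
def VM (a : H) : Prop := ∀ d i j x y s,
  P.E d 0 ((i, a * x) ::ₘ (j, y) ::ₘ s) 0 = P.E d 0 ((i, x) ::ₘ (j, a * y) ::ₘ s) 0

/-- the class `a` moves between all markings in the degrees supported in `S` -/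
structure FM (S : Set R) (a : H) : Prop where
  ss : ∀ d, ↑d.support ⊆ S → ∀ i j x y s t,
    P.C d ((i, a * x) ::ₘ (j, y) ::ₘ s) t = P.C d ((i, x) ::ₘ (j, a * y) ::ₘ s) t
  sf : ∀ d, ↑d.support ⊆ S → ∀ i j x y s t,
    P.C d ((i, a * x) ::ₘ s) ((j, y) ::ₘ t) = P.C d ((i, x) ::ₘ s) ((j, a * y) ::ₘ t)
  ff : ∀ d, ↑d.support ⊆ S → ∀ i j x y s t,
    P.C d s ((i, a * x) ::ₘ (j, y) ::ₘ t) = P.C d s ((i, x) ::ₘ (j, a * y) ::ₘ t)

/-- the additive subgroup `Λ` is stable under the global correlators -/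
def Lat (Λ : AddSubgroup H) : Prop := ∀ d t, (∀ x ∈ t, x.2 ∈ Λ) →
  ∃ c ∈ Λ, ∀ y, P.C d 0 ((0, y) ::ₘ t) = P.η (c * y)

end Pk

/-- power series in the Novikov variables and the coordinates -/
abbrev Sr (K R ι : Type) : Type := MvPowerSeries (R ⊕ ι) K

/-- the degree of a monomial -/
noncomputable def dgm (m : R ⊕ ι →₀ ℕ) : R →₀ ℕ := (Finsupp.sumFinsuppAddEquivProdFinsupp m).1

/-- the exponents of the coordinates -/
noncomputable def exm (m : R ⊕ ι →₀ ℕ) : ι →₀ ℕ := (Finsupp.sumFinsuppAddEquivProdFinsupp m).2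

/-- the insertions given by a monomial -/
noncomputable def ins (φ : ι → H) (m : R ⊕ ι →₀ ℕ) : Ms H :=
  (Finsupp.toMultiset (exm m)).map fun a => (0, φ a)

/-- the product of the factorials -/
noncomputable def fac (K : Type) [Field K] (m : R ⊕ ι →₀ ℕ) : K :=
  (exm m).prod fun _ n => (n.factorial : K)

/-- the generating series -/
noncomputable def ser (φ : ι → H) (Φ : (R →₀ ℕ) → Ms H → K) : Sr K R ι :=
  fun m => (fac K m)⁻¹ * Φ (dgm m) (ins φ m)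

/-- the module of series with values in `H` -/
abbrev Md (K H R ι : Type) [Field K] [CommRing H] [Algebra K H] : Type := Sr K R ι ⊗[K] H

/-- the coefficient of a monomial -/
noncomputable def cf (m : R ⊕ ι →₀ ℕ) : Md K H R ι →ₗ[K] H :=
  TensorProduct.lift ((LinearMap.lsmul K H).comp (MvPowerSeries.coeff m))

/-- a trilinear map -/
def mk3 {O : Type} [AddCommGroup O] [Module K O] (B : H → H → H → O)
    (h1 : ∀ y z, IsLinearMap K fun x => B x y z) (h2 : ∀ x z, IsLinearMap K fun y => B x y z)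
    (h3 : ∀ x y, IsLinearMap K fun z => B x y z) : H →ₗ[K] H →ₗ[K] H →ₗ[K] O :=
  LinearMap.mk₂ K (fun x y => (h3 x y).mk' _)
    (fun x x' y => LinearMap.ext fun z => (h1 y z).map_add x x')
    (fun c x y => LinearMap.ext fun z => (h1 y z).map_smul c x)
    (fun x y y' => LinearMap.ext fun z => (h2 x z).map_add y y')
    (fun c x y => LinearMap.ext fun z => (h2 x z).map_smul c y)

/-- extension of scalars of a trilinear form -/
noncomputable def ext3 {O : Type} [CommRing O] [Algebra K O] (B : H →ₗ[K] H →ₗ[K] H →ₗ[K] O) :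
    O ⊗[K] H →ₗ[O] O ⊗[K] H →ₗ[O] O ⊗[K] H →ₗ[O] O :=
  LinearMap.liftBaseChange O (((LinearMap.liftBaseChangeEquiv O).toLinearMap.restrictScalars K).comp
    (B.compr₂ ((LinearMap.liftBaseChangeEquiv O).toLinearMap.restrictScalars K)))

theorem ext3_tmul {O : Type} [CommRing O] [Algebra K O] (B : H →ₗ[K] H →ₗ[K] H →ₗ[K] O)
    (a b c : O) (x y z : H) : ext3 B (a ⊗ₜ x) (b ⊗ₜ y) (c ⊗ₜ z) = a * b * c * B x y z := by
  simp [ext3, mul_assoc]

omit [DecidableEq R] in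
theorem ser_lin (φ : ι → H) {Φ : H → (R →₀ ℕ) → Ms H → K}
    (h : ∀ d t, IsLinearMap K fun x => Φ x d t) : IsLinearMap K fun x => ser φ (Φ x) :=
  ⟨fun x y => funext fun m => by
    change _ * Φ (x + y) _ _ = _ * Φ x _ _ + _ * Φ y _ _
    rw [(h _ _).map_add, mul_add], fun c x => funext fun m => by
    change _ * Φ (c • x) _ _ = c * (_ * Φ x _ _)
    rw [(h _ _).map_smul, smul_eq_mul, mul_left_comm]⟩

namespace Pk

variable (P : Pk K H R) (φ : ι → H)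

/-- the pairing -/
noncomputable def ηM : Md K H R ι →ₗ[Sr K R ι] Sr K R ι :=
  LinearMap.liftBaseChange _ ((Algebra.linearMap K (Sr K R ι)).comp P.η)

theorem linF₂ (d s t) (x : ℕ × H) (i) :
    IsLinearMap K fun y => P.C d s (x ::ₘ (i, y) ::ₘ t) := by
  simpa only [Multiset.cons_swap x] using P.linC₂ d i s (x ::ₘ t)

theorem linS₂ (d s t) (x : ℕ × H) (i) :
    IsLinearMap K fun y => P.C d (x ::ₘ (i, y) ::ₘ s) t := by
  simpa only [Multiset.cons_swap x] using P.linC₁ d i (x ::ₘ s) t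

theorem linF₃ (d s t) (x y : ℕ × H) (i) :
    IsLinearMap K fun z => P.C d s (x ::ₘ y ::ₘ (i, z) ::ₘ t) := by
  rw [show (fun z => P.C d s (x ::ₘ y ::ₘ (i, z) ::ₘ t)) = fun z =>
    P.C d s ((i, z) ::ₘ x ::ₘ y ::ₘ t) from funext fun z => by
      rw [Multiset.cons_swap y, Multiset.cons_swap x]]
  exact P.linC₂ _ _ _ _

theorem linS₃ (d s t) (x y : ℕ × H) (i) :
    IsLinearMap K fun z => P.C d (x ::ₘ y ::ₘ (i, z) ::ₘ s) t := by
  rw [show (fun z => P.C d (x ::ₘ y ::ₘ (i, z) ::ₘ s) t) = fun z =>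
    P.C d ((i, z) ::ₘ x ::ₘ y ::ₘ s) t from funext fun z => by
      rw [Multiset.cons_swap y, Multiset.cons_swap x]]
  exact P.linC₁ _ _ _ _

/-- the global three point function -/
noncomputable def G0 : H →ₗ[K] H →ₗ[K] H →ₗ[K] Sr K R ι :=
  mk3 (fun x y z => ser φ fun d t => P.C d 0 ((0, x) ::ₘ (0, y) ::ₘ (0, z) ::ₘ t))
    (fun _ _ => ser_lin φ fun _ _ => P.linC₂ _ _ _ _)
    (fun _ _ => ser_lin φ fun _ _ => P.linF₂ _ _ _ _ _)
    (fun _ _ => ser_lin φ fun _ _ => P.linF₃ _ _ _ _ _ _)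

/-- the last two markings lie on one vertex -/
noncomputable def M0 : H →ₗ[K] H →ₗ[K] H →ₗ[K] Sr K R ι :=
  mk3 (fun x y z => ser φ fun d t => P.C d {(0, y), (0, z)} ((0, x) ::ₘ t))
    (fun _ _ => ser_lin φ fun _ _ => P.linC₂ _ _ _ _)
    (fun _ _ => ser_lin φ fun _ _ => P.linC₁ _ _ _ _)
    (fun _ _ => ser_lin φ fun _ _ => P.linS₂ _ 0 _ _ _)

/-- the three markings lie on one vertex -/
noncomputable def D0 : H →ₗ[K] H →ₗ[K] H →ₗ[K] Sr K R ι :=
  mk3 (fun x y z => ser φ fun d t => P.C d {(0, x), (0, y), (0, z)} t)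
    (fun _ _ => ser_lin φ fun _ _ => P.linC₁ _ _ _ _)
    (fun _ _ => ser_lin φ fun _ _ => P.linS₂ _ _ _ _ _)
    (fun _ _ => ser_lin φ fun _ _ => P.linS₃ _ 0 _ _ _ _)

/-- the product given by a trilinear form -/
noncomputable def op (B : Md K H R ι →ₗ[Sr K R ι] Md K H R ι →ₗ[Sr K R ι]
    Md K H R ι →ₗ[Sr K R ι] Sr K R ι) :
    Md K H R ι →ₗ[Sr K R ι] Md K H R ι →ₗ[Sr K R ι] Md K H R ι :=
  ∑ a, B.compr₂ ((LinearMap.toSpanSingleton _ _ ((1 : Sr K R ι) ⊗ₜ[K] P.f a)).comp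
    (LinearMap.applyₗ ((1 : Sr K R ι) ⊗ₜ[K] P.e a)))

/-- the equivariant quantum product -/
noncomputable def star := P.op (ext3 (P.G0 φ))

/-- the product of the dressed vertex -/
noncomputable def circ := P.op (ext3 (P.D0 φ))

/-- the product with two markings on one vertex -/
noncomputable def mid := P.op (ext3 (P.M0 φ))

theorem op_apply (B : Md K H R ι →ₗ[Sr K R ι] Md K H R ι →ₗ[Sr K R ι]
    Md K H R ι →ₗ[Sr K R ι] Sr K R ι) (x y : Md K H R ι) :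
    P.op B x y = ∑ a, B x y (1 ⊗ₜ P.e a) • ((1 : Sr K R ι) ⊗ₜ[K] P.f a) := by
  simp [op, LinearMap.sum_apply, LinearMap.toSpanSingleton_apply]

end Pk

end Vale.Agent.P287Q.Lz
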