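import Vale.Agent.P287Q.Lz.FxD

/-! Vertices of the graph of a fixed map, tails, and their behaviour under cutting at a node. -/

set_option linter.unusedSectionVars false

namespace Vale.Agent.P269.Lz

open Set Function Topology Filter Cv

variable {R J K σ ν ν' ν₁ ν₂ : Type} [Fintype R] [Fintype J] [Fintype K] [Fintype σ] [Fintype ν]
  [Fintype ν'] [Fintype ν₁] [Fintype ν₂]

section defs

variable (W : Wt Empty Empty R J) (wt : J → σ → ℤ) (m : AM1 R J ν)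

/-- unions of components that are closed under the nodes between components over the fixed locus -/
def VS (U : Set m.X) : Prop :=
  IsClopen U ∧ ∀ x ∈ U, ∀ y, Jn m.N x y → OnV W wt m x → OnV W wt m y → y ∈ U

/-- the vertex of the point `z`: the maximal connected union of components over the fixed locus -/
def vtx (z : m.X) : Set m.X := {y | OnV W wt m z ∧ ∀ U, VS W wt m U → z ∈ U → y ∈ U}

/-- the marked points in `S` lie on one vertex -/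
def Com (S : Set ν) : Prop := ∀ a ∈ S, ∀ b ∈ S, m.p (.inl b) ∈ vtx W wt m (m.p (.inl a))

/-- the oriented nodes from the vertex of `z` to an edge -/
def tls (z : m.X) : Set (m.X × m.X) :=
  {x | x.1 ∈ vtx W wt m z ∧ Jn m.N x.1 x.2 ∧ ¬OnV W wt m x.2}

/-- the number of tails at the vertex of the marked point `a` -/
noncomputable def ntl (a : ν) : ℕ := (tls W wt m (m.p (.inl a))).ncard

end defs

variable {F : Fam Empty Empty R J K} {W : Wt Empty Empty R J} {wt : J → σ → ℤ}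
  {m m' : AM1 R J ν} {x y z : m.X} {U V : Set m.X} {S S' : Set ν} {a b : ν} {k : ℕ}

theorem VS.compl (h : VS W wt m U) : VS W wt m Uᶜ :=
  ⟨h.1.compl, fun _ a _ j b c d => a (h.2 _ d _ j.symm c b)⟩

theorem vs_onV : VS W wt m {z | OnV W wt m z} := ⟨clopen_onV, fun _ _ _ _ _ c => c⟩

theorem vs_of_sat (h : m.Sat U) : VS W wt m U := ⟨h.1, fun x a y j _ _ => h.2 x a y j⟩

theorem VS.vtx_subset (h : VS W wt m U) (hz : z ∈ U) : vtx W wt m z ⊆ U := fun _ a => a.2 U h hz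

theorem mem_vtx_self : z ∈ vtx W wt m z ↔ OnV W wt m z := ⟨And.left, fun a => ⟨a, fun _ _ => id⟩⟩

theorem onV_left (h : y ∈ vtx W wt m z) : OnV W wt m z := h.1

theorem onV_right (h : y ∈ vtx W wt m z) : OnV W wt m y := h.2 _ vs_onV h.1

theorem vtx_symm (h : y ∈ vtx W wt m z) : z ∈ vtx W wt m y :=
  ⟨onV_right h, fun U a b => by_contra fun c => h.2 Uᶜ a.compl c b⟩

theorem vtx_trans (h : y ∈ vtx W wt m z) (h' : x ∈ vtx W wt m y) : x ∈ vtx W wt m z :=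
  ⟨h.1, fun U a b => h'.2 U a (h.2 U a b)⟩

theorem vtx_eq (h : y ∈ vtx W wt m z) : vtx W wt m y = vtx W wt m z :=
  Set.ext fun _ => ⟨vtx_trans h, vtx_trans (vtx_symm h)⟩

theorem vtx_of_not (h : ¬OnV W wt m z) : vtx W wt m z = ∅ :=
  eq_empty_of_forall_notMem fun _ a => h a.1

theorem vs_vtx (z : m.X) : VS W wt m (vtx W wt m z) :=
  ⟨clopen_of_cc fun _ _ c => and_congr_right fun _ => forall₃_congr fun _ a _ =>
      ⟨fun b => a.1.connectedComponent_subset b (connectedComponent_eq c ▸ mem_connectedComponent),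
        fun b => a.1.connectedComponent_subset b c⟩,
    fun x a y j b c => ⟨a.1, fun U d e => d.2 x (a.2 U d e) y j b c⟩⟩

theorem vtx_jn (h : x ∈ vtx W wt m z) (j : Jn m.N x y) (c : OnV W wt m y) : y ∈ vtx W wt m z :=
  (vs_vtx z).2 x h y j (onV_right h) c

theorem vtx_subset_cmp : vtx W wt m z ⊆ m.cmp z :=
  (vs_of_sat (AC.sat_cmp z)).vtx_subset (AC.mem_cmp_self z)

/-- the label is constant on a vertex -/
theorem vtx_subset_Vx (hF : Free F) (hs : m.Sol F) {ρ : σ → R → ℤ} (h : z ∈ Vx F.toWt wt m ρ) :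
    vtx F.toWt wt m z ⊆ Vx F.toWt wt m ρ :=
  VS.vtx_subset ⟨clopen_Vx ρ, fun _ a _ j _ ⟨_, c⟩ =>
    (Vx.ov c).unique hF hs ((Vx.ov a).jn hs.2.1 j) ▸ c⟩ h

theorem finite_tls (z : m.X) : (tls W wt m z).Finite := (finite_jn m).subset fun _ h => h.2.1

theorem tls_eq (h : y ∈ vtx W wt m z) : tls W wt m y = tls W wt m z := by
  simp only [tls, vtx_eq h]

theorem ncard_jn_le (m : AM1 R J ν) : {x : m.X × m.X | Jn m.N x.1 x.2}.ncard ≤ 2 * m.N.card := by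
  have f := m.N.finite_toSet
  refine (ncard_le_ncard (t := ↑m.N ∪ Prod.swap '' ↑m.N) (fun x h =>
    h.imp id fun a => ⟨x.swap, a, rfl⟩) (f.union (f.image _))).trans ((ncard_union_le _ _).trans ?_)
  rw [ncard_image_of_injective _ Prod.swap_injective, ncard_coe_finset, two_mul]

theorem ntl_le : ntl W wt m a ≤ 2 * m.N.card :=
  (ncard_le_ncard (fun _ h => h.2.1) (finite_jn m)).trans (ncard_jn_le m)

/-- the number of tails is bounded -/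
theorem exists_ntl_le [DecidableEq R] (hF : F.Good) (g : ℤ) (d : R → ℤ) :
    ∃ N, ∀ m : AM1 R J ν, Fx F wt m g d → ∀ a, ntl F.toWt wt m a ≤ N :=
  let ⟨b, hb⟩ := AM.exists_bound (ν := ν) (κ := Fin 0) hF g d
  ⟨2 * b, fun m h _ => ntl_le.trans (Nat.mul_le_mul_left 2 (hb m h.sol h.stable h.typ).1)⟩

theorem ntl_eq_zero : ntl W wt m a = 0 ↔ tls W wt m (m.p (.inl a)) = ∅ :=
  ncard_eq_zero (finite_tls _)

theorem vtx_eq_univ (hc : m.Conn) (hz : OnV W wt m z) (h : tls W wt m z = ∅) :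
    vtx W wt m z = univ :=
  ((AC.conn_iff_sat.1 hc).2 _ ⟨(vs_vtx z).1, fun x a y j => vtx_jn a j (by_contra fun c =>
    h.le (show (x, y) ∈ tls W wt m z from ⟨a, j, c⟩))⟩).resolve_left
      (Nonempty.ne_empty ⟨z, mem_vtx_self.2 hz⟩)

theorem tls_of_all (h : ∀ z, OnV W wt m z) (z : m.X) : tls W wt m z = ∅ :=
  eq_empty_of_forall_notMem fun _ a => a.2.2 (h _)

theorem com_empty : Com W wt m ∅ := fun _ a => a.elim

theorem Com.mono (h : Com W wt m S) (e : S' ⊆ S) : Com W wt m S' :=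
  fun a ha b hb => h a (e ha) b (e hb)

theorem com_iff (ha : a ∈ S) :
    Com W wt m S ↔ ∀ b ∈ S, m.p (.inl b) ∈ vtx W wt m (m.p (.inl a)) :=
  ⟨fun h => h a ha, fun h b hb c hc => vtx_trans (vtx_symm (h b hb)) (h c hc)⟩

theorem Com.onV (h : Com W wt m S) (ha : a ∈ S) : OnV W wt m (m.p (.inl a)) := (h a ha a ha).1

theorem com_single : Com W wt m {a} ↔ OnV W wt m (m.p (.inl a)) :=
  (com_iff (mem_singleton a)).trans (forall_eq.trans mem_vtx_self)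

theorem com_pair : Com W wt m {a, b} ↔ m.p (.inl b) ∈ vtx W wt m (m.p (.inl a)) :=
  (com_iff (mem_insert a _)).trans ⟨fun h => h b (.inr rfl), fun h => by
    rintro _ (rfl | rfl)
    exacts [mem_vtx_self.2 h.1, h]⟩

theorem com_iff_pair (ha : a ∈ S) : Com W wt m S ↔ ∀ b ∈ S, Com W wt m {a, b} :=
  (com_iff ha).trans (forall₂_congr fun _ _ => com_pair.symm)

theorem com_insert (ha : a ∈ S) :
    Com W wt m (insert b S) ↔ Com W wt m S ∧ m.p (.inl b) ∈ vtx W wt m (m.p (.inl a)) := by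
  rw [com_iff (mem_insert_of_mem b ha), forall_mem_insert, com_iff ha, and_comm]

theorem Com.ntl_eq (h : Com W wt m S) (ha : a ∈ S) (hb : b ∈ S) : ntl W wt m a = ntl W wt m b :=
  congrArg ncard (tls_eq (h b hb a ha))

/-- a connected curve without edges is one vertex -/
theorem com_of_all (hc : m.Conn) (h : ∀ z, OnV W wt m z) (S : Set ν) : Com W wt m S :=
  fun _ _ _ _ => (vtx_eq_univ hc (h _) (tls_of_all h _)).ge (mem_univ _)

theorem ntl_of_all (h : ∀ z, OnV W wt m z) (a : ν) : ntl W wt m a = 0 :=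
  ntl_eq_zero.2 (tls_of_all h _)

/-- no tails: the curve is the vertex -/
theorem com_ntl_zero (hc : m.Conn) (ha : a ∈ S) :
    Com W wt m S ∧ ntl W wt m a = 0 ↔ ∀ z, OnV W wt m z :=
  ⟨fun h z => onV_right ((vtx_eq_univ hc (h.1.onV ha) (ntl_eq_zero.1 h.2)).ge (mem_univ z)),
    fun h => ⟨com_of_all hc h S, ntl_of_all h a⟩⟩

namespace Tr

variable {m₁ : AM1 R J ν₁} {f : ν₁ → ν} {j : m₁.X → m.X} (h : Tr m₁ m f j) {x y : m₁.X}
include h

theorem vtx_eq_image (x : m₁.X) : vtx W wt m (j x) = j '' vtx W wt m₁ x := by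
  refine Subset.antisymm (fun z hz => VS.vtx_subset
    ⟨h.liso.isClopen_image (vs_vtx x).1, ?_⟩ ⟨x, mem_vtx_self.2 (h.onV.1 hz.1), rfl⟩ hz)
    (image_subset_iff.2 fun y hy => VS.vtx_subset (U := j ⁻¹' vtx W wt m (j x))
      ⟨(vs_vtx _).1.preimage h.liso.cont, fun u a v b _ c => vtx_jn a (h.jn.2 b) (h.onV.2 c)⟩
      (mem_vtx_self.2 (h.onV.2 hy.1)) hy)
  rintro _ ⟨u, a, rfl⟩ v b - c
  obtain ⟨v, d, rfl⟩ := (h.node u v).1 b
  exact ⟨v, vtx_jn a d (h.onV.1 c), rfl⟩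

theorem mem_vtx : j y ∈ vtx W wt m (j x) ↔ y ∈ vtx W wt m₁ x := by
  rw [h.vtx_eq_image, h.inj.mem_set_image]

theorem tls_eq_image (x : m₁.X) : tls W wt m (j x) = Prod.map j j '' tls W wt m₁ x := by
  ext ⟨u, v⟩
  refine ⟨fun ⟨a, b, c⟩ => ?_, ?_⟩
  · obtain ⟨u, a', rfl⟩ := (h.vtx_eq_image x).le a
    obtain ⟨v, d, rfl⟩ := (h.node u v).1 b
    exact ⟨(u, v), ⟨a', d, mt h.onV.2 c⟩, rfl⟩
  · rintro ⟨⟨u, v⟩, ⟨a, b, c⟩, ⟨⟩⟩
    exact ⟨h.mem_vtx.2 a, h.jn.2 b, mt h.onV.1 c⟩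

theorem com (S : Set ν₁) : Com W wt m (f '' S) ↔ Com W wt m₁ S := by
  simp only [Com, forall_mem_image, ← h.mark, h.mem_vtx]

theorem ntl_eq (a : ν₁) : ntl W wt m (f a) = ntl W wt m₁ a := by
  rw [ntl, ← h.mark, h.tls_eq_image, ncard_image_of_injective _ (h.inj.prodMap h.inj), ntl]

end Tr

theorem invW_com (S : Set ν) : InvW W (Com W wt · S) :=
  invW_of_tr fun _ _ _ h _ a => image_id S ▸ (h.com S).2 a

theorem invW_ntl (a : ν) (k : ℕ) : InvW W (ntl W wt · a = k) :=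
  invW_of_tr fun _ _ _ h _ => (h.ntl_eq a).trans

theorem invW_all : InvW W fun m : AM1 R J ν => ∀ z, OnV W wt m z :=
  invW_of_tr fun _ _ _ h hj a => hj.forall.2 fun x => h.onV.2 (a x)

theorem com_rl (φ : ν' ≃ ν) (S : Set ν') : Com W wt (rl m φ) S ↔ Com W wt m (φ '' S) :=
  ((tr_rl m φ).com S).symm

theorem ntl_rl (φ : ν' ≃ ν) (a : ν') : ntl W wt (rl m φ) a = ntl W wt m (φ a) := rfl

/-! ### Cutting at a node -/

/-- `m` is obtained from `m₁` and `m₂` by gluing the points `a` and `b` -/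
structure Cut (m : AM1 R J ν) (m₁ : AM1 R J ν₁) (m₂ : AM1 R J ν₂) (j₁ : m₁.X → m.X)
    (j₂ : m₂.X → m.X) (a : m₁.X) (b : m₂.X) : Prop where
  l₁ : LIso m₁.R m.R j₁
  l₂ : LIso m₂.R m.R j₂
  i₁ : Injective j₁
  i₂ : Injective j₂
  compl : IsCompl (range j₁) (range j₂)
  v₁ : ∀ l x, m.y l (j₁ x) = m₁.y l x
  v₂ : ∀ l x, m.y l (j₂ x) = m₂.y l x
  n₁ : ∀ x z, Jn m.N (j₁ x) z ↔ (∃ y, Jn m₁.N x y ∧ z = j₁ y) ∨ x = a ∧ z = j₂ b
  n₂ : ∀ x z, Jn m.N (j₂ x) z ↔ (∃ y, Jn m₂.N x y ∧ z = j₂ y) ∨ x = b ∧ z = j₁ a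

theorem cc_image {m₁ : AM1 R J ν₁} {j : m₁.X → m.X} (h : LIso m₁.R m.R j) (x : m₁.X) :
    connectedComponent (j x) = j '' connectedComponent x :=
  ((h.isClopen_image (clopen_cc m₁ x)).connectedComponent_subset
    (mem_image_of_mem j mem_connectedComponent)).antisymm
    (h.cont.image_connectedComponent_subset x)

namespace Cut

variable {m₁ : AM1 R J ν₁} {m₂ : AM1 R J ν₂} {j₁ : m₁.X → m.X} {j₂ : m₂.X → m.X} {a x y : m₁.X}
  {b u : m₂.X} (h : Cut m m₁ m₂ j₁ j₂ a b)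
include h

theorem symm : Cut m m₂ m₁ j₂ j₁ b a := ⟨h.l₂, h.l₁, h.i₂, h.i₁, h.compl.symm, h.v₂, h.v₁, h.n₂, h.n₁⟩

theorem ne (x : m₁.X) (u : m₂.X) : j₁ x ≠ j₂ u := fun e =>
  Set.disjoint_left.1 h.compl.disjoint (mem_range_self x) ⟨u, e.symm⟩

theorem onV : OnV W wt m (j₁ x) ↔ OnV W wt m₁ x := by
  simp only [OnV, Vx, Ov, mem_ofPred_eq, cc_image h.l₁, forall_mem_image, h.v₁]

theorem jn (c : Jn m₁.N x y) : Jn m.N (j₁ x) (j₁ y) := (h.n₁ _ _).2 (.inl ⟨y, c, rfl⟩)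

theorem jn_ab : Jn m.N (j₁ a) (j₂ b) := (h.n₁ _ _).2 (.inr ⟨rfl, rfl⟩)

theorem image_subset (x : m₁.X) : j₁ '' vtx W wt m₁ x ⊆ vtx W wt m (j₁ x) :=
  image_subset_iff.2 fun _ hy => VS.vtx_subset (U := j₁ ⁻¹' vtx W wt m (j₁ x))
    ⟨(vs_vtx _).1.preimage h.l₁.cont, fun _ a _ b _ c => vtx_jn a (h.jn b) (h.onV.2 c)⟩
    (mem_vtx_self.2 (h.onV.2 hy.1)) hy

/-- **the vertices of a glued curve** -/
theorem vtx_eq_union (x : m₁.X) : vtx W wt m (j₁ x) =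
    j₁ '' vtx W wt m₁ x ∪ {z | a ∈ vtx W wt m₁ x ∧ z ∈ j₂ '' vtx W wt m₂ b} := by
  refine Subset.antisymm (fun z hz => VS.vtx_subset ⟨(h.l₁.isClopen_image (vs_vtx x).1).union ?_, ?_⟩
    (.inl ⟨x, mem_vtx_self.2 (h.onV.1 hz.1), rfl⟩) hz) (union_subset (h.image_subset x) ?_)
  · by_cases c : a ∈ vtx W wt m₁ x
    · simpa only [c, true_and, ofPred_mem_eq] using h.l₂.isClopen_image (vs_vtx b).1
    · simpa only [c, false_and, ofPred_false] using isClopen_empty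
  · rintro _ (⟨u, c, rfl⟩ | ⟨c, u, d, rfl⟩) v e - f
    · rcases (h.n₁ u v).1 e with ⟨v, g, rfl⟩ | ⟨rfl, rfl⟩
      exacts [.inl ⟨v, vtx_jn c g (h.onV.1 f), rfl⟩, .inr ⟨c, b, mem_vtx_self.2 (h.symm.onV.1 f), rfl⟩]
    · rcases (h.n₂ u v).1 e with ⟨v, g, rfl⟩ | ⟨rfl, rfl⟩
      exacts [.inr ⟨c, v, vtx_jn d g (h.symm.onV.1 f), rfl⟩, .inl ⟨a, c, rfl⟩]
  · rintro _ ⟨c, u, d, rfl⟩
    exact vtx_trans (vtx_jn (h.image_subset x ⟨a, c, rfl⟩) h.jn_ab (h.symm.onV.2 d.1))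
      (h.symm.image_subset b ⟨u, d, rfl⟩)

theorem mem_vtx₁ : j₁ y ∈ vtx W wt m (j₁ x) ↔ y ∈ vtx W wt m₁ x := by
  rw [h.vtx_eq_union, mem_union, h.i₁.mem_set_image]
  exact or_iff_left fun ⟨_, _, _, e⟩ => h.ne _ _ e.symm

theorem mem_vtx₂ : j₂ u ∈ vtx W wt m (j₁ x) ↔ a ∈ vtx W wt m₁ x ∧ u ∈ vtx W wt m₂ b := by
  rw [h.vtx_eq_union, mem_union, mem_ofPred_eq, h.i₂.mem_set_image]
  exact or_iff_right fun ⟨_, _, e⟩ => h.ne _ _ e

theorem image_tls (x : m₁.X) : Prod.map j₁ j₁ '' tls W wt m₁ x ⊆ tls W wt m (j₁ x) := by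
  rintro _ ⟨⟨u, v⟩, ⟨c, d, e⟩, rfl⟩
  exact ⟨h.mem_vtx₁.2 c, h.jn d, mt h.onV.1 e⟩

/-- the node is not on the vertex -/
theorem tls_far (c : a ∉ vtx W wt m₁ x) : tls W wt m (j₁ x) = Prod.map j₁ j₁ '' tls W wt m₁ x := by
  refine Subset.antisymm (fun ⟨u, v⟩ ⟨d, e, f⟩ => ?_) (h.image_tls x)
  obtain ⟨u, d', rfl⟩ := ((h.vtx_eq_union x).le d).resolve_right fun k => c k.1
  rcases (h.n₁ u v).1 e with ⟨v, g, rfl⟩ | ⟨rfl, rfl⟩
  exacts [⟨(u, v), ⟨d', g, mt h.onV.2 f⟩, rfl⟩, (c d').elim]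

/-- the node is the root of a tail -/
theorem tls_tail (c : a ∈ vtx W wt m₁ x) (c' : ¬OnV W wt m₂ b) :
    tls W wt m (j₁ x) = insert (j₁ a, j₂ b) (Prod.map j₁ j₁ '' tls W wt m₁ x) := by
  refine Subset.antisymm (fun ⟨u, v⟩ ⟨d, e, f⟩ => ?_) (insert_subset
    ⟨h.mem_vtx₁.2 c, h.jn_ab, mt h.symm.onV.1 c'⟩ (h.image_tls x))
  obtain ⟨u, d', rfl⟩ := ((h.vtx_eq_union x).le d).resolve_right fun ⟨_, _, k, _⟩ => c' k.1
  rcases (h.n₁ u v).1 e with ⟨v, g, rfl⟩ | ⟨rfl, rfl⟩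
  exacts [.inr ⟨(u, v), ⟨d', g, mt h.onV.2 f⟩, rfl⟩, .inl rfl]

theorem ncard_far (c : a ∉ vtx W wt m₁ x) : (tls W wt m (j₁ x)).ncard = (tls W wt m₁ x).ncard := by
  rw [h.tls_far c, ncard_image_of_injective _ (h.i₁.prodMap h.i₁)]

theorem ncard_tail (c : a ∈ vtx W wt m₁ x) (c' : ¬OnV W wt m₂ b) :
    (tls W wt m (j₁ x)).ncard = (tls W wt m₁ x).ncard + 1 := by
  rw [h.tls_tail c c', ncard_insert_of_notMem _ ((finite_tls x).image _),
    ncard_image_of_injective _ (h.i₁.prodMap h.i₁)]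
  exact fun ⟨_, _, e⟩ => h.ne _ _ (congrArg Prod.snd e)

/-- the node lies inside the vertex -/
theorem ncard_in (c : a ∈ vtx W wt m₁ x) (c' : OnV W wt m₂ b) :
    (tls W wt m (j₁ x)).ncard = (tls W wt m₁ x).ncard + (tls W wt m₂ b).ncard := by
  have k : Disjoint (Prod.map j₁ j₁ '' tls W wt m₁ x) (Prod.map j₂ j₂ '' tls W wt m₂ b) :=
    disjoint_left.2 fun _ ⟨_, _, e⟩ ⟨_, _, e'⟩ => h.ne _ _ (congrArg Prod.fst (e.trans e'.symm))
  rw [← ncard_image_of_injective _ (h.i₁.prodMap h.i₁), ← ncard_image_of_injective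
    (tls W wt m₂ b) (h.i₂.prodMap h.i₂),
    ← ncard_union_eq k ((finite_tls x).image _) ((finite_tls b).image _)]
  refine congrArg ncard (Subset.antisymm (fun ⟨u, v⟩ ⟨d, e, f⟩ => ?_) (union_subset (h.image_tls x)
    ((h.symm.image_tls b).trans (tls_eq (h.mem_vtx₂.2 ⟨c, mem_vtx_self.2 c'⟩)).le)))
  rcases (h.vtx_eq_union x).le d with ⟨u, d', rfl⟩ | ⟨-, u, d', rfl⟩
  · rcases (h.n₁ u v).1 e with ⟨v, g, rfl⟩ | ⟨rfl, rfl⟩
    exacts [.inl ⟨(u, v), ⟨d', g, mt h.onV.2 f⟩, rfl⟩, (f (h.symm.onV.2 c')).elim]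
  · rcases (h.n₂ u v).1 e with ⟨v, g, rfl⟩ | ⟨rfl, rfl⟩
    exacts [.inr ⟨(u, v), ⟨d', g, mt h.symm.onV.2 f⟩, rfl⟩, (f (h.onV.2 (onV_right c))).elim]

end Cut

section split

variable {n : Unit × Bool → m.X} {h : m.Nds n} {m₁ : AM1 R J ν₁} {m₂ : AM1 R J ν₂}
  {φ : ν₁ ⊕ ν₂ ≃ ν ⊕ Unit × Bool} {j₁ : m₁.X → m.X} {j₂ : m₂.X → m.X} {q₁ : ν₁} {q₂ : ν₂}
  (c : AM.Split (ctp m h) m₁ m₂ φ e00 j₁ j₂) (e₁ : φ (.inl q₁) = qq false)
  (e₂ : φ (.inr q₂) = qq true)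
include c

include e₁ e₂ in
theorem cut_of_split : Cut m m₁ m₂ j₁ j₂ (m₁.p (.inl q₁)) (m₂.p (.inl q₂)) := by
  refine ⟨c.one.liso, c.two.liso, c.one.inj, c.two.inj, c.compl, fun l x => (c.one.y l x).symm,
    fun l x => (c.two.y l x).symm, fun x z => ?_, fun x z => ?_⟩
  · rw [jn_iff_ctp h, c.one.node, ← split_q₁ h c e₁, ← split_q₂ h c e₂, c.one.inj.eq_iff]
    exact or_congr_right (or_iff_left fun k => c.ne _ _ k.1)
  · rw [jn_iff_ctp h, c.two.node, ← split_q₁ h c e₁, ← split_q₂ h c e₂, c.two.inj.eq_iff]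
    exact or_congr_right (or_iff_right fun k => c.ne _ _ k.1.symm)

theorem split_p₁ {a₁ : ν₁} (e : φ (.inl a₁) = .inl a) : j₁ (m₁.p (.inl a₁)) = m.p (.inl a) :=
  (c.one.mark_inl a₁).trans (by rw [e]; rfl)

theorem split_p₂ {a₂ : ν₂} (e : φ (.inr a₂) = .inl a) : j₂ (m₂.p (.inl a₂)) = m.p (.inl a) :=
  (c.two.mark_inl a₂).trans (by rw [e]; rfl)

end split

end Vale.Agent.P269.Lz
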