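import Vale.Agent.P287Q.Lz.FxB

/-! Invariant properties; vertices, tails and their behaviour under normalisation of a node. -/

set_option linter.unusedSectionVars false

namespace Vale.Agent.P269.Lz

open Set Function Topology Filter Cv

variable {R J K σ ν ν' ν₁ ν₂ : Type} [Fintype R] [Fintype J] [Fintype K] [Fintype σ] [Fintype ν]
  [Fintype ν'] [Fintype ν₁] [Fintype ν₂] {F : Fam Empty Empty R J K} {W : Wt Empty Empty R J}
  {wt : J → σ → ℤ} {m m' : AM1 R J ν} {ρ : σ → R → ℤ} {x y z z' : m.X}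
  {T : Set (σ → R → ℤ)} {Q Q' : AM1 R J ν → Prop} {g : ℤ} {d : R → ℤ} {S S' : Set ν}

/-- properties that are invariant under isomorphisms -/
def InvW (W : Wt Empty Empty R J) (Q : AM1 R J ν → Prop) : Prop :=
  ∀ m m', AM.Iso W univ m m' → Q m → Q m'

section inv

theorem InvW.and (h : InvW W Q) (h' : InvW W Q') : InvW W fun m => Q m ∧ Q' m :=
  fun m m' e a => ⟨h m m' e a.1, h' m m' e a.2⟩

theorem InvW.or (h : InvW W Q) (h' : InvW W Q') : InvW W fun m => Q m ∨ Q' m :=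
  fun m m' e a => a.imp (h m m' e) (h' m m' e)

theorem InvW.not (h : InvW W Q) : InvW W fun m => ¬Q m := fun m m' e a b => a (h m' m e.symm b)

theorem InvW.iff (h : InvW W Q) (e : AM.Iso W univ m m') : Q m ↔ Q m' := ⟨h m m' e, h m' m e.symm⟩

theorem invW_const (q : Prop) : InvW W fun _ : AM1 R J ν => q := fun _ _ _ a => a

open Classical in
theorem InvW.ite (h : InvW W Q) {f : AM1 R J ν → ℕ} (hf : ∀ k, InvW W (f · = k)) (k : ℕ) :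
    InvW W fun m => (if Q m then f m else 0) = k := fun m m' e a => by
  have b : f m' = f m := hf _ m m' e rfl
  simpa only [← h.iff e, b] using a

theorem invW_of_tr (h : ∀ (m m' : AM1 R J ν) j, Tr m m' id j → Surjective j → Q m → Q m') :
    InvW W Q := fun m m' e a =>
  let ⟨j, _, _, b⟩ := AM.iso_iff.1 e
  h m m' j (tr_iso b) j.surjective a

theorem invW_cm (n : ν) (ρ : σ → R → ℤ) : InvW W (Cm W wt · n ρ) :=
  invW_of_tr fun _ _ _ h _ => (h.cm n).2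

theorem invW_onV (n : ν) : InvW W fun m : AM1 R J ν => OnV W wt m (m.p (.inl n)) :=
  invW_of_tr fun _ _ _ h _ => (h.onV_p n).2

theorem invW_str : InvW W (Str W wt : AM1 R J ν → Prop) := fun _ _ e a => a.iso e

theorem invW_typ : InvW W fun m : AM1 R J ν => m.Typ g d := fun _ _ e a => e.typ a

theorem invW_conn : InvW W fun m : AM1 R J ν => m.Conn := fun _ _ e a => e.conn a

theorem invW_fx (hF : F.Inv) : InvW F.toWt fun m : AM1 R J ν => Fx F wt m g d :=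
  fun _ _ e a => a.iso hF e

theorem invW_vert : InvW W fun m : AM1 R J ν => Vert W wt m T :=
  invW_of_tr fun _ _ _ h hj => (h.vert hj).2

theorem InvW.rl (φ : ν' ≃ ν) {Q : AM1 R J ν' → Prop} (h : InvW W Q) : InvW W fun m => Q (rl m φ) :=
  fun _ _ e => h _ _ ((AM.iso_re φ (Equiv.refl _)).2 e)

theorem invW_cntN {Q : AM1 R J (ν ⊕ Unit × Bool) → Prop} (h : InvW W Q) (k : ℕ) :
    InvW W (cntN · Q = k) := fun m m' e a => by
  obtain ⟨j, t, τ, b⟩ := AM.iso_iff.1 e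
  have c : ∀ n (hn : m.Nds n) (hn' : m'.Nds (j ∘ n)), Q (ctp m hn) ↔ Q (ctp m' hn') :=
    fun n hn hn' => h.iff (iso_ctp hn hn' b fun _ => rfl).iso
  refine Eq.trans ?_ a
  rw [cntN, cntN, ← ncard_image_of_injective _ j.injective.comp_left]
  refine congrArg ncard (Set.ext fun n' => ?_)
  obtain ⟨n, rfl⟩ := j.surjective.comp_left n'
  refine Iff.trans ?_ (j.injective.comp_left.mem_set_image (a := n)).symm
  refine ⟨fun ⟨hn', d⟩ => ?_, fun ⟨hn, d⟩ => ⟨b.nds hn, (c n hn _).1 d⟩⟩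
  have hn : m.Nds n := ⟨hn'.inj.of_comp, fun q => (b.node _ _).2 (hn'.jn q)⟩
  exact ⟨hn, (c n hn hn').2 d⟩

theorem split_iso {φ : ν₁ ⊕ ν₂ ≃ ν} {m₁ : AM1 R J ν₁} {m₂ : AM1 R J ν₂} {j₁ : m₁.X → m.X}
    {j₂ : m₂.X → m.X} (c : AM.Split m m₁ m₂ φ e00 j₁ j₂) {j : m.X ≃ m'.X} {t τ}
    (b : AM.IsoD W univ m m' j t τ) : ∃ m₁' m₂' j₁' j₂', AM.Split m' m₁' m₂' φ e00 j₁' j₂' ∧
      range j₁' = j '' range j₁ ∧ AM.Iso W univ m₁ m₁' ∧ AM.Iso W univ m₂ m₂' := by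
  obtain ⟨m₁', m₂', j₁', j₂', c', d⟩ := AM.exists_split (b.sat.2 c.one.sat_range) φ e00
    (fun n => ⟨_, ⟨_, c.one.mark n⟩, b.mark _⟩) fun n ⟨_, ⟨x, rfl⟩, hx⟩ =>
      c.ne x _ (j.injective (hx.trans (b.mark _).symm) |>.trans (c.two.mark n).symm)
  obtain ⟨e₁, -, a₁⟩ := c.one.isoD c'.one b d.symm
  obtain ⟨e₂, -, a₂⟩ := c.two.isoD c'.two b (by
    rw [c.compl.symm.eq_compl, c'.compl.symm.eq_compl, d, image_compl_eq j.bijective])
  exact ⟨m₁', m₂', j₁', j₂', c', d, a₁.iso, a₂.iso⟩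

theorem finite_cntS (φ : ν₁ ⊕ ν₂ ≃ ν) (Q₁ : AM1 R J ν₁ → Prop) (Q₂ : AM1 R J ν₂ → Prop) :
    {U : Set m.X | ∃ m₁ m₂ j₁ j₂, AM.Split m m₁ m₂ φ e00 j₁ j₂ ∧ range j₁ = U ∧ Q₁ m₁ ∧
      Q₂ m₂}.Finite :=
  m.finite_clopen.subset fun _ ⟨_, _, _, _, c, d, _⟩ => d ▸ c.one.sat_range.1

theorem cntS_le (φ : ν₁ ⊕ ν₂ ≃ ν) {Q₁ : AM1 R J ν₁ → Prop} {Q₂ : AM1 R J ν₂ → Prop}
    (h₁ : InvW W Q₁) (h₂ : InvW W Q₂) (e : AM.Iso W univ m m') :
    cntS m φ Q₁ Q₂ ≤ cntS m' φ Q₁ Q₂ := by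
  obtain ⟨j, t, τ, b⟩ := AM.iso_iff.1 e
  refine ncard_le_ncard_of_injOn (j '' ·) ?_ j.injective.image_injective.injOn (finite_cntS φ _ _)
  rintro _ ⟨m₁, m₂, j₁, j₂, c, rfl, q₁, q₂⟩
  obtain ⟨m₁', m₂', j₁', j₂', c', d, a₁, a₂⟩ := split_iso c b
  exact ⟨m₁', m₂', j₁', j₂', c', d, h₁ _ _ a₁ q₁, h₂ _ _ a₂ q₂⟩

theorem invW_cntS (φ : ν₁ ⊕ ν₂ ≃ ν) {Q₁ : AM1 R J ν₁ → Prop} {Q₂ : AM1 R J ν₂ → Prop}
    (h₁ : InvW W Q₁) (h₂ : InvW W Q₂) (k : ℕ) : InvW W (cntS · φ Q₁ Q₂ = k) := fun _ _ e a =>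
  ((cntS_le φ h₁ h₂ e.symm).antisymm (cntS_le φ h₁ h₂ e)).trans a

variable (m) in
/-- there is a splitting into parts with the properties `Q₁`, `Q₂` -/
def Sps (φ : ν₁ ⊕ ν₂ ≃ ν) (Q₁ : AM1 R J ν₁ → Prop) (Q₂ : AM1 R J ν₂ → Prop) : Prop :=
  ∃ m₁ m₂ j₁ j₂, AM.Split m m₁ m₂ φ e00 j₁ j₂ ∧ Q₁ m₁ ∧ Q₂ m₂

theorem invW_sps (φ : ν₁ ⊕ ν₂ ≃ ν) {Q₁ : AM1 R J ν₁ → Prop} {Q₂ : AM1 R J ν₂ → Prop}
    (h₁ : InvW W Q₁) (h₂ : InvW W Q₂) : InvW W (Sps · φ Q₁ Q₂) := fun _ _ e ⟨_, _, _, _, c, q₁, q₂⟩ =>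
  let ⟨_, _, _, b⟩ := AM.iso_iff.1 e
  let ⟨m₁', m₂', j₁', j₂', c', _, a₁, a₂⟩ := split_iso c b
  ⟨m₁', m₂', j₁', j₂', c', h₁ _ _ a₁ q₁, h₂ _ _ a₂ q₂⟩

theorem range_eq_cmp {f : ν₁ → ν} {ψ : Fin 0 → Fin 0} {m₁ : AM1 R J ν₁} {j : m₁.X → m.X}
    (h : AM.Emb m₁ m f ψ j) (c : m₁.Conn) (q : ν₁) : range j = m.cmp (m.p (.inl (f q))) := by
  rw [← h.mark_inl, h.cmp, c.cmp_eq, image_univ]

open Classical in
/-- a splitting with a connected marked part is unique -/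
theorem cntS_conn (φ : ν₁ ⊕ ν₂ ≃ ν) {Q₁ : AM1 R J ν₁ → Prop} {Q₂ : AM1 R J ν₂ → Prop} (q : ν₁)
    (h : ∀ m, Q₁ m → m.Conn) : cntS m φ Q₁ Q₂ = if Sps m φ Q₁ Q₂ then 1 else 0 := by
  split_ifs with a
  · obtain ⟨m₁, m₂, j₁, j₂, c, q₁, q₂⟩ := a
    exact ncard_eq_one.2 ⟨range j₁, eq_singleton_iff_unique_mem.2 ⟨⟨m₁, m₂, j₁, j₂, c, rfl, q₁, q₂⟩,
      fun _ ⟨_, _, _, _, c', e, r, _⟩ => e.symm.trans
        ((range_eq_cmp c'.one (h _ r) q).trans (range_eq_cmp c.one (h _ q₁) q).symm)⟩⟩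
  · refine (congrArg ncard (eq_empty_iff_forall_notMem.2 ?_)).trans (ncard_empty _)
    exact fun _ ⟨m₁, m₂, j₁, j₂, c, _, r⟩ => a ⟨m₁, m₂, j₁, j₂, c, r⟩

/-- two splittings with the same connected marked part have isomorphic parts -/
theorem split_unique {φ : ν₁ ⊕ ν₂ ≃ ν} {m₁ m₁' : AM1 R J ν₁} {m₂ m₂' : AM1 R J ν₂}
    {j₁ : m₁.X → m.X} {j₂ : m₂.X → m.X} {j₁' : m₁'.X → m.X} {j₂' : m₂'.X → m.X}
    (c : AM.Split m m₁ m₂ φ e00 j₁ j₂) (c' : AM.Split m m₁' m₂' φ e00 j₁' j₂')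
    (e : range j₁ = range j₁') : AM.Iso W univ m₁ m₁' ∧ AM.Iso W univ m₂ m₂' := by
  have b := (AM.Emb.refl m).isoD_of_bij (W := W) (A := univ) bijective_id
  obtain ⟨_, -, a₁⟩ := c.one.isoD c'.one b ((image_id _).trans e)
  obtain ⟨_, -, a₂⟩ := c.two.isoD c'.two b ((image_id _).trans (by
    rw [c.compl.symm.eq_compl, c'.compl.symm.eq_compl, e]))
  exact ⟨a₁.iso, a₂.iso⟩

end inv

/-- a map with two marked points that have the same image is a normalisation -/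
theorem exists_ctp {m' : AM1 R J (ν ⊕ Unit × Bool)} (hs : m'.Sol F) (hP : F.Inv)
    {t : R → ℂ} (ht : IsUnit t) (he : m'.vl (m'.p (.inl (qq true))) =
      F.actT (1, t) (m'.vl (m'.p (.inl (qq false))))) :
    ∃ (m : AM1 R J ν) (n : Unit × Bool → m.X) (h : m.Nds n), m.Sol F ∧
      AM.Iso F.toWt univ m' (ctp m h) := by
  classical
  obtain ⟨c, c0, c1, c2⟩ : ∃ c : R → m'.X → ℂ, (∀ r x, c r x ≠ 0) ∧
      (∀ r, c r (m'.p (.inl (qq false))) = t r) ∧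
      ∀ r x, x ≠ m'.p (.inl (qq false)) → c r x = 1 :=
    ⟨fun r x => if x = m'.p (.inl (qq false)) then t r else 1, fun r x => by
      dsimp only
      split_ifs
      exacts [isUnit_pi_iff.1 ht r, one_ne_zero], fun _ => if_pos rfl, fun _ _ e => if_neg e⟩
  let m₁ : AM Empty R J ν (Fin 0 ⊕ Unit) :=
    ⟨m'.toAC.re (Ch.unp ν (Fin 0) Unit).symm.toEmbedding, fun r => m'.L r * LB.cst _ _ (c0 r), m'.l,
      fun j x => (F.actT (1, fun r => c r x) (m'.vl x)).2 j⟩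
  have a : AM.Iso F.toWt univ m' (ctp m₁.glue AC.nds_glue) :=
    AM.IsoD.iso (e := Equiv.refl _) (t := c) (τ := 1) ⟨LIso.id _, isUnit_one,
      (AM.isoD_glue_cut (W := F.toWt) (A := univ) m₁).node, by
        rintro ((_ | _) | a)
        exacts [rfl, rfl, a.1.elim0],
      fun r => (mul_div_cancel_left (m'.L r) (LB.cst _ _ (c0 r))).symm ▸ cst_mem0 (c0 r)
        fun x hx => (c2 r _ (m'.sm _ x hx).1).trans (c2 r _ (m'.sm _ x hx).2).symm,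
      c0, fun _ q => q.elim0, funext fun a => a.elim, fun _ _ _ => rfl⟩
  have a' := a.sol hP hs
  refine ⟨m₁.glue, _, AC.nds_glue, (AM.sol_cut AC.nds_glue).2 ⟨a', fun j _ => ?_⟩, a⟩
  have b : (fun r => c r (m'.p (.inl (qq true)))) = 1 :=
    funext fun r => c2 r _ fun e => by simpa using m'.inj e
  change (F.actT (1, fun r => c r (m'.p (.inl (qq false)))) (m'.vl (m'.p (.inl (qq false))))).2 j =
    (F.actT (1, fun r => c r (m'.p (.inl (qq true)))) (m'.vl (m'.p (.inl (qq true))))).2 j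
  rw [b, funext c1, he]
  simp [Wt.actT]

/-! ### Oriented nodes -/

/-- the oriented node with the branches `x`, `y` -/
def nd2 {X : Type} (x y : X) : Unit × Bool → X := fun c => bif c.2 then y else x

theorem nds_nd2 : m.Nds (nd2 x y) ↔ Jn m.N x y :=
  ⟨fun h => h.jn (), fun a => ⟨by
    rintro ⟨_, _ | _⟩ ⟨_, _ | _⟩ e
    exacts [rfl, (a.ne m.nd e).elim, (a.ne m.nd e.symm).elim, rfl], fun _ => a⟩⟩

theorem nd2_eta {X : Type} (n : Unit × Bool → X) : nd2 (n ((), false)) (n ((), true)) = n :=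
  funext (by rintro ⟨_, _ | _⟩ <;> rfl)

theorem finite_jn (m : AM1 R J ν) : {x : m.X × m.X | Jn m.N x.1 x.2}.Finite :=
  (m.N.finite_toSet.union (m.N.finite_toSet.image Prod.swap)).subset fun x h =>
    h.imp id fun a => ⟨x.swap, a, rfl⟩

theorem finite_nds (m : AM1 R J ν) : {n : Unit × Bool → m.X | m.Nds n}.Finite :=
  ((finite_jn m).image fun x => nd2 x.1 x.2).subset fun n h => ⟨(_, _), h.jn (), nd2_eta n⟩

/-- counting oriented nodes as pairs of points -/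
theorem cntN_eq {Q : AM1 R J (ν ⊕ Unit × Bool) → Prop} {A : Set (m.X × m.X)}
    (hA : ∀ x ∈ A, Jn m.N x.1 x.2)
    (h : ∀ n (h : m.Nds n), Q (ctp m h) ↔ (n ((), false), n ((), true)) ∈ A) :
    cntN m Q = A.ncard :=
  ncard_congr (fun n _ => (n ((), false), n ((), true))) (fun n ⟨a, b⟩ => (h n a).1 b)
    (fun n n' _ _ e => (nd2_eta n).symm.trans
      ((congrArg (fun x : m.X × m.X => nd2 x.1 x.2) e).trans (nd2_eta n')))
    fun x a => ⟨nd2 x.1 x.2, ⟨nds_nd2.2 (hA x a), (h _ _).2 a⟩, rfl⟩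

section ctp

variable {n : Unit × Bool → m.X} (h : m.Nds n)

theorem jn_ctp : Jn (ctp m h).N x y ↔ Jn m.N x y ∧ x ∉ range n := AC.jn_cut h

theorem mem_range_n : x ∈ range n ↔ x = n ((), false) ∨ x = n ((), true) :=
  ⟨by rintro ⟨⟨_, _ | _⟩, rfl⟩; exacts [.inl rfl, .inr rfl],
    fun a => a.elim (fun e => ⟨_, e.symm⟩) fun e => ⟨_, e.symm⟩⟩

theorem jn_iff_ctp : Jn m.N x y ↔ Jn (ctp m h).N x y ∨
    x = n ((), false) ∧ y = n ((), true) ∨ x = n ((), true) ∧ y = n ((), false) := by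
  refine ⟨fun a => ?_, ?_⟩
  · by_cases b : x ∈ range n
    · exact .inr ((mem_range_n.1 b).imp (fun e => ⟨e, (e ▸ a).unique m.nd (h.jn ())⟩)
        fun e => ⟨e, (e ▸ a).unique m.nd (h.jn ()).symm⟩)
    · exact .inl ((jn_ctp h).2 ⟨a, b⟩)
  · rintro (a | ⟨rfl, rfl⟩ | ⟨rfl, rfl⟩)
    exacts [((jn_ctp h).1 a).1, h.jn (), (h.jn ()).symm]

theorem sat_ctp {U : Set m.X} :
    m.Sat U ↔ (ctp m h).Sat U ∧ (n ((), false) ∈ U ↔ n ((), true) ∈ U) := by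
  refine ⟨fun a => ⟨⟨a.1, fun x b y c => a.2 x b y ((jn_ctp h).1 c).1⟩, a.jn (h.jn ())⟩,
    fun a => ⟨a.1.1, fun x b y c => ?_⟩⟩
  rcases (jn_iff_ctp h).1 c with c | ⟨rfl, rfl⟩ | ⟨rfl, rfl⟩
  exacts [a.1.2 x b y c, a.2.1 b, a.2.2 b]

/-- the components of the normalisation of a connected curve at a node -/
theorem cmp_ctp (hc : m.Conn) (z : m.X) :
    z ∈ (ctp m h).cmp (n ((), false)) ∨ z ∈ (ctp m h).cmp (n ((), true)) :=
  (((AC.conn_iff_sat.1 hc).2 _ ((sat_ctp h).2 ⟨(AC.sat_cmp (c := (ctp m h).toAC) _).union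
    (AC.sat_cmp _), iff_of_true (.inl (AC.mem_cmp_self _)) (.inr (AC.mem_cmp_self _))⟩)).resolve_left
      (Nonempty.ne_empty ⟨_, .inl (AC.mem_cmp_self _)⟩)).ge (mem_univ z)

/-- in genus zero every node separates -/
theorem not_mem_cmp_ctp (hc : m.Conn) (hg : gen m.R m.N = 0) :
    n ((), true) ∉ (ctp m h).cmp (n ((), false)) := fun a => by
  have b : (ctp m h).Conn := AC.conn_iff_cmp.2 ⟨_, eq_univ_of_forall fun z =>
    (cmp_ctp h hc z).elim id fun c => AC.cmp_eq a ▸ c⟩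
  have c := b.gen_nonneg
  have e : gen m.R (ctp m h).N + Fintype.card Unit = gen m.R m.N := AC.gen_cut h
  rw [hg, Fintype.card_unit] at e
  change 0 ≤ gen m.R (ctp m h).N at c
  omega

theorem compl_cmp_ctp (hc : m.Conn) (hg : gen m.R m.N = 0) :
    ((ctp m h).cmp (n ((), false)))ᶜ = (ctp m h).cmp (n ((), true)) :=
  Set.ext fun z => ⟨(cmp_ctp h hc z).resolve_left, fun a b => not_mem_cmp_ctp h hc hg
    (AC.cmp_eq b ▸ AC.mem_cmp_comm.1 a)⟩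

variable {m₁ : AM1 R J ν₁} {m₂ : AM1 R J ν₂} {φ : ν₁ ⊕ ν₂ ≃ ν ⊕ Unit × Bool} {j₁ : m₁.X → m.X}
  {j₂ : m₂.X → m.X} {q₁ : ν₁} {q₂ : ν₂}

/-- **existence of the splitting at a node** of a connected curve of genus zero -/
theorem exists_split_ctp (hc : m.Conn) (hg : gen m.R m.N = 0) (φ : ν₁ ⊕ ν₂ ≃ ν ⊕ Unit × Bool)
    (h₁ : ∀ a, (ctp m h).p (.inl (φ (.inl a))) ∈ (ctp m h).cmp (n ((), false)))
    (h₂ : ∀ a, (ctp m h).p (.inl (φ (.inr a))) ∉ (ctp m h).cmp (n ((), false))) :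
    ∃ (m₁ : AM1 R J ν₁) (m₂ : AM1 R J ν₂) (j₁ : m₁.X → m.X) (j₂ : m₂.X → m.X),
      AM.Split (ctp m h) m₁ m₂ φ e00 j₁ j₂ ∧ range j₁ = (ctp m h).cmp (n ((), false)) ∧
        m₁.Conn ∧ m₂.Conn ∧ gen m₁.R m₁.N = 0 ∧ gen m₂.R m₂.N = 0 := by
  obtain ⟨m₁, m₂, j₁, j₂, c, e⟩ := AM.exists_split
    (AC.sat_cmp (c := (ctp m h).toAC) (n ((), false))) φ e00
    (by rintro (a | a); exacts [h₁ a, a.1.elim0]) (by rintro (a | a); exacts [h₂ a, a.1.elim0])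
  have c₁ := c.one.conn.2 ⟨_, e⟩
  have c₂ := c.two.conn.2 ⟨_, c.compl.symm.eq_compl.trans (e ▸ compl_cmp_ctp h hc hg)⟩
  have a₁ := c₁.gen_nonneg
  have a₂ := c₂.gen_nonneg
  have a := c.gen_add
  have b : gen m.R (ctp m h).N + Fintype.card Unit = gen m.R m.N := AC.gen_cut h
  rw [hg, Fintype.card_unit] at b
  change gen m.R (ctp m h).N = _ at a
  exact ⟨m₁, m₂, j₁, j₂, c, e, c₁, c₂, by omega, by omega⟩

variable (c : AM.Split (ctp m h) m₁ m₂ φ e00 j₁ j₂) (e₁ : φ (.inl q₁) = qq false)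
  (e₂ : φ (.inr q₂) = qq true)
include c

include e₁ in
theorem split_q₁ : j₁ (m₁.p (.inl q₁)) = n ((), false) := (c.one.mark_inl q₁).trans (by rw [e₁]; rfl)

include e₂ in
theorem split_q₂ : j₂ (m₂.p (.inl q₂)) = n ((), true) := (c.two.mark_inl q₂).trans (by rw [e₂]; rfl)

include e₁ e₂ in
/-- gluing two connected curves -/
theorem conn_of_split (c₁ : m₁.Conn) (c₂ : m₂.Conn) : m.Conn := by
  refine AC.conn_iff_cmp.2 ⟨n ((), false), eq_univ_of_forall fun z => ?_⟩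
  have a := (sat_ctp h).1 (AC.sat_cmp (c := m.toAC) (n ((), false)))
  have b := AC.mem_cmp_self (c := m.toAC) (n ((), false))
  rcases c.cases z with ⟨x, rfl⟩ | ⟨x, rfl⟩
  · exact (c.one.sat_preimage a.1).cmp_subset (z := m₁.p (.inl q₁))
      (mem_preimage.2 (split_q₁ h c e₁ ▸ b)) (c₁.cmp_eq _ ▸ mem_univ x)
  · exact (c.two.sat_preimage a.1).cmp_subset (z := m₂.p (.inl q₂))
      (mem_preimage.2 (split_q₂ h c e₂ ▸ a.2.1 b)) (c₂.cmp_eq _ ▸ mem_univ x)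

theorem typ_of_split {g₁ g₂ : ℤ} {d₁ d₂ : R → ℤ} (a : m₁.Typ g₁ d₁) (b : m₂.Typ g₂ d₂) :
    m.Typ (g₁ + g₂) (d₁ + d₂) := by
  have := (AM.typ_cut h).1 (c.typ a b)
  rwa [Fintype.card_unit, Nat.cast_one, sub_add_cancel] at this

end ctp

end Vale.Agent.P269.Lz
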