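import Vale.Agent.P287Q.Lz.Defs
import Vale.Agent.P287Q.Lz.FxC

/-! Selectors on the fixed loci; idempotents and inverses as polynomials. -/

set_option linter.unusedSectionVars false
set_option maxSynthPendingDepth 3

namespace Vale.Agent.P269.Lz

open Set Function Topology Filter TensorProduct B Vale.Agent.P291Z Vale.Agent.P269.Ch
  Vale.Agent.P269.Loc LG

section cls

variable {A A' : Type} [TopologicalSpace A] [Nice A] [CompactSpace A] [TopologicalSpace A']
  [Nice A'] [CompactSpace A'] {U V : Set A} {x y : F ⊗[ℂ] Hev A}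

theorem piece_nil (hU : IsClopen U) (h : ∀ a ∈ U, ptE a x = 0) : IsNilpotent (idE U * x) :=
  isNilpotent_iff.2 fun a => by
    by_cases ha : a ∈ U
    · rw [map_mul, h a ha, mul_zero]
    · rw [map_mul, ptE_idE_notMem hU ha, zero_mul]

theorem clopen_zero (x : F ⊗[ℂ] Hev A) : IsClopen {a | ptE a x = 0} :=
  (isLocallyConstant_ptE x).isClopen_fiber 0

theorem isIntegral_E (x : F ⊗[ℂ] Hev A) : IsIntegral F x := by
  have hf := (isLocallyConstant_ptE x).range_finite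
  obtain ⟨n, hn⟩ : IsNilpotent (∏ w ∈ hf.toFinset, (x - algebraMap F _ w)) :=
    isNilpotent_iff.2 fun a => by
      rw [map_prod]
      exact Finset.prod_eq_zero (hf.mem_toFinset.2 ⟨a, rfl⟩) (by
        rw [map_sub, AlgHom.commutes, Algebra.algebraMap_self, RingHom.id_apply, sub_self])
  refine ⟨(∏ w ∈ hf.toFinset, (Polynomial.X - Polynomial.C w)) ^ n,
    (Polynomial.monic_prod_of_monic _ _ fun w _ => Polynomial.monic_X_sub_C w).pow n, ?_⟩
  rw [← Polynomial.aeval_def, map_pow, map_prod, ← hn]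
  simp only [map_sub, Polynomial.aeval_X, Polynomial.aeval_C]

theorem inverse_mem' {k B : Type} [Field k] [CommRing B] [Algebra k B] [Algebra.IsIntegral k B]
    {S : Subalgebra k B} {x : B} (h : x ∈ S) : Ring.inverse x ∈ S := by
  by_cases hx : IsUnit x
  · have : Algebra.IsIntegral S B := .tower_top k
    obtain ⟨u, hu⟩ := isUnit_of_map_unit (algebraMap S B) ⟨x, h⟩ hx
    have e : x * (u⁻¹).1.1 = 1 := by
      rw [show x = u.1.1 from congrArg Subtype.val hu.symm, ← Subalgebra.coe_mul, u.mul_inv,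
        Subalgebra.coe_one]
    rw [← one_mul (Ring.inverse x), ← e, mul_right_comm, Ring.mul_inverse_cancel _ hx, one_mul]
    exact (u⁻¹).1.2
  · rw [Ring.inverse_non_unit _ hx]
    exact zero_mem _

theorem inverse_mem {S : Subalgebra F (F ⊗[ℂ] Hev A)} (h : x ∈ S) : Ring.inverse x ∈ S :=
  haveI : Algebra.IsIntegral F (F ⊗[ℂ] Hev A) := ⟨isIntegral_E⟩
  inverse_mem' h

theorem map_inverse' {k B B' : Type} [Field k] [CommRing B] [Algebra k B] [CommRing B']
    [Algebra k B'] (f : B →ₐ[k] B') {x : B} (h : IsUnit x) :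
    f (Ring.inverse x) = Ring.inverse (f x) := by
  rw [← one_mul (f _), ← Ring.inverse_mul_cancel _ (h.map f), mul_assoc, ← map_mul,
    Ring.mul_inverse_cancel _ h, map_one, mul_one]

/-- the idempotent of the locus where the value of `x` vanishes is a polynomial in `x` -/
theorem idE_mem {S : Subalgebra F (F ⊗[ℂ] Hev A)} (h : x ∈ S) : idE {a | ptE a x = 0} ∈ S := by
  classical
  have hf := (isLocallyConstant_ptE x).range_finite
  have c := clopen_zero x
  obtain ⟨p, hp, h0, h1⟩ : ∃ p ∈ S, (∀ a, ptE a x = 0 → ptE a p ≠ 0) ∧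
      ∀ a, ptE a x ≠ 0 → ptE a p = 0 := by
    refine ⟨∏ w ∈ hf.toFinset.erase 0, (x - algebraMap F _ w),
      prod_mem fun w _ => sub_mem h (S.algebraMap_mem w), fun a ha => ?_, fun a ha => ?_⟩
    · rw [map_prod]
      refine Finset.prod_ne_zero_iff.2 fun w hw => ?_
      rw [map_sub, AlgHom.commutes, Algebra.algebraMap_self, RingHom.id_apply, ha, zero_sub]
      exact neg_ne_zero.2 (Finset.ne_of_mem_erase hw)
    · rw [map_prod]
      exact Finset.prod_eq_zero (Finset.mem_erase.2 ⟨ha, hf.mem_toFinset.2 ⟨a, rfl⟩⟩) (by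
        rw [map_sub, AlgHom.commutes, Algebra.algebraMap_self, RingHom.id_apply, sub_self])
  obtain ⟨n, hn⟩ := piece_nil c fun _ a => a
  obtain ⟨k, hk⟩ := piece_nil c.compl h1
  have i1 : IsIdempotentElem (idE {a | ptE a x = 0}) := idE_mul_self c
  have i2 : IsIdempotentElem (idE {a | ptE a x = 0}ᶜ) := idE_mul_self c.compl
  have e1 := pow_eq_zero_of_le n.le_succ hn
  have e2 := pow_eq_zero_of_le k.le_succ hk
  rw [mul_pow, i1.pow_succ_eq] at e1
  rw [mul_pow, i2.pow_succ_eq, idE_compl c, _root_.sub_mul, one_mul, sub_eq_zero] at e2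
  have u : IsUnit (x ^ (n + 1) + p ^ (k + 1)) := isUnit_iff.2 fun a => by
    rw [map_add, map_pow, map_pow]
    by_cases ha : ptE a x = 0
    · rw [ha, zero_pow n.succ_ne_zero, zero_add]
      exact pow_ne_zero _ (h0 a ha)
    · rw [h1 a ha, zero_pow k.succ_ne_zero, add_zero]
      exact pow_ne_zero _ ha
  rw [← mul_one (idE _), ← Ring.mul_inverse_cancel _ u, ← mul_assoc, mul_add, e1, zero_add, ← e2]
  exact mul_mem (pow_mem hp _) (inverse_mem (add_mem (pow_mem h _) (pow_mem hp _)))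

/-- the inverse of `x` on the locus where its value does not vanish, extended by zero -/
noncomputable def iv (x : F ⊗[ℂ] Hev A) : F ⊗[ℂ] Hev A :=
  idE {a | ptE a x = 0}ᶜ * Ring.inverse (x + idE {a | ptE a x = 0})

theorem isUnit_add_idE (x : F ⊗[ℂ] Hev A) : IsUnit (x + idE {a | ptE a x = 0}) :=
  isUnit_iff.2 fun a => by
    rw [map_add]
    by_cases ha : ptE a x = 0
    · rw [ha, ptE_idE_mem (clopen_zero x) ha, zero_add]
      exact one_ne_zero
    · rwa [ptE_idE_notMem (clopen_zero x) ha, add_zero]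

theorem mul_iv (x : F ⊗[ℂ] Hev A) : x * iv x = idE {a | ptE a x = 0}ᶜ := by
  have c := clopen_zero x
  rw [iv, ← mul_assoc, ← add_zero (x * _), ← idE_empty, ← inter_compl_self {a | ptE a x = 0},
    ← idE_mul c c.compl, ← add_mul, mul_right_comm, Ring.mul_inverse_cancel _ (isUnit_add_idE x),
    one_mul]

theorem idE_mul_iv (hU : IsClopen U) (h : ∀ a ∈ U, ptE a x ≠ 0) : idE U * (x * iv x) = idE U := by
  rw [mul_iv, idE_mul hU (clopen_zero x).compl, inter_eq_left.2 (show U ⊆ {a | ptE a x = 0}ᶜ from h)]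

theorem iv_mem {S : Subalgebra F (F ⊗[ℂ] Hev A)} (h : x ∈ S) : iv x ∈ S := by
  rw [iv, idE_compl (clopen_zero x)]
  exact mul_mem (sub_mem (one_mem _) (idE_mem h)) (inverse_mem (add_mem h (idE_mem h)))

theorem pbE_iv (φ : C(A', A)) (x : F ⊗[ℂ] Hev A) : pbE φ (iv x) = iv (pbE φ x) := by
  have c := clopen_zero x
  have e : φ ⁻¹' {a | ptE a x = 0} = {a | ptE a (pbE φ x) = 0} :=
    Set.ext fun a => by rw [mem_preimage, mem_ofPred_eq, mem_ofPred_eq, ptE_pbE]
  rw [iv, iv, map_mul, pbE_idE φ c.compl, preimage_compl, map_inverse' _ (isUnit_add_idE x),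
    map_add, pbE_idE φ c, e]

theorem exists_poly (h : y ∈ Algebra.adjoin F {x}) :
    ∃ c : ℕ →₀ F, y = c.sum fun i k => k • x ^ i := by
  rw [Algebra.adjoin_singleton_eq_range_aeval] at h
  obtain ⟨p, rfl⟩ := h
  exact ⟨p.toFinsupp.coeff, (Polynomial.eval₂_eq_sum ..).trans
    (Finset.sum_congr rfl fun _ _ => (Algebra.smul_def _ _).symm)⟩

/-- the geometric series -/
theorem inv_sum {B : Type} [CommRing B] {e x y v η : B} {N : ℕ} (hx : e * x ^ N = 0)
    (hv : e * (-y * v) = e) (hη : e * ((-x - y) * η - 1) = 0) :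
    e * η = e * ∑ j ∈ Finset.range N, x ^ j * v ^ (j + 1) := by
  have h := mul_geom_sum (x * v) N
  have k : ∑ j ∈ Finset.range N, x ^ j * v ^ (j + 1) = v * ∑ j ∈ Finset.range N, (x * v) ^ j := by
    rw [Finset.mul_sum]
    exact Finset.sum_congr rfl fun j _ => by ring
  rw [k, mul_pow] at *
  linear_combination (v * ∑ j ∈ Finset.range N, (x * v) ^ j) * hη +
    η * (∑ j ∈ Finset.range N, (x * v) ^ j) * hv.symm + η * e * h + η * v ^ N * hx

end cls

variable {R J K σ ν ν' : Type} [Fintype R] [Fintype J] [Fintype K] [Fintype σ] [Fintype ν]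
  [Fintype ν'] {P : TT R J K σ}

namespace Md

variable {g : ℤ} {d : R → ℤ} (τ : Md P ν g d) {Q Q' : AM1 R J ν → Prop} {f f' : AM1 R J ν → ℕ}

theorem mem_sel (hQ : Inv P Q) {a : τ.A} {m : AM1 R J ν} (h : τ.Rp a m) : a ∈ τ.sel Q ↔ Q m :=
  ⟨fun ⟨_, h1, h2⟩ => hQ _ _ ((τ.iso h1).1 h) h2, fun h' => ⟨m, h, h'⟩⟩

theorem cf_eq (hf : ∀ k, Inv P (f · = k)) {a : τ.A} {m : AM1 R J ν} (h : τ.Rp a m) :
    τ.cf f a = f m :=
  congrArg Nat.cast (hf _ _ m ((τ.iso (τ.ex a).choose_spec).1 h) rfl).symm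

theorem sel_and (hQ : Inv P Q) (hQ' : Inv P Q') :
    τ.sel (fun m => Q m ∧ Q' m) = τ.sel Q ∩ τ.sel Q' :=
  Subset.antisymm (fun _ ⟨m, h, h1, h2⟩ => ⟨⟨m, h, h1⟩, m, h, h2⟩) fun a ha =>
    let ⟨m, h⟩ := τ.ex a
    ⟨m, h, (τ.mem_sel hQ h).1 ha.1, (τ.mem_sel hQ' h).1 ha.2⟩

theorem sel_not (hQ : Inv P Q) : τ.sel (fun m => ¬Q m) = (τ.sel Q)ᶜ := Set.ext fun a =>
  let ⟨_, h⟩ := τ.ex a
  (τ.mem_sel (InvW.not hQ) h).trans (τ.mem_sel hQ h).not.symm

theorem sel_congr (h : ∀ m, P.Fx m g d → (Q m ↔ Q' m)) : τ.sel Q = τ.sel Q' :=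
  Set.ext fun _ => exists_congr fun m => and_congr_right fun h' => h m (τ.fx h')

theorem sel_false (h : ∀ m, P.Fx m g d → ¬Q m) : τ.sel Q = ∅ :=
  eq_empty_of_forall_notMem fun _ ⟨m, a, b⟩ => h m (τ.fx a) b

theorem sel_true (h : ∀ m, P.Fx m g d → Q m) : τ.sel Q = univ :=
  eq_univ_of_forall fun a => let ⟨m, b⟩ := τ.ex a; ⟨m, b, h m (τ.fx b)⟩

theorem id_congr (h : ∀ m, P.Fx m g d → (Q m ↔ Q' m)) : τ.id Q = τ.id Q' :=
  congrArg idE (τ.sel_congr h)

theorem id_false (h : ∀ m, P.Fx m g d → ¬Q m) : τ.id Q = 0 :=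
  (congrArg idE (τ.sel_false h)).trans idE_empty

theorem id_true (h : ∀ m, P.Fx m g d → Q m) : τ.id Q = 1 :=
  (congrArg idE (τ.sel_true h)).trans idE_univ

theorem cf_congr (h : ∀ m, P.Fx m g d → f m = f' m) : τ.cf f = τ.cf f' :=
  funext fun a => congrArg Nat.cast (h _ (τ.fx (τ.ex a).choose_spec))

theorem clopen_and (hQ : Inv P Q) (hQ' : Inv P Q') (c : IsClopen (τ.sel Q))
    (c' : IsClopen (τ.sel Q')) : IsClopen (τ.sel fun m => Q m ∧ Q' m) :=
  τ.sel_and hQ hQ' ▸ c.inter c'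

theorem clopen_not (hQ : Inv P Q) (c : IsClopen (τ.sel Q)) : IsClopen (τ.sel fun m => ¬Q m) :=
  τ.sel_not hQ ▸ c.compl

theorem clopen_congr (h : ∀ m, P.Fx m g d → (Q m ↔ Q' m)) (c : IsClopen (τ.sel Q)) :
    IsClopen (τ.sel Q') := τ.sel_congr h ▸ c

theorem isClopen_sel_eq (hf : ∀ k, Inv P (f · = k)) (h : IsLocallyConstant (τ.cf f)) (k : ℕ) :
    IsClopen (τ.sel (f · = k)) := by
  rw [show τ.sel (f · = k) = {a | τ.cf f a = k} from Set.ext fun a =>
    (τ.mem_sel (hf k) (τ.ex a).choose_spec).trans Nat.cast_inj.symm]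
  exact h.isClopen_fiber _

open Classical in
theorem cf_ite (hQ : Inv P Q) :
    (τ.cf fun m => if Q m then f m else 0) = (τ.sel Q).indicator 1 * τ.cf f := funext fun x => by
  have h := τ.mem_sel hQ (τ.ex x).choose_spec
  by_cases hx : x ∈ τ.sel Q
  · rw [Pi.mul_apply, indicator_of_mem hx, cf, if_pos (h.1 hx), Pi.one_apply, one_mul, cf]
  · rw [Pi.mul_apply, indicator_of_notMem hx, cf, if_neg (mt h.2 hx), zero_mul, Nat.cast_zero]

open Classical in
theorem fnE_ite (hQ : Inv P Q) : fnE (τ.cf fun m => if Q m then 1 else 0) = τ.id Q :=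
  congrArg fnE ((τ.cf_ite hQ).trans (funext fun x => by rw [Pi.mul_apply, cf, Nat.cast_one, mul_one]))

open Classical in
theorem fnE_ite' (hQ : Inv P Q) (c : IsClopen (τ.sel Q)) (k : ℕ) :
    fnE (τ.cf fun m => if Q m then k else 0) = k * τ.id Q := by
  rw [τ.cf_ite hQ, mul_comm, show (τ.cf (fun _ => k) * _) = (k : ℂ) • _ from rfl,
    fnE_smul (isLocallyConstant_ind c), Nat.cast_smul_eq_nsmul, nsmul_eq_mul, id, idE]

open Classical in
theorem lc_ite (hQ : Inv P Q) (hc : IsClopen (τ.sel Q)) (hf : IsLocallyConstant (τ.cf f)) :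
    IsLocallyConstant (τ.cf fun m => if Q m then f m else 0) :=
  τ.cf_ite hQ ▸ (isLocallyConstant_ind hc).mul hf

open Classical in
theorem clopen_of_ite (hQ : Inv P Q) {k : ℕ} (hk : k ≠ 0)
    (h : IsLocallyConstant (τ.cf fun m => if Q m then k else 0)) : IsClopen (τ.sel Q) :=
  τ.clopen_congr (fun m _ => by by_cases c : Q m <;> simp [c, hk.symm])
    (τ.isClopen_sel_eq (InvW.ite hQ fun _ => invW_const _) h k)

theorem cf_sum {α : Type} (s : Finset α) {u : α → AM1 R J ν → ℕ}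
    (e : ∀ m, P.Fx m g d → f m = ∑ i ∈ s, u i m) : τ.cf f = ∑ i ∈ s, τ.cf (u i) := by
  rw [τ.cf_congr e]
  funext x
  rw [Finset.sum_apply, cf, Nat.cast_sum]
  rfl

theorem lc_sum {α : Type} (s : Finset α) {u : α → AM1 R J ν → ℕ}
    (hu : ∀ i ∈ s, IsLocallyConstant (τ.cf (u i))) (e : ∀ m, P.Fx m g d → f m = ∑ i ∈ s, u i m) :
    IsLocallyConstant (τ.cf f) :=
  τ.cf_sum s e ▸ Finset.sum_induction _ _ (fun _ _ a b => a.add b)
    (IsLocallyConstant.const 0) hu

theorem fnE_cf_sum {α : Type} (s : Finset α) {u : α → AM1 R J ν → ℕ}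
    (hu : ∀ i ∈ s, IsLocallyConstant (τ.cf (u i))) (e : ∀ m, P.Fx m g d → f m = ∑ i ∈ s, u i m) :
    fnE (τ.cf f) = ∑ i ∈ s, fnE (τ.cf (u i)) := by rw [τ.cf_sum s e, fnE_sum s hu]

theorem id_mul (hQ : Inv P Q) (hQ' : Inv P Q') (c : IsClopen (τ.sel Q))
    (c' : IsClopen (τ.sel Q')) : τ.id Q * τ.id Q' = τ.id fun m => Q m ∧ Q' m := by
  rw [id, id, idE_mul c c', ← τ.sel_and hQ hQ', id]

theorem id_of_imp (hQ : Inv P Q) (hQ' : Inv P Q') (c : IsClopen (τ.sel Q))
    (c' : IsClopen (τ.sel Q')) (e : ∀ m, Q m → Q' m) : τ.id Q * τ.id Q' = τ.id Q :=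
  (τ.id_mul hQ hQ' c c').trans (τ.id_congr fun m _ => and_iff_left_of_imp (e m))

end Md

theorem HW.sel_vm {T : Th P} (h : HW T) {g : ℤ} {d : R → ℤ} (n : ν) :
    (T ν g d).sel (P.Vm · n) = {a | ptE a ((T ν g d).ψ n) = 0} := Set.ext fun a =>
  let ⟨m, b⟩ := (T ν g d).ex a
  ((T ν g d).mem_sel (invW_onV n) b).trans (h ν g d n a m b).symm

theorem HW.clopen_vm {T : Th P} (h : HW T) {g : ℤ} {d : R → ℤ} (n : ν) :
    IsClopen ((T ν g d).sel (P.Vm · n)) := h.sel_vm n ▸ clopen_zero _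

end Vale.Agent.P269.Lz
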