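import Vale.Agent.P287Q.G.Bas.RelC
import Vale.Agent.P269.LG.KunA
import Vale.Agent.P269.LG.BorR
import Vale.Agent.P287Q.Lz.Fam
import Vale.Agent.P287Q.Lz.FxB

/-! Relabelling of the fixed loci. -/

set_option linter.unusedSectionVars false
set_option maxSynthPendingDepth 3

namespace Vale.Agent.P269.Lz

open Set Function Topology TensorProduct B Vale.Agent.P291Z Vale.Agent.P269.Ch Vale.Agent.P269.Loc
  LG

variable {R J K σ ν ν' : Type} [Fintype R] [Fintype J] [Fintype K] [Fintype σ] [Fintype ν]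
  [Fintype ν'] [DecidableEq R] [DecidableEq σ] {P : TT R J K σ} {K₀ : RD R} {k D : ℕ} {a : σ → ℂ}

theorem HR.inH_map {A A' : Type} [TopologicalSpace A] [TopologicalSpace A'] (f : C(A', A))
    (x : Loc.R σ ⊗[ℂ] Hev A) :
    inH A' (Algebra.TensorProduct.map (AlgHom.id ℂ _) (Hev.map f) x) = pb _ f (inH A x) := by
  induction x with
  | zero => simp only [map_zero]
  | add a b ha hb => simp only [map_add, ha, hb]
  | tmul k c => rfl

theorem HR.bp_surj {M : ℕ} : Surjective (bp : PM σ M → Bs σ M) := fun b =>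
  let ⟨x, e⟩ := ((TS.triv σ pt).B M).surj b
  ⟨x.2, e⟩

theorem Geo.hR {g : ℤ} {d : R → ℤ} {τ : Md P ν g d} {τ' : Md P ν' g d}
    (G : Geo k D a τ) (G' : Geo k D a τ') (h : P.Ok K₀ k D) (φ : ν' ≃ ν) :
    ∃ f : C(τ'.A, τ.A), (∀ x m, τ.Rp (f x) m → τ'.Rp x (rl m φ)) ∧
      (∀ n, pbE f (τ.ψ (φ n)) = τ'.ψ n) ∧ (∀ n, (τ.ev (φ n)).comp f = τ'.ev n) ∧
      ∀ x, τ'.I (pb F f x) = τ.I x := by
  have := G.nice
  have := G'.nice
  obtain ⟨Φ₀, a₀, -⟩ := Fam.exists_rel (Fin 0) h.good h.reg TT.sm_E h.abs_fam h.big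
    h.bigD g d φ
  choose Φ a₁ a₂ a₃ using fun M => Fam.exists_rel (Fin 0) (h.good_EM M) h.reg_fam
    (TT.sm_EM M) h.abs_fam h.big_fam h.bigD_fam g d φ
  have r : ∀ x, ∃ y, G.g0 y = Φ₀ (G'.g0 x) := fun x => by
    obtain ⟨m, hm⟩ := Fam.exists_at h.bigD (Φ₀ (G'.g0 x))
    obtain ⟨y, hy⟩ := τ.surj ((fx_rl φ).1 (τ'.fx ((G'.rp _ _).2 ((a₀ _ _).1 hm))))
    exact ⟨y, (((G.rp _ _).1 hy).eq_iff h.bigD hm).2 (.refl _)⟩
  choose f₀ hf using r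
  let f : C(τ'.A, τ.A) := ⟨f₀, G.emb.isEmbedding.continuous_iff.2
    ((Φ₀.continuous.comp G'.g0.continuous).congr fun x => (hf x).symm)⟩
  have key : ∀ x m, τ.Rp (f x) m ↔ τ'.Rp x (rl m φ) := fun x m =>
    (G.rp _ _).trans (((congrArg (P.E.At · m) (hf x)).to_iff.trans (a₀ _ _)).trans
      (G'.rp _ _).symm)
  have sj : Surjective f := fun y => by
    obtain ⟨m, hm⟩ := τ.ex y
    obtain ⟨x, hx⟩ := τ'.surj ((fx_rl φ).2 (τ.fx hm))
    exact ⟨x, τ.inj ((key _ _).2 hx) hm⟩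
  have sq : ∀ M z, Φ M (G'.i M z) = G.i M (pr f M z) := fun M ⟨x, p⟩ => by
    obtain ⟨p, rfl⟩ := HR.bp_surj p
    obtain ⟨m, hm⟩ := τ.ex (f x)
    exact (((a₁ M _ (par (uncurry p.val) m)).2 (G'.pt M x p _ ((key _ _).1 hm))).eq_iff
      h.bigD_fam (G.pt M _ p _ hm)).2 (.refl _)
  refine ⟨f, fun x m => (key x m).1, fun n => ?_, fun n => ContinuousMap.ext fun x => ?_,
    G'.loc.push_eq G.loc (fun M => .of_homeomorph (Φ M)) a₂ sq fun M y ⟨⟨z, p⟩, e⟩ => ?_⟩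
  · obtain ⟨x, e₁, e₂⟩ := G.psi (φ n)
    obtain ⟨x', e₃, e₄⟩ := G'.psi n
    rw [← e₁, ← e₃, pbE_bc]
    refine congrArg _ (inH_inj (evA_ext fun M => ?_))
    rw [HR.inH_map, ← map_evA, ← e₂, ← e₄, ← a₃ M n, H.map_map, H.map_map]
    exact congrArg (H.map · _) (ContinuousMap.ext fun z => (sq M z).symm)
  · obtain ⟨m, hm⟩ := τ.ex (f x)
    obtain ⟨_, e⟩ := τ.evp (φ n) hm
    obtain ⟨_, e'⟩ := τ'.evp n ((key _ _).1 hm)
    exact e.trans e'.symm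
  · obtain ⟨x, rfl⟩ := sj z
    exact ⟨(x, p), (Φ M).injective ((sq M _).trans e)⟩

/-- **relabelling** -/
theorem GeoT.hR {T : Th P} (G : GeoT k D a T) (h : P.Ok K₀ k D) : HR T :=
  fun ν ν' _ _ φ g d => (G ν g d).hR (G ν' g d) h φ

end Vale.Agent.P269.Lz
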