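import Vale.Agent.P287Q.Lz.WtP
import Vale.Agent.P287Q.G.G3.Jet
import Vale.Agent.P287Q.G.LG.HVt0
import Vale.Agent.P287Q.G.Bas.Ev

/-! The weight of the cotangent line at a fixed point, in a chart. -/

set_option linter.unusedSectionVars false
set_option linter.style.haveILetI false

namespace Vale.Agent.P269.WtP

open Set Function Topology Filter Module TensorProduct Vale.Agent.P291Z Vale.Agent.P269.Ch
  Vale.Agent.P269.Orb Vale.Agent.P269.Loc Vale.Agent.P269.LG Cv Base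

variable {S Λ R J K ι ν κ σ : Type} [Fintype S] [Fintype Λ] [Fintype R] [Fintype J] [Fintype K]
  [Fintype ι] [DecidableEq ι] [Fintype ν] [Fintype κ] [Fintype σ] {ch : Ch ι J} {ℓ : R → ι → ℤ}
  {n : Mk ν κ} {j : J}

section jet

variable {F : Fam S Λ R J K} {x : ch.WF ν κ Λ}

theorem jet_chr (hF : F.Inv) (hw : ∀ j i, ch.wd j i = ∑ r, F.w j r * ℓ r i)
    (hx : x ∈ ch.solF ν κ F) {g : ch.AF ν κ S} (hg : IsUnit g) (e : actF F.toWt g x = x)
    {v : V ch.M} (hB : v ∈ (ch.sdψ S Λ n).B x) (hN : v ∉ (ch.sdψ S Λ n).N x) {α : ℂ} (h0 : α ≠ 0)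
    (hα : (ch.sdψ S Λ n).ρ g v - α • v ∈ (ch.sdψ S Λ n).N x) {r : ℕ}
    (h1 : Vo x.2 j (x.2.p n) r) (h2 : ¬Vo x.2 j (x.2.p n) (r + 1)) :
    α ^ r = chT (F.wt j) (F.w j) (θv ℓ n g) := by
  have d : (x, v) ∈ jD F n j r := ⟨hx, h1, hB, hN⟩
  have a := (jF_act hF hw hg d).2
  rw [e, (jF_smul d h0 hα).2] at a
  exact mul_right_cancel₀ (mt (jF_eq_zero d).1 h2) a

theorem exists_vo (hx : x ∈ ch.solF ν κ F)
    {m : AM Λ R J ν κ} (hm : Rep ℓ univ x m) (hj : m.p n ∈ Gen (m.y j)) :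
    ∃ r, Vo x.2 j (x.2.p n) r ∧ ¬Vo x.2 j (x.2.p n) (r + 1) := by
  obtain ⟨B, π, u, s, h⟩ := hm.exists_data hx.1.2.1
  have a := h.ind j trivial
  obtain ⟨r, hr⟩ := ENat.ne_top_iff_exists.1 (((h.cr.ind_mem a).1 _).ord_ne_top.2 hj)
  have k : ∀ γ, IsBranch ch.o (crv x.2) γ → γ 0 = x.2.p n →
      analyticOrderAt (fun t => fld x.2 (γ t) j) 0 = r := fun γ b c => by
    obtain ⟨y, o, d⟩ := h.cr.order_eq a b
    obtain ⟨t, -, f⟩ := o.symm
    have e : y = m.p n := (h.cr.orb_mark (n := n)).1 ⟨t, c ▸ f⟩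
    rw [d, e, hr]
  refine ⟨r, fun γ b c => (dv_iff_le (JetA.an_fld hx b)).2 (k γ b c).ge, fun f => ?_⟩
  obtain ⟨γ, b, c⟩ := JetA.ex_br hx n
  have := (dv_iff_le (JetA.an_fld hx b)).1 (f γ b c)
  rw [k γ b c, Nat.cast_le] at this
  omega

theorem prod_chT {a : J → ℤ} {w : J → R → ℤ} {wt : J → S → ℤ} (ha : ∑ j, a j • w j = 0)
    {t : (S → ℂ) × (R → ℂ)} (ht : IsUnit t) :
    ∏ j, chT (wt j) (w j) t ^ a j = ∏ i, t.1 i ^ (∑ j, a j • wt j) i := by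
  obtain ⟨h1, h2⟩ := isUnit_T.1 ht
  have k : ∀ {T : Type} [Fintype T] {u : T → ℂ} (w : J → T → ℤ), (∀ i, u i ≠ 0) →
      ∏ j, (∏ i, u i ^ w j i) ^ a j = ∏ i, u i ^ (∑ j, a j • w j) i := fun w hu => by
    simp only [← Finset.prod_zpow, ← zpow_mul, Finset.sum_apply, Pi.smul_apply, smul_eq_mul]
    rw [Finset.prod_comm]
    exact Finset.prod_congr rfl fun i _ => by
      rw [zpow_sum_ne (hu i)]
      exact Finset.prod_congr rfl fun j _ => by rw [mul_comm]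
  simp only [chT, mul_zpow, Finset.prod_mul_distrib]
  rw [k wt h1, k w h2, ha]
  simp

/-- the tangent weight on a component with a monomial of weight zero -/
theorem exists_pow (hw : ∀ j i, ch.wd j i = ∑ r, F.w j r * ℓ r i) (hF : F.Inv)
    (hx : x ∈ ch.solF ν κ F) {m : AM Λ R J ν κ} (hm : Rep ℓ univ x m) {a : J → ℤ}
    (ha : ∑ j, a j • F.w j = 0) (hj : ∀ j, a j ≠ 0 → m.p n ∈ Gen (m.y j)) {v : V ch.M}
    (hB : v ∈ (ch.sdψ S Λ n).B x) (hN : v ∉ (ch.sdψ S Λ n).N x) :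
    ∃ N : ℤ, ∀ g, IsUnit g → actF F.toWt g x = x → ∀ α : ℂ, α ≠ 0 →
      (ch.sdψ S Λ n).ρ g v - α • v ∈ (ch.sdψ S Λ n).N x →
        α ^ N = ∏ i, g.1 i ^ (∑ j, a j • F.wt j) i := by
  choose! r h1 h2 using fun j h => exists_vo hx hm (hj j h)
  refine ⟨∑ j, r j * a j, fun g hg e α h0 hα => ?_⟩
  rw [zpow_sum_ne h0]
  refine Eq.trans (Finset.prod_congr rfl fun j _ => ?_)
    (prod_chT ha ((hm_θv ℓ n).isUnit hg))
  by_cases c : a j = 0
  · rw [c, mul_zero, zpow_zero, zpow_zero]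
  · rw [zpow_mul, zpow_natCast, jet_chr hF hw hx hg e hB hN h0 hα (h1 j c) (h2 j c)]

end jet

variable {P : Type} [AddCommGroup P] [Module ℂ P] [TopologicalSpace P] [IsTopologicalAddGroup P]
  [ContinuousSMul ℂ P] [T2Space P] {W₀ : Wt Empty Empty R J} {F₁ : Fam σ Empty R J K}
  {D : KD (ch.AF ν κ σ) (ch.WF ν κ Empty) P} {Z : Set (ch.WF ν κ Empty)}
  {c : TC σ (actF W₀) (actF F₁.toWt) D Z} {x : ch.WF ν κ Empty}

variable (c ℓ n) in
/-- `N ψ = -w` at the fixed point `x` -/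
def PsiW (x : ch.WF ν κ Empty) (N : ℤ) (w : σ → ℤ) : Prop :=
  ∀ (M : ℕ) (Λ : Type) [Fintype Λ] (F₂ : Fam σ Λ R J K) (Z' : Set (ch.WF ν κ Λ))
    (L : c.Lv M (actF F₂.toWt) Z'), (∀ x p, (L.μ (x, p)).2 = x.2) → GZ F₂ ℓ Z' →
      ∀ (hx : x ∈ Z) (φ : C(Bs σ M, Quo (actF F₂.toWt) Z')), (∀ p, φ (bp p) = L.cl x hx p) →
        N • H.map φ (hcls (psiF n)) = -lam M (lin w)

theorem psiW_of {m : ℕ} (hm : m ≠ 0) {ρ : Tor σ →* (ch.AF ν κ Empty)ˣ}
    (hc : Continuous ρ) (h1 : ∀ s, c.b (s ^ m) x = actF W₀ (ρ s) x) {α : Tor σ →ₜ* ℂˣ}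
    {v : V ch.M} (hB : v ∈ (ch.sdψ σ Empty n).B x) (hN : v ∉ (ch.sdψ σ Empty n).N x)
    (he : ∀ s, (ch.sdψ σ Empty n).ρ (el c m ρ s) v - (α s : ℂ) • v ∈ (ch.sdψ σ Empty n).N x)
    {N : ℤ} {w : σ → ℤ} (hα : ∀ s, α s ^ N = Loc.chr w (s ^ m)) : PsiW ℓ n c x N w := by
  intro M Λ _ F₂ Z' L hμ hz hx φ hφ
  have b : ∀ p : PM σ M, (ch.sdψ σ Λ n).B (L.μ (x, p.val)) = (ch.sdψ σ Empty n).B x := fun p => by
    simp only [hμ]
  have d : ∀ p : PM σ M, (ch.sdψ σ Λ n).N (L.μ (x, p.val)) = (ch.sdψ σ Empty n).N x := fun p => by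
    simp only [hμ]
  have k := map_eu_pt L hx hm hc h1 (hz.psi n) (fun p => b p ▸ hB) (fun p => d p ▸ hN)
    (fun s p => d p ▸ he s) (n := N) (w := (m : ℤ) • w) (fun s => (hα s).trans (by
      simp [Loc.chr_apply, zpow_mul])) hφ
  rw [lin_smul, Int.cast_natCast, inv_smul_smul₀ (Nat.cast_ne_zero.2 hm)] at k
  rw [← k, ← smul_neg, ← map_neg]
  exact congrArg (N • H.map φ ·) (hz.cl_psi n)

theorem exists_dir (hs : x ∈ ch.solF ν κ F₁) :
    ∃ v ∈ (ch.sdψ σ Empty n).B x, v ∉ (ch.sdψ σ Empty n).N x :=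
  let ⟨_, b, e⟩ := JetA.ex_br hs n
  ⟨_, (mem_sdψ_B hs.1.2.1 b e).2 ⟨1, by rw [one_smul, sub_self]; exact zero_mem _⟩,
    notMem_sdψ_N b e⟩

/-- **the weight at a point of an edge** -/
theorem psiW_edge (hu : ∀ a s, c.u (a, s) = (s, a.2)) (hc : ch.Cuts) (hF : F₁.Inv)
    (hw : ∀ j i, ch.wd j i = ∑ r, F₁.w j r * ℓ r i)
    (hx : x ∈ c.FZ) (hs : x ∈ ch.solF ν κ F₁) {m : AM Empty R J ν κ} (hm : Rep ℓ univ x m)
    {a : J → ℤ} (ha : ∑ j, a j • F₁.w j = 0) (hj : ∀ j, a j ≠ 0 → m.p n ∈ Gen (m.y j)) :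
    ∃ N : ℤ, PsiW ℓ n c x N (∑ j, a j • F₁.wt j) := by
  obtain ⟨k, k0, ρ, c1, h1⟩ := exists_hom hx
  obtain ⟨v, hB, hN⟩ := exists_dir (n := n) hs
  obtain ⟨α, hα⟩ := exists_chr (hc.okψ (S := σ) (F := F₁.toWt) (Z := ch.solF ν κ F₁)
    (fun y hy => hy.1.2.1) n) (continuous_el k c1) hs (fun s => by rw [act_el h1])
    (fun s => by rw [act_el h1]) hB hN
  obtain ⟨N, hp⟩ := exists_pow hw hF hs hm ha hj hB hN
  refine ⟨N, psiW_of k0 c1 h1 hB hN hα fun s => Units.ext ?_⟩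
  rw [Units.val_zpow_eq_zpow_val, hp _ (Units.isUnit _) (act_el h1 s) _ (α s).ne_zero (hα s),
    el_apply, c.U_val, hu, Loc.chr_apply, Units.coe_prod]
  exact Finset.prod_congr rfl fun i _ => (Units.val_zpow_eq_zpow_val ((s ^ k) i) _).symm

/-- **the weight at a point of a map to a fixed part** -/
theorem psiW_vert (hu : ∀ a s, c.u (a, s) = (s, a.2)) (hl : ch.Lat W₀ ℓ)
    (hw : ∀ j i, ch.wd j i = ∑ r, W₀.w j r * ℓ r i) (hs : x ∈ ch.solF ν κ F₁)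
    {m : AM Empty R J ν κ} (hm : Rep ℓ univ x m) {ρ : σ → R → ℤ}
    (hρ : ∀ j, (fun i => F₁.wt j i - ∑ r, ρ i r * W₀.w j r) ≠ 0 → m.y j = 0) :
    PsiW ℓ n c x 1 0 := by
  obtain ⟨v, hB, hN⟩ := exists_dir (n := n) hs
  choose u u1 u2 using hl.exists_dual
  let T : (σ → ℂ) → ι → ℂ := fun s i => ∏ l, s l ^ ∑ r, ρ l r * u r i
  have hT : Tq.Hm T := ⟨funext fun _ => by simp [T], fun a b _ _ => funext fun _ => by
    simp [T, mul_zpow, Finset.prod_mul_distrib], fun a ha => continuousAt_pi.2 fun _ =>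
      (an_prod_zpow analyticAt_id (isUnit_pi_iff.1 ha) _).continuousAt⟩
  have k : ∀ (s : Tor σ) (b : ι → ℤ), ∏ i, T (fun l => s l) i ^ b i =
      ∏ l, (s l : ℂ) ^ ∑ r, ρ l r * ∑ i, b i * u r i := fun s b => by
    simp only [T, ← Finset.prod_zpow, ← zpow_mul]
    rw [Finset.prod_comm]
    refine Finset.prod_congr rfl fun l _ => ?_
    rw [← zpow_sum_ne (s l).ne_zero]
    simp only [Finset.mul_sum, Finset.sum_mul]
    rw [Finset.sum_comm]
    exact congrArg _ (Finset.sum_congr rfl fun _ _ => Finset.sum_congr rfl fun _ _ => by ring)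
  have us : ∀ s : Tor σ, IsUnit fun l => (s l : ℂ) := fun s => isUnit_pi_iff.2 fun l => (s l).ne_zero
  have t0 : ∀ (s : Tor σ) i, T (fun l => s l) i ≠ 0 := fun s => isUnit_pi_iff.1 (hT.isUnit (us s))
  let θ : Tor σ →* ch.AF ν κ Empty := ⟨⟨fun s => (1, ch.ctr _ (T fun l => s l)),
    Prod.ext rfl ((congrArg _ hT.one).trans ctr_one)⟩, fun s s' => Prod.ext (mul_one _).symm
      ((congrArg _ (hT.mul _ _ (us s) (us s'))).trans (ctr_mul _ _))⟩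
  have cθ : Continuous θ := continuous_const.prodMk (continuous_iff_continuousAt.2 fun s =>
    (hm_ctr.cont _ (hT.isUnit (us s))).comp (f := fun s : Tor σ => T fun l => s l)
      ((hT.cont _ (us s)).comp (f := fun s : Tor σ => fun l => (s l : ℂ)) (continuous_pi fun l =>
        Units.continuous_val.comp (continuous_apply l)).continuousAt))
  refine psiW_of one_ne_zero (ρ := θ.toHomUnits) (Units.continuous_iff.2 ⟨cθ,
    (cθ.comp continuous_inv).congr fun g => congrArg Units.val (map_inv θ.toHomUnits g)⟩)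
    (fun s => Prod.ext (Subsingleton.elim _ _) ?_) (α := 1) hB hN (fun s => ?_) fun s => ?_
  · obtain ⟨B, π, u', s', h⟩ := hm.exists_data hs.1.2.1
    rw [pow_one, c.b_apply, c.t_val, hu]
    refine Eq.trans ?_ ((congrArg (fun a => (actF W₀ (1, a) x).2) (one_mul _).symm).trans
      (actF_ctr (t0 s) (by rw [k]; simp [u1]) x)).symm
    refine congrArg (act _) (Prod.ext rfl (Prod.ext rfl (Prod.ext rfl (funext fun j => ?_))))
    change (∏ i, (s i : ℂ) ^ F₁.wt j i) • x.2.X j = ((∏ i, T (fun l => s l) i ^ ch.wd j i) *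
      ∏ i, (1 : Empty → ℂ) i ^ W₀.wt j i) • x.2.X j
    by_cases e : (fun i => F₁.wt j i - ∑ r, ρ i r * W₀.w j r) = 0
    · refine congrArg (· • x.2.X j) ?_
      rw [k, Fintype.prod_empty fun i : Empty => _, mul_one]
      refine Finset.prod_congr rfl fun l _ => congrArg _ ?_
      simp only [hw, u2]
      exact sub_eq_zero.1 (congrFun e l)
    · rw [h.cr.ind_zero.1 (hρ j e ▸ h.ind j trivial)]
      exact ContinuousLinearMap.ext fun _ => by simp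
  · rw [el_apply, c.U_val, hu, ← map_inv]
    refine mem_of_eq_of_mem (sub_eq_zero.2 ?_) (zero_mem _)
    refine ((congrArg (fun a => (ch.sdψ σ Empty n).ρ (_, a) v) (one_mul _).symm).trans
      (ρψ_ctr (t0 s⁻¹) n v)).trans (funext fun i => ?_)
    exact (one_smul _ _).trans (one_smul ℂ (v i)).symm
  · rw [Loc.chr_zero, zpow_one]
    rfl

end Vale.Agent.P269.WtP
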