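import Vale.Agent.P287Q.Lz.HS
import Vale.Agent.P287Q.Lz.Dg3
import Vale.Agent.P269.LG.KunA
import Vale.Agent.P287Q.Lz.WtJ

/-! The weights of the cotangent lines at the fixed points. -/

set_option linter.unusedSectionVars false
set_option linter.style.haveILetI false

namespace Vale.Agent.P269.Lz

open Set Function Topology TensorProduct B Vale.Agent.P291Z Vale.Agent.P269.Ch Vale.Agent.P269.Loc
  LG WtP

variable {R J K σ ν : Type} [Fintype R] [Fintype J] [Fintype K] [Fintype σ] [Fintype ν]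

namespace HWP

theorem lam_ext {f g : Loc.R σ} (h : ∀ M, lam M f = lam M g) : f = g :=
  sub_eq_zero.1 (MvPolynomial.ext _ _ fun k => lam_eq_zero.1
    ((map_sub _ _ _).trans (sub_eq_zero.2 (h (∑ i, k i)))) k fun i =>
      Finset.single_le_sum (f := fun i => k i) (fun _ _ => Nat.zero_le _) (Finset.mem_univ i))

theorem map_pt {A : Type} [TopologicalSpace A] (a : A) (M : ℕ) (x : Loc.R σ ⊗[ℂ] Hev A) :
    H.map ((ContinuousMap.const _ a).prodMk (.id _)) (evA A M (inH A x)) = lam M (HNA.ptR a x) := by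
  induction x with
  | zero => simp only [map_zero]
  | add a b ha hb => simp only [map_add, ha, hb]
  | tmul f c =>
    have e : ∀ y : H Unit, y = algebraMap ℂ _ (exists_pt.choose y) := fun y =>
      exists_pt.choose_spec.1 (exists_pt.choose.commutes (exists_pt.choose y)).symm
    rw [HNA.ptR_tmul, map_mul, AlgHom.commutes]
    refine (map_mul _ _ _).trans (congrArg₂ (· * ·) ((H.map_map ..).trans (H.map_id (fun _ => rfl) _))
      ((H.map_map ..).trans ?_))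
    refine Eq.trans (H.map_map (.const (Bs σ M) ()) (ContinuousMap.const Unit a) c.1).symm ?_
    rw [e (H.map _ c.1)]
    exact ((H.mapA _).commutes _).trans (congrArg _ (exists_pt.choose.commutes _).symm)

end HWP

open HWP

variable [DecidableEq R] [DecidableEq σ] {P : TT R J K σ} {K₀ : RD R} {k D : ℕ} {a : σ → ℂ}
  {g : ℤ} {d : R → ℤ} {τ : Md P ν g d} (G : Geo k D a τ) (hP : P.Ok K₀ k D)
  {O : Set ((P.ch ν k D g d).WF ν (Fin 0) Empty)} {n : ℕ} (h : P.As K₀ O n)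

theorem Geo.ptE_psiW {z : τ.A} {x hx} (e : G.φ hP h z = h.tc.cl x hx) {q : ν} {N : ℤ} {w : σ → ℤ}
    (hw : PsiW ℓs (.inl q) h.tc x N w) : N • ptE z (τ.ψ q) = -chiA a (lin w) := by
  obtain ⟨y, e₁, e₂⟩ := G.psi q
  rw [← e₁, HNA.ptE_bc, ← map_zsmul, ← map_neg]
  refine congrArg _ (lam_ext fun M => ?_)
  rw [map_zsmul, map_neg, ← map_pt, ← e₂, H.map_map]
  exact hw M _ (P.EM M) _ (h.lv M) (fun _ _ => rfl) (D3c.gz_EM hP M) hx.1 _ fun p =>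
    (G.i_φ hP h M z _).symm.trans (e ▸ (h.lv M).i_cl x hx p)

include G hP

/-- **edges**: a multiple of the weight is a nonzero character -/
theorem Geo.ptE_rel {z : τ.A} {m} (hm : τ.Rp z m) {q : ν} {c : J → ℤ} (hc : ∑ j, c j • P.w j = 0)
    (hj : ∀ j, c j ≠ 0 → m.p (.inl q) ∈ Cv.Gen (m.y j)) :
    ∃ N : ℤ, N • ptE z (τ.ψ q) = -chiA a (lin (∑ j, c j • P.wt j)) := by
  obtain ⟨O, h⟩ := hP.exists_as ν g d
  obtain ⟨x, hx, e, r⟩ := (G.rp_iff hP h).1 hm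
  obtain ⟨N, b⟩ := psiW_edge (c := h.tc) (fun _ _ => rfl) h.std.cuts hP.invT Fam.chart_wd' hx hx.1.1
    r hc hj
  exact ⟨N, G.ptE_psiW hP h e b⟩

theorem Geo.ptE_ne (ha : LinearIndependent ℚ a) {z : τ.A} {m} (hm : τ.Rp z m) {q : ν}
    (hq : ¬P.Vm m q) : ptE z (τ.ψ q) ≠ 0 := fun e => by
  obtain ⟨c, c₁, c₂, c₃⟩ := exists_rel hP.free (τ.fx hm).sol hq
  obtain ⟨N, b⟩ := G.ptE_rel hP hm c₁ fun j hj => c₃ j hj mem_connectedComponent
  rw [e, zsmul_zero, zero_eq_neg] at b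
  exact chiA_lin_ne ha _ c₂ b

theorem Geo.ptE_vert {z : τ.A} {m} (hm : τ.Rp z m) {ρ} (hρ : Vert P.E.toWt P.wt m {ρ}) (q : ν) :
    ptE z (τ.ψ q) = 0 := by
  obtain ⟨O, h⟩ := hP.exists_as ν g d
  obtain ⟨x, hx, e, r⟩ := (G.rp_iff hP h).1 hm
  have := G.ptE_psiW hP h e (psiW_vert (n := .inl q) (c := h.tc) (fun _ _ => rfl)
    (Fam.chart_lat hP.bigD) Fam.chart_wd' hx.1.1 r (vert_single.1 hρ))
  rwa [one_smul, lin_zero, map_zero, neg_zero] at this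

omit G hP

variable {T : Th P}

/-- reduction to the part of the curve that carries the marked point -/
theorem HS.red (hS : HS T) {x : (T ν g d).A} {m} (hx : (T ν g d).Rp x m) {U : Set m.X}
    (hU : m.Sat U) {n : ν} (hn : m.p (.inl n) ∈ U) : ∃ (ν₁ : Type) (_ : Fintype ν₁) (g₁ : ℤ)
      (d₁ : R → ℤ) (x₁ : (T ν₁ g₁ d₁).A) (m₁ : AM1 R J ν₁) (f : ν₁ → ν) (ψ : Fin 0 → Fin 0)
      (j : m₁.X → m.X) (n₁ : ν₁), (T ν₁ g₁ d₁).Rp x₁ m₁ ∧ AM.Emb m₁ m f ψ j ∧ range j = U ∧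
        f n₁ = n ∧ ptE x ((T ν g d).ψ n) = ptE x₁ ((T ν₁ g₁ d₁).ψ n₁) := by
  classical
  let φ := Equiv.sumCompl fun n => m.p (.inl n) ∈ U
  obtain ⟨m₁, m₂, j₁, j₂, hs, hr⟩ := AM.exists_split hU φ e00
    (by rintro (a | a); exacts [a.2, a.1.elim0]) (by rintro (a | a); exacts [a.2, a.1.elim0])
  obtain ⟨g₁, d₁, ht⟩ : ∃ g₁ d₁, m₁.Typ g₁ d₁ := ⟨_, _, rfl, fun _ => rfl⟩
  have hg : g = g₁ + (g - g₁ + 1) - 1 := by ring
  have hd : d = d₁ + (d - d₁) := by abel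
  obtain ⟨f, I, hS⟩ := hS ν _ _ φ g g₁ _ d d₁ _ hg hd
  obtain ⟨f₁, f₂⟩ := Fx.split hs (hg ▸ hd ▸ (T ν g d).fx hx) ht
  obtain ⟨x₁, h₁⟩ := (T _ _ _).surj f₁
  obtain ⟨x₂, h₂⟩ := (T _ _ _).surj f₂
  refine ⟨_, inferInstance, g₁, d₁, x₁, m₁, _, _, j₁, ⟨n, hn⟩, h₁, hs.one, hr, rfl, ?_⟩
  rw [(T ν g d).inj hx (hS.pt _ _ _ _ _ _ _ h₁ h₂ hs), ← ptE_pbE]
  exact (congrArg _ (hS.ψ₁ ⟨n, hn⟩)).trans (ptE_pbE _ _ _)

theorem GeoT.ptE_vx (G : GeoT k D a T) (hP : P.Ok K₀ k D) {δ} (hN : HN T δ) (c : ℕ) :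
    ∀ (ν : Type) [Fintype ν] (g : ℤ) (d : R → ℤ) (x : (T ν g d).A) (m : AM1 R J ν),
      (T ν g d).Rp x m → m.N.card = c → ∀ n, P.Vm m n → ptE x ((T ν g d).ψ n) = 0 := by
  induction c with
  | zero =>
    rintro ν _ g d x m hx hk n ⟨ρ, hi⟩
    obtain ⟨ν₁, _, g₁, d₁, x₁, m₁, f, ψ, j, n₁, h₁, u, hr, -, v⟩ := (G.hS hP).red hx
      ⟨clopen_Vx ρ, fun z _ y w => by
        rw [Finset.card_eq_zero.1 hk] at w
        exact w.elim (fun b => (Finset.notMem_empty _ b).elim) fun b =>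
          (Finset.notMem_empty _ b).elim⟩ hi
    exact v.trans ((G ν₁ g₁ d₁).ptE_vert hP h₁
      (fun z => ⟨ρ, rfl, (tr_emb u).vx.1 (hr ▸ mem_range_self z)⟩) n₁)
  | succ c ih =>
    intro ν _ g d x m hx hk n hn
    obtain ⟨q, hq⟩ := Finset.card_pos.1 (c.succ_pos.trans_eq hk.symm)
    obtain ⟨n', hn', -⟩ := exists_nds (m := m) (z := q.1) fun u => (u q hq).1 rfl
    obtain ⟨A, _, _, _, φ, φ', hN⟩ := hN ν g (g - 1) d (by ring)
    obtain ⟨y, rfl, hy⟩ := hN.all x m n' hn' hx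
    have := ih _ _ _ _ _ hy (by have := card_ctp hn'; omega) (.inl n) hn
    rwa [← ptE_pbE, ← hN.ψ, ptE_pbE] at this

/-- **the weights of the cotangent lines** -/
theorem GeoT.hW (G : GeoT k D a T) (hP : P.Ok K₀ k D) (ha : LinearIndependent ℚ a) {δ}
    (hN : HN T δ) : HW T := fun ν _ g d n x m hx =>
  ⟨fun e => by_contra fun b => (G ν g d).ptE_ne hP ha hx b e, G.ptE_vx hP hN _ ν g d x m hx rfl n⟩

end Vale.Agent.P269.Lz
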