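import Vale.Agent.P287Q.Lz.NdL
import Vale.Agent.P287Q.Lz.HLd
import Vale.Agent.P287Q.Trr.St

/-! The localised relation `ψ_a + ψ_b = D(a | b)`. -/

set_option linter.unusedSectionVars false
set_option linter.style.haveILetI false

namespace Vale.Agent.P269.Lz

open Set Function Topology Filter TensorProduct B Vale.Agent.P291Z Vale.Agent.P269.Ch
  Vale.Agent.P269.Loc LG HNA

variable {R J K σ ν : Type} [Fintype R] [Fintype J] [Fintype K] [Fintype σ] [Fintype ν]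
  [DecidableEq R] [DecidableEq σ] {P : TT R J K σ} {K₀ : RD R} {k D : ℕ} {g g' : ℤ} {d : R → ℤ}
  {a : σ → ℂ}

/-- **localisation of a relation with a boundary term** -/
theorem NodL.push_eq {τ : Md P ν g d} {τ' : Md P (ν ⊕ Unit × Bool) g' d} {G : Geo k D a τ}
    {G' : Geo k D a τ'} {δ Ψ Φ} [∀ M, Nice ((P.EM M).ML ν k D g g' d)] {A : Type}
    [TopologicalSpace A] [Nice A] [CompactSpace A] {φ : C(A, τ.A)} {φ' : C(A, τ'.A)} {i v I}
    (w : NodL G G' δ Ψ Φ φ φ' i v I) (hN : ∀ M, (P.EM M).GNc (Ψ M) (Φ M))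
    {c : ∀ M, H (P.XM ν k D g d M)} {s : ∀ M, H (P.XM (ν ⊕ Unit × Bool) k D g' d M)} {n n'}
    (hc : ∀ M, H.map (G.i M) (c M) = evA _ M (inH _ n))
    (hs : ∀ M, H.map (G'.i M) (s M) = evA _ M (inH _ n'))
    (e : ∀ M, cap (c M) (P.vM ν k D g d M) = push (Ψ M) (cap (H.map (Φ M) (s M)) (v M)))
    {x x'} (hx : pb F φ x = pb F φ' x') : τ.I (inF _ (bc _ (chiA a) n) * x) =
      τ'.I (inF _ (bc _ (chiA a) n') * inF _ (τ'.dg δ (qq false) (qq true)) * x') := by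
  haveI := G.nice
  have h := (w.loc.cap (c := fun M => H.map (Φ M) (s M)) (n := pb _ φ' (inH _ n')) fun M => by
    rw [← map_evA, ← hs, H.map_map, H.map_map]
    exact congrArg (H.map · _) (ContinuousMap.ext (w.sq M))).push_eq (G.loc.cap hc)
      (fun M => haveI := (hN M).cpt; .of_isProperMap (Ψ M).continuous.isProperMap)
      (fun M => (e M).symm) w.sq' w.rng' x
  simp only [LinearMap.comp_apply, LinearMap.mulRight_apply] at h
  rw [inF_comm, inF_bc, ← h, hx, bc_pb, ← map_mul, w.eq, ← inF_bc, ← inF_comm]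
  exact congrArg τ'.I ((mul_assoc (G := F ⊗[ℂ] H τ'.A) _ _ _).symm.trans
    (congrArg (· * x') (inF_comm _ _)))

theorem Geo.hL {τ : Md P ν 0 d} {τ' : Md P (ν ⊕ Unit × Bool) (-1) d} (G : Geo k D a τ)
    (G' : Geo k D a τ') (hP : P.Ok K₀ k D) (ha : LinearIndependent ℚ a) (t : TG P a) (hG : St.GNc)
    (hT : St.Trr) : ∃ (A : Type) (_ : TopologicalSpace A) (_ : Nice A) (_ : CompactSpace A)
      (φ : C(A, _)) (φ' : C(A, _)), Nod t.dg τ τ' φ φ' ∧ LRel t.dg τ τ' φ φ' := by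
  choose Ψ Φ hN using fun M => hG (ν := ν) (P.EM M) k D 0 (-1) d (D3c.nice_EM hP M) hP.abs_fam
    (D3c.cp_EM M) hP.big_fam hP.bigD_fam rfl
  haveI := fun M => (hN M).nice
  haveI := G.nice
  obtain ⟨A, _, _, _, φ, φ', i, v, I, w⟩ := G.exists_nodL G' hP hG ha t rfl hN
  refine ⟨A, _, ‹_›, ‹_›, φ, φ', w.nod, fun n n' e =>
    ⟨G'.clopen_same hP fun _ _ => AM.Same.sep, fun x x' hx => ?_⟩⟩
  obtain ⟨y, y1, y2⟩ := G.psi n
  obtain ⟨z, z1, z2⟩ := G.psi n'
  rw [← y1, ← z1, ← τ.bc_ind (a := a), ← τ'.bc_ind (a := a), ← map_add, ← map_mul]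
  refine w.push_eq hN (fun M => ?_) (fun M => G'.map_ind hP (fun _ _ => AM.Same.sep)
    (fun _ _ => AM.Same.sep) fun _ _ => Iff.rfl) (fun M => hT (P.EM M) k D d n n' _ _
      (D3c.nice_EM hP M) hP.abs_fam hP.big_fam hP.bigD_fam e (hN M) _ (w.isV M)) hx
  rw [map_mul, map_add, y2, z2, G.map_ind hP (fun _ _ => AM.Same.conn) (fun _ _ => AM.Same.conn)
    fun _ _ => Iff.rfl, map_mul, map_mul, map_add, map_add]

/-- **the localised recursion relation** -/
theorem GeoT.hL {T : Th P} (G : GeoT k D a T) (hP : P.Ok K₀ k D) (ha : LinearIndependent ℚ a)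
    (t : TG P a) (hG : St.GNc) (hT : St.Trr) : HL T t.dg := fun ν _ d =>
  (G ν 0 d).hL (G _ (-1) d) hP ha t hG hT

end Vale.Agent.P269.Lz
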