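import Vale.Agent.P287Q.Lz.HZ
import Vale.Agent.P287Q.Lz.HR
import Vale.Agent.P287Q.Lz.HN
import Vale.Agent.P287Q.Lz.HS
import Vale.Agent.P287Q.Lz.HW
import Vale.Agent.P287Q.Lz.LR
import Vale.Agent.P287Q.Lam.Mo
import Vale.Agent.P287Q.Lam.TC
import Vale.Agent.P287Q.Trr.Main

/-! The system of fixed loci satisfies all hypotheses of the package of correlators. -/

set_option linter.unusedSectionVars false
set_option linter.style.haveILetI false

namespace Vale.Agent.P269.Lz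

open Set Function Topology TensorProduct B Vale.Agent.P291Z Vale.Agent.P269.Ch Vale.Agent.P269.Loc
  LG

variable {R J K σ : Type} [Fintype R] [Fintype J] [Fintype K] [Fintype σ] [DecidableEq R]
  [DecidableEq σ] {P : TT R J K σ} {K₀ : RD R} {k D : ℕ} {a : σ → ℂ} {T : Th P}
  (G : GeoT k D a T) (hP : P.Ok K₀ k D) (ha : LinearIndependent ℚ a) (t : TG P a) (hG : St.GNc)
include G hP ha hG

theorem GeoT.hy : Hy T t.dg :=
  ⟨hP.good, G.hR hP, G.hN hP ha t hG, G.hS hP, G.hW hP ha (G.hN hP ha t hG), G.hEv hP,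
    fun ν _ d => (G ν 0 d).clopen_same hP fun _ _ => AM.Same.conn⟩

/-- **all hypotheses hold** -/
theorem GeoT.hp (hc : t.Cas) (he : P.Eff) :
    ∃ (n : ℕ) (e f : Fin n → F ⊗[ℂ] H P.X), Hp T t.dg t.I e f := by
  haveI := t.nice
  haveI := t.niceX
  haveI := t.cptX
  obtain ⟨n, e, f, h⟩ := exists_sum (inF _ t.dg)
  exact ⟨n, e, f, G.hy hP ha t hG, he, G.hL hP ha t hG St.trr, G.hZ hP t, h, hc _ e f h,
    Mo.even_of t.loc fun M => ⟨_, (congrArg (BM.IsDeg · _) (mul_add (2 : ℤ) _ _)).mpr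
      (hP.ori M).deg⟩⟩

end Vale.Agent.P269.Lz
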