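import Vale.Agent.P287Q.Lz.FxC
import Vale.Agent.P269.Pt.Bnd

/-! The complex torus; components of degree zero are vertices. -/

set_option linter.unusedSectionVars false

namespace Vale.Agent.P269.Lz

open Set Function Topology Filter Cv FxA

variable {R J K σ S Λ ν : Type} [Fintype R] [Fintype J] [Fintype K] [Fintype σ] [Fintype S]
  [Fintype Λ] [Fintype ν] {F : Fam Empty Empty R J K} {W : Wt Empty Empty R J}
  {wt : J → σ → ℤ} {m m' : AM1 R J ν} {z : m.X} {c : J → ℂ} {g : ℤ} {d : R → ℤ}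

theorem str_tor (hc : ∀ j, c j ≠ 0) : Str W wt (tor c m) ↔ Str W wt m :=
  forall₂_congr fun s _ => exists₂_congr fun _ _ => and_congr_left' ⟨fun h =>
    isoE_mk (m := m) (m' := tor (tc wt s) m) h.liso h.node h.mark h.mem h.ne fun j x =>
      mul_left_cancel₀ (hc j) ((mul_left_comm _ _ _).trans
        ((isoD_y h j x).trans (mul_left_comm _ _ _))), fun h =>
    isoE_mk (m := tor c m) (m' := tor (tc wt s) (tor c m)) h.liso h.node h.mark h.mem h.ne fun j x =>
      (mul_left_comm _ _ _).trans ((congrArg (c j * ·) (isoD_y h j x)).trans (mul_left_comm _ _ _))⟩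

theorem tr_tor (hc : ∀ j, c j ≠ 0) : Tr m (tor c m) id id :=
  ⟨LIso.id _, injective_id, fun _ _ => ⟨fun a => ⟨_, a, rfl⟩, fun ⟨_, a, b⟩ => b ▸ a⟩, fun _ => rfl,
    fun n _ _ => ⟨n, rfl⟩, fun r U _ => by rw [image_id],
    fun l _ => mul_eq_zero.trans (or_iff_right (hc l))⟩

section par

variable {W' : Wt S Λ R J} {l l' : Λ → ℂ} {e : m.X ≃ m'.X} {t : R → m.X → ℂ} {τ : S → ℂ}
  (hw : W'.w = W.w) (h : AM.IsoD W' univ (par l m) (par l' m') e t τ)
include hw h

/-- an isomorphism in a family with an extra torus -/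
theorem isoD_par : AM.IsoD W univ (tor (tc W'.wt τ) m) m' e t 1 :=
  isoE_mk (m := tor (tc W'.wt τ) m) h.liso h.node h.mark h.mem h.ne fun j x =>
    (h.y j trivial x).trans (by simp only [Wt.actT, AM.vl, tc, hw]; ring)

theorem tr_par : Tr m m' id e :=
  let a := tr_iso (isoD_par hw h)
  ⟨a.liso, a.inj, a.node, a.mark, a.all, a.L, fun j x => (a.y j x).trans
    (mul_eq_zero.trans (or_iff_right (prod_zpow_ne (isUnit_pi_iff.1 h.unit) _)))⟩

theorem str_par : Str W wt m ↔ Str W wt m' :=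
  (str_tor fun _ => prod_zpow_ne (isUnit_pi_iff.1 h.unit) _).symm.trans
    (invW_str.iff (isoD_par hw h).iso)

end par

/-- special points of a fixed map are mapped to the fixed locus -/
theorem Fx.vl_fix (hF : Free F) (a : Fx F wt m g d) (hz : Spc m z) :
    m.vl z ∈ F.cone ∧ ∃ ρ, OvP F.toWt wt (m.vl z).2 ρ := ⟨a.sol.2.2 z, a.str.ov hF a.sol hz⟩

theorem OnV.vl_fix (hs : m.Sol F) (a : OnV F.toWt wt m z) :
    m.vl z ∈ F.cone ∧ ∃ ρ, OvP F.toWt wt (m.vl z).2 ρ := ⟨hs.2.2 z, a.imp fun _ => Vx.ov⟩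

/-- a component of degree zero of a fixed map is a vertex -/
theorem Str.onV_of_deg (hF : Free F) (hs : m.Sol F) (h : Str F.toWt wt m)
    (h0 : ∀ r, degOn (m.L r) (connectedComponent z) = 0) : OnV F.toWt wt m z := by
  classical
  by_contra k
  obtain ⟨a, a₁, a₂, a₃⟩ := exists_rel hF hs k
  have hC := clopen_cc m z
  have ne : ∀ j, a j ≠ 0 → ∀ x ∈ connectedComponent z, m.y j x ≠ 0 := fun j hj x hx e => by
    have := card_le_degOn hC (fun x _ => (hs.2.1 j).1 x) (a₃ j hj) (T := {x}) (by simpa using ⟨hx, e⟩)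
    simp [degOn_bz, h0] at this
  have ne' : ∀ x ∈ connectedComponent z, ∀ j, m.y j x ^ a j ≠ 0 := fun x hx j => by
    by_cases b : a j = 0
    · rw [b, zpow_zero]; exact one_ne_zero
    · exact zpow_ne_zero _ (ne j b x hx)
  have sec : ∀ x ∈ connectedComponent z, (1 : LB m.R).Sec (∏ j, m.y j ^ a j) x := fun x hx => by
    rw [← bz_zero m.L, ← a₁, bz_sum]
    refine LB.Sec.prod fun j _ => ?_
    rw [bz_smul]
    by_cases b : a j = 0
    · rw [b, zpow_zero, zpow_zero]; exact LB.one_mem x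
    · exact ((hs.2.1 j).1 x).zpow (ne j b x hx) _
  obtain ⟨c, hc⟩ := exists_const hC isConnected_connectedComponent (fun x _ => LB.one_mem x) sec
    fun _ _ => one_ne_zero
  refine a₂ (eq_zero_of_chr fun s s1 => ?_)
  obtain ⟨e, t, b, -, u⟩ := h s s1
  have v := Finset.prod_congr (s₁ := Finset.univ) rfl fun j _ => congrArg (· ^ a j) (isoD_y b j z)
  simp only [mul_zpow, Finset.prod_mul_distrib, tc] at v
  have v₁ := hc _ (u z)
  have v₂ := hc z mem_connectedComponent
  simp only [Finset.prod_apply, Pi.pow_apply] at v₁ v₂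
  rw [prod_zpow_zpow fun i => norm_ne_zero_iff.1 (by rw [s1 i]; exact one_ne_zero),
    prod_zpow_zpow fun r => b.ne r z, a₁, v₁, Pi.one_apply, ← show (1 : m.X → ℂ) z = 1 from rfl,
    ← v₂] at v
  simpa using mul_right_cancel₀ (Finset.prod_ne_zero_iff.2 fun j _ =>
    ne' z mem_connectedComponent j) v

variable [DecidableEq R]

theorem degOn_zero (hF : F.Good) (hs : m.Sol F) (ht : m.Typ g 0) (r : R) (U : Set m.X) :
    degOn (m.L r) U = 0 := by
  obtain ⟨θ, N, hA⟩ := hF.ample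
  have a := hs.abs_degOn_le hA U r
  have b := hs.degOn_le hA U
  simp only [ht.2, Pi.zero_apply, mul_zero, Finset.sum_const_zero] at b
  rw [b.antisymm (hs.degOn_nonneg hA U), mul_zero] at a
  exact abs_nonpos_iff.1 a

/-- in degree zero all components are vertices -/
theorem Fx.onV_zero (hF : F.Good) (a : Fx F wt m g 0) (z : m.X) : OnV F.toWt wt m z :=
  a.str.onV_of_deg (free_of_good hF) a.sol fun r => degOn_zero hF a.sol a.typ r _

theorem Fx.ne_zero (hF : F.Good) (a : Fx F wt m g d) (hz : ¬OnV F.toWt wt m z) : d ≠ 0 :=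
  fun e => hz ((e ▸ a).onV_zero hF z)

theorem Fx.pos (hF : F.Good) {θ : R → ℤ} {N : ℕ} (hA : F.Ample θ N) (a : Fx F wt m g d)
    (hz : ¬OnV F.toWt wt m z) : 0 < ∑ r, θ r * d r :=
  let b := a.sol.eff hA a.typ
  b.1.lt_of_ne fun e => a.ne_zero hF hz (b.2 e.symm)

end Vale.Agent.P269.Lz
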