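import Vale.Agent.P287Q.Lz.Lev
import Vale.Agent.P287Q.Lz.FxD

/-! Existence of the system of fixed loci. -/

set_option linter.unusedSectionVars false
set_option linter.style.haveILetI false

namespace Vale.Agent.P269.Lz

open Set Function Topology TensorProduct Vale.Agent.P291Z Vale.Agent.P269.Ch Vale.Agent.P269.Loc LG

variable {R J K σ ν : Type} [Fintype R] [Fintype J] [Fintype K] [Fintype σ] [Fintype ν]
  [DecidableEq σ] {P : TT R J K σ} {K₀ : RD R}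

variable [DecidableEq R] {k D : ℕ} {a : σ → ℂ} {g : ℤ} {d : R → ℤ}

namespace Ex

variable (hP : P.Ok K₀ k D) (ha : LinearIndependent ℚ a)
  {O : Set ((P.ch ν k D g d).WF ν (Fin 0) Empty)} {n : ℕ} (h : P.As K₀ O n)

include hP in
theorem fx {z : h.tc.F} {m : AM1 R J ν} (f : P.E.At (h.tc.g₀ z) m) : P.Fx m g d :=
  have s := f.sol hP.good.toInv
  have t := f.stable hP.bigD
  let ⟨x, b, c⟩ := f
  ⟨s, t, Fam.At.typ ⟨x, b, c⟩,
    Fixd.str ((hP.mem_FZ h x.2 c).1 (h.mem_FZ_of b))⟩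

include hP in
theorem surj {m : AM1 R J ν} (f : P.Fx m g d) : ∃ z : h.tc.F, P.E.At (h.tc.g₀ z) m :=
  let ⟨_, x, _, c⟩ := Fam.exists_at_of (u := (0 : ν → _)) hP.good.toInv hP.abs_fam hP.big
    hP.bigD f.sol f.stable f.typ
  ⟨h.tc.cl x.1 ((hP.mem_FZ h x.2 c).2 f.str.fixd), x, rfl, c⟩

include hP in
theorem vl_rep {x} (hx : x ∈ h.tc.FZ) {m : AM1 R J ν} (c : Rep ℓs univ x m) (q : ν) :
    m.vl (m.p (.inl q)) ∈ P.Fix ∧
      ∃ t, IsUnit t ∧ vl x (.inl q) = P.E.actT t (m.vl (m.p (.inl q))) :=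
  let ⟨t, a, b⟩ := c.vl (W := P.E.toWt) hx.1.1.1.2.1 h.gz0.wt
  ⟨Fx.vl_fix hP.free (fx hP h (z := h.tc.cl x hx) ⟨⟨x, hx.1⟩, rfl, c⟩) (spc_p _),
    (1, t (.inl q)), Prod.isUnit_iff.2 ⟨isUnit_one, a _⟩, b _⟩

include hP in
theorem vl_fix (q : ν) (x) (hx : x ∈ h.tc.FZ) : vl x (.inl q) ∈ P.Fix :=
  let ⟨_, f⟩ := (Fam.chart_lat (F := P.E) hP.bigD).exists_rep_sol hx.1.1
  let ⟨a, t, b, c⟩ := vl_rep hP h hx f q
  c ▸ hP.fix_act t b _ a

include hP in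
theorem eqv (q : ν) : Tq.Eqv (actF P.E.toWt) P.E.actT h.tc.FZ P.Fix (vl · (.inl q)) :=
  have e := (h.gz0.eqh_vl (.inl q) fun _ a => vl_mem a.1 _).toEqv
  ⟨vl_fix hP h q, e.cont.mono fun _ a => a.1, fun a b x c => e.eqv a b x c.1⟩

/-- the fixed locus -/
noncomputable def md : Md P ν g d where
  A := h.tc.F
  Rp z m := P.E.At (h.tc.g₀ z) m
  ex _ := Fam.exists_at hP.bigD _
  fx := fx hP h
  iso f := ⟨fun f' => (f.eq_iff hP.bigD f').1 rfl, f.of_iso hP.good.toInv hP.bigD⟩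
  inj f f' := h.tc.isClosedEmbedding_g₀.injective ((f.eq_iff hP.bigD f').2 (.refl _))
  surj := surj hP h
  I := haveI := fun M => (h.lv M).nice; (TC.exists_isLoc h.lv (chiA_lin_ne ha)).choose
  ψ q := bc _ (chiA a) (h.exists_psi (.inl q)).choose
  ev q := (eqv hP h q).qm
  evp q _ _ := fun ⟨x, b, c⟩ =>
    let ⟨u, t, v, w⟩ := vl_rep hP h (h.mem_FZ_of b) c q
    ⟨u, (congrArg _ (h.tc.isClosedEmbedding_g₀.injective
      (a₂ := h.tc.cl x.1 (h.mem_FZ_of b)) b)).trans (Quot.sound ⟨t, v, w⟩).symm⟩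

/-- the fixed locus in the moduli space -/
noncomputable def geo : Geo k D a (md hP ha h) where
  g0 := h.tc.g₀
  emb := h.tc.isClosedEmbedding_g₀
  rp _ _ := Iff.rfl
  nice M := (h.lv M).nice
  i M := (h.lv M).i
  pt M _ p _ := fun ⟨x, b, c⟩ => ⟨_, (congrArg (fun t => (h.lv M).i (t, bp p))
    (h.tc.isClosedEmbedding_g₀.injective (a₂ := h.tc.cl x.1 (h.mem_FZ_of b)) b)).trans
      ((h.lv M).i_cl _ _ p), rep_μA.2 c⟩
  loc := haveI := fun M => (h.lv M).nice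
    (funext fun M => hP.vir_EM h M : P.vM ν k D g d = _) ▸
      (TC.exists_isLoc h.lv (chiA_lin_ne ha)).choose_spec
  psi q := ⟨_, rfl, (h.exists_psi (.inl q)).choose_spec⟩

end Ex

/-- **existence of the fixed loci** -/
theorem exists_geo (h : P.Ok K₀ k D) (ha : LinearIndependent ℚ a) :
    ∃ T : Th P, Nonempty (GeoT k D a T) :=
  ⟨fun ν _ g d => Ex.md h ha (h.exists_as ν g d).choose_spec,
    ⟨fun _ _ _ _ => Ex.geo h ha _⟩⟩

end Vale.Agent.P269.Lz
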