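import Vale.Agent.P287Q.Lz.Clo

/-! Removing a tail; the sum over the numbers of tails. -/

set_option linter.unusedSectionVars false
set_option maxSynthPendingDepth 3

namespace Vale.Agent.P269.Lz

open Function Filter TensorProduct Cv B Vale.Agent.P291Z Vale.Agent.P269.Ch LG Finset

variable {R J K σ ν ι : Type} [Fintype R] [Fintype J] [Fintype K] [Fintype σ] [Fintype ν]
  [Fintype ι] {P : TT R J K σ} {T : Th P} {δ : F ⊗[ℂ] Hev (P.X × P.X)}

theorem HW.nil (h : HW T) (g : ℤ) (d : R → ℤ) (q : ν) :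
    ∀ᶠ N in atTop, (T ν g d).id (P.Vm · q) * (T ν g d).ψ q ^ N = 0 := by
  obtain ⟨n, hn⟩ := piece_nil (h.clopen_vm (g := g) (d := d) q) (h.sel_vm q).le
  refine eventually_atTop.2 ⟨n + 1, fun N hN => ?_⟩
  obtain ⟨k, rfl⟩ := Nat.exists_eq_add_of_le' (Nat.one_le_of_lt hN)
  have i : IsIdempotentElem ((T ν g d).id (P.Vm · q)) := idE_mul_self (h.clopen_vm q)
  rw [← i.pow_succ_eq k, ← mul_pow]
  exact pow_eq_zero_of_le (Nat.le_of_succ_le hN) hn

theorem HW.id_mul_iv (h : HW T) {g : ℤ} {d : R → ℤ} (q : ν) :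
    (T ν g d).id (fun m => ¬P.Vm m q) * iv (-(T ν g d).ψ q) = iv (-(T ν g d).ψ q) := by
  rw [Md.id, Md.sel_not _ (invW_onV q), h.sel_vm, iv, ← mul_assoc]
  simp only [map_neg, neg_eq_zero, idE_mul_self (clopen_zero _).compl]

theorem tags_op {α : Type} [DecidableEq ν] {X : ν → Bool × α} (A : Finset ν) (y : α) :
    {n | (op (· ∈ A) (true, y) X n).1} = insert none (pr₁ (spP (· ∈ A)) {n | (X n).1}) := by
  ext (_ | ⟨a, ha⟩)
  · exact iff_of_true rfl (.inl rfl)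
  · exact ⟨fun u => .inr ⟨a, u, rfl⟩, fun u => (u.resolve_left nofun).elim fun _ v =>
      (Sum.inl_injective v.2 : a = _) ▸ v.1⟩

theorem ins_op {p : ν → Prop} [Fintype {a // p a}] {g : ℤ} {d : R → ℤ}
    (τ : Md P (Option {a // p a}) g d) (X : ν → Tg P) (b : Bool) (j : ℕ) (y : HH P)
    {x : Option {a // p a} → ℕ × HH P} (h₀ : x none = (0, 1)) (h₁ : ∀ a, x (some a) = (X a.1).2) :
    (τ.ins fun n => (op p (b, j, y) X n).2) = τ.ψ none ^ j * pbE (τ.ev none) y * τ.ins x := by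
  simp only [Md.ins, Fintype.prod_option, h₀, h₁, op, Option.elim, pow_zero, map_one, one_mul]

variable [DecidableEq R]

theorem Hy.sum (h : Hy T δ) (d : R →₀ ℕ) : ∃ N, ∀ N' ≥ N, ∀ (ν : Type) [Fintype ν] (X : ν → Tg P),
    (∃ n, (X n).1) → nm T wC d X = ∑ k ∈ range (N' + 1), nm T (wE k) d X := by
  classical
  obtain ⟨N, hN⟩ := h.exists_bound (dz d)
  refine ⟨N, fun N' hN' ν _ X ⟨a, ha⟩ => ?_⟩
  simp only [nm, wC, wE]
  rw [← map_sum, ← sum_mul, ← Md.fnE_ite _ (inv_cs _), Md.fnE_cf_sum _ (range (N' + 1))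
    (u := fun k m => if ES P k {n | (X n).1} m then 1 else 0) (fun k _ => Md.lc_ite _ (inv_es _ _)
      (h.clopen_es k _) (IsLocallyConstant.const _)) fun m u => ?_]
  · simp only [Md.fnE_ite _ (inv_es _ _)]
  split_ifs with c
  · have w := (es_iff (S := {n | (X n).1}) ha).2 ⟨c.1, c.2, rfl⟩
    rw [sum_eq_single_of_mem _ (mem_range.2 (Nat.lt_succ_of_le ((hN ν _ a ha m _ u w).trans hN')))
      fun k _ e => if_neg fun v => e ((v.2 a ha).symm), if_pos w]
  · exact (sum_eq_zero fun k _ => if_neg fun v => c v.1).symm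

theorem Hy.wT_op (h : Hy T δ) {p : ν → Prop} [Fintype {a // p a}] {α : Type} {X : ν → Bool × α}
    (hX : ∀ a, p a → ¬(X a).1) (j : ℕ) (d : R → ℤ) (y : α) :
    wT j _ d (T _ 0 d) (fun n => (op p (true, y) X n).1) = (T (Option {a // p a}) 0 d).id
      (fun m => m.Conn ∧ ¬P.Vm m none) * iv (-(T (Option {a // p a}) 0 d).ψ none) ^ (j + 1) := by
  have e : ∀ a : {a // p a}, (op p (true, y) X (some a)).1 = false := fun a =>
    Bool.eq_false_iff.2 (hX a.1 a.2)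
  rw [← Md.id_mul _ invW_conn (invW_onV none).not (h.conn _ _)
    (Md.clopen_not _ (invW_onV none) (h.hW.clopen_vm none)), mul_assoc, pow_succ', ← mul_assoc _ (iv _),
    h.hW.id_mul_iv, ← pow_succ', wT, Fintype.prod_option]
  simp only [e, cond_false, prod_const_one, mul_one]
  rfl

omit [DecidableEq R] in
theorem nm_vtx (d : R →₀ ℕ) (X : ν → Tg P) (h : ∃ n, (X n).1) :
    nm T (wE 0) d X = nm T (wE 0) d fun n => (true, (X n).2) :=
  let ⟨a, ha⟩ := h
  (T ν 0 (dz d)).W_congr (fun _ _ => (es_zero (S := {n | (X n).1}) (a := a) ha).trans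
    (es_zero (S := {_n | true}) (a := a) rfl).symm) _

variable {I : F ⊗[ℂ] H P.X →ₗ[F] F} {e f : ι → F ⊗[ℂ] H P.X} (h : Hp T δ I e f)
include h

theorem Hp.sum (ν : Type) [Fintype ν] (d : R →₀ ℕ) : ∃ N, ∀ N' ≥ N, ∀ X : ν → Tg P,
    (∃ n, (X n).1) → nm T wC d X = ∑ k ∈ range (N' + 1), nm T (wE k) d X :=
  (h.toHy.sum d).imp fun _ u N' v => u N' v ν

theorem Hp.vtx (d : R →₀ ℕ) (X : ν → Tg P) (u : ∃ n, (X n).1) :
    nm T (wE 0) d X = nm T (wE 0) d fun n => (true, (X n).2) := nm_vtx d X u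

variable [DecidableEq ν]

theorem Hp.cut_tl {d d₁ d₂ : R →₀ ℕ} (hd : d₁ + d₂ = d) (k : ℕ) (X : ν → Tg P) (A : Finset ν) :
    IsLocallyConstant ((T ν 0 (dz d)).cf (cntN · (TlQ P {n | (X n).1} k A (dz d₁)))) ∧
    ∀ N, (∀ n, (X n).1 → n ∈ A) → (T (Option {a // a ∈ A}) 0 (dz d₁)).id (P.Vm · none) *
      (T (Option {a // a ∈ A}) 0 (dz d₁)).ψ none ^ N = 0 →
      (T ν 0 (dz d)).Je (fnE ((T ν 0 (dz d)).cf (cntN · (TlQ P {n | (X n).1} k A (dz d₁)))) *
        (T ν 0 (dz d)).ins fun n => (X n).2) = ∑ b, ∑ j ∈ range N,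
        nm T (wE k) d₁ (op (· ∈ A) (true, j, evn (e b)) X) *
          nm T (wT j) d₂ (op (· ∉ A) (true, 0, evn (f b)) X) := by
  have v : ∀ m, ES P k (insert none (pr₁ (spP (· ∈ A)) {n | (X n).1})) m → P.Vm m none :=
    fun _ u => u.1.2.onV (Set.mem_insert _ _)
  obtain ⟨l, w⟩ := h.toHy.cut (φ := spP (· ∈ A)) rfl rfl (hd ▸ dz_add d₁ d₂) (inv_es k _)
    (invW_conn.and (invW_onV none).not) (h.toHy.clopen_es k _) (h.toHy.clopen_tl none)
    (fun _ u => u.1.1) v fun _ u => u.2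
  refine ⟨l, fun N hA hN => (w h.dec N ?_ _).trans
    (sum_congr rfl fun b _ => sum_congr rfl fun j _ => congrArg₂ (· * ·) ?_ ?_)⟩
  · rw [← Md.id_of_imp _ (inv_es k _) (invW_onV none) (h.toHy.clopen_es k _) (h.hW.clopen_vm none) v,
      mul_assoc, hN, mul_zero]
  · rw [nm, wE, tags_op, ins_op _ X _ _ _
      (x := fun n => xt (fun n => (X n).2) (spP (· ∈ A) (.inl n))) rfl fun _ => rfl, mul_assoc,
      mul_right_comm]
  · have t := ins_op (T (Option {a // a ∉ A}) 0 (dz d₂)) X true 0 (evn (f b))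
      (x := fun n => xt (fun n => (X n).2) (spP (· ∈ A) (.inr n))) rfl fun _ => rfl
    rw [pow_zero, one_mul, mul_comm] at t
    rw [nm, h.toHy.wT_op fun a u v => u (hA a v), t]
    exact congrArg _ (((mul_assoc _ _ _).trans (congrArg _ (mul_assoc _ _ _))).trans
      (mul_assoc _ _ _).symm)

variable (ν) in
/-- **removing a tail** -/
theorem Hp.tail (d : R →₀ ℕ) : ∃ N, ∀ (k : ℕ) (X : ν → Tg P), (∃ n, (X n).1) →
    ((k : F) + 1) * nm T (wE (k + 1)) d X = ∑ p ∈ antidiagonal d,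
      ∑ A : Finset ν with ∀ n, (X n).1 → n ∈ A, ∑ b, ∑ j ∈ range N,
        nm T (wE k) p.1 (op (· ∈ A) (true, j, evn (e b)) X) *
          nm T (wT j) p.2 (op (· ∉ A) (true, 0, evn (f b)) X) := by
  classical
  obtain ⟨N, hN⟩ := ((eventually_all_finset (antidiagonal d)).2 fun p _ => eventually_all.2
    fun A : Finset ν => h.hW.nil 0 (dz p.1) (none : Option {a // a ∈ A})).exists
  refine ⟨N, fun k X ⟨a, ha⟩ => ?_⟩
  have i : Set.InjOn (fun p : (R →₀ ℕ) × (R →₀ ℕ) => dz p.1) (antidiagonal d) := fun p u q v w =>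
    Prod.ext (dz_inj w) (add_left_cancel (a := p.1) ((mem_antidiagonal.1 (mem_coe.1 u)).trans
      (dz_inj w ▸ (mem_antidiagonal.1 (mem_coe.1 v)).symm)))
  rw [nm, wE, ← smul_eq_mul, ← map_smul, Algebra.smul_def, ← mul_assoc, ← Nat.cast_succ,
    map_natCast, ← Md.fnE_ite' _ (inv_es _ _) (h.toHy.clopen_es _ _), Md.fnE_cf_sum _ _
      (fun x hx => ?_) fun m u => sum_tlQ (S := {n | (X n).1}) (a := a) u.typ.1 ha (fun U => h.eff.anti u)
        (univ.filter fun A : Finset ν => ∀ n, (X n).1 → n ∈ A) fun A => (mem_filter_univ A).trans Iff.rfl,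
    sum_mul, map_sum, sum_product, sum_comm, sum_image i]
  · exact sum_congr rfl fun p hp => sum_congr rfl fun A hA =>
      (h.cut_tl (mem_antidiagonal.1 hp) k X A).2 N (mem_filter.1 hA).2 (hN p hp A)
  · obtain ⟨p, hp, e⟩ := mem_image.1 (mem_product.1 hx).2
    exact e ▸ (h.cut_tl (mem_antidiagonal.1 hp) k X x.1).1

end Vale.Agent.P269.Lz
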