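import Vale.Agent.P287Q.Lz.Ev

/-! Linearity, degree zero, descendants, moving classes. -/

set_option linter.unusedSectionVars false
set_option maxSynthPendingDepth 3

namespace Vale.Agent.P269.Lz

open Function TensorProduct Cv B Vale.Agent.P291Z Vale.Agent.P269.Ch LG Finset
  Vale.Agent.P287Q.Lz

variable {R J K σ ν ν' : Type} [Fintype R] [Fintype J] [Fintype K] [Fintype σ] [Fintype ν]
  [Fintype ν'] {P : TT R J K σ} {T : Th P} {w : Wg P}

theorem exists_fam {α : Type} (u : Multiset α) : ∃ (n : ℕ) (X : Fin n → α), univ.val.map X = u :=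
  ⟨_, _, Ev_get u⟩

theorem nm_option (w : Wg P) (d : R →₀ ℕ) (b : Bool) (i : ℕ) (y : HH P) (X : ν → Tg P) :
    nm T w d (fun o : Option ν => o.elim (b, i, y) X) = (T (Option ν) 0 (dz d)).Je
      (w _ _ (T (Option ν) 0 (dz d)) (fun o => o.elim b fun n => (X n).1) *
        ((T (Option ν) 0 (dz d)).ψ none ^ i * pbE ((T (Option ν) 0 (dz d)).ev none) y *
          (T (Option ν) 0 (dz d)).ins (·.elim (0, 1) fun n => (X n).2))) := by
  rw [← Md.ins_option, nm]
  congr 3 <;> exact funext fun o => by cases o <;> rfl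

theorem Nm_lin (h : Rl T w) (d : R →₀ ℕ) (b : Bool) (i : ℕ) (u : Multiset (Tg P)) :
    IsLinearMap F fun y => Nm T w d ((b, i, y) ::ₘ u) := by
  obtain ⟨n, X, rfl⟩ := exists_fam u
  simp only [Nm_option h, nm_option]
  exact ⟨fun x y => by simp only [map_add, mul_add, add_mul], fun c x => by
    simp only [map_smul, mul_smul_comm, smul_mul_assoc]⟩

/-- a class that moves between two marked points -/
theorem Nm_move (h : Rl T w) (d : R →₀ ℕ) {b b' : Bool} {a : HH P} {u : Multiset (Tg P)}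
    (e : ∀ (ν : Type) [Fintype ν] (X : ν → Tg P) n n', (X n).1 = b → (X n').1 = b' →
      (∀ n, (X n).1 = b ∨ (X n).1 = b' ∨ X n ∈ u) →
      w ν _ (T ν 0 (dz d)) (fun n => (X n).1) * pbE ((T ν 0 (dz d)).ev n) a =
        w ν _ (T ν 0 (dz d)) (fun n => (X n).1) * pbE ((T ν 0 (dz d)).ev n') a) (i j x y) :
    Nm T w d ((b, i, a * x) ::ₘ (b', j, y) ::ₘ u) = Nm T w d ((b, i, x) ::ₘ (b', j, a * y) ::ₘ u) := by
  obtain ⟨n, X, rfl⟩ := exists_fam u
  have k := e (Option (Option (Fin n))) (·.elim (b, i, x) (·.elim (b', j, y) X)) none (some none)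
    rfl rfl (by
      rintro (_ | _ | c)
      exacts [.inl rfl, .inr (.inl rfl), .inr (.inr (Multiset.mem_map_of_mem _ (mem_univ c)))])
  rw [← map_option (b', j, y), ← map_option (b', j, a * y), Nm_option h, Nm_option h, nm, nm]
  have t : ∀ x' y', (fun o : Option (Option (Fin n)) => (o.elim (b, i, x') fun o' =>
      o'.elim (b', j, y') X).1) = fun o => (o.elim (b, i, x) fun o' => o'.elim (b', j, y) X).1 :=
    fun _ _ => funext fun o => by rcases o with _ | _ | _ <;> rfl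
  rw [t (a * x) y, t x (a * y)]
  refine congrArg _ ?_
  simp only [Md.ins, Fintype.prod_option, Option.elim, map_mul] at k ⊢
  linear_combination (T _ 0 (dz d)).ψ none ^ i * pbE ((T _ 0 (dz d)).ev none) x *
    ((T _ 0 (dz d)).ψ (some none) ^ j * pbE ((T _ 0 (dz d)).ev (some none)) y *
      ∏ c, (T _ 0 (dz d)).ψ (some (some c)) ^ (X c).2.1 *
        pbE ((T _ 0 (dz d)).ev (some (some c))) (X c).2.2) * k

/-- weights that differ by a polynomial in the cotangent class -/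
theorem Nm_poly {w' : Wg P} (h : Rl T w) (h' : Rl T w') (d : R →₀ ℕ) (b b' : Bool) (j : ℕ)
    (u : Multiset (Tg P)) (e : ∀ (ν : Type) [Fintype ν] (X : ν → Tg P), (∀ n, X n ∈ u) →
      ∃ z ∈ Algebra.adjoin F {(T (Option ν) 0 (dz d)).ψ none},
        w _ _ (T (Option ν) 0 (dz d)) (fun o => o.elim b fun n => (X n).1) =
          w' _ _ (T (Option ν) 0 (dz d)) (fun o => o.elim b' fun n => (X n).1) * z) :
    ∃ c : ℕ →₀ F, ∀ y, Nm T w d ((b, j, y) ::ₘ u) =
      c.sum fun i k => k * Nm T w' d ((b', i, y) ::ₘ u) := by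
  obtain ⟨n, X, rfl⟩ := exists_fam u
  obtain ⟨z, hz, k⟩ := e _ X fun n => Multiset.mem_map_of_mem _ (mem_univ n)
  obtain ⟨c, hc⟩ := exists_poly (mul_mem hz (pow_mem (Algebra.self_mem_adjoin_singleton F _) j))
  refine ⟨c, fun y => ?_⟩
  simp only [Nm_option h, Nm_option h', nm_option, k]
  rw [mul_assoc, mul_assoc, ← mul_assoc z, hc, Finsupp.sum, Finsupp.sum, sum_mul, mul_sum, map_sum]
  exact sum_congr rfl fun i _ => by
    rw [smul_mul_assoc, mul_smul_comm, map_smul, smul_eq_mul, mul_assoc]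

theorem mem_tag_zero {α : Type} {t : Multiset α} {x : Bool × α} (h : x ∈ tag 0 t) : x.1 = false := by
  rw [tag_zero] at h
  obtain ⟨_, -, rfl⟩ := Multiset.mem_map.1 h
  rfl

theorem mem_tag_zero' {α : Type} {t : Multiset α} {x : Bool × α} (h : x ∈ tag t 0) : x.1 = true := by
  rw [tag_zero'] at h
  obtain ⟨_, -, rfl⟩ := Multiset.mem_map.1 h
  rfl

theorem Md.id_cs_empty {d : R → ℤ} (τ : Md P ν 0 d) {b : ν → Bool} (h : ∀ n, b n = false) :
    wC ν d τ b = τ.id fun m => m.Conn := τ.id_congr fun m _ => and_iff_left (by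
  rw [show {n | b n} = ∅ from Set.eq_empty_of_forall_notMem fun n => by simp [h]]
  exact com_empty)

/-- the global correlators -/
theorem pC_zero (h : Rl T wC) (d : R →₀ ℕ) (x : ν → ℕ × HH P) : pC T d 0 (univ.val.map x) =
    (T ν 0 (dz d)).W (fun m => m.Conn) x := by
  rw [pC, tag_zero, Multiset.map_map, Nm_eq h, nm, Md.id_cs_empty _ (by exact fun _ => rfl)]
  rfl

variable (P) in
/-- connected curves without edges -/
def QV (m : AM1 R J ν) : Prop := m.Conn ∧ ∀ z, OnV P.E.toWt P.wt m z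

theorem es_zero_iff {S : Set ν} (hS : S.Nonempty) {m : AM1 R J ν} : ES P 0 S m ↔ QV P m :=
  let ⟨_, ha⟩ := hS
  ⟨fun h => ⟨h.1.1, (com_ntl_zero h.1.1 ha).1 ⟨h.1.2, h.2 _ ha⟩⟩,
    fun h => ⟨⟨h.1, com_of_all h.1 h.2 _⟩, fun a _ => ntl_of_all h.2 a⟩⟩

/-- the bare vertex -/
theorem pE_zero (h : Rl T (wE 0)) (d : R →₀ ℕ) [Nonempty ν] (x : ν → ℕ × HH P) :
    pE T d 0 (univ.val.map x) 0 = (T ν 0 (dz d)).W (QV P) x := by
  rw [pE, tag_zero', Multiset.map_map, Nm_eq h, nm, wE,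
    Md.id_congr (Q := ES P 0 _) _ fun _ _ => es_zero_iff (by exact ⟨Classical.arbitrary ν, rfl⟩)]
  rfl

variable [DecidableEq R] {δ : F ⊗[ℂ] Hev (P.X × P.X)} {I : F ⊗[ℂ] H P.X →ₗ[F] F}

theorem Hy.rl_wT (h : Hy T δ) (j : ℕ) : Rl T (wT j) := Lz.rl_wT h.hR h.conn j

theorem Hy.zero (h : Hy T δ) (hz : HZ T I) (hw : Rl T wC) (a b c : Bool) (x y z : HH P) :
    Nm T wC 0 {(a, 0, x), (b, 0, y), (c, 0, z)} = I (inF _ (x * y * z)) := by
  obtain ⟨u, hu, e⟩ := hz
  have := Nm_eq hw 0 ![(a, 0, x), (b, 0, y), (c, 0, z)]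
  rw [Fin.univ_val_map] at this
  refine Eq.trans ?_ (this.trans ?_)
  · rfl
  rw [nm, wC, (T _ 0 (dz 0)).id_congr (Q := CS P _) (Q' := fun m => m.Conn) fun m hm =>
    and_iff_left_of_imp fun c => com_of_all c (Fx.onV_zero h.good hm) _, Md.Je_apply, map_mul]
  refine (e _).trans (congrArg I ?_)
  have k : ∀ n x, pbE u (pbE ((T (Fin 3) 0 0).ev n) x) = x := fun n x => by
    rw [pbE_pbE, hu, pbE_id]
  refine (pb_inF _ _).trans (congrArg _ ?_)
  change pbE u ((T (Fin 3) 0 0).ins _) = _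
  simp [Md.ins, Fin.prod_univ_three, k]

theorem Hy.tl0 (h : Hy T δ) (j : ℕ) (y : HH P) (t) : pT T j 0 y t = 0 := by
  obtain ⟨n, X, e⟩ := exists_fam (tag 0 t)
  rw [pT, ← Multiset.cons_zero, tag_cons₁, ← e, Nm_option (h.rl_wT j), nm_option, wT,
    Fintype.prod_option, Option.elim_none, cond_true]
  have : iv (-(T (Option (Fin n)) 0 (dz 0)).ψ none) = 0 := by
    rw [iv, show {a | ptE a (-(T (Option (Fin n)) 0 (dz 0)).ψ none) = 0} = Set.univ from
      Set.eq_univ_of_forall fun a => by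
        obtain ⟨m, hm⟩ := Md.ex _ a
        rw [Set.mem_ofPred_eq, map_neg, neg_eq_zero]
        exact (h.hW _ _ _ _ a m hm).2 (Fx.onV_zero h.good (Md.fx _ hm) _),
      Set.compl_univ, idE_empty, zero_mul]
  rw [this, pow_succ, mul_zero, zero_mul, mul_zero, zero_mul, map_zero]

theorem Hy.tlG (h : Hy T δ) (hw : Rl T wC) (j : ℕ) (d : R →₀ ℕ) (t) : ∃ c : ℕ →₀ F, ∀ y,
    pT T j d y t = c.sum fun i k => k * pC T d 0 ((i, y) ::ₘ t) := by
  simp only [pT, pC, ← Multiset.cons_zero, tag_cons₁, tag_cons₂]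
  refine Nm_poly (h.rl_wT j) hw d _ _ _ _ fun ν _ X e => ⟨_, pow_mem (iv_mem (neg_mem
    (Algebra.self_mem_adjoin_singleton F _))) (j + 1), ?_⟩
  rw [Md.id_cs_empty _ (by rintro (_ | n); exacts [rfl, mem_tag_zero (e n)]), wT,
    Fintype.prod_option, prod_eq_one fun n _ => by
      rw [Option.elim_some, mem_tag_zero (e n), cond_false], mul_one]
  rfl

theorem Hy.oneG (h : Hy T δ) (hw : Rl T wC) (j : ℕ) (d : R →₀ ℕ) (t) : ∃ c : ℕ →₀ F, ∀ y,
    pC T d {(j, y)} t = c.sum fun i k => k * pC T d 0 ((i, y) ::ₘ t) := by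
  simp only [pC, ← Multiset.cons_zero, tag_cons₁, tag_cons₂]
  refine Nm_poly hw hw d _ _ _ _ fun ν _ X e => ⟨_, idE_mem
    (Algebra.self_mem_adjoin_singleton F _), ?_⟩
  rw [Md.id_cs_empty (b := fun o => Option.elim o false _) _
    (by rintro (_ | n); exacts [rfl, mem_tag_zero (e n)]), ← h.hW.sel_vm]
  refine Eq.trans ?_ (Md.id_mul _ invW_conn (invW_onV none) (h.conn _ _) (h.hW.clopen_vm _)).symm
  refine Md.id_congr _ fun m _ => and_congr_right' ?_
  rw [← com_single]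
  refine iff_of_eq (congrArg _ (Set.ext ?_))
  rintro (_ | n)
  · simp
  · simp [mem_tag_zero (e n)]

end Vale.Agent.P269.Lz
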