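import Vale.Agent.P287Q.Lz.Ser

/-! From the relations `ψ a + ψ b = D (a | b)` to the associativity equations with selectors. -/

namespace Vale.Agent.P287Q.Lz

open Finset

variable {K H R : Type} [Field K] [DecidableEq R]

theorem WdA_abs [CharZero K] {α M : Type} [AddCommMonoid M] (L : α → M → K) (c : M → M → K)
    (hc : ∀ s t, c s t = c t s) (i : α → M)
    (e : ∀ a b p q : α, L a (i b + i p + i q) + L b (i a + i p + i q) =
      c (i b) (i a + i p + i q) + c (i a + i p) (i b + i q) +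
        (c (i a + i q) (i b + i p) + c (i a) (i b + i p + i q))) (x y z w : α) :
    c (i x + i y) (i z + i w) = c (i x + i z) (i y + i w) := by
  have e1 := e x z y w
  have e2 := e y w x z
  have e3 := e x y z w
  have e4 := e z w x y
  rw [hc (i y + i z)] at e2
  rw [hc (i z + i y)] at e4
  simp only [add_comm, add_left_comm, add_assoc] at e1 e2 e3 e4 ⊢
  refine mul_left_cancel₀ (two_ne_zero' K) ?_
  linear_combination e3 + e4 - e1 - e2

/-- **WDVV** from the relations between cotangent classes and boundary divisors -/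
theorem wdvv_of_rel [CharZero K] {α : Type} (L : α → Multiset α → K)
    (B : (R →₀ ℕ) → Multiset α → (R →₀ ℕ) → Multiset α → K)
    (hB : ∀ d₁ l₁ d₂ l₂, B d₁ l₁ d₂ l₂ = B d₂ l₂ d₁ l₁) (d : R →₀ ℕ)
    (h : ∀ u v l, L u (v ::ₘ l) + L v (u ::ₘ l) =
      cv (fun d₁ l₁ d₂ l₂ => B d₁ (u ::ₘ l₁) d₂ (v ::ₘ l₂)) d l) (x y z w : α) (l : Multiset α) :
    cv (fun d₁ l₁ d₂ l₂ => B d₁ (x ::ₘ y ::ₘ l₁) d₂ (z ::ₘ w ::ₘ l₂)) d l =
      cv (fun d₁ l₁ d₂ l₂ => B d₁ (x ::ₘ z ::ₘ l₁) d₂ (y ::ₘ w ::ₘ l₂)) d l := by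
  have sw : ∀ s t : Multiset α, cv (fun d₁ l₁ d₂ l₂ => B d₁ (s + l₁) d₂ (t + l₂)) d l =
      cv (fun d₁ l₁ d₂ l₂ => B d₁ (t + l₁) d₂ (s + l₂)) d l := fun s t => by
    rw [← cv_swap]
    exact cv_congr fun _ _ _ _ _ _ => hB _ _ _ _
  have := WdA_abs (fun a s => L a (s + l))
    (fun s t => cv (fun d₁ l₁ d₂ l₂ => B d₁ (s + l₁) d₂ (t + l₂)) d l) sw (fun a => {a})
    (fun a b p q => by
      rw [sw {b}]
      simp only [Multiset.singleton_add, Multiset.cons_add]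
      rw [h, cv_cons, cv_cons, cv_cons]) x y z w
  simpa only [Multiset.singleton_add, Multiset.cons_add] using this

variable [CommRing H] [Algebra K H] {A : Type} [Fintype A]

/-- the Casimir element is symmetric -/
theorem cas_symm {η : H →ₗ[K] K} {e f : A → H} (h : ∀ x, ∑ a, η (x * e a) • f a = x)
    {Φ Ψ : H → K} (hΦ : IsLinearMap K Φ) (hΨ : IsLinearMap K Ψ) :
    ∑ a, Φ (e a) * Ψ (f a) = ∑ a, Ψ (e a) * Φ (f a) := by
  have nd : ∀ x y, (∀ z, η (x * z) = η (y * z)) → x = y := fun x y k => by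
    rw [← h x, ← h y]; simp only [k]
  have h' : ∀ x, ∑ a, η (f a * x) • e a = x := fun x => nd _ _ fun z => by
    conv_rhs => rw [← h z, mul_sum, map_sum]
    rw [sum_mul, map_sum]
    refine sum_congr rfl fun a _ => ?_
    rw [smul_mul_assoc, mul_smul_comm, map_smul, map_smul, smul_eq_mul, smul_eq_mul,
      mul_comm (e a), mul_comm x, mul_comm]
  have k : ∀ (g : H →ₗ[K] K) y, η ((∑ a, g (e a) • f a) * y) = g y := fun g y => by
    conv_rhs => rw [← h' y, map_sum]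
    simp only [sum_mul, map_sum, smul_mul_assoc, map_smul, smul_eq_mul, mul_comm (g _)]
  have e1 := congrArg (hΨ.mk' Ψ) (h' (∑ a, hΦ.mk' Φ (e a) • f a))
  simp only [mul_comm (f _), k] at e1
  simp only [map_sum, map_smul, smul_eq_mul, IsLinearMap.mk'_apply] at e1
  rw [← e1]
  exact sum_congr rfl fun _ _ => mul_comm _ _

open Classical in
/-- both parts carry a tagged insertion -/
noncomputable def tk {α : Type} (l₁ l₂ : Multiset (Bool × α)) : Bool :=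
  decide ((∃ u ∈ l₁, u.1 = true) ∧ ∃ u ∈ l₂, u.1 = true)

theorem tk_comm {α : Type} (l₁ l₂ : Multiset (Bool × α)) : tk l₁ l₂ = tk l₂ l₁ :=
  decide_eq_decide.2 and_comm

theorem tk_iff {α : Type} {l₁ l₂ : Multiset (Bool × α)} :
    tk l₁ l₂ = true ↔ (∃ u ∈ l₁, u.1 = true) ∧ ∃ u ∈ l₂, u.1 = true := by
  simp only [tk, decide_eq_true_eq]

/-- the boundary term -/
noncomputable def tB (N : (R →₀ ℕ) → Multiset (Bool × ℕ × H) → K) (e f : A → H) (d₁ : R →₀ ℕ)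
    (l₁ : Multiset (Bool × ℕ × H)) (d₂ : R →₀ ℕ) (l₂ : Multiset (Bool × ℕ × H)) : K :=
  ∑ a, N d₁ ((tk l₁ l₂, 0, e a) ::ₘ l₁) * N d₂ ((tk l₁ l₂, 0, f a) ::ₘ l₂)

/-- the relations between cotangent classes and boundary divisors -/
def Rel (N : (R →₀ ℕ) → Multiset (Bool × ℕ × H) → K) (e f : A → H) : Prop :=
  ∀ d (u v : Bool × ℕ × H) l, N d ((u.1, u.2.1 + 1, u.2.2) ::ₘ v ::ₘ l) +
    N d ((v.1, v.2.1 + 1, v.2.2) ::ₘ u ::ₘ l) =
      cv (fun d₁ l₁ d₂ l₂ => tB N e f d₁ (u ::ₘ l₁) d₂ (v ::ₘ l₂)) d l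

variable [CharZero K] {N : (R →₀ ℕ) → Multiset (Bool × ℕ × H) → K} {η : H →ₗ[K] K} {e f : A → H}
  {C : (R →₀ ℕ) → Ms H → Ms H → K} (h : Rel N e f) (hc : ∀ x, ∑ a, η (x * e a) • f a = x)
  (l : ∀ d b l, IsLinearMap K fun x => N d ((b, 0, x) ::ₘ l))
  (hC : ∀ d s t, C d s t = N d (s.map (Prod.mk true) + t.map (Prod.mk false)))
include h hc l

theorem Rel.wdvv (d : R →₀ ℕ) (x y z w : Bool × ℕ × H) (t : Ms H) :
    cv (fun d₁ t₁ d₂ t₂ => tB N e f d₁ (x ::ₘ y ::ₘ t₁.map (Prod.mk false)) d₂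
      (z ::ₘ w ::ₘ t₂.map (Prod.mk false))) d t =
    cv (fun d₁ t₁ d₂ t₂ => tB N e f d₁ (x ::ₘ z ::ₘ t₁.map (Prod.mk false)) d₂
      (y ::ₘ w ::ₘ t₂.map (Prod.mk false))) d t := by
  have := wdvv_of_rel (fun u l => N d ((u.1, u.2.1 + 1, u.2.2) ::ₘ l)) (tB N e f)
    (fun d₁ s₁ d₂ s₂ => by
      unfold tB
      rw [cas_symm hc (l _ _ _) (l _ _ _), tk_comm]) d (h d) x y z w (t.map (Prod.mk false))
  rwa [cv_map, cv_map] at this

include hC

theorem Rel.w1 (d t) (x y z w : H) :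
    cv (fun d₁ t₁ d₂ t₂ => ∑ a, C d₁ {(0, x), (0, y), (0, e a)} t₁ *
      C d₂ {(0, f a), (0, z), (0, w)} t₂) d t =
    cv (fun d₁ t₁ d₂ t₂ => ∑ a, C d₁ {(0, x), (0, z), (0, e a)} t₁ *
      C d₂ {(0, f a), (0, y), (0, w)} t₂) d t := by
  have := h.wdvv hc l d (true, 0, x) (true, 0, y) (true, 0, z) (true, 0, w) t
  have k : ∀ (a b c : Bool × ℕ × H) t, a ::ₘ b ::ₘ c ::ₘ t = c ::ₘ a ::ₘ b ::ₘ t := fun a b c t => by
    rw [Multiset.cons_swap c, Multiset.cons_swap c]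
  have k1 : ∀ (a b : ℕ × H) s t, tk ((true, a) ::ₘ s) ((true, b) ::ₘ t) = true := fun a b s t =>
    tk_iff.2 ⟨⟨_, Multiset.mem_cons_self _ _, rfl⟩, _, Multiset.mem_cons_self _ _, rfl⟩
  simp only [tB, k1] at this
  simp only [hC, Multiset.insert_eq_cons, Multiset.map_cons, Multiset.map_singleton,
    Multiset.cons_add, Multiset.singleton_add, k _ _ (true, 0, e _)]
  exact this

theorem Rel.w2 (d t) (v x y z : H) :
    cv (fun d₁ t₁ d₂ t₂ => ∑ a, C d₁ {(0, x), (0, e a)} ((0, v) ::ₘ t₁) *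
      C d₂ {(0, f a), (0, y), (0, z)} t₂) d t =
    cv (fun d₁ t₁ d₂ t₂ => ∑ a, C d₁ {(0, y), (0, e a)} ((0, v) ::ₘ t₁) *
      C d₂ {(0, f a), (0, x), (0, z)} t₂) d t := by
  have := h.wdvv hc l d (false, 0, v) (true, 0, x) (true, 0, y) (true, 0, z) t
  have k : ∀ (a b c : Bool × ℕ × H) t, a ::ₘ b ::ₘ c ::ₘ t = b ::ₘ c ::ₘ a ::ₘ t := fun a b c t => by
    rw [Multiset.cons_swap a, Multiset.cons_swap a]
  have k1 : ∀ u (a b : ℕ × H) s t, tk (u ::ₘ (true, a) ::ₘ s) ((true, b) ::ₘ t) = true :=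
    fun u a b s t => tk_iff.2 ⟨⟨_, Multiset.mem_cons_of_mem (Multiset.mem_cons_self _ _), rfl⟩, _,
      Multiset.mem_cons_self _ _, rfl⟩
  simp only [tB, k1] at this
  simp only [hC, Multiset.insert_eq_cons, Multiset.map_cons, Multiset.map_singleton,
    Multiset.cons_add, Multiset.singleton_add, k _ (true, 0, e _) (false, 0, v)]
  exact this

theorem Rel.w3 (d t) (u v x y : H) :
    cv (fun d₁ t₁ d₂ t₂ => ∑ a, C d₁ 0 ((0, u) ::ₘ (0, v) ::ₘ (0, e a) ::ₘ t₁) *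
      C d₂ {(0, x), (0, y)} ((0, f a) ::ₘ t₂)) d t =
    cv (fun d₁ t₁ d₂ t₂ => ∑ a, C d₁ {(0, x), (0, e a)} ((0, u) ::ₘ t₁) *
      C d₂ {(0, f a), (0, y)} ((0, v) ::ₘ t₂)) d t := by
  have := h.wdvv hc l d (false, 0, u) (false, 0, v) (true, 0, x) (true, 0, y) t
  have k : ∀ (a b c : Bool × ℕ × H) t, a ::ₘ b ::ₘ c ::ₘ t = c ::ₘ a ::ₘ b ::ₘ t := fun a b c t => by
    rw [Multiset.cons_swap c, Multiset.cons_swap c]
  have k' : ∀ (a b c : Bool × ℕ × H) t, a ::ₘ b ::ₘ c ::ₘ t = b ::ₘ c ::ₘ a ::ₘ t :=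
    fun a b c t => by rw [Multiset.cons_swap a, Multiset.cons_swap a]
  have k1 : ∀ u u' (a b : ℕ × H) s t, tk (u ::ₘ (true, a) ::ₘ s) (u' ::ₘ (true, b) ::ₘ t) = true :=
    fun u u' a b s t => tk_iff.2 ⟨⟨_, Multiset.mem_cons_of_mem (Multiset.mem_cons_self _ _), rfl⟩,
      _, Multiset.mem_cons_of_mem (Multiset.mem_cons_self _ _), rfl⟩
  have k2 : ∀ (a b : ℕ × H) (s : Ms H) t,
      tk ((false, a) ::ₘ (false, b) ::ₘ s.map (Prod.mk false)) t = false := fun a b s t => by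
    rw [← Bool.not_eq_true, tk_iff]
    simp
  simp only [tB, k1, k2] at this
  simp only [hC, Multiset.insert_eq_cons, Multiset.map_cons, Multiset.map_singleton,
    Multiset.cons_add, Multiset.singleton_add, Multiset.map_zero, zero_add,
    k _ _ (false, 0, e _), k _ _ (false, 0, f _), k' _ (true, 0, e _) (false, 0, u),
    Multiset.cons_swap (true, 0, y) (false, 0, v)]
  exact this

end Vale.Agent.P287Q.Lz
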