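import Vale.Agent.P287Q.Lz.LrN
import Vale.Agent.P287Q.Lz.EvB
import Vale.Agent.P287Q.Lz.WdA

/-! The associativity equations with selectors. -/

set_option linter.unusedSectionVars false
set_option maxSynthPendingDepth 3

namespace Vale.Agent.P269.Lz

open Function TensorProduct Cv B Vale.Agent.P291Z Vale.Agent.P269.Ch LG Finset
  Vale.Agent.P287Q.Lz

variable {R J K σ ι : Type} [Fintype R] [Fintype J] [Fintype K] [Fintype σ] [Fintype ι]
  {P : TT R J K σ} {T : Th P} [DecidableEq R] {δ : F ⊗[ℂ] Hev (P.X × P.X)}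
  {I : F ⊗[ℂ] H P.X →ₗ[F] F} {e f : ι → F ⊗[ℂ] H P.X} (h : Hp T δ I e f)
include h

theorem Hp.wd_rl : Rl T wC :=
  rl_id h.hR (Q := fun _ _ => CS P) (fun _ _ => inv_cs) (fun _ _ _ _ => cs_rl)
    fun _ _ _ => h.toHy.clopen_cs

theorem Hp.rel : Rel (Nm T wC) (fun a => evn (e a)) fun a => evn (f a) := by
  classical
  intro d u v l
  obtain ⟨n, X, rfl⟩ := exists_fam l
  have k := h.lr d (fun o : Option (Option (Fin n)) => o.elim u (·.elim v X))
    (bo := fun A => tk (A.val.map fun o => o.elim u (·.elim v X))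
      (Aᶜ.val.map fun o => o.elim u (·.elim v X))) (fun A => by simp [tk_iff])
    (a := none) (b := some none) nofun
  simp only [Nm_op h.wd_rl _ (p := (· ∈ _)) fun _ => Iff.rfl,
    Nm_op h.wd_rl _ (p := (· ∉ _)) fun _ => mem_compl] at k
  have c : (({none} ∪ {some none} : Finset (Option (Option (Fin n))))ᶜ.val.map
      fun o => o.elim u (·.elim v X)) = univ.val.map X := by
    rw [show ({none} ∪ {some none} : Finset (Option (Option (Fin n))))ᶜ =
      univ.map (Embedding.some.trans Embedding.some) by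
        ext (_ | _ | _) <;> simp, map_val, Multiset.map_map]
    rfl
  have s := sum_split (L := {none}) (M := {some none}) (by simp)
    (fun o : Option (Option (Fin n)) => o.elim u (·.elim v X))
    (tB (Nm T wC) (fun a => evn (e a)) fun a => evn (f a)) d
    (fun A => none ∈ A ∧ some none ∉ A) (by simp)
  rw [c] at s
  refine Eq.trans ?_ (k.trans s)
  rw [Multiset.cons_swap _ u, ← map_option v, ← map_option (v.1, _, _), Nm_option h.wd_rl,
    Nm_option h.wd_rl, nm, nm]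
  have t : ∀ u' v' : Tg P, u'.1 = u.1 → v'.1 = v.1 → (fun o : Option (Option (Fin n)) =>
      (o.elim u' fun o' => o'.elim v' X).1) = fun o => (o.elim u fun o' => o'.elim v X).1 :=
    fun _ _ a b => funext fun o => by rcases o with _ | _ | _; exacts [a, b, rfl]
  rw [t (u.1, u.2.1 + 1, u.2.2) v rfl rfl, t u (v.1, v.2.1 + 1, v.2.2) rfl rfl, ← map_add, ← mul_add]
  refine congrArg _ (congrArg _ ?_)
  simp only [Md.ins, Fintype.prod_option, Option.elim]
  ring

theorem Hp.wd_cas (x : HH P) :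
    ∑ a, (I ∘ₗ (inF P.X).toLinearMap) (x * evn (e a)) • evn (f a) = x := cas_evn h.ev h.cas x

theorem Hp.w1 (d t) (x y z w : HH P) :
    cv (fun d₁ t₁ d₂ t₂ => ∑ a, pC T d₁ {(0, x), (0, y), (0, evn (e a))} t₁ *
      pC T d₂ {(0, evn (f a)), (0, z), (0, w)} t₂) d t =
    cv (fun d₁ t₁ d₂ t₂ => ∑ a, pC T d₁ {(0, x), (0, z), (0, evn (e a))} t₁ *
      pC T d₂ {(0, evn (f a)), (0, y), (0, w)} t₂) d t :=
  haveI : CharZero F := (algebraMap ℂ F).charZero_iff (algebraMap ℂ F).injective |>.1 inferInstance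
  h.rel.w1 h.wd_cas (fun d b => Nm_lin h.wd_rl d b 0) (fun _ _ _ => rfl) d t x y z w

theorem Hp.w2 (d t) (v x y z : HH P) :
    cv (fun d₁ t₁ d₂ t₂ => ∑ a, pC T d₁ {(0, x), (0, evn (e a))} ((0, v) ::ₘ t₁) *
      pC T d₂ {(0, evn (f a)), (0, y), (0, z)} t₂) d t =
    cv (fun d₁ t₁ d₂ t₂ => ∑ a, pC T d₁ {(0, y), (0, evn (e a))} ((0, v) ::ₘ t₁) *
      pC T d₂ {(0, evn (f a)), (0, x), (0, z)} t₂) d t :=
  haveI : CharZero F := (algebraMap ℂ F).charZero_iff (algebraMap ℂ F).injective |>.1 inferInstance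
  h.rel.w2 h.wd_cas (fun d b => Nm_lin h.wd_rl d b 0) (fun _ _ _ => rfl) d t v x y z

theorem Hp.w3 (d t) (u v x y : HH P) :
    cv (fun d₁ t₁ d₂ t₂ => ∑ a, pC T d₁ 0 ((0, u) ::ₘ (0, v) ::ₘ (0, evn (e a)) ::ₘ t₁) *
      pC T d₂ {(0, x), (0, y)} ((0, evn (f a)) ::ₘ t₂)) d t =
    cv (fun d₁ t₁ d₂ t₂ => ∑ a, pC T d₁ {(0, x), (0, evn (e a))} ((0, u) ::ₘ t₁) *
      pC T d₂ {(0, evn (f a)), (0, y)} ((0, v) ::ₘ t₂)) d t :=
  haveI : CharZero F := (algebraMap ℂ F).charZero_iff (algebraMap ℂ F).injective |>.1 inferInstance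
  h.rel.w3 h.wd_cas (fun d b => Nm_lin h.wd_rl d b 0) (fun _ _ _ => rfl) d t u v x y

end Vale.Agent.P269.Lz
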