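import Vale.Agent.P287Q.Lz.EvB
import Vale.Agent.P287Q.Lz.TlN
import Vale.Agent.P287Q.Lz.Wdv

/-! The package of localised correlators of a system of fixed loci. -/

set_option linter.unusedSectionVars false
set_option maxSynthPendingDepth 3

namespace Vale.Agent.P269.Lz

open Function TensorProduct Cv B Vale.Agent.P291Z Vale.Agent.P269.Ch LG Finset
  Vale.Agent.P287Q.Lz

section comb

variable {α ν : Type} [Fintype ν] {X : ν → Bool × α} {s t : Multiset α}

theorem PkI_filter (h : univ.val.map X = tag s t) (b : Bool) :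
    (univ.filter fun n => (X n).1 = b).val.map X = (bif b then s else t).map (Prod.mk b) := by
  have := congrArg (Multiset.filter fun x : Bool × α => x.1 = b) h
  rw [Multiset.filter_map] at this
  rw [filter_val]
  refine this.trans ?_
  cases b <;> simp [tag, Multiset.filter_map]

theorem PkI_ex (h : univ.val.map X = tag s t) (hs : s ≠ 0) : ∃ n, (X n).1 := by
  obtain ⟨x, hx⟩ := Multiset.exists_mem_of_ne_zero hs
  obtain ⟨n, -, e⟩ := Multiset.mem_map.1 (h ▸ Multiset.mem_add.2 (.inl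
    (Multiset.mem_map_of_mem (Prod.mk true) hx)) : (true, x) ∈ univ.val.map X)
  exact ⟨n, congrArg Prod.fst e⟩

theorem PkI_all (h : univ.val.map X = tag s t) :
    univ.val.map (fun n => (true, (X n).2)) = tag (s + t) 0 := by
  have := congrArg (Multiset.map fun x : Bool × α => (true, x.2)) h
  rw [Multiset.map_map] at this
  refine this.trans ?_
  simp [tag]

theorem tag_compl [DecidableEq ν] (S : Finset ν) (x : ν → α) :
    tag (S.val.map x) (Sᶜ.val.map x) = univ.val.map fun n => (decide (n ∈ S), x n) := by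
  rw [← union_compl S, ← disjUnion_eq_union _ _ disjoint_compl_right, disjUnion_val,
    Multiset.map_add, tag, Multiset.map_map, Multiset.map_map]
  congr 1 <;> refine Multiset.map_congr rfl fun n hn => ?_
  · simpa using hn
  · simp [mem_compl.1 hn]

theorem card_tag (s t : Multiset α) : (tag s t).card = s.card + t.card := by simp [tag]

end comb

variable {R J K σ ν : Type} [Fintype R] [Fintype J] [Fintype K] [Fintype σ] [Fintype ν]
  {P : TT R J K σ} {T : Th P} [DecidableEq R] {δ : F ⊗[ℂ] Hev (P.X × P.X)}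
  {I : F ⊗[ℂ] H P.X →ₗ[F] F} {A : Type} [Fintype A] {e f : A → F ⊗[ℂ] H P.X}

theorem Hy.rl_wC (h : Hy T δ) : Rl T wC :=
  rl_id h.hR (Q := fun _ _ => CS P) (fun _ _ => inv_cs) (fun _ _ _ _ => cs_rl)
    fun _ _ _ => h.clopen_cs

theorem Hy.rl_wE (h : Hy T δ) (k : ℕ) : Rl T (wE k) :=
  rl_id h.hR (Q := fun _ _ => ES P k) (fun _ _ => inv_es k) (fun _ _ _ _ φ => es_rl φ k)
    fun _ _ _ => h.clopen_es k

namespace Hp

variable (h : Hp T δ I e f)
include h

theorem tail' (d : R →₀ ℕ) (n n' : ℕ) : ∃ N, ∀ (k : ℕ) s t, s.card = n + 1 → t.card = n' →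
    ((k : F) + 1) * pE T d (k + 1) s t = cv (fun d₁ t₁ d₂ t₂ => ∑ a, ∑ j ∈ range N,
      pE T d₁ k ((j, evn (e a)) ::ₘ s) t₁ * pT T j d₂ (evn (f a)) t₂) d t := by
  classical
  refine (h.tail (Fin (n + 1 + n')) d).imp fun N hN k s t hs ht => ?_
  obtain ⟨X, hX⟩ := exists_fin ((card_tag s t).trans (by rw [hs, ht]))
  rw [pE, ← hX, Nm_eq (h.rl_wE _), hN k X (PkI_ex hX fun c => by simp [c] at hs)]
  have := sum_split (L := univ.filter fun n => (X n).1) (disjoint_empty_right _) X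
    (fun d₁ u₁ d₂ u₂ => ∑ a, ∑ j ∈ range N, Nm T (wE k) d₁ ((true, j, evn (e a)) ::ₘ u₁) *
      Nm T (wT j) d₂ ((true, 0, evn (f a)) ::ₘ u₂)) d (fun A => ∀ n, (X n).1 → n ∈ A)
    fun A => by simp [subset_iff]
  simp only [union_empty, compl_filter, Bool.not_eq_true, PkI_filter hX, cv_map] at this
  refine Eq.trans ?_ (this.trans (cv_congr fun _ _ _ _ _ _ => ?_))
  · convert rfl using 7 with p _ B
    · exact (@Nm_op _ _ _ _ _ _ _ _ _ _ _ _ _ (h.rl_wE _) _ _ (_) _ (fun _ => Iff.rfl) _ _).symm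
    · exact (@Nm_op _ _ _ _ _ _ _ _ _ _ _ _ _ (h.rl_wT _) _ _ (_) _ (fun _ => mem_compl) _ _).symm
  · simp only [pE, pT, ← Multiset.cons_zero, tag_cons₁, tag_zero]
    simp [tag]

theorem sum' (d : R →₀ ℕ) : ∃ N, ∀ s t, s ≠ 0 →
    pC T d s t = ∑ k ∈ range (N + 1), pE T d k s t := by
  refine (h.toHy.sum d).imp fun N hN s t hs => ?_
  obtain ⟨n, X, hX⟩ := exists_fam (tag s t)
  simp only [pC, pE, ← hX, Nm_eq (h.rl_wE _), Nm_eq h.rl_wC, hN N le_rfl _ X (PkI_ex hX hs)]

theorem vtx' (d : R →₀ ℕ) (s t) (hs : s ≠ 0) : pE T d 0 s t = pE T d 0 (s + t) 0 := by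
  obtain ⟨n, X, hX⟩ := exists_fam (tag s t)
  rw [pE, pE, ← PkI_all hX, ← hX, Nm_eq (h.rl_wE _), Nm_eq (h.rl_wE _), h.vtx d X (PkI_ex hX hs)]

/-- **the package of localised correlators** -/
noncomputable def pk : Pk F (HH P) R where
  A := A
  e a := evn (e a)
  f a := evn (f a)
  η := I ∘ₗ (inF _).toLinearMap
  C := pC T
  E := pE T
  T := pT T
  cas := cas_evn h.ev h.cas
  linC₁ d i s t := by simpa only [pC, tag_cons₁] using Nm_lin h.rl_wC d _ i _
  linC₂ d i s t := by simpa only [pC, tag_cons₂] using Nm_lin h.rl_wC d _ i _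
  linE₁ d k i s t := by simpa only [pE, tag_cons₁] using Nm_lin (h.rl_wE k) d _ i _
  linT j d t := by
    simpa only [pT, ← Multiset.cons_zero, tag_cons₁] using Nm_lin (h.rl_wT j) d _ 0 _
  zero₃ := h.zero h.hZ h.rl_wC true true true
  zero₂ x y z := (h.zero h.hZ h.rl_wC true true false y z x).trans (by rw [mul_rotate x]; rfl)
  zero₀ := h.zero h.hZ h.rl_wC false false false
  sum := h.sum'
  vtx := h.vtx'
  tail d k n n' := (h.tail' d n n').imp fun _ c => c k
  tl0 := h.tl0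
  tlG := h.tlG h.rl_wC
  oneG := h.oneG h.rl_wC
  w1 := h.w1
  w2 := h.w2
  w3 := h.w3

theorem pk_η (x : HH P) : h.pk.η x = I (inF _ x) := rfl

/-- the global correlators -/
theorem pk_C (d : R →₀ ℕ) (x : ν → ℕ × HH P) :
    h.pk.C d 0 (univ.val.map x) = (T ν 0 (dz d)).W (fun m => m.Conn) x := pC_zero h.rl_wC d x

theorem pk_CS [DecidableEq ν] (d : R →₀ ℕ) (S : Finset ν) (x : ν → ℕ × HH P) :
    h.pk.C d (S.val.map x) (Sᶜ.val.map x) = (T ν 0 (dz d)).W (CS P S) x := by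
  change Nm T wC d (tag _ _) = _
  rw [tag_compl, Nm_eq h.rl_wC, nm, wC]
  simp only [decide_eq_true_eq]
  rfl

/-- the bare vertex -/
theorem pk_E (d : R →₀ ℕ) [Nonempty ν] (x : ν → ℕ × HH P) :
    h.pk.E d 0 (univ.val.map x) 0 = (T ν 0 (dz d)).W (QV P) x := pE_zero (h.rl_wE 0) d x

theorem clopen_qv (ν : Type) [Fintype ν] [Nonempty ν] (d : R → ℤ) :
    IsClopen ((T ν 0 d).sel (QV P)) :=
  Md.clopen_congr _ (fun _ _ => es_zero_iff Set.univ_nonempty) (h.clopen_es 0 _)

/-- classes that move on the bare vertex -/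
theorem vm_of {a : HH P} (c : ∀ (ν : Type) [Fintype ν] (d : R → ℤ) (n n' : ν),
    (T ν 0 d).id (QV P) * pbE ((T ν 0 d).ev n) a = (T ν 0 d).id (QV P) * pbE ((T ν 0 d).ev n') a) :
    h.pk.VM a := fun d i j x y s => by
  change pE T _ _ _ _ = pE T _ _ _ _
  simp only [pE, tag_cons₁]
  refine Nm_move (h.rl_wE 0) d (fun ν _ X n n' u _ _ => ?_) i j x y
  rw [wE, Md.id_congr (Q := ES P 0 _) _ fun _ _ => es_zero_iff (by exact ⟨n, u⟩), c]

/-- classes that move on all curves -/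
theorem fm_of {S : Set R} {a : HH P} (c : ∀ (ν : Type) [Fintype ν] (d : R →₀ ℕ) (n n' : ν),
    ↑d.support ⊆ S → (T ν 0 (dz d)).id (fun m => m.Conn) * pbE ((T ν 0 (dz d)).ev n) a =
      (T ν 0 (dz d)).id (fun m => m.Conn) * pbE ((T ν 0 (dz d)).ev n') a) : h.pk.FM S a := by
  have k : ∀ d : R →₀ ℕ, ↑d.support ⊆ S → ∀ b b' u i j x y,
      Nm T wC d ((b, i, a * x) ::ₘ (b', j, y) ::ₘ u) =
        Nm T wC d ((b, i, x) ::ₘ (b', j, a * y) ::ₘ u) := fun d hd b b' u =>
    Nm_move h.rl_wC d fun ν _ X n n' _ _ _ => by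
      rw [wC, ← Md.id_of_imp _ (inv_cs _) invW_conn (h.clopen_cs _) (h.conn _ _) fun _ c => c.1,
        mul_assoc, mul_assoc, c ν d n n' hd]
  refine ⟨fun d hd i j x y s t => ?_, fun d hd i j x y s t => ?_, fun d hd i j x y s t => ?_⟩
  · simpa only [← tag_cons₁, pk, pC] using k d hd true true (tag s t) i j x y
  · simpa only [← tag_cons₁, ← tag_cons₂, pk, pC] using k d hd true false (tag s t) i j x y
  · simpa only [← tag_cons₂, pk, pC] using k d hd false false (tag s t) i j x y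

end Hp

end Vale.Agent.P269.Lz
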