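import Vale.Agent.P287Q.Lz.PkV

/-! Separation of two pieces by the dressed product. -/

namespace Vale.Agent.P287Q.Lz

open Finset TensorProduct

variable {K H R ι : Type} [Field K] [CommRing H] [Algebra K H] [DecidableEq R]

omit [DecidableEq R] in
theorem R_cf_tmul (m : R ⊕ ι →₀ ℕ) (c : Sr K R ι) (x : H) :
    cf m (c ⊗ₜ[K] x) = MvPowerSeries.coeff m c • x := rfl

omit [DecidableEq R] in
theorem R_cf_mem {N : Submodule K H} {v : Md K H R ι} (hv : v ∈ TyM R ι N) (m : R ⊕ ι →₀ ℕ) :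
    cf m v ∈ N := by
  obtain ⟨w, rfl⟩ := hv
  induction w using TensorProduct.induction_on with
  | zero => simp
  | tmul c x => exact N.smul_mem _ x.2
  | add x y hx hy => rw [map_add, map_add]; exact N.add_mem hx hy

omit [DecidableEq R] in
theorem R_coeff_lin [DecidableEq (R ⊕ ι)] (L : Md K H R ι →ₗ[Sr K R ι] Sr K R ι)
    (v : Md K H R ι) (m : R ⊕ ι →₀ ℕ) : MvPowerSeries.coeff m (L v) =
      ∑ p ∈ antidiagonal m, MvPowerSeries.coeff p.2 (L (1 ⊗ₜ cf p.1 v)) := by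
  induction v using TensorProduct.induction_on with
  | zero => simp
  | tmul c x =>
    have h1 : c ⊗ₜ[K] x = c • ((1 : Sr K R ι) ⊗ₜ[K] x) := by
      rw [smul_tmul', smul_eq_mul, mul_one]
    conv_lhs => rw [h1, map_smul, smul_eq_mul, MvPowerSeries.coeff_mul]
    refine sum_congr rfl fun p _ => ?_
    rw [R_cf_tmul, tmul_smul, LinearMap.map_smul_of_tower, map_smul, smul_eq_mul]
  | add x y hx hy => simp only [map_add, hx, hy, tmul_add, sum_add_distrib]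

namespace Pk

variable (P : Pk K H R) {Ty : ℤ → Submodule K H}

theorem R_C0 [CharZero K] {s : Ms H} (hs : s ≠ 0) (t : Ms H) : P.C 0 s t = P.E 0 0 (s + t) 0 := by
  obtain ⟨N, hN⟩ := P.sum 0
  obtain ⟨n, hn⟩ := Nat.exists_eq_add_one_of_ne_zero (Multiset.card_eq_zero.not.2 hs)
  rw [hN s t hs, sum_range_succ', P.vtx 0 s t hs, sum_eq_zero, zero_add]
  intro k _
  obtain ⟨M, hM⟩ := P.tail 0 k n t.card
  have h1 := hM s t hn rfl
  rw [cv_eq_zero fun d₁ t₁ d₂ t₂ hd _ => by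
    simp [(add_eq_zero.1 hd).2, P.tl0]] at h1
  exact (mul_eq_zero.1 h1).resolve_left (Nat.cast_add_one_ne_zero k)

omit [DecidableEq R] in
theorem R_coeff_ext3 {B B' : H →ₗ[K] H →ₗ[K] H →ₗ[K] Sr K R ι}
    (h : ∀ x y z m, dgm m = 0 →
      MvPowerSeries.coeff m (B x y z) = MvPowerSeries.coeff m (B' x y z))
    (u v w : Md K H R ι) (m : R ⊕ ι →₀ ℕ) (hm : dgm m = 0) :
    MvPowerSeries.coeff m (ext3 B u v w) = MvPowerSeries.coeff m (ext3 B' u v w) := by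
  classical
  induction u using TensorProduct.induction_on with
  | zero => simp
  | add x y hx hy => simp only [map_add, LinearMap.add_apply, hx, hy]
  | tmul a x =>
  induction v using TensorProduct.induction_on with
  | zero => simp
  | add x y hx hy => simp only [map_add, LinearMap.add_apply, hx, hy]
  | tmul b y =>
  induction w using TensorProduct.induction_on with
  | zero => simp
  | add x y hx hy => simp only [map_add, hx, hy]
  | tmul c z =>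
    rw [ext3_tmul, ext3_tmul, MvPowerSeries.coeff_mul, MvPowerSeries.coeff_mul]
    refine sum_congr rfl fun p hp => ?_
    rw [h x y z p.2]
    rw [← mem_antidiagonal.1 hp, dgm_add] at hm
    exact (add_eq_zero.1 hm).2

/-- In degree zero the two products agree. -/
theorem R_cf_mid [CharZero K] (φ : ι → H) (u v : Md K H R ι) (m : R ⊕ ι →₀ ℕ) (hm : dgm m = 0) :
    cf m (P.mid φ u v) = cf m (P.circ φ u v) := by
  rw [mid, circ, op_apply, op_apply, map_sum, map_sum]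
  refine sum_congr rfl fun a _ => ?_
  rw [smul_tmul', smul_tmul', R_cf_tmul, R_cf_tmul, smul_eq_mul, smul_eq_mul, mul_one, mul_one,
    R_coeff_ext3 (B' := P.D0 φ) _ u v _ m hm]
  intro x y z m hm
  change (fac K m)⁻¹ * P.C (dgm m) {(0, y), (0, z)} ((0, x) ::ₘ ins φ m) =
    (fac K m)⁻¹ * P.C (dgm m) {(0, x), (0, y), (0, z)} (ins φ m)
  rw [hm, P.R_C0 (by simp), P.R_C0 (by simp), Multiset.add_cons, ← Multiset.cons_add]
  rfl

variable {P}

/-- Separation: the coefficient of the minimal degree. -/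
theorem Typed.sep_coeff [CharZero K] (h : P.Typed Ty) {φ : ι → H} (hφ : ∀ a, φ a ∈ Ty 0)
    {g : H} (hg : g ∈ Ty 0) {v : Md K H R ι} (hv : v ∈ TyM R ι (Ty 0))
    (hv0 : ∀ m, dgm m = 0 → cf m v = cf m ((1 : Sr K R ι) ⊗ₜ[K] g)) (x y x' y' : H)
    (m : R ⊕ ι →₀ ℕ) (hlow : ∀ d < dgm m, ∀ s, In (Ty 0) s →
      P.E d 0 ((0, x) ::ₘ (0, y) ::ₘ s) 0 = P.E d 0 ((0, x') ::ₘ (0, y') ::ₘ s) 0) :
    MvPowerSeries.coeff m (ext3 (P.D0 φ) v (1 ⊗ₜ x) (1 ⊗ₜ y) -
      ext3 (P.D0 φ) v (1 ⊗ₜ x') (1 ⊗ₜ y')) = (fac K m)⁻¹ *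
      (P.E (dgm m) 0 ((0, x) ::ₘ (0, y) ::ₘ (0, g) ::ₘ ins φ m) 0 -
        P.E (dgm m) 0 ((0, x') ::ₘ (0, y') ::ₘ (0, g) ::ₘ ins φ m) 0) := by
  classical
  let u : Bool → Ms H := fun b => if b then (0, x) ::ₘ {(0, y)} else (0, x') ::ₘ {(0, y')}
  let W : Submodule K (Bool → K) :=
    LinearMap.ker (LinearMap.proj (R := K) (φ := fun _ : Bool => K) true - LinearMap.proj false)
  have hW : ∀ f : Bool → K, f ∈ W ↔ f true = f false := fun f => by
    simp [W, sub_eq_zero]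
  have hu : ∀ b, (u b).card = 1 + 1 := fun b => by cases b <;> simp [u]
  have h0 : ∀ d < dgm m, ∀ s, In (Ty 0) s → (fun b => P.E d 0 (u b + s) 0) ∈ W :=
    fun d hd s hs => (hW _).2 (by simpa [u] using hlow d hd s hs)
  let L : Md K H R ι →ₗ[Sr K R ι] Sr K R ι :=
    ((ext3 (P.D0 φ)).flip (1 ⊗ₜ x)).flip (1 ⊗ₜ y) - ((ext3 (P.D0 φ)).flip (1 ⊗ₜ x')).flip (1 ⊗ₜ y')
  have hL : ∀ z m', MvPowerSeries.coeff m' (L (1 ⊗ₜ z)) = (fac K m')⁻¹ *
      (P.C (dgm m') (u true + {(0, z)}) (ins φ m') -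
        P.C (dgm m') (u false + {(0, z)}) (ins φ m')) := by
    intro z m'
    simp only [L, LinearMap.sub_apply, LinearMap.flip_apply, ext3_tmul, one_mul, map_sub, mul_sub]
    rw [add_comm (u true), add_comm (u false)]
    rfl
  change MvPowerSeries.coeff m (L v) = _
  rw [R_coeff_lin, sum_eq_single (0, m)]
  · rw [hv0 0 dgm_zero, R_cf_tmul, MvPowerSeries.coeff_zero_one, one_smul, hL]
    have h1 := (hW _).1 (h.C_sub_mem u W hu (dgm m) h0 (In.cons hg 0 (In.zero _)) (In.ins hφ m))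
    congr 1
    have h2 : ∀ b, u b + (((0, g) ::ₘ 0) + ins φ m) = u b + (0, g) ::ₘ ins φ m := fun b => by simp
    simp only [h2] at h1
    have h3 : u true + (0, g) ::ₘ ins φ m = (0, x) ::ₘ (0, y) ::ₘ (0, g) ::ₘ ins φ m := by
      simp [u, Multiset.cons_swap]
    have h4 : u false + (0, g) ::ₘ ins φ m = (0, x') ::ₘ (0, y') ::ₘ (0, g) ::ₘ ins φ m := by
      simp [u, Multiset.cons_swap]
    rw [h3, h4] at h1
    exact sub_eq_sub_iff_sub_eq_sub.1 h1
  · rintro ⟨m₁, m₂⟩ hp hne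
    have hp' : m₁ + m₂ = m := mem_antidiagonal.1 hp
    by_cases h1 : dgm m₁ = 0
    · have h2 : m₁ ≠ 0 := fun e => hne (by subst e; rw [zero_add] at hp'; rw [hp'])
      rw [hv0 m₁ h1, R_cf_tmul, MvPowerSeries.coeff_one, if_neg h2, zero_smul, tmul_zero, map_zero,
        map_zero]
    · have h2 : dgm m₂ < dgm m := by
        rw [← hp', dgm_add]; exact lt_add_of_pos_left _ (pos_iff_ne_zero.2 h1)
      have h3 := (hW _).1 (h.C_mem u W hu (isLowerSet_Iio (dgm m)) h0 h2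
        (In.cons (R_cf_mem hv m₁) 0 (In.zero _)) (In.ins hφ m₂))
      rw [hL]
      exact mul_eq_zero_of_right _ (sub_eq_zero.2 h3)
  · simp

theorem R_ext3_circ (φ : ι → H) (u v : Md K H R ι) (y : H) :
    P.ηM (P.circ φ u v * 1 ⊗ₜ y) = ext3 (P.D0 φ) u v (1 ⊗ₜ y) := by
  have h1 : y = ∑ a, P.η (P.f a * y) • P.e a := by
    refine sub_eq_zero.1 (P.S_nondeg fun z => ?_)
    rw [sub_mul, map_sub, P.S_dual (φ := fun w => P.η (w * y))
      ⟨fun a b => by rw [add_mul, map_add], fun c a => by rw [smul_mul_assoc, map_smul]⟩,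
      mul_comm, sub_self]
  rw [circ, op_apply, sum_mul, map_sum]
  conv_rhs => rw [h1, tmul_sum, map_sum]
  refine sum_congr rfl fun a _ => ?_
  rw [smul_mul_assoc, map_smul, tmul_smul, LinearMap.map_smul_of_tower,
    Algebra.TensorProduct.tmul_mul_tmul, one_mul, smul_eq_mul, Algebra.smul_def, mul_comm]
  congr 1
  simp [ηM]

/-- Separation of the scalars of two pieces. -/
theorem Typed.sep [CharZero K] (h : P.Typed Ty) {φ : ι → H} (hφ : ∀ a, φ a ∈ Ty 0)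
    {g : H} (hg : g ∈ Ty 0) {v : Md K H R ι} (hv : v ∈ TyM R ι (Ty 0))
    (hv0 : ∀ m, dgm m = 0 → cf m v = cf m ((1 : Sr K R ι) ⊗ₜ[K] g)) {x y x' y' : H}
    (hxy : P.η (x * y) = P.η (x' * y')) {d : R →₀ ℕ} {I : Multiset ι}
    (hlow : ∀ d' < d, ∀ s, In (Ty 0) s →
      P.E d' 0 ((0, x) ::ₘ (0, y) ::ₘ s) 0 = P.E d' 0 ((0, x') ::ₘ (0, y') ::ₘ s) 0)
    (htop : P.E d 0 ((0, x) ::ₘ (0, y) ::ₘ (0, g) ::ₘ I.map fun a => (0, φ a)) 0 ≠
      P.E d 0 ((0, x') ::ₘ (0, y') ::ₘ (0, g) ::ₘ I.map fun a => (0, φ a)) 0)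
    {θ θ' : Sr K R ι} (hθ : P.circ φ v (1 ⊗ₜ x) = θ • ((1 : Sr K R ι) ⊗ₜ[K] x))
    (hθ' : P.circ φ v (1 ⊗ₜ x') = θ' • ((1 : Sr K R ι) ⊗ₜ[K] x')) : θ ≠ θ' := by
  rintro rfl
  obtain ⟨m, rfl, rfl⟩ := exists_mon d I
  have h1 := h.sep_coeff hφ hg hv hv0 x y x' y' m hlow
  rw [← R_ext3_circ, ← R_ext3_circ, hθ, hθ', smul_mul_assoc, smul_mul_assoc, map_smul, map_smul,
    Algebra.TensorProduct.tmul_mul_tmul, Algebra.TensorProduct.tmul_mul_tmul] at h1
  have h2 : ∀ z, P.ηM ((1 * 1 : Sr K R ι) ⊗ₜ[K] z) = algebraMap K _ (P.η z) := fun z => by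
    simp [ηM]
  rw [h2, h2, hxy, sub_self, map_zero] at h1
  exact htop (sub_eq_zero.1 ((mul_eq_zero.1 h1.symm).resolve_left (inv_ne_zero (fac_ne m))))

end Pk

end Vale.Agent.P287Q.Lz
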