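import Vale.Agent.P287Q.Lz.PkQ
import Vale.Agent.P287Q.Lz.PkR

/-! Theorem A on the level of numbers. -/

namespace Vale.Agent.P287Q.Lz

open Module Polynomial TensorProduct Finset

theorem A_basis {k V Γ : Type} [Field k] [AddCommGroup V] [Module k V] [FiniteDimensional k V]
    [Fintype Γ] {π : Γ → End k V} (h : CompleteOrthogonalIdempotents π) :
    ∃ b : Basis (Σ γ, Fin (finrank k (LinearMap.range (π γ)))) k V,
      ∀ i, b i ∈ LinearMap.range (π i.1) := by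
  classical
  have h1 : DirectSum.IsInternal fun γ => LinearMap.range (π γ) := by
    refine DirectSum.isInternal_submodule_of_iSupIndep_of_iSup_eq_top (fun γ => ?_) ?_
    · refine Submodule.disjoint_def.2 ?_
      rintro _ ⟨x, rfl⟩ hx
      have : ⨆ (j) (_ : j ≠ γ), LinearMap.range (π j) ≤ LinearMap.ker (π γ) :=
        iSup₂_le fun j hj => by
          rintro _ ⟨y, rfl⟩
          rw [LinearMap.mem_ker, ← End.mul_apply, h.ortho hj.symm, LinearMap.zero_apply]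
      simpa only [LinearMap.mem_ker, ← End.mul_apply, (h.idem γ).eq] using this hx
    · refine eq_top_iff.2 fun x _ => ?_
      rw [← End.one_apply (R := k) x, ← h.complete, LinearMap.sum_apply]
      exact sum_mem fun γ _ => Submodule.mem_iSup_of_mem γ ⟨x, rfl⟩
  exact ⟨h1.collectedBasis fun _ => finBasis _ _, fun i => h1.collectedBasis_mem _ i⟩

variable {K H R ι : Type} [Field K] [CommRing H] [Algebra K H] [DecidableEq R] [Algebra ℂ K]
  [Algebra ℂ H] [IsScalarTower ℂ K H] {P : Pk K H R} {Ty : ℤ → Submodule K H}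

namespace Pk

namespace Nd

variable {V Γ : Type} [AddCommGroup V] [Module ℂ V] [Fintype Γ] {j : V →ₗ[ℂ] H} {π : Γ → End ℂ V}
  (h : P.Nd Ty j π)
include h

theorem li {n : Type} (b : Basis n ℂ V) : LinearIndependent K fun i => j (b i) := by
  simpa [Function.comp_def] using (b.baseChange K).linearIndependent.map' _
    (LinearMap.ker_eq_bot.2 h.inj)

theorem fin : FiniteDimensional ℂ V :=
  have := P.findim
  have := (h.li (Basis.ofVectorSpace ℂ V)).finite_of_isNoetherian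
  Module.Finite.of_basis (Basis.ofVectorSpace ℂ V)

theorem zero {c : Γ → K} {w : V} (e : ∑ γ, c γ • j (π γ w) = 0) {γ : Γ} (hγ : π γ w ≠ 0) :
    c γ = 0 := by
  have e1 : ∑ γ, c γ ⊗ₜ[ℂ] π γ w = 0 := h.inj (by simpa using e)
  obtain ⟨ψ, hψ⟩ := Module.Projective.exists_dual_eq_one ℂ hγ
  have := congrArg (LinearMap.liftBaseChange K (Algebra.linearMap ℂ K ∘ₗ ψ ∘ₗ π γ)) e1
  rw [map_sum, map_zero, Finset.sum_eq_single γ (fun δ _ hδ => ?_) (by simp)] at this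
  · simpa [← End.mul_apply, (h.coi.idem γ).eq, hψ] using this
  · simp [← End.mul_apply, h.coi.ortho hδ.symm]

theorem ne {v : V} (hv : v ≠ 0) : j v ≠ 0 := fun e => hv <| by
  have : (1 : K) ⊗ₜ[ℂ] v = 0 := h.inj (by simpa using e)
  by_contra hv
  obtain ⟨ψ, hψ⟩ := Module.Projective.exists_dual_eq_one ℂ hv
  simpa [hψ] using congrArg (LinearMap.liftBaseChange K (Algebra.linearMap ℂ K ∘ₗ ψ)) this

theorem cut (S : Set R) : (P.cut S).Nd Ty j π :=
  { h with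
    sca := fun γ d s hs => by
      by_cases e : ↑d.support ⊆ S
      · simpa [Pk.cut, ScE, e] using h.sca γ d s hs
      · exact ⟨0, fun x _ y => by simp [Pk.cut, e]⟩ }

theorem eig [CharZero K] (ht : P.Typed Ty) {φ : ι → H} (hφ : ∀ a, φ a ∈ Ty 0) {g : H}
    (hg : g ∈ Ty 0) : ∃ θ : Γ → Sr K R ι, ∀ γ, ∀ v ∈ LinearMap.range (π γ),
      P.circ φ (P.U φ (1 ⊗ₜ g)) (1 ⊗ₜ j v) = θ γ • ((1 : Sr K R ι) ⊗ₜ[K] j v) := by
  choose θ hθ using fun γ => ht.circ_scalar _ (h.sca γ) hφ (ht.U_mem hφ (Q_mem hg))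
  exact ⟨θ, fun γ v hv => hθ γ _ ⟨v, hv, rfl⟩⟩

end Nd

theorem A_prod {O Γ : Type} [CommRing O] [Fintype Γ] (θ : Γ → O) (m : Γ → ℕ) :
    ∏ i : Σ γ, Fin (m γ), (X - Polynomial.C (θ i.1)) = ∏ γ, (X - Polynomial.C (θ γ)) ^ m γ := by
  simp [Fintype.prod_sigma]

omit [Algebra ℂ K] [Algebra ℂ H] [IsScalarTower ℂ K H] in
theorem FM.mono {S S' : Set R} {a : H} (h : P.FM S a) (hS : S' ⊆ S) : P.FM S' a :=
  ⟨fun d e => h.ss d (e.trans hS), fun d e => h.sf d (e.trans hS), fun d e => h.ff d (e.trans hS)⟩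

omit [Algebra ℂ K] [Algebra ℂ H] [IsScalarTower ℂ K H] in
theorem VM.cut {a : H} (h : P.VM a) (S : Set R) : (P.cut S).VM a := fun d i j x y s => by
  simp only [Pk.cut, h d i j x y s]

omit [Algebra ℂ K] [Algebra ℂ H] [IsScalarTower ℂ K H] in
theorem cut_C {S : Set R} {d : R →₀ ℕ} (h : ↑d.support ⊆ S) (s t) :
    (P.cut S).C d s t = P.C d s t := if_pos h

omit [Algebra ℂ K] [Algebra ℂ H] [IsScalarTower ℂ K H] in
theorem cut_C0 (S : Set R) {d s t} (h : P.C d s t = 0) : (P.cut S).C d s t = 0 := by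
  simp [Pk.cut, h]

omit [Algebra ℂ H] [IsScalarTower ℂ K H] [DecidableEq R] in
theorem A_pole {lam : K} (h : Transcendental ℂ lam) {θ : Sr K R ι} {m : R ⊕ ι →₀ ℕ}
    {q q' : ℂ[X]} (hq : q.coeff 0 = 0) (hq' : q'.coeff 0 ≠ 0)
    (e : MvPowerSeries.coeff m θ * aeval lam q = aeval lam q') : θ ∉ (io R ι lam).range := by
  rintro ⟨a, rfl⟩
  have : MvPowerSeries.coeff m a * q = q' := chi_inj h (by simpa using e)
  exact hq' (by rw [← this, mul_coeff_zero, hq, mul_zero])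

namespace MsC

variable {lam : K} {Λ : Subalgebra ℂ H} {S : Set R} {p e₁ e₂ g : H} {z₁ z₂ : H →ₗ[K] K}
  {φ : R →₀ ℕ} (h : P.MsC lam Ty Λ S p e₁ e₂ g z₁ z₂ φ)
include h

omit [IsScalarTower ℂ K H]

theorem lt : P.Lt lam Λ := { h with }

theorem pg : p * g = z₁ g • (p * e₁) := by
  conv_lhs => rw [h.pe, add_mul, h.pz₁, h.pz₂, h.g₂, zero_smul, add_zero]

theorem key : P.C φ 0 {(0, g), (0, g), (0, p * g)} =
    z₁ g * z₁ g * P.C φ 0 {(0, g), (0, p * e₁), (0, e₁)} := by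
  have l := fun x y => P.linF₃ φ 0 0 x y 0
  have e : ∀ x y, P.C φ 0 ((0, g) ::ₘ (0, x) ::ₘ (0, p * y) ::ₘ 0) =
      P.C φ 0 ((0, g) ::ₘ (0, y) ::ₘ (0, p * x) ::ₘ 0) := fun x y => by
    rw [Multiset.cons_swap (0, x), Multiset.cons_swap (0, g), Multiset.cons_swap (0, g),
      h.fm.ff φ h.φS, Multiset.cons_swap (0, p * x), Multiset.cons_swap (0, y)]
  change P.C φ 0 (_ ::ₘ _ ::ₘ _ ::ₘ 0) = _ * P.C φ 0 (_ ::ₘ _ ::ₘ _ ::ₘ 0)
  rw [h.pg, (l _ _).map_smul, e, h.pg, (l _ _).map_smul, Multiset.cons_swap (0, e₁), smul_eq_mul,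
    smul_eq_mul, mul_assoc]

theorem r0 : z₁ g ≠ 0 := fun e => by
  obtain ⟨q, h1, h2⟩ := h.cnt
  rw [h.key, e, zero_mul, zero_mul] at h1
  exact h2 (by rw [chi_inj h.tr (a₁ := q) (a₂ := 0) (by simpa using h1.symm), coeff_zero])

variable [CharZero K]

theorem qc {S' : Set R} (hS : S' ⊆ S) : (P.cut S').Qc Ty p e₁ e₂ z₁ z₂ :=
  { h with
    ty := h.ty.cut _
    fm := (h.fm.mono hS).cut
    vm₁ := h.vm₁.cut _
    vm₂ := h.vm₂.cut _
    li := LinearIndependent.pair_iff.2 fun s t e => by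
      have e1 := congrArg (· * g) e
      simp only [add_mul, smul_mul_assoc, h.pz₁, h.pz₂, h.g₂, zero_smul, smul_zero, add_zero,
        zero_mul, smul_eq_zero, h.r0, h.ne₁, or_false] at e1
      simpa [e1, h.ne₂] using e }

theorem pole : (P.cut S).evl (0 : ι → H) z₁ g ∉ (io R ι lam).range := by
  obtain ⟨m, h1, h2⟩ := Q_pert' (h.qc le_rfl).vm₁ h.ne₁
    (by rw [mul_left_comm, h.id₁]) (by rw [mul_comm, h.pz₁])
    ((h.qc le_rfl).eig₁ (φ := (0 : ι → H)) (fun _ => zero_mem _) h.gT) h.φ0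
    fun d hd h0 y => cut_C0 _ (h.supp d hd h0 _ _)
  obtain ⟨q, q1, q2⟩ := h.cnt
  obtain ⟨a, a1, a2⟩ := h.g₁
  obtain ⟨b, hb⟩ := h.pol _ (Λ.mul_mem h.pΛ h.gΛ)
  refine A_pole h.tr (m := m) (q := a * b) (by rw [mul_coeff_zero, a2, zero_mul]) q2 ?_
  have h3 := congrArg P.η h1
  rw [mul_comm e₁, map_smul, smul_eq_mul] at h3
  rw [← q1, h.key, map_mul, ← a1, ← hb, h.pg, map_smul, ← cut_C h.φS, ← h3.trans (h2 e₁),
    smul_eq_mul]
  ring

end MsC

end Pk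

/-- **Theorem A** on the level of numbers. -/
theorem pkA : StPkA := by
  intro K H R _ _ _ _ _ _ _ P lam Ty Λ S p e₁ e₂ g z₁ z₂ φ V Γ _ _ _ j π W h
  classical
  have : CharZero K := (algebraMap ℂ K).charZero_iff (algebraMap ℂ K).injective |>.1 inferInstance
  have := Q_dom (K := K) (R := R) (ι := Empty)
  have := h.toNd.fin
  have hq := h.toMsC.qc le_rfl
  have hφ : ∀ a, (0 : Empty → H) a ∈ Ty 0 := fun _ => zero_mem _
  have hl := h.toMsC.lt.cut S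
  obtain ⟨r, b, w, F, hw, hw', hF, hF'⟩ := hl.poly (φ := (0 : Empty → H)) h.sp2
    (fun _ => zero_mem _) h.gΛ fun x hx => by simpa using hq.ty.star_mem hφ (Q_mem h.gT) hx
  obtain ⟨θ, hθ⟩ := (h.toNd.cut S).eig hq.ty hφ h.gT
  obtain ⟨t, n, ht, hn⟩ := hq.quad hl h.pΛ hφ (fun _ => zero_mem _) h.gT h.gΛ
  obtain ⟨β, hβ⟩ := A_basis h.coi
  refine Alg.thA (Alg.map_mv_inj (Pk.chi_inj h.tr)) (Alg.cic_mv (Pk.chi_inj h.tr)
    (Q_cic (Pk.chi_inj h.tr)) _) MvPowerSeries.constantCoeff hF h.coi (θ := θ) ?_ (r := z₁ g) ?_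
    (b := (P.cut S).evl 0 z₂ g) (t := t) (n := n) (by rw [ht, hn]; ring) (fun e => ?_)
    (by rw [ht, add_sub_cancel_right, Pk.cc_evl]) fun x v hv hx => ?_
  · obtain ⟨Q, -, -, hQ⟩ := hw.Q_eig
      (fun x hx => by simpa using hq.ty.circ_mem hφ (hq.ty.U_mem hφ (Q_mem h.gT)) hx)
      (fun i => h.mem _) (h.toNd.li β) fun i => hθ _ _ (hβ i)
    rw [hF', hq.ty.charpoly hφ hw (Q_mem h.gT), hQ, Pk.A_prod]
    exact dvd_mul_right _ _
  · obtain ⟨y, hy⟩ := h.res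
    rw [hF', ← Matrix.charpoly_map, Pk.cc_mat (T₀ := LinearMap.mulLeft K g)
      fun x => by rw [Pk.cf_star, Q_cf_one]; rfl]
    exact (Pk.Q_res b hw' (fun x hx => by simpa using h.ty.mul _ _ _ h.gT _ hx) h.id₁ hy).trans
      h.dim
  · exact h.toMsC.pole (by simpa [ht] using sub_mem (RingHom.mem_range_self _ t) e)
  · obtain ⟨a, ha, e⟩ := h.mv v hv
    have e1 := hq.ty.evl_eig hφ (e ▸ Pk.Q_mv ha.cut hq.vm₂) (h.sc v hv) h.gT
    have e2 : j v = ∑ γ, j (π γ v) := by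
      rw [← map_sum, ← LinearMap.sum_apply, h.coi.complete, End.one_apply]
    rw [e2, tmul_sum, map_sum, Finset.sum_congr rfl fun γ _ => hθ γ _ ⟨v, rfl⟩] at e1
    ext m
    refine sub_eq_zero.1 (h.toNd.zero (w := v) (c := fun γ => MvPowerSeries.coeff m (θ γ) -
      MvPowerSeries.coeff m ((P.cut S).evl 0 z₂ g)) ?_ hx)
    simpa [sub_smul, smul_sum, smul_tmul', cf_tmul, sub_eq_zero] using congrArg (cf m) e1

end Vale.Agent.P287Q.Lz
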