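import Vale.Agent.P287Q.Lz.PkD

/-! The hypotheses on master spaces, on the level of numbers. -/

namespace Vale.Agent.P287Q.Lz

open Module Polynomial

variable {K H R : Type} [Field K] [CommRing H] [Algebra K H] [DecidableEq R] [Algebra ℂ K]
  [Algebra ℂ H] [IsScalarTower ℂ K H]

namespace Pk

variable (P : Pk K H R)

/-- the bare vertex with the further insertions `s` acts on `X` by the scalar `c` -/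
def ScE (X : Set H) (d : R →₀ ℕ) (s : Ms H) (c : K) : Prop :=
  ∀ x ∈ X, ∀ y, P.E d 0 ((0, x) ::ₘ (0, y) ::ₘ s) 0 = c * P.η (x * y)

/-- an end of a master space: the classes `j v` form a basis of a part of `Ty 2`, the bare vertex
acts by scalars on the pieces -/
structure Nd (Ty : ℤ → Submodule K H) {V Γ : Type} [AddCommGroup V] [Module ℂ V] [Fintype Γ]
    (j : V →ₗ[ℂ] H) (π : Γ → End ℂ V) : Prop where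
  mem : ∀ v, j v ∈ Ty 2
  inj : Function.Injective (j.liftBaseChange K)
  coi : CompleteOrthogonalIdempotents π
  sca : ∀ γ d s, (∀ x ∈ s, x.2 ∈ Ty 0) → ∃ c, P.ScE (j '' LinearMap.range (π γ)) d s c

/-- the hypotheses common to both master spaces: `e₁` is the source, `e₂` the sink, `p` the class
of a general fibre, `S` the contracted blocks, `φ` the degree of the fibre -/
structure MsC (lam : K) (Ty : ℤ → Submodule K H) (Λ : Subalgebra ℂ H) (S : Set R)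
    (p e₁ e₂ g : H) (z₁ z₂ : H →ₗ[K] K) (φ : R →₀ ℕ) : Prop where
  tr : Transcendental ℂ lam
  ty : P.Typed Ty
  lamΛ : algebraMap K H lam ∈ Λ
  lat : P.Lat Λ.toSubring.toAddSubgroup
  pol : ∀ x ∈ Λ, ∃ q : ℂ[X], P.η x = aeval lam q
  top : Submodule.span K (Λ : Set H) = ⊤
  sp2 : Ty 2 ≤ Submodule.span K ((Λ : Set H) ∩ Ty 2)
  pΛ : p ∈ Λ
  fm : P.FM S p
  vm₁ : P.VM e₁
  vm₂ : P.VM e₂
  id₁ : e₁ * e₁ = e₁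
  pe : p = p * e₁ + p * e₂
  pz₁ : ∀ y, p * e₁ * y = z₁ y • (p * e₁)
  pz₂ : ∀ y, p * e₂ * y = z₂ y • (p * e₂)
  ne₁ : p * e₁ ≠ 0
  ne₂ : p * e₂ ≠ 0
  gΛ : g ∈ Λ
  gT : g ∈ Ty 0
  g₁ : ∃ q : ℂ[X], z₁ g = aeval lam q ∧ q.coeff 0 = 0
  g₂ : z₂ g = 0
  φS : ↑φ.support ⊆ S
  φ0 : φ ≠ 0
  supp : ∀ d, d < φ → d ≠ 0 → ∀ x y, P.C d 0 {(0, g), (0, p * x), (0, y)} = 0
  cnt : ∃ q : ℂ[X], P.C φ 0 {(0, g), (0, g), (0, p * g)} = aeval lam q ∧ q.coeff 0 ≠ 0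

/-- the master space of a birational morphism -/
structure MsA (lam : K) (Ty : ℤ → Submodule K H) (Λ : Subalgebra ℂ H) (S : Set R)
    (p e₁ e₂ g : H) (z₁ z₂ : H →ₗ[K] K) (φ : R →₀ ℕ) {V Γ : Type} [AddCommGroup V] [Module ℂ V]
    [Fintype Γ] (j : V →ₗ[ℂ] H) (π : Γ → End ℂ V) (W : Submodule ℂ V) : Prop
    extends P.MsC lam Ty Λ S p e₁ e₂ g z₁ z₂ φ, P.Nd Ty j π where
  res : ∃ y, (g - algebraMap K H (z₁ g)) * y = 1 - e₁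
  dim : finrank K ((Ty 2).map (LinearMap.mulLeft K e₁)) ≤ finrank ℂ W
  mv : ∀ w ∈ W, ∃ a, P.FM S a ∧ j w = e₂ * a
  sc : ∀ w ∈ W, ∀ y ∈ Ty 0, j w * y = z₂ y • j w

/-- the master space of a blow-up: `e₃` is the centre, `S₁` the blocks of the curves in the
exceptional fibres, `τ` the directions of the coordinates -/
structure MsB (lam : K) (Ty : ℤ → Submodule K H) (Λ : Subalgebra ℂ H) (S S₁ : Set R)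
    (p e₁ e₂ e₃ g : H) (z₁ z₂ z₃ : H →ₗ[K] K) (φ : R →₀ ℕ) {V₁ V₂ Γ₁ Γ₂ ι : Type}
    [AddCommGroup V₁] [Module ℂ V₁] [AddCommGroup V₂] [Module ℂ V₂] [Fintype Γ₁] [Fintype Γ₂]
    (j₁ : V₁ →ₗ[ℂ] H) (π₁ : Γ₁ → End ℂ V₁) (j₂ : V₂ →ₗ[ℂ] H) (π₂ : Γ₂ → End ℂ V₂) (τ : ι → H) :
    Prop extends P.MsC lam Ty Λ S p e₁ e₂ g z₁ z₂ φ where
  nd₁ : P.Nd Ty j₁ π₁
  nd₂ : P.Nd Ty j₂ π₂
  vm₃ : P.VM e₃
  ty₃ : e₃ ∈ Ty 0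
  onto : ∀ x ∈ Ty 2, x - e₃ * x ∈ Submodule.span K (Set.range j₁ ∪ Set.range j₂)
  sc₁ : ∀ v, ∀ y ∈ Ty 0, j₁ v * y = z₁ y • j₁ v
  sc₂ : ∀ v, ∀ y ∈ Ty 0, j₂ v * y = z₂ y • j₂ v
  sc₃ : ∀ x ∈ Ty 2, ∀ y ∈ Ty 0, e₃ * x * y = z₃ y • (e₃ * x)
  mv₁ : ∀ v, ∃ a, P.FM S a ∧ j₁ v = e₁ * a
  mv₃ : ∀ x ∈ Ty 2, P.VM (e₃ * x)
  dim : finrank ℂ V₂ = finrank ℂ V₁ + finrank K ((Ty 2).map (LinearMap.mulLeft K e₃))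
  g₃ : z₃ g ≠ 0 ∧ z₃ g ≠ z₁ g
  zΛ : ∀ x ∈ Λ, ∃ q : ℂ[X], z₁ x = aeval lam q
  sp0 : Ty 0 ≤ Submodule.span K ((Λ : Set H) ∩ Ty 0)
  τΛ : ∀ a, τ a ∈ Λ
  τT : ∀ a, τ a ∈ Ty 0
  ne : ∀ γ, π₂ γ ≠ 0
  sep : ∀ γ γ', γ ≠ γ' → ∃ d₀, (∀ d < d₀, ∀ s c c', (∀ x ∈ s, x.2 ∈ Ty 0) →
      P.ScE (j₂ '' LinearMap.range (π₂ γ)) d s c → P.ScE (j₂ '' LinearMap.range (π₂ γ')) d s c' →
      c = c') ∧ ∃ x ∈ Ty 0, ∃ (t : Multiset ι) (c c' : K), c ≠ c' ∧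
      P.ScE (j₂ '' LinearMap.range (π₂ γ)) d₀ ((0, x) ::ₘ t.map fun a => (0, τ a)) c ∧
      P.ScE (j₂ '' LinearMap.range (π₂ γ')) d₀ ((0, x) ::ₘ t.map fun a => (0, τ a)) c'
  sub : S₁ ⊆ S
  supp₁ : ∀ d, ↑d.support ⊆ S₁ → d ≠ 0 → ∀ x y w, P.C d 0 {(0, x), (0, p * y), (0, w)} = 0
  pole : (∃ x ∈ Ty 2, e₃ * x ≠ 0) → ∃ (l : R →₀ ℕ) (A A' : H) (q q' : ℂ[X]), ↑l.support ⊆ S₁ ∧
    l ≠ 0 ∧ A ∈ Ty 2 ∧ e₃ * A = A ∧ (∀ v, P.η (j₁ v * A') = 0) ∧ (∀ v, P.η (j₂ v * A') = 0) ∧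
    P.η (A * A') = aeval lam q ∧ q.coeff 0 = 0 ∧
    P.C l 0 {(0, g), (0, A), (0, A')} = aeval lam q' ∧ q'.coeff 0 ≠ 0 ∧
    ∀ d, d < l → d ≠ 0 → ∀ y, P.C d 0 {(0, g), (0, A), (0, y)} = 0

end Pk

/-- **Theorem A** on the level of numbers. -/
def StPkA : Prop := ∀ {K H R : Type} [Field K] [CommRing H] [Algebra K H] [DecidableEq R]
  [Algebra ℂ K] [Algebra ℂ H] [IsScalarTower ℂ K H] (P : Pk K H R) {lam Ty Λ S p e₁ e₂ g z₁ z₂ φ}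
  {V Γ : Type} [AddCommGroup V] [Module ℂ V] [Fintype Γ] {j : V →ₗ[ℂ] H} {π : Γ → End ℂ V} {W},
  P.MsA lam Ty Λ S p e₁ e₂ g z₁ z₂ φ j π W →
  ∃ T : Finset Γ, LinearMap.range (∑ γ ∈ T, π γ) = W

open Classical in
/-- **Theorem B** on the level of numbers. -/
def StPkB : Prop := ∀ {K H R : Type} [Field K] [CommRing H] [Algebra K H] [DecidableEq R]
  [Algebra ℂ K] [Algebra ℂ H] [IsScalarTower ℂ K H] (P : Pk K H R)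
  {lam Ty Λ S S₁ p e₁ e₂ e₃ g z₁ z₂ z₃ φ} {V₁ V₂ Γ₁ Γ₂ ι : Type} [AddCommGroup V₁] [Module ℂ V₁]
  [AddCommGroup V₂] [Module ℂ V₂] [Fintype Γ₁] [Fintype Γ₂] {j₁ : V₁ →ₗ[ℂ] H} {π₁ : Γ₁ → End ℂ V₁}
  {j₂ : V₂ →ₗ[ℂ] H} {π₂ : Γ₂ → End ℂ V₂} {τ : ι → H},
  P.MsB lam Ty Λ S S₁ p e₁ e₂ e₃ g z₁ z₂ z₃ φ j₁ π₁ j₂ π₂ τ →
  Fintype.card Γ₂ ≤ Fintype.card Γ₁ + if finrank ℂ V₂ = finrank ℂ V₁ then 0 else 1

end Vale.Agent.P287Q.Lz
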