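import Vale.Agent.P287Q.Lz.Defs
import Vale.Agent.P269.LG.BorR
import Vale.Agent.P287Q.G.Glu.NdDefs

/-! The fixed locus of the target in the Borel construction, the class of the diagonal. -/

set_option linter.unusedSectionVars false

namespace Vale.Agent.P269.Lz

open Set Function Topology Filter TensorProduct B Vale.Agent.P291Z Vale.Agent.P269.Ch
  Vale.Agent.P269.Loc LG

section lf

variable {σ : Type} [Fintype σ] {X : ℕ → Type} [∀ M, TopologicalSpace (X M)] {A : Type}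
  [TopologicalSpace A] (k : ∀ M, C(X M, X (M + 1))) (i : ∀ M, C(A × Bs σ M, X M))
  (χ : Loc.R σ →ₐ[ℂ] F)

/-- `y` is the restriction of the equivariant class `α` -/
def Lf (α : ∀ M, H (X M)) (y : F ⊗[ℂ] H A) : Prop :=
  α ∈ Tws k ∧ ∃ x, (∀ M, H.map (i M) (α M) = evA A M x) ∧ bc _ χ x = y

end lf

variable {R J K σ ν : Type} [Fintype R] [Fintype J] [Fintype K] [Fintype σ] [Fintype ν]
  [DecidableEq R] [DecidableEq σ]

/-- the Borel construction of the target -/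
abbrev TT.XE (P : TT R J K σ) (M : ℕ) : Type := (P.EM M).X (P.EM M).cone

/-- the fixed locus of the target in the Borel construction -/
structure TG (P : TT R J K σ) (a : σ → ℂ) where
  [nice : ∀ M, Nice (P.XE M)]
  [niceX : Nice P.X]
  [cptX : CompactSpace P.X]
  /-- the inclusion of the fixed locus -/
  i : ∀ M, C(P.X × Bs σ M, P.XE M)
  i_mk : ∀ M (z : P.Fix) (p : PM σ M),
    ∃ h, i M (Quo.mk _ z, bp p) = Quo.mk _ ⟨(uncurry p.val, z.1.2), h⟩
  /-- the inclusions of the approximations -/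
  k : ∀ M, C(P.XE M, P.XE (M + 1))
  k_mk : ∀ M (p : PM σ M) y h, ∃ h', k M (Quo.mk _ ⟨(uncurry p.val, y), h⟩) =
    Quo.mk _ ⟨(uncurry p.inc.val, y), h'⟩
  /-- the inclusion of the square of the fixed locus -/
  i2 : ∀ M, C((P.X × P.X) × Bs σ M, (P.EM M).X3)
  i2_mk : ∀ M (z z' : P.Fix) (p : PM σ M), ∃ h, i2 M ((Quo.mk _ z, Quo.mk _ z'), bp p) =
    Quo.mk _ ⟨(uncurry p.val, z.1.2, z'.1.2), h⟩
  /-- the restriction of the class of the diagonal -/
  δ : Loc.R σ ⊗[ℂ] Hev (P.X × P.X)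
  hδ : ∀ M t, Nd.IsD3 (P.EM M) t → H.map (i2 M) (hcls t) = evA _ M (inH _ δ)
  /-- the equivariant integral -/
  I : F ⊗[ℂ] H P.X →ₗ[F] F
  loc : IsLoc (chiA a) (fun M => Tq.fnd (P.EM M).actT (P.EM M).cone) i I

variable {P : TT R J K σ} {a : σ → ℂ} (t : TG P a)

/-- the class of the diagonal -/
noncomputable def TG.dg : F ⊗[ℂ] Hev (P.X × P.X) := bc _ (chiA a) t.δ

/-- the restrictions of equivariant classes of the target -/
def TG.Gl : Set (F ⊗[ℂ] H P.X) := {y | ∃ α, Lf t.k t.i (chiA a) α y}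

/-- the class of the diagonal is the Casimir element of the pairing -/
def TG.Cas : Prop := ∀ (ι : Type) [Fintype ι] (e f : ι → F ⊗[ℂ] H P.X),
  inF _ t.dg = ∑ b, pb F .fst (e b) * pb F .snd (f b) → ∀ y, ∑ b, t.I (y * e b) • f b = y

/-- the global formula: the contributions of restrictions of global classes are polynomials -/
def HG (T : Th P) : Prop := ∀ (ν : Type) [Fintype ν] (g : ℤ) (d : R → ℤ),
  ∃ L : Subalgebra ℂ (F ⊗[ℂ] H (T ν g d).A),
    (∀ x ∈ L, ∃ Q : Polynomial ℂ, Polynomial.aeval tt Q = (T ν g d).I x) ∧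
    (∀ i, (a i • tt) ⊗ₜ 1 ∈ L) ∧ (∀ n, inF _ ((T ν g d).ψ n) ∈ L) ∧
    (∀ n, ∀ y ∈ t.Gl, pb F ((T ν g d).ev n) y ∈ L) ∧
    (∀ n n', inF _ ((T ν g d).dg t.dg n n') ∈ L) ∧ inF _ ((T ν g d).id fun m => m.Conn) ∈ L

end Vale.Agent.P269.Lz
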