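import Vale.Agent.P287Q.Lz.HVw
import Vale.Agent.P287Q.Qz.Defs

/-! The contribution of a bare vertex over a fixed divisor in terms of twisted invariants. -/

set_option linter.unusedSectionVars false

namespace Vale.Agent.P269.Lz

open Set Function Topology TensorProduct B Vale.Agent.P291Z Vale.Agent.P269.Ch
  Vale.Agent.P269.Loc LG

variable {R J K σ ν : Type} [Fintype R] [Fintype J] [Fintype K] [Fintype σ] [Fintype ν]
  [DecidableEq R] [DecidableEq σ] {P : TT R J K σ} {K₀ : RD R} {ρ : σ → R → ℤ} {j : J} {k D : ℕ}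
  {d : R → ℤ} {a : σ → ℂ}

theorem insV_eq {g : ℤ} (z : GZ (P.V ρ).E ℓs ((P.V ρ).E.Zs (Fin 0) k D g d (0 : ν → J → ℕ)))
    (x : ν → ℕ × Hev P.X) : (insV z x).1 =
      insP (P.V ρ).E _ .inl fun n => ((x n).1, Hev.map (P.iV ρ) (x n).2) :=
  (congrArg Subtype.val (Finset.prod_congr rfl fun n _ => Subtype.ext
    (congrArg (_ * ·) (z.hcls_evF (.inl n) _).symm))).trans (z.insP_eq _ _).symm

/-- **the contribution of a bare vertex of genus zero over a fixed divisor** -/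
theorem Geo.vx_gz [Nice P.X] {τ : Md P ν 0 d} (G : Geo k D a τ) (h : P.Ok K₀ k D) (E : P.End ρ j)
    (hb : P.bw ρ j a ≠ 0)
    (cE : IsClopen (τ.sel fun m => m.Conn ∧ ∀ z, OnV P.E.toWt P.wt m z)) (cl : IsClopen (P.XL ρ))
    (x : ν → ℕ × Hev P.X) (n₀ : ν) (hx : idE (P.XL ρ) * 1 ⊗ₜ (x n₀).2 = 1 ⊗ₜ (x n₀).2) :
    τ.I (inF _ (τ.id (fun m => m.Conn ∧ ∀ z, OnV P.E.toWt P.wt m z) *
      ∏ n, τ.ψ n ^ (x n).1 * pbE (τ.ev n) (1 ⊗ₜ (x n).2))) =
    (P.bw ρ j a • tt) ^ (-(∑ r, P.w j r * d r + 1)) * Fock.Hat.ofPS ℂ (.mk fun m =>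
      (P.V ρ).E.gz k (Qrr.th {j} (fun _ => P.bw ρ j a) id m) d
        (Finset.univ.val.map fun n => ((x n).1, Hev.map (P.iV ρ) (x n).2))) := by
  obtain ⟨_, -, -, hV⟩ := E.ok h
  rw [G.vx_num h E hb cE cl x n₀ hx hV.gz, insV_eq, sub_zero]
  simp only [hV.one.gz_cl hV.bigD]

end Vale.Agent.P269.Lz
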