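import Vale.Agent.P287Q.Lz.Ev
import Vale.Agent.P287Q.Lz.FxD

/-! The loci of curves with marked points on one vertex are open and closed. -/

set_option linter.unusedSectionVars false
set_option maxSynthPendingDepth 3

namespace Vale.Agent.P269.Lz

open Set Function Topology Filter TensorProduct Cv B Vale.Agent.P291Z Vale.Agent.P269.Ch
  Vale.Agent.P269.Loc LG

variable {R J K σ ν ν' ν₁ ν₂ : Type} [Fintype R] [Fintype J] [Fintype K] [Fintype σ] [Fintype ν]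
  [Fintype ν'] [Fintype ν₁] [Fintype ν₂] {P : TT R J K σ} {g : ℤ} {d d₁ : R → ℤ} {S : Set ν} {a : ν}
  {k : ℕ} {m : AM1 R J ν}

theorem es_iff (ha : a ∈ S) :
    ES P k S m ↔ m.Conn ∧ Com P.E.toWt P.wt m S ∧ ntl P.E.toWt P.wt m a = k :=
  ⟨fun u => ⟨u.1.1, u.1.2, u.2 a ha⟩, fun u => ⟨⟨u.1, u.2.1⟩, fun _ hb =>
    (u.2.1.ntl_eq hb ha).trans u.2.2⟩⟩

theorem es_zero (ha : a ∈ S) : ES P 0 S m ↔ m.Conn ∧ ∀ z, OnV P.E.toWt P.wt m z :=
  (es_iff ha).trans (and_congr_right fun c => com_ntl_zero c ha)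

theorem cs_empty : CS P ∅ m ↔ m.Conn := and_iff_left com_empty

theorem es_empty : ES P k ∅ m ↔ m.Conn := (and_iff_left nofun).trans cs_empty

theorem cs_single : CS P {a} m ↔ m.Conn ∧ P.Vm m a := and_congr_right' com_single

/-- the canonical distribution of the marked points -/
def spP (p : ν → Prop) [DecidablePred p] :
    Option {a // p a} ⊕ Option {a // ¬p a} ≃ ν ⊕ Unit × Bool := spl {a | p a}

theorem sd_spP (p : ν → Prop) [DecidablePred p] [Fintype (Option {a // p a})]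
    [Fintype (Option {a // ¬p a})] : Sd (spP p) none none {a | p a} :=
  ⟨rfl, rfl, fun a => ⟨fun h => ⟨some ⟨a, h⟩, rfl⟩, by
    rintro ⟨_ | ⟨b, h⟩, ⟨⟩⟩
    exact h⟩⟩

theorem sps_fx {n : Unit × Bool → m.X} (h : m.Nds n) (u : P.Fx m 0 d)
    {φ : ν₁ ⊕ ν₂ ≃ ν ⊕ Unit × Bool} {Q₁ : AM1 R J ν₁ → Prop} {Q₂ : AM1 R J ν₂ → Prop}
    (s : Sps (ctp m h) φ (fun m => m.Typ 0 d₁ ∧ Q₁ m) Q₂) :
    ∃ m₁ m₂, P.Fx m₁ 0 d₁ ∧ P.Fx m₂ 0 (d - d₁) ∧ Q₁ m₁ ∧ Q₂ m₂ :=
  let ⟨m₁, m₂, _, _, c, t, v⟩ := s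
  let w := Fx.split c (g₂ := 0) (d₂ := d - d₁)
    (by rw [add_sub_cancel]; exact Fx.ctp h (g := -1) u) t.1
  ⟨m₁, m₂, w.1, w.2, t.2, v⟩

theorem Md.clopen_ex (τ : Md P ν g d) {α : Type} {s : Set α} (hs : s.Finite)
    {Q : α → AM1 R J ν → Prop} (h : ∀ i ∈ s, IsClopen (τ.sel (Q i))) :
    IsClopen (τ.sel fun m => ∃ i ∈ s, Q i m) := by
  rw [show (τ.sel fun m => ∃ i ∈ s, Q i m) = ⋃ i ∈ s, τ.sel (Q i) from Set.ext fun x => by
    simp only [Md.sel, mem_ofPred_eq, mem_iUnion]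
    exact ⟨fun ⟨m, a, i, b, c⟩ => ⟨i, b, m, a, c⟩, fun ⟨i, b, m, a, c⟩ => ⟨m, a, i, b, c⟩⟩]
  exact hs.isClopen_biUnion h

section tail

variable [DecidableEq ν]

variable (P) in
/-- the normalisation at the root of a tail, of a given type -/
abbrev TlQ (S : Set ν) (k : ℕ) (A : Finset ν) (d₁ : R → ℤ) (m : AM1 R J (ν ⊕ Unit × Bool)) : Prop :=
  Sps m (spP (· ∈ A)) (fun m => m.Typ 0 d₁ ∧ ES P k (insert none (pr₁ (spP (· ∈ A)) S)) m)
    fun m => m.Conn ∧ ¬P.Vm m none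

open Classical in
theorem sum_tlQ (hg : gen m.R m.N = 0) (ha : a ∈ S) {D : Finset (R → ℤ)}
    (hD : ∀ U, IsClopen U → (fun r => degOn (m.L r) U) ∈ D) (B : Finset (Finset ν))
    (hB : ∀ A, A ∈ B ↔ S ⊆ ↑A) : (if ES P (k + 1) S m then k + 1 else 0) =
      ∑ x ∈ B ×ˢ D, cntN m (TlQ P S k x.1 x.2) := by
  rw [Finset.sum_product, ← Finset.sum_coe_sort B]
  refine (if_congr (es_iff ha) rfl rfl).trans <| (sum_tail (W := P.E.toWt) (wt := P.wt) (k := k) (ι := B) (fun i : B => sd_spP (· ∈ i.1))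
    (fun _ _ e => Subtype.ext (Finset.ext (Set.ext_iff.1 e))) hD hg ha fun A =>
      ⟨fun ⟨i, e⟩ => e ▸ (hB _).1 i.2, fun u => ⟨⟨A.toFinset, (hB _).2 (by simpa using u)⟩,
        by simp⟩⟩).symm.trans (Finset.sum_congr rfl fun i _ => Finset.sum_congr rfl fun y _ => ?_)
  exact congrArg (cntN m) (funext fun x => congrArg (Sps x _ · _) (funext fun _ =>
    congrArg (_ ∧ ·) (propext (es_iff (mem_insert none _)).symm)))

theorem tlQ_fx (u : P.Fx m 0 d) {A : Finset ν} (h : cntN m (TlQ P S k A d₁) ≠ 0) :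
    ∃ (m₁ : AM1 R J (Option {a // a ∈ A})) (m₂ : AM1 R J (Option {a // a ∉ A})), P.Fx m₁ 0 d₁ ∧
      P.Fx m₂ 0 (d - d₁) ∧ ES P k (insert none (pr₁ (spP (· ∈ A)) S)) m₁ ∧ ¬P.Vm m₂ none :=
  let ⟨_, c, s⟩ := nonempty_of_ncard_ne_zero h
  let ⟨m₁, m₂, a, b, e, f⟩ := sps_fx c u s
  ⟨m₁, m₂, a, b, e, f.2⟩

end tail

variable [DecidableEq R] {θ : R → ℤ} {N : ℕ}

theorem lt_of_tail (hF : P.E.Good) (hA : P.E.Ample θ N) {m₂ : AM1 R J ν} (u : P.Fx m₂ g (d - d₁))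
    (v : ¬P.Vm m₂ a) : ∑ r, θ r * d₁ r < ∑ r, θ r * d r := by
  have := u.pos hF hA v
  simp only [Pi.sub_apply, mul_sub, Finset.sum_sub_distrib] at this
  omega

/-- the number of tails is bounded by the degree -/
theorem ntl_le_deg (hF : P.E.Good) (hA : P.E.Ample θ N) (k : ℕ) : ∀ (ν : Type) [Fintype ν]
    (d : R → ℤ) (S : Set ν) (a : ν) (m : AM1 R J ν), a ∈ S → P.Fx m 0 d → ES P k S m →
      k ≤ ∑ r, θ r * d r := by
  classical
  induction k with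
  | zero => exact fun _ _ _ _ _ _ _ u _ => (u.sol.eff hA u.typ).1
  | succ k ih =>
    intro ν _ d S a m ha u v
    obtain ⟨D, hD⟩ := exists_degs (ν := ν) (wt := P.wt) hF 0 d
    have e := sum_tlQ (P := P) (k := k) u.typ.1 ha (hD m u) (Finset.univ.filter fun A => S ⊆ ↑A)
      (by simp)
    rw [if_pos v] at e
    obtain ⟨x, -, w⟩ := Finset.exists_ne_zero_of_sum_ne_zero (e.symm.trans_ne k.succ_ne_zero)
    obtain ⟨m₁, m₂, b, c, f, t⟩ := tlQ_fx u w
    have := ih _ _ _ _ _ (mem_insert none _) b f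
    have := lt_of_tail hF hA c t
    omega

variable {T : Th P} {δ : F ⊗[ℂ] Hev (P.X × P.X)} (h : Hy T δ)
include h

theorem Hy.clopen_tl (q : ν) : IsClopen ((T ν 0 d).sel fun m => m.Conn ∧ ¬P.Vm m q) :=
  Md.clopen_and _ invW_conn (invW_onV q).not (h.conn _ _)
    (Md.clopen_not _ (invW_onV q) (h.hW.clopen_vm q))

theorem Hy.clopen_aux (hA : P.E.Ample θ N) (n : ℕ) : ∀ (ν : Type) [Fintype ν] (d : R → ℤ),
    ∑ r, θ r * d r < n → ∀ (S : Set ν) (a : ν), a ∈ S → ∀ k,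
      IsClopen ((T ν 0 d).sel (ES P k S)) := by
  classical
  induction n with
  | zero =>
    exact fun ν _ d hd S a _ k => Md.sel_false (T ν 0 d) (Q := ES P k S) (fun m u _ =>
      (u.sol.eff hA u.typ).1.not_gt hd) ▸ isClopen_empty
  | succ n ih =>
    intro ν _ d hd
    obtain ⟨D, hD⟩ := exists_degs (ν := ν) (wt := P.wt) h.good 0 d
    have s : ∀ (S : Set ν) (a : ν), a ∈ S → ∀ k, IsClopen ((T ν 0 d).sel (ES P (k + 1) S)) := by
      refine fun S a ha k => Md.clopen_of_ite _ (inv_es _ S) k.succ_ne_zero (Md.lc_sum _ _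
        (fun x _ => ?_) fun m u => sum_tlQ u.typ.1 ha (hD m u)
          (Finset.univ.filter fun A => S ⊆ ↑A) (by simp))
      by_cases c : ∑ r, θ r * x.2 r < n
      · exact (h.cut rfl rfl (add_sub_cancel x.2 d).symm (inv_es _ _)
          (invW_conn.and (invW_onV none).not) (ih _ _ c _ _ (mem_insert none _) k)
          (h.clopen_tl none) (fun _ u => u.1.1) (fun _ u => u.1.2.onV (mem_insert _ _))
          fun _ u => u.2).1
      · rw [Md.cf_congr _ (f' := fun _ => 0) fun m u => by_contra fun w => ?_]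
        · exact IsLocallyConstant.const _
        obtain ⟨-, m₂, -, c, -, t⟩ := tlQ_fx u w
        have := lt_of_tail h.good hA c t
        omega
    rintro S a ha (_ | k)
    · refine Md.clopen_congr _ (fun m u => ?_) (Md.clopen_and _ (invW_conn.and (invW_onV a))
        (InvW.not fun m m' e ⟨i, b, c⟩ => ⟨i, b, inv_es _ _ m m' e c⟩)
        (Md.clopen_and _ invW_conn (invW_onV a) (h.conn _ _) (h.hW.clopen_vm a))
        (Md.clopen_not _ (fun m m' e ⟨i, b, c⟩ => ⟨i, b, inv_es _ _ m m' e c⟩)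
          (Md.clopen_ex _ (finite_Iio n) fun k _ => s {a} a rfl k)))
      rw [es_zero ha, ← es_zero (mem_singleton a), ← cs_single]
      refine ⟨fun ⟨v, w⟩ => ⟨v, fun b hb => by_contra fun c => ?_⟩,
        fun v => ⟨v.1, fun ⟨i, _, w⟩ => i.succ_ne_zero ((w.2 a rfl).symm.trans (v.2 a rfl))⟩⟩
      obtain ⟨i, e⟩ := Nat.exists_eq_succ_of_ne_zero c
      have f : ES P (i + 1) {a} m := ⟨v, fun _ r => r.trans hb.symm ▸ e⟩
      have := ntl_le_deg h.good hA _ _ _ _ _ _ (mem_singleton a) u f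
      exact w ⟨i, show i < n by omega, f⟩
    · exact s S a ha k

theorem Hy.clopen_es (k : ℕ) (S : Set ν) : IsClopen ((T ν 0 d).sel (ES P k S)) := by
  rcases S.eq_empty_or_nonempty with rfl | ⟨a, ha⟩
  · exact Md.clopen_congr _ (fun _ _ => es_empty.symm) (h.conn _ _)
  · obtain ⟨θ, N, hA⟩ := h.good.ample
    exact h.clopen_aux hA ((∑ r, θ r * d r).toNat + 1) ν d (by omega) S a ha k

/-- the number of tails is bounded -/
theorem Hy.exists_bound (d : R → ℤ) : ∃ N, ∀ (ν : Type) [Fintype ν] (S : Set ν) (a : ν), a ∈ S →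
    ∀ m k, P.Fx m 0 d → ES P k S m → k ≤ N := by
  obtain ⟨θ, N, hA⟩ := h.good.ample
  refine ⟨(∑ r, θ r * d r).toNat, fun ν _ S a ha m k u v => ?_⟩
  have := ntl_le_deg h.good hA k ν d S a m ha u v
  omega

theorem Hy.clopen_cs (S : Set ν) : IsClopen ((T ν 0 d).sel (CS P S)) := by
  rcases S.eq_empty_or_nonempty with rfl | ⟨a, ha⟩
  · exact Md.clopen_congr _ (fun _ _ => cs_empty.symm) (h.conn _ _)
  · obtain ⟨N, hN⟩ := h.exists_bound d
    refine Md.clopen_congr _ (fun m u => ⟨fun ⟨_, _, v⟩ => v.1, fun v => ?_⟩)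
      (Md.clopen_ex _ (finite_Iic N) fun k _ => h.clopen_es k S)
    have w := (es_iff ha).2 ⟨v.1, v.2, rfl⟩
    exact ⟨_, hN ν S a ha m _ u w, w⟩

theorem Hy.clopen_com (S : Set ν) :
    IsClopen ((T ν 0 d).sel fun m => m.Conn ∧ Com P.E.toWt P.wt m S) := h.clopen_cs S

/-- connected curves in the fixed locus -/
theorem Hy.clopen_all (a : ν) :
    IsClopen ((T ν 0 d).sel fun m => m.Conn ∧ ∀ z, OnV P.E.toWt P.wt m z) :=
  Md.clopen_congr _ (fun _ _ => es_zero (mem_singleton a)) (h.clopen_es 0 {a})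

end Vale.Agent.P269.Lz
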