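import Vale.Agent.P269.Pt.Ops2

/-! Maps fixed by a torus acting on a target given by weights: definitions. -/

set_option linter.unusedSectionVars false

namespace Vale.Agent.P269.Lz

open Set Function Topology Filter Cv

variable {R J K σ Λ ν ν' κ : Type} [Fintype R] [Fintype J] [Fintype K] [Fintype σ]
  [Fintype Λ] [Fintype ν] [Fintype ν'] [Fintype κ]

/-- abstract maps to an absolute target -/
abbrev AM1 (R J ν : Type) : Type 1 := AM Empty R J ν (Fin 0)

/-- rescaling the fields -/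
@[reducible] def tor (c : J → ℂ) (m : AM Λ R J ν κ) : AM Λ R J ν κ :=
  ⟨m.toAC, m.L, m.l, fun j z => c j * m.y j z⟩

/-- change of the parameter -/
@[reducible] def par {Λ' : Type} (l : Λ' → ℂ) (m : AM Λ R J ν κ) : AM Λ' R J ν κ :=
  ⟨m.toAC, m.L, l, m.y⟩

/-- the action of the extra torus on the fields -/
noncomputable def tc (wt : J → σ → ℤ) (s : σ → ℂ) (j : J) : ℂ := ∏ i, s i ^ wt j i

/-- special points -/
def Spc (m : AM1 R J ν) (z : m.X) : Prop := (∃ n, m.p n = z) ∨ ¬Sm m.N z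

variable (W : Wt Empty Empty R J) (wt : J → σ → ℤ)

/-- the weight of the field `j` along the fixed part with label `ρ` -/
def nw (ρ : σ → R → ℤ) (j : J) : σ → ℤ := fun i => wt j i - ∑ r, ρ i r * W.w j r

/-- the point `y` lies in the fixed part with label `ρ` -/
def OvP (y : J → ℂ) (ρ : σ → R → ℤ) : Prop := ∀ j, nw W wt ρ j ≠ 0 → y j = 0

variable (m : AM1 R J ν)

/-- the point `z` is mapped to the fixed part with label `ρ` -/
def Ov (z : m.X) (ρ : σ → R → ℤ) : Prop := ∀ j, nw W wt ρ j ≠ 0 → m.y j z = 0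

/-- the irreducible components mapped to the fixed part with label `ρ` -/
def Vx (ρ : σ → R → ℤ) : Set m.X := {z | ∀ z' ∈ connectedComponent z, Ov W wt m z' ρ}

/-- the label of a marked point -/
def Cm (n : ν) (ρ : σ → R → ℤ) : Prop := Ov W wt m (m.p (.inl n)) ρ

/-- all components are vertices with labels in `T` -/
def Vert (T : Set (σ → R → ℤ)) : Prop := ∀ z, ∃ ρ ∈ T, z ∈ Vx W wt m ρ

/-- the point lies on a vertex -/
def OnV (z : m.X) : Prop := ∃ ρ, z ∈ Vx W wt m ρ

/-- the map is fixed by the compact torus -/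
def Fixd : Prop := ∀ s : σ → ℂ, (∀ i, ‖s i‖ = 1) → AM.Iso W univ m (tor (tc wt s) m)

/-- the map is fixed by isomorphisms that fix the special points and the components -/
def Str : Prop := ∀ s : σ → ℂ, (∀ i, ‖s i‖ = 1) → ∃ e t,
  AM.IsoD W univ m (tor (tc wt s) m) e t 1 ∧ (∀ z, Spc m z → e z = z) ∧
    ∀ z, e z ∈ connectedComponent z

/-- a fixed stable map of the given type -/
structure Fx (F : Fam Empty Empty R J K) (wt : J → σ → ℤ) (m : AM1 R J ν) (g : ℤ) (d : R → ℤ) :
    Prop where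
  sol : m.Sol F
  stable : m.Stable F.θ
  typ : m.Typ g d
  str : Str F.toWt wt m

/-- the labels that occur on the cone -/
def Lbl (F : Fam Empty Empty R J K) (wt : J → σ → ℤ) : Set (σ → R → ℤ) :=
  {ρ | ∃ z ∈ F.cone, OvP F.toWt wt z.2 ρ}

/-- an oriented node becomes a pair of marked points -/
@[reducible] noncomputable def ctp {n : Unit × Bool → m.X} (h : m.Nds n) :
    AM1 R J (ν ⊕ Unit × Bool) := (m.cut h).re (Ch.unp ν (Fin 0) Unit).toEmbedding

/-- the identification of the empty sets of persistent nodes -/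
def e00 : Fin 0 ⊕ Fin 0 ≃ Fin 0 := Equiv.equivOfIsEmpty _ _

/-- relabelling of the marked points -/
@[reducible] def rl (φ : ν' ≃ ν) : AM1 R J ν' :=
  m.re (φ.sumCongr ((Equiv.refl (Fin 0)).prodCongr (Equiv.refl Bool))).toEmbedding

/-- the number of oriented nodes such that the normalised map has the property `Q` -/
noncomputable def cntN (Q : AM1 R J (ν ⊕ Unit × Bool) → Prop) : ℕ :=
  {n : Unit × Bool → m.X | ∃ h : m.Nds n, Q (ctp m h)}.ncard

/-- the number of splittings into parts with the properties `Q₁`, `Q₂` -/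
noncomputable def cntS {ν₁ ν₂ : Type} (φ : ν₁ ⊕ ν₂ ≃ ν) (Q₁ : AM1 R J ν₁ → Prop)
    (Q₂ : AM1 R J ν₂ → Prop) : ℕ :=
  {U : Set m.X | ∃ m₁ m₂ j₁ j₂, AM.Split m m₁ m₂ φ e00 j₁ j₂ ∧ range j₁ = U ∧ Q₁ m₁ ∧ Q₂ m₂}.ncard

end Vale.Agent.P269.Lz
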