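import Vale.Agent.P287Q.Lz.Vtx
import Vale.Agent.P287Q.Trr.Sep

/-! Counting nodes of curves of genus zero by the type of the splitting. -/

set_option linter.unusedSectionVars false

namespace Vale.Agent.P269.Lz

open Set Function Topology Filter Cv

variable {R J K σ ν ν₁ ν₂ : Type} [Fintype R] [Fintype J] [Fintype K] [Fintype σ] [Fintype ν]
  [Fintype ν₁] [Fintype ν₂] {F : Fam Empty Empty R J K} {W : Wt Empty Empty R J} {wt : J → σ → ℤ}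
  {m : AM1 R J ν} {z : m.X} {S A : Set ν} {a b : ν} {k : ℕ} {n : Unit × Bool → m.X}
  {d d₁ : R → ℤ}

variable (m n) in
/-- the part of the curve on the side of the first branch of the node -/
def sid : Set m.X :=
  ⋂₀ {U | (IsClopen U ∧ ∀ x ∈ U, ∀ y, Jn m.N x y ∧ x ∉ range n → y ∈ U) ∧ n ((), false) ∈ U}

variable (m n) in
/-- the marked points on the side of the first branch -/
def side : Set ν := {a | m.p (.inl a) ∈ sid m n}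

variable (m n) in
/-- the degree on the side of the first branch -/
noncomputable def sdeg (r : R) : ℤ := degOn (m.L r) (sid m n)

theorem sid_eq (h : m.Nds n) : sid m n = (ctp m h).cmp (n ((), false)) :=
  congrArg sInter (Set.ext fun _ => and_congr_left' (and_congr_right'
    (forall₃_congr fun _ _ _ => imp_congr_left (jn_ctp h).symm)))

theorem clopen_sid (h : m.Nds n) : IsClopen (sid m n) :=
  sid_eq h ▸ (AC.sat_cmp (c := (ctp m h).toAC) _).1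

theorem vtx_subset_sid (h : m.Nds n) (h₁ : n ((), false) ∈ vtx W wt m z)
    (h₂ : ¬OnV W wt m (n ((), true))) : vtx W wt m z ⊆ sid m n := by
  have s := AC.sat_cmp (c := (ctp m h).toAC) (n ((), false))
  rw [← vtx_eq h₁, sid_eq h]
  refine VS.vtx_subset ⟨s.1, fun x u y j v w => ?_⟩ (AC.mem_cmp_self (c := (ctp m h).toAC) _)
  rcases (jn_iff_ctp h).1 j with j | ⟨-, rfl⟩ | ⟨rfl, -⟩
  exacts [s.2 x u y j, (h₂ w).elim, (h₂ v).elim]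

/-- in genus zero the two branches separate `a` from `b` -/
theorem sep_iff (h : m.Nds n) (hg : gen m.R m.N = 0) :
    AM.Sep (.inl (.inl a)) (.inl (.inl b)) (.inl (qq false)) (.inl (qq true)) (ctp m h) ↔
      m.Conn ∧ a ∈ side m n ∧ b ∉ side m n := by
  rw [side, sid_eq h]
  refine ⟨fun c => ?_, fun ⟨c, u, v⟩ => ⟨u, (cmp_ctp h c _).resolve_left v,
    not_mem_cmp_ctp h c hg, cmp_ctp h c⟩⟩
  refine ⟨AC.conn_iff_cmp.2 ⟨n ((), false), eq_univ_of_forall fun z => ?_⟩, c.1, fun u => c.2.2.1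
    (AC.cmp_eq u ▸ AC.mem_cmp_comm.1 c.2.1 :)⟩
  have u := (sat_ctp h).1 (AC.sat_cmp (c := m.toAC) (n ((), false)))
  have v := AC.mem_cmp_self (c := m.toAC) (n ((), false))
  exact (c.2.2.2 z).elim (fun w => u.1.cmp_subset v w) fun w => u.1.cmp_subset (u.2.1 v) w

/-- `φ` distributes the marked points in `A` and the first branch to the first part -/
structure Sd (φ : ν₁ ⊕ ν₂ ≃ ν ⊕ Unit × Bool) (q₁ : ν₁) (q₂ : ν₂) (A : Set ν) : Prop where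
  e₁ : φ (.inl q₁) = qq false
  e₂ : φ (.inr q₂) = qq true
  mem : ∀ a, a ∈ A ↔ ∃ a₁, φ (.inl a₁) = .inl a

/-- the marked points of `S` on the first part -/
def pr₁ (φ : ν₁ ⊕ ν₂ ≃ ν ⊕ Unit × Bool) (S : Set ν) : Set ν₁ := {b | ∃ a ∈ S, φ (.inl b) = .inl a}

/-- the marked points of `S` on the second part -/
def pr₂ (φ : ν₁ ⊕ ν₂ ≃ ν ⊕ Unit × Bool) (S : Set ν) : Set ν₂ := {b | ∃ a ∈ S, φ (.inr b) = .inl a}

variable {φ : ν₁ ⊕ ν₂ ≃ ν ⊕ Unit × Bool} {q₁ : ν₁} {q₂ : ν₂}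

theorem Sd.notMem (s : Sd φ q₁ q₂ A) : a ∉ A ↔ ∃ a₂, φ (.inr a₂) = .inl a := by
  rw [s.mem]
  obtain ⟨x | x, e⟩ := φ.surjective (.inl a) <;> simp [← e]

theorem Sd.cases₁ (s : Sd φ q₁ q₂ A) (x : ν₁) : x = q₁ ∨ ∃ a ∈ A, φ (.inl x) = .inl a := by
  rcases e : φ (.inl x) with a | ⟨_, _ | _⟩
  · exact .inr ⟨a, (s.mem a).2 ⟨x, e⟩, rfl⟩
  · exact .inl (Sum.inl_injective (φ.injective (e.trans s.e₁.symm)))
  · exact (Sum.inl_ne_inr (φ.injective (e.trans s.e₂.symm))).elim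

theorem Sd.cases₂ (s : Sd φ q₁ q₂ A) (x : ν₂) : x = q₂ ∨ ∃ a ∉ A, φ (.inr x) = .inl a := by
  rcases e : φ (.inr x) with a | ⟨_, _ | _⟩
  · exact .inr ⟨a, s.notMem.2 ⟨x, e⟩, rfl⟩
  · exact (Sum.inr_ne_inl (φ.injective (e.trans s.e₁.symm))).elim
  · exact .inl (Sum.inr_injective (φ.injective (e.trans s.e₂.symm)))

section split

variable {h : m.Nds n} {m₁ : AM1 R J ν₁} {m₂ : AM1 R J ν₂} {j₁ : m₁.X → m.X} {j₂ : m₂.X → m.X}
  (s : Sd φ q₁ q₂ A) (c : AM.Split (ctp m h) m₁ m₂ φ e00 j₁ j₂)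
include s c

theorem Sd.cut : Cut m m₁ m₂ j₁ j₂ (m₁.p (.inl q₁)) (m₂.p (.inl q₂)) := cut_of_split c s.e₁ s.e₂

theorem Sd.range_eq (c₁ : m₁.Conn) : range j₁ = sid m n := by
  rw [range_eq_cmp c.one c₁ q₁, sid_eq h, s.e₁]
  rfl

theorem Sd.mem_range : m.p (.inl a) ∈ range j₁ ↔ a ∈ A := by
  refine ⟨fun ⟨x, e⟩ => by_contra fun u => ?_, fun u => ?_⟩
  · obtain ⟨y, f⟩ := s.notMem.1 u
    exact c.ne x _ (e.trans (split_p₂ c f).symm)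
  · obtain ⟨y, f⟩ := (s.mem a).1 u
    exact ⟨_, split_p₁ c f⟩

theorem Sd.side_eq (c₁ : m₁.Conn) : side m n = A :=
  Set.ext fun _ => by rw [side, ← s.range_eq c c₁, mem_ofPred_eq, s.mem_range c]

theorem Sd.sdeg_eq (c₁ : m₁.Conn) (r : R) : sdeg m n r = deg (m₁.L r) := by
  rw [sdeg, ← s.range_eq c c₁, c.one.deg_eq]

/-- the vertex lies on the first part -/
theorem com_split₁ (hS : S ⊆ A) : Com W wt m S ↔ Com W wt m₁ (pr₁ φ S) := by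
  refine ⟨fun u x ⟨a, ha, e⟩ y ⟨b, hb, f⟩ => (s.cut c).mem_vtx₁.1 ?_, fun u a ha b hb => ?_⟩
  · rw [split_p₁ c e, split_p₁ c f]
    exact u a ha b hb
  · obtain ⟨x, e⟩ := (s.mem a).1 (hS ha)
    obtain ⟨y, f⟩ := (s.mem b).1 (hS hb)
    rw [← split_p₁ c e, ← split_p₁ c f]
    exact (s.cut c).mem_vtx₁.2 (u x ⟨a, ha, e⟩ y ⟨b, hb, f⟩)

/-- the vertex lies on the second part -/
theorem com_split₂ (hS : ∀ a ∈ S, a ∉ A) : Com W wt m S ↔ Com W wt m₂ (pr₂ φ S) := by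
  refine ⟨fun u x ⟨a, ha, e⟩ y ⟨b, hb, f⟩ => (s.cut c).symm.mem_vtx₁.1 ?_, fun u a ha b hb => ?_⟩
  · rw [split_p₂ c e, split_p₂ c f]
    exact u a ha b hb
  · obtain ⟨x, e⟩ := s.notMem.1 (hS a ha)
    obtain ⟨y, f⟩ := s.notMem.1 (hS b hb)
    rw [← split_p₂ c e, ← split_p₂ c f]
    exact (s.cut c).symm.mem_vtx₁.2 (u x ⟨a, ha, e⟩ y ⟨b, hb, f⟩)

/-- the node separates two marked points of the vertex -/
theorem com_split (ha : a ∈ S) (ha' : a ∈ A) (hb : b ∈ S) (hb' : b ∉ A) : Com W wt m S ↔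
    Com W wt m₁ (insert q₁ (pr₁ φ S)) ∧ Com W wt m₂ (insert q₂ (pr₂ φ S)) := by
  obtain ⟨x, e⟩ := (s.mem a).1 ha'
  obtain ⟨y, f⟩ := s.notMem.1 hb'
  have t := s.cut c
  have hx : x ∈ pr₁ φ S := ⟨a, ha, e⟩
  rw [com_insert hx, com_iff (mem_insert q₂ _), forall_mem_insert, com_iff ha, com_iff hx,
    ← split_p₁ c e]
  refine ⟨fun u => ?_, fun ⟨⟨u, v⟩, _, w⟩ i hi => ?_⟩
  · have v := t.mem_vtx₂.1 (split_p₂ c f ▸ u b hb)
    exact ⟨⟨fun i ⟨l, hl, w⟩ => t.mem_vtx₁.1 (split_p₁ c w ▸ u l hl), v.1⟩, mem_vtx_self.2 v.2.1,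
      fun i ⟨l, hl, w⟩ => (t.mem_vtx₂.1 (split_p₂ c w ▸ u l hl)).2⟩
  · by_cases hi' : i ∈ A
    · obtain ⟨l, r⟩ := (s.mem i).1 hi'
      exact split_p₁ c r ▸ t.mem_vtx₁.2 (u l ⟨i, hi, r⟩)
    · obtain ⟨l, r⟩ := s.notMem.1 hi'
      exact split_p₂ c r ▸ t.mem_vtx₂.2 ⟨v, w l ⟨i, hi, r⟩⟩

/-- the node is the root of a tail at the vertex of `S` -/
theorem tail_split (ha : a ∈ S) (hS : S ⊆ A) :
    (Com W wt m₁ (insert q₁ (pr₁ φ S)) ∧ ntl W wt m₁ q₁ = k) ∧ ¬OnV W wt m₂ (m₂.p (.inl q₂)) ↔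
      (Com W wt m S ∧ ntl W wt m a = k + 1) ∧
        (n ((), false), n ((), true)) ∈ tls W wt m (m.p (.inl a)) := by
  obtain ⟨x, e⟩ := (s.mem a).1 (hS ha)
  have t := s.cut c
  rw [com_insert (show x ∈ pr₁ φ S from ⟨a, ha, e⟩), com_split₁ s c hS, ntl, ntl, ← split_p₁ c e,
    ← split_q₁ h c s.e₁, ← split_q₂ h c s.e₂]
  refine ⟨fun ⟨⟨⟨u, v⟩, w⟩, r⟩ => ⟨⟨u, ?_⟩, t.mem_vtx₁.2 v, t.jn_ab, mt t.symm.onV.1 r⟩,
    fun ⟨⟨u, w⟩, v, _, r⟩ => ?_⟩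
  · rw [t.ncard_tail v r, ← tls_eq v, w]
  · have v' := t.mem_vtx₁.1 v
    have r' := mt t.symm.onV.2 r
    rw [t.ncard_tail v' r', ← tls_eq v'] at w
    exact ⟨⟨⟨u, v'⟩, Nat.succ_injective w⟩, r'⟩

end split

/-- splittings of a connected curve of genus zero into connected parts -/
theorem sps_iff (h : m.Nds n) (hc : m.Conn) (hg : gen m.R m.N = 0) (s : Sd φ q₁ q₂ A)
    {Q₁ : AM1 R J ν₁ → Prop} {Q₂ : AM1 R J ν₂ → Prop} {p : Prop}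
    (hQ : ∀ m₁ m₂ j₁ j₂, AM.Split (ctp m h) m₁ m₂ φ e00 j₁ j₂ → (Q₁ m₁ ∧ Q₂ m₂ ↔ p)) :
    Sps (ctp m h) φ (fun m₁ => m₁.Typ 0 d₁ ∧ m₁.Conn ∧ Q₁ m₁) (fun m₂ => m₂.Conn ∧ Q₂ m₂) ↔
      p ∧ side m n = A ∧ sdeg m n = d₁ := by
  refine ⟨fun ⟨m₁, m₂, j₁, j₂, c, ⟨t, c₁, u⟩, _, v⟩ => ⟨(hQ _ _ _ _ c).1 ⟨u, v⟩, s.side_eq c c₁,
    funext fun r => (s.sdeg_eq c c₁ r).trans (t.2 r)⟩, fun ⟨u, v, w⟩ => ?_⟩
  obtain ⟨m₁, m₂, j₁, j₂, c, -, c₁, c₂, g₁, -⟩ := exists_split_ctp h hc hg φ (fun x => by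
    rcases s.cases₁ x with rfl | ⟨a, ha, e⟩
    · rw [s.e₁]
      exact AC.mem_cmp_self (c := (ctp m h).toAC) _
    · rw [e, ← sid_eq h]
      exact v.ge ha) fun x => by
    rcases s.cases₂ x with rfl | ⟨a, ha, e⟩
    · rw [s.e₂]
      exact not_mem_cmp_ctp h hc hg
    · rw [e, ← sid_eq h]
      exact fun r => ha (v.le r)
  have r := (hQ _ _ _ _ c).2 u
  exact ⟨m₁, m₂, j₁, j₂, c, ⟨⟨g₁, fun i => (s.sdeg_eq c c₁ i).symm.trans (congrFun w i)⟩, c₁, r.1⟩,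
    c₂, r.2⟩

theorem Sps.conn (h : m.Nds n) (s : Sd φ q₁ q₂ A) {Q₁ : AM1 R J ν₁ → Prop} {Q₂ : AM1 R J ν₂ → Prop}
    (a : Sps (ctp m h) φ (fun m₁ => m₁.Typ 0 d₁ ∧ m₁.Conn ∧ Q₁ m₁) fun m₂ => m₂.Conn ∧ Q₂ m₂) :
    m.Conn :=
  let ⟨_, _, _, _, c, u, v⟩ := a
  conn_of_split h c s.e₁ s.e₂ u.2.1 v.1

theorem sum_ncard_fiber {α β : Type} {B : Set α} (hB : B.Finite) (T : Finset β)
    (p : α → β → Prop) (h : ∀ x ∈ B, ∃! t, t ∈ T ∧ p x t) :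
    ∑ t ∈ T, {x ∈ B | p x t}.ncard = B.ncard := by
  classical
  have k : ∀ t, {x ∈ B | p x t}.ncard = ∑ x ∈ hB.toFinset, if p x t then 1 else 0 := fun t => by
    rw [← Finset.card_filter, ← ncard_coe_finset, Finset.coe_filter]
    simp only [Finite.mem_toFinset]
  simp only [k]
  rw [Finset.sum_comm, ncard_eq_toFinset_card B hB, Finset.card_eq_sum_ones]
  refine Finset.sum_congr rfl fun x hx => ?_
  obtain ⟨t, ⟨u, v⟩, w⟩ := h x (hB.mem_toFinset.1 hx)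
  rw [Finset.sum_eq_single_of_mem t u fun l hl e => if_neg fun r => e (w l ⟨hl, r⟩), if_pos v]

section count

variable {ι : Type} [Fintype ι] {μ₁ μ₂ : ι → Type} [∀ i, Fintype (μ₁ i)] [∀ i, Fintype (μ₂ i)]
  {ψ : ∀ i, μ₁ i ⊕ μ₂ i ≃ ν ⊕ Unit × Bool} {r₁ : ∀ i, μ₁ i} {r₂ : ∀ i, μ₂ i} {As : ι → Set ν}
  (s : ∀ i, Sd (ψ i) (r₁ i) (r₂ i) (As i)) (hA : Injective As) {D : Finset (R → ℤ)}
  (hD : ∀ U, IsClopen U → (fun r => degOn (m.L r) U) ∈ D)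
include s hA hD

/-- **counting nodes by the type of the splitting** -/
theorem sum_cntN (hc : m.Conn) (hg : gen m.R m.N = 0) {Q₁ : ∀ i, AM1 R J (μ₁ i) → Prop}
    {Q₂ : ∀ i, AM1 R J (μ₂ i) → Prop} {B : Set (Unit × Bool → m.X)} (hB : ∀ n ∈ B, m.Nds n)
    (hs : ∀ n ∈ B, side m n ∈ range As)
    (hQ : ∀ i n (h : m.Nds n) m₁ m₂ j₁ j₂, AM.Split (ctp m h) m₁ m₂ (ψ i) e00 j₁ j₂ →
      (Q₁ i m₁ ∧ Q₂ i m₂ ↔ n ∈ B)) :
    ∑ i, ∑ d₁ ∈ D, cntN m (Sps · (ψ i) (fun m₁ => m₁.Typ 0 d₁ ∧ m₁.Conn ∧ Q₁ i m₁)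
      fun m₂ => m₂.Conn ∧ Q₂ i m₂) = B.ncard := by
  rw [← Finset.sum_product', ← sum_ncard_fiber ((finite_nds m).subset hB) (Finset.univ ×ˢ D)
    (fun n t => side m n = As t.1 ∧ sdeg m n = t.2) fun n hn => ?_]
  · refine Finset.sum_congr rfl fun t _ => congrArg ncard (Set.ext fun n => ?_)
    exact ⟨fun ⟨h, u⟩ => (sps_iff h hc hg (s _) (hQ _ n h)).1 u,
      fun u => ⟨hB n u.1, (sps_iff _ hc hg (s _) (hQ _ n _)).2 u⟩⟩
  · obtain ⟨i, e⟩ := hs n hn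
    exact ⟨(i, sdeg m n), ⟨Finset.mem_product.2 ⟨Finset.mem_univ _, hD _ (clopen_sid (hB n hn))⟩,
      e.symm, rfl⟩, fun t u => Prod.ext (hA (u.2.1.symm.trans e.symm)) u.2.2.symm⟩

open Classical in
/-- **the tails at the vertex of `S`** -/
theorem sum_tail (hg : gen m.R m.N = 0) (ha : a ∈ S) (hS : ∀ A, A ∈ range As ↔ S ⊆ A) :
    ∑ i, ∑ d₁ ∈ D, cntN m (Sps · (ψ i) (fun m₁ => m₁.Typ 0 d₁ ∧ m₁.Conn ∧
        Com W wt m₁ (insert (r₁ i) (pr₁ (ψ i) S)) ∧ ntl W wt m₁ (r₁ i) = k)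
      fun m₂ => m₂.Conn ∧ ¬OnV W wt m₂ (m₂.p (.inl (r₂ i)))) =
      if m.Conn ∧ Com W wt m S ∧ ntl W wt m a = k + 1 then k + 1 else 0 := by
  by_cases hc : m.Conn
  · refine (sum_cntN s hA hD hc hg
      (Q₁ := fun i m₁ => Com W wt m₁ (insert (r₁ i) (pr₁ (ψ i) S)) ∧ ntl W wt m₁ (r₁ i) = k)
      (Q₂ := fun i m₂ => ¬OnV W wt m₂ (m₂.p (.inl (r₂ i))))
      (B := {n | (Com W wt m S ∧ ntl W wt m a = k + 1) ∧
      (n ((), false), n ((), true)) ∈ tls W wt m (m.p (.inl a))})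
      (fun n u => nd2_eta n ▸ nds_nd2.2 u.2.2.1) (fun n u => (hS _).2 fun b hb =>
        vtx_subset_sid (nd2_eta n ▸ nds_nd2.2 u.2.2.1) u.2.1 u.2.2.2 (u.1.1 a ha b hb))
      fun i n h m₁ m₂ j₁ j₂ c => tail_split (s i) c ha ((hS _).1 (mem_range_self i))).trans ?_
    simp only [hc, true_and]
    split_ifs with u
    · exact Eq.trans (ncard_congr (fun n _ => (n ((), false), n ((), true))) (fun n v => v.2)
        (fun n n' _ _ e => (nd2_eta n).symm.trans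
          ((congrArg (fun x : m.X × m.X => nd2 x.1 x.2) e).trans (nd2_eta n')))
        fun x v => ⟨nd2 x.1 x.2, ⟨u, v⟩, rfl⟩) u.2
    · simp [u]
  · rw [if_neg fun u => hc u.1]
    refine Finset.sum_eq_zero fun i _ => Finset.sum_eq_zero fun d₁ _ => ?_
    refine (congrArg ncard (eq_empty_of_forall_notMem ?_)).trans (ncard_empty _)
    exact fun n ⟨h, u⟩ => hc (u.conn h (s i))

end count

/-- the degrees of parts are bounded -/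
theorem exists_degs [DecidableEq R] (hF : F.Good) (g : ℤ) (d : R → ℤ) :
    ∃ D : Finset (R → ℤ), ∀ m : AM1 R J ν, Fx F wt m g d →
      ∀ U, IsClopen U → (fun r => degOn (m.L r) U) ∈ D :=
  let f := (AM.finite_part (ν := ν) (κ := Fin 0) hF g d).image Prod.snd
  ⟨f.toFinset, fun m h U hU => f.mem_toFinset.2 ⟨(_, fun r => degOn (m.L r) U),
    ⟨m, h.sol, h.stable, h.typ, U, hU, rfl, fun _ => rfl⟩, rfl⟩⟩

/-- the canonical distribution of the marked points -/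
def spl (A : Set ν) [DecidablePred (· ∈ A)] :
    Option {a // a ∈ A} ⊕ Option {a // a ∉ A} ≃ ν ⊕ Unit × Bool where
  toFun := Sum.elim (fun o => o.elim (qq false) fun a => .inl a.1)
    fun o => o.elim (qq true) fun a => .inl a.1
  invFun := Sum.elim (fun a => if h : a ∈ A then .inl (some ⟨a, h⟩) else .inr (some ⟨a, h⟩))
    fun x => bif x.2 then .inr none else .inl none
  left_inv := by
    rintro ((_ | ⟨a, h⟩) | (_ | ⟨a, h⟩))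
    exacts [rfl, dif_pos h, rfl, dif_neg h]
  right_inv := by
    rintro (a | ⟨_, _ | _⟩)
    · by_cases h : a ∈ A <;> simp [h]
    · rfl
    · rfl

theorem sd_spl (A : Set ν) [DecidablePred (· ∈ A)] : Sd (spl A) none none A :=
  ⟨rfl, rfl, fun a => ⟨fun h => ⟨some ⟨a, h⟩, rfl⟩, by
    rintro ⟨_ | ⟨b, h⟩, ⟨⟩⟩
    exact h⟩⟩

end Vale.Agent.P269.Lz
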