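import Vale.Agent.P287Q.Lz.Ops
import Vale.Agent.P287Q.Lz.Tail

/-! Correlators of fixed loci; cutting a separating node. -/

set_option linter.unusedSectionVars false
set_option maxSynthPendingDepth 3

namespace Vale.Agent.P269.Lz

open Set Function Topology Filter TensorProduct Cv B Vale.Agent.P291Z Vale.Agent.P269.Ch
  Vale.Agent.P269.Loc LG

section cls

variable {A A' : Type} [TopologicalSpace A] [TopologicalSpace A']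

/-- the even part -/
noncomputable def evn (x : F ⊗[ℂ] H A) : F ⊗[ℂ] Hev A := (2⁻¹ : F) • (add_par_mem x).choose

theorem inF_evn (x : F ⊗[ℂ] H A) : inF A (evn x) = (2⁻¹ : F) • (x + ((parH A).bc F).σ x) :=
  (map_smul _ _ _).trans (congrArg _ (add_par_mem x).choose_spec)

theorem evn_inF (x : F ⊗[ℂ] Hev A) : evn (inF A x) = x :=
  inF_injective (by rw [inF_evn, par_inF, half_add_self])

theorem I_evn {I : F ⊗[ℂ] H A →ₗ[F] F} (hI : ∀ x, I (((parH A).bc F).σ x) = I x)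
    (y : F ⊗[ℂ] Hev A) (φ : C(A, A')) (x : F ⊗[ℂ] H A') :
    I (inF A y * pb F φ x) = I (inF A (y * pbE φ (evn x))) := by
  have e : pb F φ (((parH A').bc F).σ x) = ((parH A).bc F).σ (pb F φ x) := (isEv_pb φ x).symm
  have k : I (inF A y * pb F φ (((parH A').bc F).σ x)) = I (inF A y * pb F φ x) := by
    rw [e, ← hI, par_mul, par_inF, ((parH A).bc F).inv]
  rw [map_mul (inF A), ← pb_inF, inF_evn, map_smul, mul_smul_comm, map_smul, map_add, mul_add,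
    map_add, k, ← map_add, ← map_smul, half_add_self]

/-- the even part of a Casimir element -/
theorem cas_evn {I : F ⊗[ℂ] H A →ₗ[F] F} (hI : ∀ x, I (((parH A).bc F).σ x) = I x) {ι : Type}
    [Fintype ι] {e f : ι → F ⊗[ℂ] H A} (h : ∀ y, ∑ b, I (y * e b) • f b = y)
    (y : F ⊗[ℂ] Hev A) : ∑ b, I (inF A (y * evn (e b))) • evn (f b) = y := inF_injective (by
  have k := fun b => I_evn hI y (.id A) (e b)
  simp only [pb_id, pbE_id] at k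
  simp only [map_sum, map_smul, ← k, inF_evn, smul_comm _ (2⁻¹ : F), smul_add,
    Finset.sum_add_distrib, ← Finset.smul_sum, h]
  simp only [← map_smul ((parH A).bc F).σ, ← map_sum, h]
  rw [map_smul, par_inF, ← smul_add, half_add_self])

end cls

variable {R J K σ ν ν' ν₁ ν₂ ι : Type} [Fintype R] [Fintype J] [Fintype K] [Fintype σ] [Fintype ν]
  [Fintype ν'] [Fintype ν₁] [Fintype ν₂] [Fintype ι] {P : TT R J K σ} {g g' g₁ g₂ : ℤ}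
  {d d' d₁ d₂ : R → ℤ}

variable (P) in
/-- even classes on the fixed locus of the target -/
abbrev HH : Type := F ⊗[ℂ] Hev P.X

namespace Md

variable (τ : Md P ν g d)

/-- the contribution of an even class -/
noncomputable def Je : F ⊗[ℂ] Hev τ.A →ₗ[F] F := τ.I ∘ₗ (inF τ.A).toLinearMap

/-- the product of the insertions -/
noncomputable def ins (x : ν → ℕ × HH P) : F ⊗[ℂ] Hev τ.A :=
  ∏ n, τ.ψ n ^ (x n).1 * pbE (τ.ev n) (x n).2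

/-- the correlator with the selector `Q` -/
noncomputable def W (Q : AM1 R J ν → Prop) (x : ν → ℕ × HH P) : F := τ.Je (τ.id Q * τ.ins x)

theorem Je_apply (y : F ⊗[ℂ] Hev τ.A) : τ.Je y = τ.I (inF _ y) := rfl

theorem W_congr {Q Q' : AM1 R J ν → Prop} (h : ∀ m, P.Fx m g d → (Q m ↔ Q' m)) (x) :
    τ.W Q x = τ.W Q' x := by rw [W, τ.id_congr h, W]

theorem ins_update [DecidableEq ν] (x : ν → ℕ × HH P) (n : ν) (j : ℕ) (y : HH P) :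
    τ.ins (update x n (j, y)) = τ.ψ n ^ j * pbE (τ.ev n) y * τ.ins (update x n (0, 1)) := by
  have k : ∀ u, τ.ins (update x n u) = τ.ψ n ^ u.1 * pbE (τ.ev n) u.2 *
      ∏ a ∈ Finset.univ.erase n, τ.ψ a ^ (x a).1 * pbE (τ.ev a) (x a).2 := fun u => by
    rw [ins, ← Finset.mul_prod_erase _ _ (Finset.mem_univ n), update_self]
    exact congrArg _ (Finset.prod_congr rfl fun a ha => by
      rw [update_of_ne (Finset.ne_of_mem_erase ha)])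
  rw [k, k, pow_zero, map_one, mul_one, one_mul]

theorem ins_option (τ : Md P (Option ν) g d) (x : ν → ℕ × HH P) (j : ℕ) (y : HH P) :
    τ.ins (·.elim (j, y) x) = τ.ψ none ^ j * pbE (τ.ev none) y * τ.ins (·.elim (0, 1) x) := by
  simp only [ins, Fintype.prod_option, Option.elim, pow_zero, map_one, one_mul]

theorem pbE_ins {τ' : Md P ν' g' d'} {A : Type} [TopologicalSpace A] {φ : C(A, τ.A)}
    {φ' : C(A, τ'.A)} (s : ν → ν') (h : ∀ n, pbE φ (τ.ψ n) = pbE φ' (τ'.ψ (s n)))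
    (h' : ∀ n, (τ.ev n).comp φ = (τ'.ev (s n)).comp φ') (x : ν → ℕ × HH P) :
    pbE φ (τ.ins x) = ∏ n, pbE φ' (τ'.ψ (s n) ^ (x n).1 * pbE (τ'.ev (s n)) (x n).2) := by
  simp only [ins, map_prod, map_mul, map_pow, pbE_pbE, h, h']

theorem pbE_id {A : Type} [TopologicalSpace A] [Nice A] {τ' : Md P ν' g' d'} {φ : C(A, τ.A)}
    {φ' : C(A, τ'.A)} {Q Q'} (hQ : Inv P Q) (hQ' : Inv P Q') (c : IsClopen (τ.sel Q))
    (c' : IsClopen (τ'.sel Q')) (h : ∀ a, ∃ m m', τ.Rp (φ a) m ∧ τ'.Rp (φ' a) m' ∧ (Q m ↔ Q' m')) :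
    pbE φ (τ.id Q) = pbE φ' (τ'.id Q') := by
  rw [id, id, pbE_idE _ c, pbE_idE _ c']
  refine congrArg idE (Set.ext fun a => ?_)
  obtain ⟨m, m', u, v, w⟩ := h a
  exact (τ.mem_sel hQ u).trans (w.trans (τ'.mem_sel hQ' v).symm)

end Md

/-- the insertion `1` at the two new marked points -/
noncomputable def xt (x : ν → ℕ × HH P) : ν ⊕ Unit × Bool → ℕ × HH P := Sum.elim x fun _ => (0, 1)

section nod

variable {δ : F ⊗[ℂ] Hev (P.X × P.X)} {τ : Md P ν g d} {τ' : Md P (ν ⊕ Unit × Bool) g' d}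
  {A : Type} [TopologicalSpace A] {φ : C(A, τ.A)} {φ' : C(A, τ'.A)}

theorem Nod.ins (h : Nod δ τ τ' φ φ') (x : ν → ℕ × HH P) :
    pbE φ (τ.ins x) = pbE φ' (τ'.ins (xt x)) := by
  rw [τ.pbE_ins Sum.inl h.ψ h.ev, Md.ins, Fintype.prod_sum_type, map_mul, map_prod]
  simp only [xt, Sum.elim_inl, Sum.elim_inr, pow_zero, map_one, mul_one, Finset.prod_const_one]

theorem Nod.id [Nice A] (h : Nod δ τ τ' φ φ') {Q Q'} (hQ : Inv P Q) (hQ' : Inv P Q')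
    (c : IsClopen (τ.sel Q)) (c' : IsClopen (τ'.sel Q'))
    (e : ∀ m (n : Unit × Bool → m.X) (h : m.Nds n), P.Fx m g d → (Q m ↔ Q' (ctp m h))) :
    pbE φ (τ.id Q) = pbE φ' (τ'.id Q') :=
  τ.pbE_id hQ hQ' c c' fun a => let ⟨m, n, u, v, w⟩ := h.pt a; ⟨m, _, v, w, e m n u (τ.fx v)⟩

theorem Nod.unit (h : Nod δ τ τ' φ φ') {Q} (i : Inv P Q) (c : IsClopen (τ'.sel Q))
    (w : ∀ a ∈ τ'.sel Q, ptE a (-τ'.ψ (qq false) - τ'.ψ (qq true)) ≠ 0) :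
    IsLocallyConstant (τ.cf (cntN · Q)) ∧ ∀ x, τ.Je (fnE (τ.cf (cntN · Q)) * τ.ins x) =
      τ'.Je (τ'.id Q * τ'.dg δ (qq false) (qq true) *
        (iv (-τ'.ψ (qq false) - τ'.ψ (qq true)) * τ'.ins (xt x))) := by
  have k := sub_eq_zero.2 (idE_mul_iv c w)
  rw [← mul_sub_one] at k
  obtain ⟨l, w⟩ := h.eq _ _ i c (by rw [Md.id, k, map_zero])
  refine ⟨l, fun x => ?_⟩
  rw [Md.Je_apply, map_mul, w _ (inF _ (τ'.ins (xt x))) (by rw [pb_inF, pb_inF, h.ins]),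
    ← map_mul, ← map_mul, mul_right_comm (τ'.id _), mul_assoc _ (iv _), Md.Je_apply]

end nod

section spl

variable {φ : ν₁ ⊕ ν₂ ≃ ν} {τ : Md P ν g d} {τ₁ : Md P ν₁ g₁ d₁} {τ₂ : Md P ν₂ g₂ d₂}
  {f : C(τ₁.A × τ₂.A, τ.A)} {I : F ⊗[ℂ] H (τ₁.A × τ₂.A) →ₗ[F] F} (h : Spl φ τ τ₁ τ₂ f I)
  {Q₁ : AM1 R J ν₁ → Prop} {Q₂ : AM1 R J ν₂ → Prop}
include h

theorem Spl.ins (x : ν → ℕ × HH P) : pbE f (τ.ins x) =
    pbE .fst (τ₁.ins fun n => x (φ (.inl n))) * pbE .snd (τ₂.ins fun n => x (φ (.inr n))) := by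
  rw [Md.ins, ← φ.prod_comp, Fintype.prod_sum_type]
  simp only [Md.ins, map_prod, map_mul, map_pow, pbE_pbE, h.ψ₁, h.ψ₂, h.ev₁, h.ev₂]

variable (i₁ : Inv P Q₁) (i₂ : Inv P Q₂) (c₁ : IsClopen (τ₁.sel Q₁)) (c₂ : IsClopen (τ₂.sel Q₂))
  (q₁ : ν₁) (hc : ∀ m, Q₁ m → m.Conn)
include i₁ i₂ c₁ c₂ q₁ hc

theorem Spl.clopen : IsClopen (τ.sel (Sps · φ (fun m => m.Typ g₁ d₁ ∧ Q₁ m) Q₂)) :=
  τ.clopen_of_ite (invW_sps φ (invW_typ.and i₁) i₂) one_ne_zero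
    (τ.cf_congr (fun _ _ => cntS_conn φ (Q₁ := fun m => m.Typ g₁ d₁ ∧ Q₁ m) q₁
      fun m a => hc m a.2) ▸ (h.eq _ _ i₁ i₂ c₁ c₂).1)

theorem Spl.eq' (x) : τ.I (inF _ (τ.id (Sps · φ (fun m => m.Typ g₁ d₁ ∧ Q₁ m) Q₂)) * x) =
    I (inF _ (pbE .fst (τ₁.id Q₁) * pbE .snd (τ₂.id Q₂)) * pb F f x) := by
  rw [← (h.eq _ _ i₁ i₂ c₁ c₂).2, τ.cf_congr fun _ _ => cntS_conn φ q₁ fun m a => hc m a.2,
    τ.fnE_ite (invW_sps φ (invW_typ.and i₁) i₂)]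

/-- **the Kuenneth decomposition of the class of the diagonal** -/
theorem Spl.dg (e₁ : ∀ x, τ₁.I (((parH _).bc F).σ x) = τ₁.I x)
    (e₂ : ∀ x, τ₂.I (((parH _).bc F).σ x) = τ₂.I x) {δ : F ⊗[ℂ] Hev (P.X × P.X)}
    {e e' : ι → F ⊗[ℂ] H P.X} (hδ : inF _ δ = ∑ b, pb F .fst (e b) * pb F .snd (e' b)) (q₂ : ν₂)
    {α : Type} (s : Finset α) {y : F ⊗[ℂ] Hev τ.A} {y₁ : α → F ⊗[ℂ] Hev τ₁.A}
    {y₂ : α → F ⊗[ℂ] Hev τ₂.A} (hy : pbE .fst (τ₁.id Q₁) * pbE .snd (τ₂.id Q₂) * pbE f y =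
      pbE .fst (τ₁.id Q₁) * pbE .snd (τ₂.id Q₂) * ∑ i ∈ s, pbE .fst (y₁ i) * pbE .snd (y₂ i)) :
    τ.Je (τ.id (Sps · φ (fun m => m.Typ g₁ d₁ ∧ Q₁ m) Q₂) * τ.dg δ (φ (.inl q₁)) (φ (.inr q₂)) * y) =
      ∑ b, ∑ i ∈ s, τ₁.Je (τ₁.id Q₁ * y₁ i * pbE (τ₁.ev q₁) (evn (e b))) *
        τ₂.Je (τ₂.id Q₂ * y₂ i * pbE (τ₂.ev q₂) (evn (e' b))) := by
  have k : pb F f (inF _ (τ.dg δ (φ (.inl q₁)) (φ (.inr q₂)))) =
      ∑ b, pb F .fst (pb F (τ₁.ev q₁) (e b)) * pb F .snd (pb F (τ₂.ev q₂) (e' b)) := by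
    rw [Md.dg, ← pb_inF, hδ, map_sum, map_sum]
    refine Finset.sum_congr rfl fun b _ => ?_
    simp only [map_mul, pb_pb, ← h.ev₁, ← h.ev₂]
    rfl
  rw [Md.Je_apply, mul_right_comm, mul_assoc, map_mul (inF τ.A), h.eq' i₁ i₂ c₁ c₂ q₁ hc,
    map_mul (inF τ.A), map_mul (pb F f), ← mul_assoc, pb_inF, ← map_mul, hy, k, Finset.mul_sum,
    map_sum]
  refine Finset.sum_congr rfl fun b _ => ?_
  rw [Finset.mul_sum, map_sum, Finset.sum_mul, map_sum]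
  refine Finset.sum_congr rfl fun i _ => ?_
  rw [Md.Je_apply, Md.Je_apply, ← I_evn e₁, ← I_evn e₂, ← h.mul, mul_mul_mul_comm, ← map_mul,
    ← map_mul, map_mul (inF (τ₁.A × τ₂.A)), map_mul (pb F .fst), map_mul (pb F .snd), pb_inF, pb_inF,
    mul_assoc, mul_assoc, ← mul_assoc (inF _ _) (pb F .fst _), inF_comm _ (pb F .fst _), mul_assoc]

omit hc in
theorem Spl.unit {q₂ : ν₂} (w₁ : ∀ a ∈ τ₁.sel Q₁, ptE a (τ₁.ψ q₁) = 0)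
    (w₂ : ∀ a ∈ τ₂.sel Q₂, ptE a (τ₂.ψ q₂) ≠ 0) {N : ℕ} (hn : τ₁.id Q₁ * τ₁.ψ q₁ ^ N = 0) (x) :
    pbE .fst (τ₁.id Q₁) * pbE .snd (τ₂.id Q₂) *
      pbE f (iv (-τ.ψ (φ (.inl q₁)) - τ.ψ (φ (.inr q₂))) * τ.ins x) =
    pbE .fst (τ₁.id Q₁) * pbE .snd (τ₂.id Q₂) * ∑ j ∈ Finset.range N,
      pbE .fst (τ₁.ψ q₁ ^ j * τ₁.ins fun n => x (φ (.inl n))) *
        pbE .snd (iv (-τ₂.ψ q₂) ^ (j + 1) * τ₂.ins fun n => x (φ (.inr n))) := by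
  have a₂ : τ₂.id Q₂ * (-τ₂.ψ q₂ * iv (-τ₂.ψ q₂)) = τ₂.id Q₂ :=
    idE_mul_iv c₂ fun a r => by rw [map_neg, neg_ne_zero]; exact w₂ a r
  have a₃ := idE_mul_iv ((c₁.preimage continuous_fst).inter (c₂.preimage continuous_snd))
    (x := -pbE .fst (τ₁.ψ q₁) - pbE .snd (τ₂.ψ q₂)) fun a r => by
      rw [map_sub, map_neg, ptE_pbE, ptE_pbE, show ptE (ContinuousMap.fst a) _ = 0 from w₁ _ r.1,
        neg_zero, zero_sub, neg_ne_zero]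
      exact w₂ _ r.2
  have a₄ : pbE .fst (τ₁.id Q₁) * pbE .snd (τ₂.id Q₂) =
      idE (Prod.fst ⁻¹' τ₁.sel Q₁ ∩ Prod.snd ⁻¹' τ₂.sel Q₂) := by
    rw [Md.id, Md.id, pbE_idE _ c₁, pbE_idE _ c₂]
    exact idE_mul (c₁.preimage continuous_fst) (c₂.preimage continuous_snd)
  rw [← a₄, ← sub_eq_zero, ← mul_sub_one] at a₃
  rw [map_mul, pbE_iv, map_sub, map_neg, h.ψ₁, h.ψ₂, h.ins, ← mul_assoc,
    inv_sum (N := N) (v := pbE .snd (iv (-τ₂.ψ q₂))) (by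
      rw [mul_right_comm, ← map_pow, ← map_mul, hn, map_zero, zero_mul]) (by
      rw [mul_assoc, ← map_neg, ← map_mul, ← map_mul, a₂]) a₃, mul_assoc, Finset.sum_mul]
  refine congrArg _ (Finset.sum_congr rfl fun j _ => ?_)
  rw [map_mul, map_mul, map_pow, map_pow, mul_mul_mul_comm]

end spl

section rl

variable {T : Th P} (h : HR T) (φ : ν' ≃ ν) (g : ℤ) (d : R → ℤ)
include h

/-- **relabelling** -/
theorem HR.ex : ∃ f : C((T ν' g d).A, (T ν g d).A),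
    (∀ n, pbE f ((T ν g d).ψ (φ n)) = (T ν' g d).ψ n) ∧
    (∀ x, pbE f ((T ν g d).ins x) = (T ν' g d).ins fun n => x (φ n)) ∧
    (∀ Q Q', Inv P Q → Inv P Q' → (∀ m, Q' (rl m φ) ↔ Q m) →
      f ⁻¹' (T ν g d).sel Q = (T ν' g d).sel Q') ∧
    ∀ x, (T ν' g d).Je (pbE f x) = (T ν g d).Je x := by
  obtain ⟨f, a, b, c, e⟩ := h ν ν' φ g d
  refine ⟨f, b, fun x => ?_, fun Q Q' u v w => Set.ext fun x => ?_, fun x => ?_⟩
  · rw [Md.ins, ← φ.prod_comp]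
    simp only [Md.ins, map_prod, map_mul, map_pow, pbE_pbE, b, c]
  · obtain ⟨m, hm⟩ := (T ν g d).ex (f x)
    exact (Md.mem_sel _ u hm).trans ((w m).symm.trans (Md.mem_sel _ v (a x m hm)).symm)
  · rw [Md.Je_apply, ← pb_inF, e, Md.Je_apply]

theorem HR.W {Q Q'} (u : Inv P Q) (v : Inv P Q') (w : ∀ m, Q' (rl m φ) ↔ Q m)
    (c : IsClopen ((T ν g d).sel Q)) (x) :
    (T ν' g d).W Q' (fun n => x (φ n)) = (T ν g d).W Q x := by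
  obtain ⟨f, -, a, b, e⟩ := h.ex φ g d
  rw [Md.W, Md.W, ← e, map_mul (pbE f), a, Md.id, Md.id, pbE_idE _ c, b _ _ u v w]

end rl

variable (T : Th P) (δ : F ⊗[ℂ] Hev (P.X × P.X))

/-- the geometric input -/
structure Hy [DecidableEq R] : Prop where
  good : P.E.Good
  hR : HR T
  hN : HN T δ
  hS : HS T
  hW : HW T
  hE : HEv T
  conn : ∀ (ν : Type) [Fintype ν] (d : R → ℤ), IsClopen ((T ν 0 d).sel fun m => m.Conn)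

variable {T δ} [DecidableEq R] (h : Hy T δ) {φ : ν₁ ⊕ ν₂ ≃ ν ⊕ Unit × Bool} {q₁ : ν₁} {q₂ : ν₂}
  (e₁ : φ (.inl q₁) = qq false) (e₂ : φ (.inr q₂) = qq true) (hd : d = d₁ + d₂)
  {Q₁ : AM1 R J ν₁ → Prop} {Q₂ : AM1 R J ν₂ → Prop} (i₁ : Inv P Q₁) (i₂ : Inv P Q₂)
  (c₁ : IsClopen ((T ν₁ 0 d₁).sel Q₁)) (c₂ : IsClopen ((T ν₂ 0 d₂).sel Q₂))
  (hc : ∀ m, Q₁ m → m.Conn)
include h e₁ e₂ hd i₁ i₂ c₁ c₂ hc

/-- **cutting a node between a vertex and an edge** -/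
theorem Hy.cut (v₁ : ∀ m, Q₁ m → P.Vm m q₁) (v₂ : ∀ m, Q₂ m → ¬P.Vm m q₂) :
    IsLocallyConstant ((T ν 0 d).cf (cntN · (Sps · φ (fun m => m.Typ 0 d₁ ∧ Q₁ m) Q₂))) ∧
    ∀ {ι : Type} [Fintype ι] {e e' : ι → F ⊗[ℂ] H P.X},
      inF _ δ = ∑ b, pb F .fst (e b) * pb F .snd (e' b) →
      ∀ N, (T ν₁ 0 d₁).id Q₁ * (T ν₁ 0 d₁).ψ q₁ ^ N = 0 → ∀ x, (T ν 0 d).Je
        (fnE ((T ν 0 d).cf (cntN · (Sps · φ (fun m => m.Typ 0 d₁ ∧ Q₁ m) Q₂))) * (T ν 0 d).ins x) =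
        ∑ b, ∑ j ∈ Finset.range N, (T ν₁ 0 d₁).Je ((T ν₁ 0 d₁).id Q₁ * ((T ν₁ 0 d₁).ψ q₁ ^ j *
          (T ν₁ 0 d₁).ins fun n => xt x (φ (.inl n))) * pbE ((T ν₁ 0 d₁).ev q₁) (evn (e b))) *
          (T ν₂ 0 d₂).Je ((T ν₂ 0 d₂).id Q₂ * (iv (-(T ν₂ 0 d₂).ψ q₂) ^ (j + 1) *
          (T ν₂ 0 d₂).ins fun n => xt x (φ (.inr n))) * pbE ((T ν₂ 0 d₂).ev q₂) (evn (e' b))) := by
  obtain ⟨A, _, _, _, u, u', hN⟩ := h.hN ν 0 (-1) d (by norm_num)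
  obtain ⟨f, I, hS⟩ := h.hS _ ν₁ ν₂ φ (-1) 0 0 d d₁ d₂ (by norm_num) hd
  obtain ⟨l, w⟩ := hN.unit (invW_sps φ ((invW_typ (g := 0) (d := d₁)).and i₁) i₂)
    (hS.clopen i₁ i₂ c₁ c₂ q₁ hc) (by
      rintro a ⟨m, hm, m₁, m₂, j₁, j₂, s, w₁, w₂⟩
      rw [map_sub, map_neg, (h.hW _ _ _ _ a m hm).2 (e₁ ▸ ((tr_emb s.one).onV_p q₁).2 (v₁ _ w₁.2)),
        neg_zero, zero_sub, neg_ne_zero]
      exact fun r => v₂ _ w₂ (((tr_emb s.two).onV_p q₂).1 (e₂ ▸ (h.hW _ _ _ _ a m hm).1 r)))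
  refine ⟨l, fun hδ N hn x => (w x).trans ?_⟩
  rw [← e₁, ← e₂]
  exact hS.dg i₁ i₂ c₁ c₂ q₁ hc (h.hE _ _ _) (h.hE _ _ _) hδ q₂ _ (hS.unit i₁ i₂ c₁ c₂ q₁
    (fun a ⟨m, r, u⟩ => (h.hW _ _ _ _ a m r).2 (v₁ m u))
    (fun a ⟨m, r, u⟩ t => v₂ m u ((h.hW _ _ _ _ a m r).1 t)) hn (xt x))

end Vale.Agent.P269.Lz
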