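import Vale.Agent.P287Q.G.LG.Geo
import Vale.Agent.P287Q.G.LG.Top
import Vale.Agent.P287Q.Lz.Cmb

/-! Localisation for a target with an action of a torus: definitions and statements. -/

set_option linter.unusedSectionVars false

namespace Vale.Agent.P269.Lz

open Set Function Topology Filter TensorProduct Cv B Vale.Agent.P291Z Vale.Agent.P269.Ch
  Vale.Agent.P269.Loc LG

/-- a target with an action of the torus `σ` -/
structure TT (R J K σ : Type) where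
  /-- weights of the fields -/
  w : J → R → ℤ
  /-- the polarisation -/
  θ : R → ℤ
  /-- weights of the equations -/
  χ : K → R → ℤ
  /-- the equations -/
  G : K → MvPolynomial J ℂ
  /-- the semistable locus -/
  U : Set (J → ℂ)
  /-- the movable fields -/
  mov : Set J
  /-- the fields that vanish -/
  zer : Set J
  /-- weights of the fields for the torus `σ` -/
  wt : J → σ → ℤ
  /-- weights of the equations for the torus `σ` -/
  wk : K → σ → ℤ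

variable {R J K σ S Λ ν ν' κ : Type} [Fintype R] [Fintype J] [Fintype K] [Fintype σ] [Fintype S]
  [Fintype Λ] [Fintype ν] [Fintype ν'] [Fintype κ]

namespace TT

variable (P : TT R J K σ)

/-- the target over the parameter space `B` -/
@[reducible] noncomputable def fam (wt : J → S → ℤ) (wk : K → S → ℤ) (wl : Λ → S → ℤ)
    (B : Set (Λ → ℂ)) : Fam S Λ R J K where
  w := P.w
  wt := wt
  wl := wl
  θ := P.θ
  χ := P.χ
  wk := wk
  G k := MvPolynomial.map MvPolynomial.C (P.G k)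
  B := B
  U := {z | z.2 ∈ P.U}
  E := univ
  mov := P.mov
  zer := P.zer

/-- the target -/
noncomputable abbrev E : Fam Empty Empty R J K :=
  P.fam (fun _ => Empty.elim) (fun _ => Empty.elim) Empty.elim univ

/-- the target with the action of the torus -/
noncomputable abbrev ET : Fam σ Empty R J K := P.fam P.wt P.wk Empty.elim univ

/-- the Borel construction -/
noncomputable abbrev EM [DecidableEq σ] (M : ℕ) : Fam σ (σ × Fin (M + 1)) R J K :=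
  P.fam P.wt P.wk (fun a => Pi.single a.1 1) (PMs σ M)

/-- the standing hypotheses -/
structure Ok [DecidableEq R] (K₀ : RD R) (k D : ℕ) : Prop where
  good : P.E.Good
  reg : P.E.Reg K₀
  abs : P.movᶜ ⊆ P.zer
  invT : P.ET.Inv
  big : P.E.Big k
  bigD : P.E.BigD k D

/-- the cone over the fixed locus -/
def Fix : Set ((Empty → ℂ) × (J → ℂ)) := {z | z ∈ P.E.cone ∧ ∃ ρ, OvP P.E.toWt P.wt z.2 ρ}

/-- the fixed locus -/
abbrev X : Type := P.E.X P.Fix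

/-- the part of the fixed locus with the label `ρ` -/
def XL (ρ : σ → R → ℤ) : Set P.X := {x | ∃ z : P.Fix, x = Quo.mk _ z ∧ OvP P.E.toWt P.wt z.1.2 ρ}

/-- fixed stable maps of the given type -/
abbrev Fx (m : AM1 R J ν) (g : ℤ) (d : R → ℤ) : Prop := Lz.Fx P.E P.wt m g d

/-- the marked point `n` lies on a component that is mapped to the fixed locus -/
abbrev Vm (m : AM1 R J ν) (n : ν) : Prop := OnV P.E.toWt P.wt m (m.p (.inl n))

end TT

/-- properties that are invariant under isomorphisms -/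
def Inv (P : TT R J K σ) (Q : AM1 R J ν → Prop) : Prop :=
  ∀ m m', AM.Iso P.E.toWt univ m m' → Q m → Q m'

/-- the fixed locus in a moduli space, its local contribution and tautological classes -/
structure Md (P : TT R J K σ) (ν : Type) [Fintype ν] (g : ℤ) (d : R → ℤ) where
  /-- the fixed locus -/
  A : Type
  [top : TopologicalSpace A]
  [nice : Nice A]
  [cpt : CompactSpace A]
  /-- a point is represented by a map -/
  Rp : A → AM1 R J ν → Prop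
  ex : ∀ a, ∃ m, Rp a m
  fx : ∀ {a m}, Rp a m → P.Fx m g d
  iso : ∀ {a m m'}, Rp a m → (Rp a m' ↔ AM.Iso P.E.toWt univ m m')
  inj : ∀ {a a' m}, Rp a m → Rp a' m → a = a'
  surj : ∀ {m}, P.Fx m g d → ∃ a, Rp a m
  /-- the contribution -/
  I : F ⊗[ℂ] H A →ₗ[F] F
  /-- the equivariant cotangent line classes -/
  ψ : ν → F ⊗[ℂ] Hev A
  /-- the evaluation maps to the fixed locus of the target -/
  ev : ν → C(A, P.X)
  evp : ∀ n {a m}, Rp a m → ∃ h, ev n a = Quo.mk _ ⟨m.vl (m.p (.inl n)), h⟩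

attribute [instance] Md.top Md.nice Md.cpt

variable {P : TT R J K σ}

namespace Md

variable {g : ℤ} {d : R → ℤ} (τ : Md P ν g d)

/-- the part selected by a property -/
def sel (Q : AM1 R J ν → Prop) : Set τ.A := {a | ∃ m, τ.Rp a m ∧ Q m}

/-- the function given by an invariant -/
noncomputable def cf (f : AM1 R J ν → ℕ) (a : τ.A) : ℂ := f (τ.ex a).choose

/-- the idempotent of a property -/
noncomputable def id (Q : AM1 R J ν → Prop) : F ⊗[ℂ] Hev τ.A := idE (τ.sel Q)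

/-- the pull-back of a class on the square of the fixed locus -/
noncomputable def dg (δ : F ⊗[ℂ] Hev (P.X × P.X)) (n n' : ν) : F ⊗[ℂ] Hev τ.A :=
  pbE ((τ.ev n).prodMk (τ.ev n')) δ

end Md

variable (P) in
/-- a system of fixed loci -/
abbrev Th : Type 1 := ∀ (ν : Type) [Fintype ν] (g : ℤ) (d : R → ℤ), Md P ν g d

variable (T : Th P) (δ : F ⊗[ℂ] Hev (P.X × P.X))

/-- relabelling -/
def HR : Prop := ∀ (ν ν' : Type) [Fintype ν] [Fintype ν'] (φ : ν' ≃ ν) (g : ℤ) (d : R → ℤ),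
  ∃ f : C((T ν' g d).A, (T ν g d).A), (∀ a m, (T ν g d).Rp (f a) m → (T ν' g d).Rp a (rl m φ)) ∧
    (∀ n, pbE f ((T ν g d).ψ (φ n)) = (T ν' g d).ψ n) ∧
    (∀ n, ((T ν g d).ev (φ n)).comp f = (T ν' g d).ev n) ∧
    ∀ x, (T ν' g d).I (pb F f x) = (T ν g d).I x

/-- normalisation of a node -/
structure Nod {g g' : ℤ} {d : R → ℤ} (τ : Md P ν g d) (τ' : Md P (ν ⊕ Unit × Bool) g' d)
    {A : Type} [TopologicalSpace A] (φ : C(A, τ.A)) (φ' : C(A, τ'.A)) : Prop where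
  inj : Injective φ'
  pt : ∀ a, ∃ m n, ∃ h : m.Nds n, τ.Rp (φ a) m ∧ τ'.Rp (φ' a) (ctp m h)
  all : ∀ a m n (h : m.Nds n), τ.Rp a m → ∃ a', φ a' = a ∧ τ'.Rp (φ' a') (ctp m h)
  ψ : ∀ n, pbE φ (τ.ψ n) = pbE φ' (τ'.ψ (.inl n))
  ev : ∀ n, (τ.ev n).comp φ = (τ'.ev (.inl n)).comp φ'
  node : (τ'.ev (qq false)).comp φ' = (τ'.ev (qq true)).comp φ'
  eq : ∀ (Q : AM1 R J (ν ⊕ Unit × Bool) → Prop) (η : F ⊗[ℂ] Hev τ'.A), Inv P Q →
    IsClopen (τ'.sel Q) →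
    pbE φ' (τ'.id Q * ((-τ'.ψ (qq false) - τ'.ψ (qq true)) * η - 1)) = 0 →
    IsLocallyConstant (τ.cf (cntN · Q)) ∧ ∀ x x', pb F φ x = pb F φ' x' →
      τ.I (inF _ (fnE (τ.cf (cntN · Q))) * x) =
        τ'.I (inF _ (τ'.id Q * η) * inF _ (τ'.dg δ (qq false) (qq true)) * x')

/-- normalisation of a node -/
def HN : Prop :=
  ∀ (ν : Type) [Fintype ν] (g g' : ℤ) (d : R → ℤ), g = g' + 1 →
    ∃ (A : Type) (_ : TopologicalSpace A) (_ : Nice A) (_ : CompactSpace A) (φ : C(A, _))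
      (φ' : C(A, _)), Nod δ (T ν g d) (T (ν ⊕ Unit × Bool) g' d) φ φ'

/-- disjoint unions -/
structure Spl {ν₁ ν₂ : Type} [Fintype ν₁] [Fintype ν₂] (φ : ν₁ ⊕ ν₂ ≃ ν) {g g₁ g₂ : ℤ}
    {d d₁ d₂ : R → ℤ} (τ : Md P ν g d) (τ₁ : Md P ν₁ g₁ d₁) (τ₂ : Md P ν₂ g₂ d₂)
    (f : C(τ₁.A × τ₂.A, τ.A)) (I : F ⊗[ℂ] H (τ₁.A × τ₂.A) →ₗ[F] F) : Prop where
  pt : ∀ a₁ a₂ m m₁ m₂ j₁ j₂, τ₁.Rp a₁ m₁ → τ₂.Rp a₂ m₂ → AM.Split m m₁ m₂ φ e00 j₁ j₂ →
    τ.Rp (f (a₁, a₂)) m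
  ψ₁ : ∀ n, pbE f (τ.ψ (φ (.inl n))) = pbE .fst (τ₁.ψ n)
  ψ₂ : ∀ n, pbE f (τ.ψ (φ (.inr n))) = pbE .snd (τ₂.ψ n)
  ev₁ : ∀ n, (τ.ev (φ (.inl n))).comp f = (τ₁.ev n).comp .fst
  ev₂ : ∀ n, (τ.ev (φ (.inr n))).comp f = (τ₂.ev n).comp .snd
  mul : ∀ x₁ x₂, I (pb F .fst x₁ * pb F .snd x₂) = τ₁.I x₁ * τ₂.I x₂
  eq : ∀ Q₁ Q₂, Inv P Q₁ → Inv P Q₂ → IsClopen (τ₁.sel Q₁) → IsClopen (τ₂.sel Q₂) →
    IsLocallyConstant (τ.cf (cntS · φ (fun m => m.Typ g₁ d₁ ∧ Q₁ m) Q₂)) ∧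
      ∀ x, τ.I (inF _ (fnE (τ.cf (cntS · φ (fun m => m.Typ g₁ d₁ ∧ Q₁ m) Q₂))) * x) =
        I (inF _ (pbE .fst (τ₁.id Q₁) * pbE .snd (τ₂.id Q₂)) * pb F f x)

/-- disjoint unions -/
def HS : Prop := ∀ (ν ν₁ ν₂ : Type) [Fintype ν] [Fintype ν₁] [Fintype ν₂] (φ : ν₁ ⊕ ν₂ ≃ ν)
  (g g₁ g₂ : ℤ) (d d₁ d₂ : R → ℤ), g = g₁ + g₂ - 1 → d = d₁ + d₂ →
    ∃ f I, Spl φ (T ν g d) (T ν₁ g₁ d₁) (T ν₂ g₂ d₂) f I

/-- the weights of the cotangent lines -/
def HW : Prop := ∀ (ν : Type) [Fintype ν] (g : ℤ) (d : R → ℤ) (n : ν) (a : (T ν g d).A) (m),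
  (T ν g d).Rp a m → (ptE a ((T ν g d).ψ n) = 0 ↔ P.Vm m n)

/-- the contributions vanish on odd classes -/
def HEv : Prop := ∀ (ν : Type) [Fintype ν] (g : ℤ) (d : R → ℤ) (x),
  (T ν g d).I (((parH _).bc F).σ x) = (T ν g d).I x

section geo

variable [DecidableEq R] (P ν) (k D : ℕ) (g : ℤ) (d : R → ℤ)

/-- the moduli space of maps to the target -/
abbrev TT.X0 : Type := P.E.Mod (Fin 0) k D g d (0 : ν → J → ℕ)

variable [DecidableEq σ]

/-- the moduli space of maps to the Borel construction -/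
abbrev TT.XM (M : ℕ) : Type := (P.EM M).Mod (Fin 0) k D g d (0 : ν → J → ℕ)

/-- the virtual class -/
noncomputable abbrev TT.vM (M : ℕ) : BM (P.XM ν k D g d M) := (P.EM M).vir (Fin 0) k D g d 0

variable {P ν g d}

/-- `τ` is the fixed locus in the moduli space -/
structure Geo (a : σ → ℂ) (τ : Md P ν g d) where
  /-- the inclusion -/
  g0 : C(τ.A, P.X0 ν k D g d)
  emb : IsClosedEmbedding g0
  rp : ∀ x m, τ.Rp x m ↔ P.E.At (g0 x) m
  [nice : ∀ M, Nice (P.XM ν k D g d M)]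
  /-- the inclusion in the Borel construction -/
  i : ∀ M, C(τ.A × Bs σ M, P.XM ν k D g d M)
  pt : ∀ M x p m, τ.Rp x m → (P.EM M).At (i M (x, bp p)) (par (uncurry p.val) m)
  loc : IsLoc (chiA a) (P.vM ν k D g d) i τ.I
  psi : ∀ n, ∃ x : Loc.R σ ⊗[ℂ] Hev τ.A, bc _ (chiA a) x = τ.ψ n ∧
    ∀ M, H.map (i M) (hcls (psiF (.inl n))) = evA _ M (inH _ x)

/-- the system of all fixed loci -/
abbrev GeoT (a : σ → ℂ) (T : Th P) : Type 1 :=
  ∀ (ν : Type) [Fintype ν] (g : ℤ) (d : R → ℤ), Geo k D a (T ν g d)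

end geo

end Vale.Agent.P269.Lz
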