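import Vale.Agent.P287Q.Lz.Hy

/-! From families of insertions to multisets. -/

set_option linter.unusedSectionVars false
set_option maxSynthPendingDepth 3

namespace Vale.Agent.P269.Lz

open Function TensorProduct Cv B Vale.Agent.P291Z Vale.Agent.P269.Ch LG Finset
  Vale.Agent.P287Q.Lz

section comb

variable {α β ν ν' R : Type}

theorem Ev_equiv [Fintype ν] [Fintype ν'] {X : ν → α} {X' : ν' → α}
    (h : univ.val.map X' = univ.val.map X) : ∃ φ : ν' ≃ ν, X ∘ φ = X' := by
  classical
  have k : ∀ a, Fintype.card {n // X' n = a} = Fintype.card {n // X n = a} := fun a => by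
    have := congrArg (Multiset.count a) h
    simp only [Multiset.count_map] at this
    simpa only [Fintype.card_subtype, eq_comm (b := a), card_def, filter_val] using this
  exact ⟨Equiv.ofFiberEquiv fun a => Fintype.equivOfCardEq (k a),
    funext (Equiv.ofFiberEquiv_map _)⟩

theorem Ev_get (u : Multiset α) : univ.val.map u.toList.get = u := by
  rw [Fin.univ_val_map, List.ofFn_get, Multiset.coe_toList]

theorem exists_fin {n : ℕ} {s : Multiset α} (h : s.card = n) :
    ∃ x : Fin n → α, univ.val.map x = s := by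
  subst h
  exact ⟨fun i => s.toList.get (i.cast (Multiset.length_toList s).symm), by
    conv_rhs => rw [← Ev_get s]
    exact (Multiset.map_map s.toList.get _ _).symm.trans (congrArg _
      (Multiset.map_univ_val_equiv (finCongr (Multiset.length_toList s).symm)))⟩

theorem map_elim [Fintype ν] [Fintype ν'] (x : ν → α) (y : ν' → α) :
    univ.val.map (Sum.elim x y) = univ.val.map x + univ.val.map y := by
  rw [← univ_disjSum_univ, val_disjSum, Multiset.disjSum, Multiset.map_add, Multiset.map_map,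
    Multiset.map_map]
  rfl

theorem tag_map [Fintype ν] [Fintype ν'] (x : ν → α) (y : ν' → α) :
    tag (univ.val.map x) (univ.val.map y) =
      univ.val.map (Sum.elim (fun n => (true, x n)) fun n => (false, y n)) := by
  rw [map_elim, tag, Multiset.map_map, Multiset.map_map]
  rfl

theorem tag_cons₁ (x : α) (s t : Multiset α) : tag (x ::ₘ s) t = (true, x) ::ₘ tag s t := by
  simp [tag]

theorem tag_cons₂ (x : α) (s t : Multiset α) : tag s (x ::ₘ t) = (false, x) ::ₘ tag s t := by
  simp [tag]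

theorem tag_zero (t : Multiset α) : tag 0 t = t.map (Prod.mk false) := by simp [tag]

theorem tag_zero' (s : Multiset α) : tag s 0 = s.map (Prod.mk true) := by simp [tag]

theorem map_option [Fintype ν] (y : α) (X : ν → α) :
    univ.val.map (fun o : Option ν => o.elim y X) = y ::ₘ univ.val.map X := by
  rw [univ_option, insertNone, OrderEmbedding.coe_ofMapLEIff, cons_val, Multiset.map_cons, map_val,
    Multiset.map_map]
  rfl

theorem map_op {p : ν → Prop} [i : Fintype (Option {a // p a})] {A : Finset ν}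
    (h : ∀ a, a ∈ A ↔ p a)
    (y : α) (X : ν → α) : univ.val.map (op p y X) = y ::ₘ A.val.map X := by
  classical
  obtain rfl : p = (· ∈ A) := funext fun a => propext (h a).symm
  have := map_option y fun a : {a // a ∈ A} => X a.1
  rw [univ_eq_attach, attach_val] at this
  rw [← Multiset.attach_map_val' A.val X]
  exact (congrArg (fun j => (@univ _ j).val.map (op (· ∈ A) y X)) (Subsingleton.elim i _)).trans
    this

/-- the sum over the splittings with prescribed marked points on both sides -/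
theorem sum_split [Fintype ν] [DecidableEq ν] [DecidableEq R] [AddCommMonoid β] {L M : Finset ν}
    (h : Disjoint L M) (X : ν → α) (Φ : (R →₀ ℕ) → Multiset α → (R →₀ ℕ) → Multiset α → β)
    (d : R →₀ ℕ) (p : Finset ν → Prop) [DecidablePred p] (hp : ∀ A, p A ↔ L ⊆ A ∧ Disjoint A M) :
    ∑ q ∈ antidiagonal d, ∑ A with p A, Φ q.1 (A.val.map X) q.2 (Aᶜ.val.map X) =
      cv (fun d₁ t₁ d₂ t₂ => Φ d₁ (L.val.map X + t₁) d₂ (M.val.map X + t₂)) d
        ((L ∪ M)ᶜ.val.map X) := by
  rw [cv_finset]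
  refine sum_congr rfl fun q _ => sum_nbij' (· \ L) (L ∪ ·) (fun A a => ?_) (fun A a => ?_)
    (fun A a => ?_) (fun A a => ?_) fun A a => ?_
  · have := (hp A).1 (mem_filter.1 a).2
    simp only [mem_powerset, subset_iff, mem_sdiff, mem_compl, mem_union, disjoint_left] at this ⊢
    grind
  · simp only [mem_filter, mem_univ, true_and, hp, mem_powerset, subset_iff, mem_compl, mem_union,
      disjoint_left] at a h ⊢
    grind
  · exact union_sdiff_of_subset ((hp A).1 (mem_filter.1 a).2).1
  · simp only [mem_powerset, subset_iff, mem_compl, mem_union, Finset.ext_iff, mem_sdiff] at a ⊢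
    grind
  · obtain ⟨b, c⟩ := (hp A).1 (mem_filter.1 a).2
    have e : ∀ {U V W : Finset ν}, Disjoint U V → U ∪ V = W → U.val + V.val = W.val :=
      fun u v => by rw [← v, ← disjUnion_eq_union _ _ u, disjUnion_val]
    rw [← Multiset.map_add, ← Multiset.map_add, e disjoint_sdiff (union_sdiff_of_subset b),
      e (W := Aᶜ)]
    · simp only [disjoint_left, mem_sdiff, mem_compl, mem_union]
      grind
    · simp only [subset_iff, disjoint_left, Finset.ext_iff, mem_sdiff, mem_compl, mem_union] at *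
      grind

end comb

variable {R J K σ ν ν' : Type} [Fintype R] [Fintype J] [Fintype K] [Fintype σ] [Fintype ν]
  [Fintype ν'] {P : TT R J K σ} {T : Th P} {w : Wg P}

theorem dz_add (d d' : R →₀ ℕ) : dz (d + d') = dz d + dz d' := funext fun _ => Nat.cast_add _ _

theorem dz_zero : dz (0 : R →₀ ℕ) = 0 := rfl

theorem dz_inj : Injective (dz : (R →₀ ℕ) → _) := fun _ _ h =>
  Finsupp.ext fun r => Nat.cast_injective (congrFun h r)

theorem exists_dz {d : R → ℤ} (h : 0 ≤ d) : ∃ d', dz d' = d :=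
  ⟨Finsupp.equivFunOnFinite.symm fun r => (d r).toNat, funext fun r => Int.toNat_of_nonneg (h r)⟩

theorem TT.Eff.anti [DecidableEq R] (h : P.Eff) {m : AM1 R J ν} {g : ℤ} {d : R →₀ ℕ}
    (hm : P.Fx m g (dz d)) {U : Set m.X} (hU : IsClopen U) :
    (fun r => degOn (m.L r) U) ∈ (antidiagonal d).image fun p => dz p.1 := by
  obtain ⟨a, ha⟩ := exists_dz (d := fun r => degOn (m.L r) U) fun r => h ν m hm.sol r U hU
  obtain ⟨b, hb⟩ := exists_dz (d := fun r => degOn (m.L r) Uᶜ) fun r => h ν m hm.sol r _ hU.compl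
  refine mem_image.2 ⟨(a, b), mem_antidiagonal.2 (dz_inj (funext fun r => ?_)), ha⟩
  rw [dz_add, ha, hb]
  exact (degOn_add_compl hU).trans (hm.typ.2 r)

theorem Nm_eq (h : Rl T w) (d : R →₀ ℕ) (X : ν → Tg P) : Nm T w d (univ.val.map X) = nm T w d X := by
  obtain ⟨φ, e⟩ := Ev_equiv (Ev_get (univ.val.map X))
  rw [Nm, ← e, h]

theorem Nm_op (h : Rl T w) (d : R →₀ ℕ) {p : ν' → Prop} [Fintype (Option {a // p a})]
    {A : Finset ν'} (hA : ∀ a, a ∈ A ↔ p a) (y : Tg P) (X : ν' → Tg P) :
    nm T w d (op p y X) = Nm T w d (y ::ₘ A.val.map X) := by rw [← Nm_eq h, map_op hA]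

theorem Nm_option (h : Rl T w) (d : R →₀ ℕ) (y : Tg P) (X : ν → Tg P) :
    Nm T w d (y ::ₘ univ.val.map X) = nm T w d fun o : Option ν => o.elim y X := by
  rw [← Nm_eq h, map_option]

theorem rl_id (h : HR T) {Q : ∀ (ν : Type) [Fintype ν], Set ν → AM1 R J ν → Prop}
    (i : ∀ (ν : Type) [Fintype ν] S, Inv P (Q ν S))
    (r : ∀ (ν ν' : Type) [Fintype ν] [Fintype ν'] (φ : ν' ≃ ν) S m,
      Q ν' S (rl m φ) ↔ Q ν (φ '' S) m)
    (c : ∀ (ν : Type) [Fintype ν] d S, IsClopen ((T ν 0 d).sel (Q ν S))) :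
    Rl T fun ν _ _ τ b => τ.id (Q ν {n | b n}) := fun ν ν' _ _ φ d X =>
  h.W φ 0 (dz d) (i _ _) (i _ _) (fun m => (r _ _ φ _ m).trans (by
    rw [show φ '' {n | ((X ∘ φ) n).1} = {n | (X n).1} from
      φ.surjective.image_preimage {n | (X n).1}])) (c _ _ _) fun n => (X n).2

theorem inv_cs (S : Set ν) : Inv P (CS P S) := invW_conn.and (invW_com S)

theorem inv_es (k : ℕ) (S : Set ν) : Inv P (ES P k S) := InvW.and (inv_cs S)
  fun m m' e h a ha => invW_ntl a k m m' e (h a ha)

theorem cs_rl (φ : ν' ≃ ν) (S : Set ν') (m : AM1 R J ν) : CS P S (rl m φ) ↔ CS P (φ '' S) m :=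
  and_congr Iff.rfl (com_rl φ S)

theorem es_rl (φ : ν' ≃ ν) (k : ℕ) (S : Set ν') (m : AM1 R J ν) :
    ES P k S (rl m φ) ↔ ES P k (φ '' S) m :=
  and_congr (cs_rl φ S m) (by simp only [ntl_rl, Set.forall_mem_image])

theorem rl_wT (h : HR T) (c : ∀ (ν : Type) [Fintype ν] d, IsClopen ((T ν 0 d).sel fun m => m.Conn))
    (j : ℕ) : Rl T (wT j) := fun ν ν' _ _ φ d X => by
  obtain ⟨f, a, b, u, e⟩ := h.ex φ 0 (dz d)
  rw [nm, nm, ← e, map_mul (pbE f), b, wT, wT, map_mul (pbE f), Md.id, Md.id, pbE_idE _ (c _ _),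
    u _ _ invW_conn invW_conn fun _ => Iff.rfl, ← φ.prod_comp, map_prod]
  refine congrArg (fun z => Md.Je _ (_ * z * _)) (prod_congr rfl fun n _ => ?_)
  rw [comp_apply]
  cases (X (φ n)).1
  · exact (map_one _).symm
  · rw [cond_true, cond_true, map_pow, pbE_iv, map_neg, a]

end Vale.Agent.P269.Lz
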