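import Vale.Agent.P287Q.H3.Hdg

/-! Weights of classes on the moduli spaces. -/

set_option linter.unusedSectionVars false
set_option linter.style.haveILetI false

namespace Vale.Agent.P287Q.Glob

open Set Function Topology Filter P291Z P269 P269.Ch P269.Holo P269.Mono P269.Orb H3

section gen

variable {B T X : Type} [NormedAddCommGroup B] [NormedSpace ℂ B] [TopologicalSpace T]
  [TopologicalSpace X]

/-- sums of classes of types `(p, q)` with `p - q = k` -/
noncomputable def Wc (ι : T → B) (π : T → X) (k : ℤ) : Submodule ℂ (H X) :=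
  Submodule.span ℂ {c | ∃ p q : ℕ, (p : ℤ) - q = k ∧ Ty ι π p q c}

/-- sums of classes of weak types `(p, q)` with `p - q = k` -/
noncomputable def Ww (Y : Ch.Sp) (ι : Y.T → B) (k : ℤ) : Submodule ℂ (H Y.X) :=
  Submodule.span ℂ {c | ∃ p q : ℕ, (p : ℤ) - q = k ∧ Wk Y ι p q c}

variable {Y : Ch.Sp} {ι : Y.T → B} {k : ℤ} {η b : H Y.X} {r : ℕ}

theorem Ww.mul_ty (hM : StMul) (h : η ∈ Ww Y ι k) (hb : Ty ι Y.π r r b) : η * b ∈ Ww Y ι k := by
  induction h using Submodule.span_induction with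
  | zero => rw [zero_mul]; exact zero_mem _
  | add x y _ _ hx hy => rw [add_mul]; exact add_mem hx hy
  | smul z x _ hx => rw [smul_mul_assoc]; exact Submodule.smul_mem _ _ hx
  | mem x hx =>
    obtain ⟨p, q, e, a⟩ := hx
    exact Submodule.subset_span ⟨_, _, by push_cast; omega, a.mul_ty hM hb⟩

theorem Ww.ty_mul (hM : StMul) (h : η ∈ Ww Y ι k) (hb : Ty ι Y.π r r b) : b * η ∈ Ww Y ι k := by
  induction h using Submodule.span_induction with
  | zero => rw [mul_zero]; exact zero_mem _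
  | add x y _ _ hx hy => rw [mul_add]; exact add_mem hx hy
  | smul z x _ hx => rw [mul_smul_comm]; exact Submodule.smul_mem _ _ hx
  | mem x hx =>
    obtain ⟨p, q, e, a⟩ := hx
    exact Submodule.subset_span ⟨_, _, by push_cast; omega, hb.mul_wk hM a⟩

theorem Ww.mul_poly (hM : StMul) {σ : Type} (e : MvPolynomial σ ℂ →ₐ[ℂ] H Y.X)
    (he : ∀ i, Ty ι Y.π 1 1 (e (MvPolynomial.X i))) (h : η ∈ Ww Y ι k) (f : MvPolynomial σ ℂ) :
    η * e f ∈ Ww Y ι k := by
  induction f using MvPolynomial.induction_on with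
  | C z =>
    rw [MvPolynomial.algHom_C, ← Algebra.commutes, ← Algebra.smul_def]
    exact Submodule.smul_mem _ _ h
  | add p q hp hq => rw [map_add, mul_add]; exact add_mem hp hq
  | mul_X p i hp => rw [map_mul, ← mul_assoc]; exact Ww.mul_ty hM hp (he i)

theorem Ww.eq_zero {l : H Y.X →ₗ[ℂ] ℂ} (hl : ∀ p q η, Wk Y ι p q η → p ≠ q → l η = 0) (hk : k ≠ 0)
    (h : η ∈ Ww Y ι k) : l η = 0 := by
  refine (Submodule.span_le (p := LinearMap.ker l)).2 ?_ h
  rintro x ⟨p, q, e, a⟩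
  exact hl p q x a (by omega)

theorem ty_lcq (hc : StC1) {A W : Type} [NormedRing A] [NormedAlgebra ℂ A] [NormedAddCommGroup W]
    [NormedSpace ℂ W] [FiniteDimensional ℂ A] [FiniteDimensional ℂ W] {act : A → W → W} {S : Set W}
    [IsAct act S] (ho : Orb Aˣ (Holo.Sp act S)) (hS : ∀ x ∈ S, An S x) {c : A → ℂ} (h : Tq.Hm c)
    (h1 : AnalyticAt ℂ c 1) :
    Ty (T := (spA ho).T) (X := (spA ho).X) (Holo.Sp.val (act := act)) (spA ho).π 1 1
      (Tq.lcq act S c) :=
  ((Tq.lcq_eq (presA ho) (χ := h.ρ) fun _ => rfl).trans (H.map_id (fun _ => rfl) _)).symm ▸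
    hc _ _ _ (isAS_spA ho hS) _ (hv_char ho h.ρ h1 fun _ => rfl)

end gen

variable {S Λ R J K ι ν κ : Type} [Fintype S] [Fintype Λ] [Fintype R] [Fintype J] [Fintype K]
  [Fintype ι] [DecidableEq ι] [Fintype ν] [Fintype κ] {ch : Ch ι J} (F : Fam S Λ R J K)
  (Z : Set (ch.WF ν κ Λ))

/-- sums of products of typed factors -/
noncomputable def Sf (k : ℤ) : Submodule ℂ (H (Quo (actF F.toWt) Z)) :=
  Submodule.span ℂ {η | ∃ T : List (Fac F.toWt ν κ × ℕ × ℕ),
    (∀ x ∈ T, FTy x.1 x.2.1 x.2.2 ∧ x.1.At Z) ∧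
      (((T.map (·.2.1)).sum : ℕ) : ℤ) - ((T.map (·.2.2)).sum : ℕ) = k ∧
        (T.map fun x => F.cl Z x.1).prod = η}

variable {F Z} {k l : ℤ} {ℓ : R → ι → ℤ} {a b : H (Quo (actF F.toWt) Z)}

theorem Sf.one : 1 ∈ Sf F Z 0 := Submodule.subset_span ⟨[], by simp, by simp, rfl⟩

theorem Sf.mul (ha : a ∈ Sf F Z k) (hb : b ∈ Sf F Z l) : a * b ∈ Sf F Z (k + l) := by
  induction ha using Submodule.span_induction with
  | zero => rw [zero_mul]; exact zero_mem _
  | add x y _ _ hx hy => rw [add_mul]; exact add_mem hx hy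
  | smul z x _ hx => rw [smul_mul_assoc]; exact Submodule.smul_mem _ _ hx
  | mem x hx =>
    induction hb using Submodule.span_induction with
    | zero => rw [mul_zero]; exact zero_mem _
    | add x y _ _ hx hy => rw [mul_add]; exact add_mem hx hy
    | smul z x _ hx => rw [mul_smul_comm]; exact Submodule.smul_mem _ _ hx
    | mem y hy =>
      obtain ⟨T, h1, h2, rfl⟩ := hx
      obtain ⟨T', h3, h4, rfl⟩ := hy
      refine Submodule.subset_span ⟨T ++ T', List.forall_mem_append.2 ⟨h1, h3⟩, ?_, by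
        rw [List.map_append, List.prod_append]⟩
      rw [List.map_append, List.map_append, List.sum_append, List.sum_append]
      push_cast at h2 h4 ⊢
      omega

theorem Sf.pow (ha : a ∈ Sf F Z 0) : ∀ n : ℕ, a ^ n ∈ Sf F Z 0
  | 0 => by rw [pow_zero]; exact Sf.one
  | n + 1 => by rw [pow_succ, ← add_zero (0 : ℤ)]; exact Sf.mul (Sf.pow ha n) ha

theorem Sf.prod {β : Type} {c : β → H (Quo (actF F.toWt) Z)} {w : β → ℤ}
    (h : ∀ i, c i ∈ Sf F Z (w i)) : ∀ L : List β, (L.map c).prod ∈ Sf F Z (L.map w).sum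
  | [] => Sf.one
  | i :: L => Sf.mul (h i) (Sf.prod h L)

theorem Sf.psi (n : Mk ν κ) : hcls (psiF n) ∈ Sf F Z 0 :=
  Submodule.subset_span ⟨[(.psi n, 1, 1)], List.forall_mem_singleton.2 ⟨⟨rfl, rfl⟩, trivial⟩,
    by simp, mul_one _⟩

theorem Sf.ev (h : GZ F ℓ Z) (n : Mk ν κ) {A : Set _} (hA : ∀ x ∈ Z, vl x n ∈ A) {c : H (F.X A)}
    (hc : c ∈ Wc (Subtype.val : A → _) (Quo.mk F.actT) k) :
    H.map (h.eqh_vl n hA).toEqv.qm c ∈ Sf F Z k := by
  induction hc using Submodule.span_induction with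
  | zero => rw [map_zero]; exact zero_mem _
  | add x y _ _ hx hy => rw [map_add]; exact add_mem hx hy
  | smul z x _ hx => rw [H.map_smulC]; exact Submodule.smul_mem _ _ hx
  | mem x hx =>
    obtain ⟨p, q, e, a⟩ := hx
    exact Submodule.subset_span ⟨[(.ev n A x, p, q)], List.forall_mem_singleton.2 ⟨a, hA⟩,
      by simpa using e, (mul_one _).trans (h.cl_ev n hA x)⟩

theorem Sf.ww (hF : StFac) (h : GZ F ℓ Z) (hZ : ∀ x ∈ Z, An Z x) (ha : a ∈ Sf F Z k) :
    (show H (zsp h.toOZ).X from a) ∈ Ww (zsp h.toOZ) (zvl h.toOZ) k := by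
  induction ha using Submodule.span_induction with
  | zero => exact zero_mem _
  | add x y _ _ hx hy => exact add_mem hx hy
  | smul z x _ hx => exact Submodule.smul_mem _ _ hx
  | mem x hx =>
    obtain ⟨T, h1, h2, rfl⟩ := hx
    exact Submodule.subset_span ⟨_, _, h2, hF F ℓ Z h hZ T h1⟩

end Vale.Agent.P287Q.Glob
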