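import Vale.Agent.P287Q.Lz.HNK

/-! Normalisation of a node in localisation: reduction to statements about points. -/

set_option linter.unusedSectionVars false
set_option linter.style.haveILetI false

namespace Vale.Agent.P269.Lz

open Set Function Topology Filter TensorProduct B Vale.Agent.P291Z Vale.Agent.P269.Ch
  Vale.Agent.P269.Loc LG

variable {R J K σ ν : Type} [Fintype R]
  [Fintype J] [Fintype K] [Fintype σ] [Fintype ν] [DecidableEq R] [DecidableEq σ]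
  {P : TT R J K σ} {K₀ : RD R} {k D : ℕ} {g : ℤ} {d : R → ℤ} {a : σ → ℂ}
  {τ : Md P ν (g + 1) d} {τ' : Md P (ν ⊕ Unit × Bool) g d} (G : Geo k D a τ)
  (G' : Geo k D a τ') (hP : P.Ok K₀ k D) {O : Set ((P.ch ν k D (g + 1) d).WF ν (Fin 0) Empty)}
  {N : ℕ} (h : P.Al ν k D g d K₀ O N)

include hP in
theorem TT.Ok.gnc (hG : St.GNc) {S Λ : Type} [Fintype S] [Fintype Λ] {wt : J → S → ℤ}
    {wk : K → S → ℤ} {wl : Λ → S → ℤ} {B : Set (Λ → ℂ)} {b : ℕ} (h1 : (P.fam wt wk wl B).Good)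
    (h2 : (P.fam wt wk wl B).Sm b) (h3 : (P.fam wt wk wl B).Cp) : ∃ Ψ Φ, (P.fam wt wk wl B).GNc
      (ν := ν) (k := k) (D := D) (g := g + 1) (g' := g) (d := d) Ψ Φ :=
  hG _ k D (g + 1) g d (hP.abs_fam.nice h1 hP.reg_fam h2)
    hP.abs_fam h3 hP.big_fam hP.bigD_fam rfl

include hP in
theorem TT.Ok.gnc_EM (hG : St.GNc) (M : ℕ) : ∃ (Ψ : C(P.LM ν k D g d M, P.XM ν k D (g + 1) d M))
    (Φ : C(P.LM ν k D g d M, P.XM (ν ⊕ Unit × Bool) k D g d M)), (P.EM M).GNc Ψ Φ :=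
  hP.gnc hG (hP.good_EM M) (TT.sm_EM M) (D3c.cp_EM M)

section tc

variable {A B W A' B' W' T : Type} [NormedRing A] [NormedAlgebra ℂ A]
  [NormedRing B] [NormedAlgebra ℂ B] [NormedAddCommGroup W] [NormedSpace ℂ W] [NormedRing A']
  [NormedAlgebra ℂ A'] [NormedRing B'] [NormedAlgebra ℂ B'] [NormedAddCommGroup W']
  [NormedSpace ℂ W'] [AddCommGroup T] [Module ℂ T] [TopologicalSpace T] [FiniteDimensional ℂ A]
  [FiniteDimensional ℂ B] [FiniteDimensional ℂ W] [FiniteDimensional ℂ A'] [FiniteDimensional ℂ B']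
  [FiniteDimensional ℂ W'] {act₀ : A → W → W} {act : B → W → W} {act₀' : A' → W' → W'}
  {act' : B' → W' → W'} {Dk : KD B W T} {Z : Set W} {Z' : Set W'} {θ₀ : A' →ₐ[ℂ] A}
  {θ : B' →ₐ[ℂ] B} {f : W' →L[ℂ] W} [IsTopologicalAddGroup T] [ContinuousSMul ℂ T] [T2Space T]
  {U U' : ℕ → Type} [∀ M, NormedAddCommGroup (U M)] [∀ M, NormedSpace ℂ (U M)]
  [∀ M, FiniteDimensional ℂ (U M)] [∀ M, NormedAddCommGroup (U' M)] [∀ M, NormedSpace ℂ (U' M)]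
  [∀ M, FiniteDimensional ℂ (U' M)] {aM : ∀ M, B → U M → U M} {ZM : ∀ M, Set (U M)}
  {aM' : ∀ M, B' → U' M → U' M} {ZM' : ∀ M, Set (U' M)}

include hP in
theorem Geo.nod_tc (ha : LinearIndependent ℚ a) (t : TG P a) {s' : TC σ act₀' act' (Dk.pb θ f) Z'}
    {s : TC σ act₀ act Dk Z} (h : TC.Mp θ₀ s' s) (e : Imm h.mor)
    (hb : ∀ u v, e.L (s'.h.b u v) = s.h.b u (e.L v)) {N : ∀ M, VB (s'.h.toTS.B M)}
    (hν : Nonempty s'.Y.T → ∀ M, IsNb e h.isEq hb (N M)) (L : ∀ M, s.Lv M (aM M) (ZM M))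
    (L' : ∀ M, s'.Lv M (aM' M) (ZM' M)) (u : τ.A ≃ₜ s.F) {i : ∀ M, C(τ.A × Bs σ M, Quo (aM M) (ZM M))}
    (hp : Pc s.h.toTS s.k.Zs (fun M => (L M).j) (s.g.comp (u : C(_, _))) i)
    (hI : haveI := fun M => (L M).nice; IsLoc (chiA a) (fun M => (L M).β) i τ.I)
    {Φ : ∀ M, C(Quo (aM' M) (ZM' M), P.XM (ν ⊕ Unit × Bool) k D g d M)} {φ' : C(s'.F, τ'.A)}
    (hsq : ∀ M z, Φ M ((L' M).i z) = G'.i M (pr φ' M z))
    (hε : ∀ M, H.map (L' M).j (N M).eu.1 = -H.map (Φ M) (hcls (psiF (.inl (qq false)))) -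
      H.map (Φ M) (hcls (psiF (.inl (qq true))))) (hΦ : ∀ M, IsClosedEmbedding (Φ M))
    (hg : haveI := G'.nice; ∀ M, ∃ t n, Nd.IsD3 (P.EM M) t ∧
      IsDeg (2 * n) (evT (.inl (qq false)) (.inl (qq true)) (P.EM M).cone3 t :
        Coch (P.XM (ν ⊕ Unit × Bool) k D g d M)) ∧ push (Φ M) (L' M).β =
        cap (hcls (evT (.inl (qq false)) (.inl (qq true)) (P.EM M).cone3 t)) (P.vM _ k D g d M))
    (hr : ∀ M, Φ M ⁻¹' range (G'.i M) ⊆ range (L' M).i)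
    {Q : AM1 R J (ν ⊕ Unit × Bool) → Prop} {η : F ⊗[ℂ] Hev τ'.A} (hU : IsClopen (τ'.sel Q))
    (hη : pbE φ' (τ'.id Q * ((-τ'.ψ (qq false) - τ'.ψ (qq true)) * η - 1)) = 0)
    {r : AM1 R J ν → ℕ} (hf : ∀ z t n, s.g (u z) = s.Y.π t →
      Loc.Cnt h.mor {t' | s'.Y.π t' ∈ s'.g '' (φ' ⁻¹' τ'.sel Q)} t n → (n : ℂ) = τ.cf r z) :
    IsLocallyConstant (τ.cf r) ∧ ∀ x x', pb F (.comp (u.symm : C(_, _)) h.φ) x = pb F φ' x' →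
      τ.I (inF _ (fnE (τ.cf r)) * x) =
        τ'.I (inF _ (τ'.id Q * η) * inF _ (τ'.dg t.dg (qq false) (qq true)) * x') :=
  haveI := fun M => (L M).nice
  haveI := fun M => (L' M).nice
  G'.nod_eq hsq hP ha t e h.isEq hb hν s.κ hp (h.pc L')
    (fun z => (congrArg s.g (u.apply_symm_apply _)).trans (h.g_φ z)) hI hε hΦ
    (fun M => (h.vir_eq (L' M)).symm ▸ hg M) hr hU hη hf

end tc

theorem Geo.nod_eq' {Ψ : ∀ M, C(P.LM ν k D g d M, P.XM ν k D (g + 1) d M)}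
    {Φ : ∀ M, C(P.LM ν k D g d M, P.XM (ν ⊕ Unit × Bool) k D g d M)}
    (hN : ∀ M, (P.EM M).GNc (Ψ M) (Φ M)) {φ' : C(h.tl.F, τ'.A)}
    (hsq : ∀ M z, Φ M ((hP.ll h M).i z) = G'.i M (pr φ' M z))
    (hr : ∀ M, Φ M ⁻¹' range (G'.i M) ⊆ range (hP.ll h M).i) (ha : LinearIndependent ℚ a)
    (t : TG P a)
    {Q : AM1 R J (ν ⊕ Unit × Bool) → Prop} {η : F ⊗[ℂ] Hev τ'.A} (hU : IsClopen (τ'.sel Q))
    (hη : pbE φ' (τ'.id Q * ((-τ'.ψ (qq false) - τ'.ψ (qq true)) * η - 1)) = 0)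
    {f : AM1 R J ν → ℕ} (hf : ∀ z t n, G.gY hP h.toAm z = h.tc.Y.π t → Loc.Cnt h.mp.mor
      {t' | h.tl.Y.π t' ∈ h.tl.g '' (φ' ⁻¹' τ'.sel Q)} t n → (n : ℂ) = τ.cf f z) :
    IsLocallyConstant (τ.cf f) ∧ ∀ x x', pb F (G.φL hP h) x = pb F φ' x' →
      τ.I (inF _ (fnE (τ.cf f)) * x) =
        τ'.I (inF _ (τ'.id Q * η) * inF _ (τ'.dg t.dg (qq false) (qq true)) * x') :=
  haveI := G'.nice
  G'.nod_tc hP ha t h.mp h.imm h.mp.hb h.isNb h.toAm.lv (hP.ll h) (G.φ hP h.toAm)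
    (G.pc hP h.toAm) (G.loc' hP h.toAm) hsq (fun M => hP.eu_eq h (hN M)) (fun M => TT.isPr (hN M))
    (fun M => let ⟨t, ht⟩ := (hN M).dg; let ⟨m, c⟩ := (hN M).co t ht
      ⟨t, m, ht, c.deg, hP.push_eq h (hN M) ht⟩) hr hU hη hf

/-- the statements about points -/
structure Geo.Pw (Ψ : ∀ M, C(P.LM ν k D g d M, P.XM ν k D (g + 1) d M))
    (Φ : ∀ M, C(P.LM ν k D g d M, P.XM (ν ⊕ Unit × Bool) k D g d M)) (φ' : C(h.tl.F, τ'.A)) :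
    Prop where
  inj : Injective φ'
  pt : ∀ z, ∃ m n, ∃ b : m.Nds n, τ.Rp (G.φL hP h z) m ∧ τ'.Rp (φ' z) (ctp m b)
  all : ∀ z m n (b : m.Nds n), τ.Rp z m → ∃ z', G.φL hP h z' = z ∧ τ'.Rp (φ' z') (ctp m b)
  ev : ∀ n, (τ.ev n).comp (G.φL hP h) = (τ'.ev (.inl n)).comp φ'
  node : (τ'.ev (qq false)).comp φ' = (τ'.ev (qq true)).comp φ'
  cnt : ∀ Q, Inv P Q → ∀ z t n, G.gY hP h.toAm z = h.tc.Y.π t →
    Loc.Cnt h.mp.mor {t' | h.tl.Y.π t' ∈ h.tl.g '' (φ' ⁻¹' τ'.sel Q)} t n →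
      (n : ℂ) = τ.cf (cntN · Q) z
  sq : ∀ M z, Φ M ((hP.ll h M).i z) = G'.i M (pr φ' M z)
  rng : ∀ M, Φ M ⁻¹' range (G'.i M) ⊆ range (hP.ll h M).i
  sq' : ∀ M z, Ψ M ((hP.ll h M).i z) = G.i M (pr (G.φL hP h) M z)

theorem Geo.Pw.nod {Ψ Φ φ'} (w : G.Pw G' hP h Ψ Φ φ') (hN : ∀ M, (P.EM M).GNc (Ψ M) (Φ M))
    (ha : LinearIndependent ℚ a) (t : TG P a) : Nod t.dg τ τ' (G.φL hP h) φ' :=
  ⟨w.inj, w.pt, w.all, fun n => G.nod_ψ G' w.sq w.sq' n fun M => TT.psi_eq (hN M) n, w.ev, w.node,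
    fun Q _ b1 b2 b3 => G.nod_eq' G' hP h hN w.sq w.rng ha t b2 b3 (w.cnt Q b1)⟩

end Vale.Agent.P269.Lz
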