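import Vale.Agent.P287Q.Lz.Amb
import Vale.Agent.P287Q.Lz.FxD
import Vale.Agent.P287Q.G.LG.HNQ

/-! The image of the fixed locus in the moduli spaces. -/

set_option linter.unusedSectionVars false

namespace Vale.Agent.P269.Lz

open Set Function Topology Filter Vale.Agent.P291Z Vale.Agent.P269.Ch Vale.Agent.P269.Loc LG

variable {R J K σ ν : Type} [Fintype R] [Fintype J] [Fintype K] [Fintype σ] [Fintype ν]
  [DecidableEq R] [DecidableEq σ] {P : TT R J K σ} {K₀ : RD R} {k D M : ℕ} {g : ℤ}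
  {d : R → ℤ} {a : σ → ℂ} {m m' : AM1 R J ν}

theorem sol_of_par {l} (h : (par l m).Sol (P.EM M)) : m.Sol P.E :=
  ⟨trivial, h.2.1, fun z => mem_of_eq_of_mem (show m.vl z = (Empty.elim, ((par l m).vl z).2) from
    Prod.ext (Subsingleton.elim _ _) rfl) (TT.cone_iff.1 (h.2.2 z)).2⟩

/-- the image of the fixed locus consists of fixed maps -/
theorem Geo.fx_of_range {τ : Md P ν g d} (G : Geo k D a τ) (hP : P.Ok K₀ k D) {M : ℕ}
    {y : P.XM ν k D g d M} {p : PM σ M} {m : AM1 R J ν}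
    (h : (P.EM M).At y (par (uncurry p.val) m)) (hy : y ∈ range (G.i M)) : P.Fx m g d := by
  obtain ⟨⟨x, b⟩, rfl⟩ := hy
  obtain ⟨q, rfl⟩ := isOpenQuotientMap_bp.surjective b
  obtain ⟨m', hm⟩ := τ.ex x
  obtain ⟨e, t, s, c⟩ := AM.iso_iff.1 ((h.eq_iff hP.bigD_fam (G.pt M x q m' hm)).1 rfl)
  have h1 := h.stable hP.bigD_fam
  have h2 := h.typ
  exact ⟨sol_of_par (h.sol hP.inv_EM), h1, h2,
    (str_par (W := P.E.toWt) (W' := (P.EM M).toWt) (m := m) (m' := m') rfl c).2 (τ.fx hm).str⟩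

/-- fixed maps lie in the image of the fixed locus -/
theorem Geo.mem_range_i {τ : Md P ν g d} (G : Geo k D a τ) (hP : P.Ok K₀ k D) {M : ℕ}
    {y : P.XM ν k D g d M} {p : PM σ M} {m : AM1 R J ν}
    (h : (P.EM M).At y (par (uncurry p.val) m)) : y ∈ range (G.i M) ↔ P.Fx m g d :=
  ⟨G.fx_of_range hP h, fun b => let ⟨x, hx⟩ := τ.surj b
    ⟨(x, bp p), ((G.pt M x p m hx).eq_iff hP.bigD_fam h).2 (.refl _)⟩⟩

/-- the image of the fixed locus in the moduli space -/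
theorem Geo.mem_range_g0 {τ : Md P ν g d} (G : Geo k D a τ) (hP : P.Ok K₀ k D)
    {y : P.X0 ν k D g d} (h : P.E.At y m) : y ∈ range G.g0 ↔ P.Fx m g d :=
  ⟨fun ⟨x, e⟩ => τ.fx ((G.rp x m).2 (e ▸ h)), fun b => let ⟨x, hx⟩ := τ.surj b
    ⟨x, (((G.rp x m).1 hx).eq_iff hP.bigD h).2 (.refl _)⟩⟩

end Vale.Agent.P269.Lz
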