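import Vale.Agent.P287Q.Lz.HNT

/-! The labelled torus chart in the standard charts. -/

set_option linter.unusedSectionVars false
set_option linter.style.haveILetI false

namespace Vale.Agent.P269.Lz

open Set Function Topology Filter Module Vale.Agent.P291Z Vale.Agent.P269.Ch Vale.Agent.P269.Holo
  LG

variable {R J K σ ν κ : Type} [Fintype R] [Fintype J] [Fintype K] [Fintype σ] [Fintype ν]
  [Fintype κ] [DecidableEq R] [DecidableEq σ] {P : TT R J K σ} {K₀ : RD R} {k D M : ℕ} {g : ℤ}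
  {d : R → ℤ}

namespace TT

theorem mem_posO (x : (P.E.sch ν κ k D g d).WF ν κ Empty) (p : σ → Fin (M + 1) → ℂ) :
    μA σ ν κ _ M (x, p) ∈ (P.EM M).posO ν κ k D g d ↔ x ∈ P.E.posO ν κ k D g d := by
  let μ := μA σ ν κ (P.E.sch ν κ k D g d) M
  have e := (isOpenMap_fst.comp μ.symm.toHomeomorph.isOpenMap).preimage_interior_eq_interior_preimage
    μ.symm.continuous.fst {x | x.2 ∈ Ch.base _ _ → ∀ A m, Rep ℓs A x m → m.Pos P.θ k}
  refine Iff.trans ?_ ((Set.ext_iff.1 e (μ (x, p))).symm.trans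
    (congrArg (fun y => y.1 ∈ P.E.posO ν κ k D g d) (μ.symm_apply_apply (x, p))).to_iff)
  refine Set.ext_iff.1 (congrArg interior (Set.ext fun y => imp_congr_right fun _ => ?_)) _
  exact ⟨fun a A m r => a A (par y.1 m) ⟨rfl, r.2⟩, fun a A m r => a A (par 0 m) ⟨rfl, r.2⟩⟩

variable (hP : P.Ok K₀ k D)
include hP

theorem Ok.mem_TL (x : (P.E.sch ν (Fin 0 ⊕ Unit) k D g d).WF ν (Fin 0 ⊕ Unit) Empty)
    (p : σ → Fin (M + 1) → ℂ) : μA σ ν (Fin 0 ⊕ Unit) _ M (x, p) ∈ (P.EM M).TL ν k D g d ↔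
      x ∈ P.E.TL ν k D g d ∧ ∀ i, p i ≠ 0 := by
  have h : P.Sd (P.E.sch ν (Fin 0 ⊕ Unit) k D g d) _ K₀ ℓs :=
    ⟨hP.invT, hP.reg, hP.abs, Fam.chart_std hP.good hP.reg hP.bigD⟩
  have e := h.mem_cyc_EM (x := x) (p := p)
  rw [h.cyc_eq, hP.abs_fam.cyc_eq h.std_EM.inv] at e
  exact (and_congr e (mem_posO x p)).trans and_right_comm

variable (P ν k D g d) in
omit hP in
/-- domains in the standard chart over which the labelled space is smooth -/
abbrev Al (K₀ : RD R) (O : Set ((P.ch ν k D (g + 1) d).WF ν (Fin 0) Empty)) (N : ℕ) : Prop :=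
  P.An (P.E.nms ν (Fin 0 ⊕ Unit) k D g d) (P.td ν k D (g + 1) d) K₀ ℓs (P.E.TL ν k D g d) O N

/-- **existence of domains** -/
theorem Ok.exists_al (hc : CompactSpace (P.E.ML ν k D (g + 1) g d)) :
    ∃ O N, P.Al ν k D g d K₀ O N := by
  obtain ⟨O, h⟩ := hP.exists_as ν (g + 1) d
  obtain ⟨Q, V, N₀, N, nc⟩ := hP.good.exists_nc (ν := ν) (κ := Fin 0) hP.abs_fam
    hP.reg TT.sm_E hP.big hP.bigD g d
  obtain ⟨U, a, b, c⟩ := h.exists_le (U := Q ∩ P.E.posG ν (Fin 0) k D (g + 1) d)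
    (nc.pr.opn.inter Fam.isOpen_posG)
    (fun s hs x hx => ⟨nc.pr.inv s hs x hx.1, Fam.ivt_posG s hs x hx.2⟩)
    fun x hx => ⟨nc.pr.sol hx.1, Fam.sol_posG hP.good.toInv hP.big hP.bigD hx.1⟩
  obtain ⟨U', b', e⟩ := c.dom.opn
  rw [c.cyc_eq] at e
  generalize hO : O ∩ U = O' at c e
  have s : O' ⊆ Q ∩ P.E.posG ν (Fin 0) k D (g + 1) d := fun x hx => a (hO.ge hx).2
  subst e
  have := c.dom.isAct
  have e := Fam.OL_eq (g' := g) hP.big hP.bigD fun x hx => (s hx).2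
  have f := fun x hx => Nat.add_left_cancel ((c.mf x hx).unique (nc.mf b' (fun x hx => (s hx).1) x hx))
  refine ⟨_, _, c, nc.gh.num, Fam.lev_TL (F := P.ET) c.std_ET.inv, fun z hz => ?_, ?_, hc⟩
  · rw [f _ hz.2]
    exact e.symm ▸ nc.mf_OL b' (fun x hx => (s hx).1) c.dom.orb z (e.le hz)
  · refine e.symm ▸ fun z hz => ?_
    rw [f _ hz.2]
    exact nc.rank b' (fun x hx => (s hx).1) c.dom.orb hz

end TT

end Vale.Agent.P269.Lz
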