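import Vale.Agent.P287Q.Lz.HVt
import Vale.Agent.P287Q.Lz.HVd
import Vale.Agent.P269.LG.HVl0
import Vale.Agent.P287Q.G.LG.HVd
import Vale.Agent.P287Q.G.LG.EB

set_option linter.unusedSectionVars false
set_option linter.style.haveILetI false

/-! The Borel construction over a fixed part of the target is a product. -/

namespace Vale.Agent.P269.Lz

open Set Function Topology Module TensorProduct B Vale.Agent.P291Z Vale.Agent.P269.Ch
  Vale.Agent.P269.Loc LG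

variable {R J K σ ν κ ι : Type} [Fintype R] [Fintype J] [Fintype K] [Fintype σ] [Fintype ν]
  [Fintype κ] [Fintype ι] [DecidableEq R] [DecidableEq σ] [DecidableEq ι] {P : TT R J K σ}
  {K₀ : RD R} {ρ : σ → R → ℤ}

namespace HVq

theorem bp_surj {M : ℕ} : Surjective (bp : PM σ M → Bs σ M) := fun b =>
  let ⟨x, e⟩ := ((TS.triv σ pt).B M).surj b
  ⟨x.2, e⟩

theorem bc_euT {L L' A : Type} [CommRing L] [Algebra ℂ L] [CommRing L'] [Algebra ℂ L']
    [TopologicalSpace A] (χ : L →ₐ[ℂ] L') (x : L) (r : ℕ) (c : PowerSeries (Hev A)) :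
    bc _ χ (euT x r c) = euT (χ x) r c := by
  simp only [euT, map_sum, bc_tmul, map_pow]

theorem evA_euT {A : Type} [TopologicalSpace A] (M : ℕ) (x : Loc.R σ) (r : ℕ)
    (c : PowerSeries (Hev A)) : evA A M (inH A (euT x r c)) = ∑ m ∈ Finset.range (r + 1),
      H.map .snd (lam M x) ^ (r - m) * H.map .fst (PowerSeries.coeff m c).1 := by
  simp only [euT, map_sum, Algebra.TensorProduct.map_tmul, evA_tmul, map_pow]
  rfl

theorem inH_map {A A' : Type} [TopologicalSpace A] [TopologicalSpace A'] (f : C(A', A))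
    (x : Loc.R σ ⊗[ℂ] Hev A) :
    inH A' (Algebra.TensorProduct.map (AlgHom.id ℂ _) (Hev.map f) x) = pb _ f (inH A x) := by
  induction x with
  | zero => simp only [map_zero]
  | add a b ha hb => simp only [map_add, ha, hb]
  | tmul k c => rfl

theorem psi_incl {S Λ : Type} [Fintype S] [Fintype Λ] {ch : Ch ι J} {F F' : Fam S Λ R J K}
    {ℓ : R → ι → ℤ} {Z Z' : Set (ch.WF ν κ Λ)} (h : GZ F ℓ Z) (h' : GZ F' ℓ Z') (e : Z' ⊆ Z)
    (n : Mk ν κ) (d : F'.toWt = F.toWt) :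
    H.map (EqM.incl (act := actF F.toWt) e).map (hcls (psiF n)) = hcls (psiF n) := by
  obtain ⟨_⟩ := F
  obtain ⟨_⟩ := F'
  subst d
  haveI := h.act
  haveI := h'.act
  exact (congrArg _ (h.cl_psi n)).trans ((map_neg _ _).trans ((congrArg Neg.neg
    ((h.psi n).res_incl h.orb h'.orb e).1.symm).trans (h'.cl_psi n).symm))

theorem sum_dual (a : ι → ℤ) (b : R → ℤ) (n : R → ι → ℤ) :
    ∑ i, a i * ∑ r, b r * n r i = ∑ r, b r * ∑ i, a i * n r i := by
  simp only [Finset.mul_sum]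
  rw [Finset.sum_comm]
  exact Finset.sum_congr rfl fun _ _ => Finset.sum_congr rfl fun _ _ => mul_left_comm _ _ _

end HVq

open HVq

variable {ch : Ch ι J} {e : K → ι → ℕ} {ℓ : R → ι → ℤ} {M : ℕ}

variable (ν κ ch) in
/-- the moduli space in a chart -/
abbrev Xc {S Λ : Type} [Fintype S] [Fintype Λ] (F : Fam S Λ R J K) : Type :=
  ModS F (ch.cyc κ F (0 : ν → J → ℕ))

namespace TT

variable (P ρ) in
/-- the character of the field `l` along the fixed part with the label `ρ` -/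
noncomputable def cx (l : J) : Loc.R σ := ∑ s, (nw P.E.toWt P.wt ρ l s : ℂ) • MvPolynomial.X s

theorem chiA_cx (a : σ → ℂ) (l : J) : chiA a (P.cx ρ l) = P.bw ρ l a • tt := by
  simp only [cx, map_sum, map_smul, chiA_X]
  exact (Finset.sum_congr rfl fun _ _ => (mul_smul (α := ℂ) (β := F) _ _ _).symm).trans
    (Finset.sum_smul (R := ℂ) (M := F)).symm

theorem exists_tw (hA : P.movᶜ ⊆ P.zer) (hm : ∀ j ∈ P.mov, j ∉ P.mv ρ)
    (kil : ∀ q, (P.wk q ≠ fun s => ∑ r, ρ s r * P.χ q r) →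
      ∀ α ∈ (P.G q).support, ∃ i ∉ P.mov, α i ≠ 0) (h : ch.Lat (P.EM M).toWt ℓ) :
    ∃ n, ch.Tw2 (P.EM M) P.E ℓ n (fun j s => ∑ r, ρ s r * P.w j r)
      {q | P.wk q ≠ fun s => ∑ r, ρ s r * P.χ q r} := by
  choose n a b using h.exists_dual
  refine ⟨fun s i => ∑ r, ρ s r * n r i, abs hA, abs hA, rfl, rfl, rfl,
    fun l l' => (fib_eq l).trans (fib_eq l').symm, fun k => (supp_G k).trans (supp_G k).symm,
    fun s => ?_, fun j s => ?_, fun j hj => funext fun s => ?_, fun q hq s => ?_,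
    fun q hq α hα => kil q hq α ((supp_eq q).le hα)⟩
  · simp only [sum_dual, a, mul_zero, Finset.sum_const_zero]
  · simp only [sum_dual, h.wd, b]
  · exact sub_eq_zero.1 (congrFun (not_not.1 (hm j hj)) s)
  · refine (congrFun (not_not.1 hq) s).trans ?_
    simp only [sum_dual, Fam.dk, b]

/-- the Borel construction of a target on which the torus acts through the label `ρ` is a product -/
theorem exists_prd' (hA : P.movᶜ ⊆ P.zer) (hm : ∀ j ∈ P.mov, j ∉ P.mv ρ)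
    (kil : ∀ q, (P.wk q ≠ fun s => ∑ r, ρ s r * P.χ q r) →
      ∀ α ∈ (P.G q).support, ∃ i ∉ P.mov, α i ≠ 0)
    {b b' : ℕ} {U : Set (ch.WF ν κ _)} {U' : Set (ch.WF ν κ _)}
    (hM : ch.Ok (P.EM M) e K₀ ℓ b U) (h0 : ch.Ok P.E e K₀ ℓ b' U')
    [CompactSpace (Xc ν κ ch P.E)] [Nice (Xc ν κ ch P.E)] [Nice (Xc ν κ ch (P.EM M))] :
    ∃ j : C(Xc ν κ ch P.E × Bs σ M, Xc ν κ ch (P.EM M)), IsHomeomorph j ∧
      (∀ x p, ∃ h, j (Quo.mk _ x, bp p) = Quo.mk _ ⟨(uncurry p.val, x.1.2), h⟩) ∧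
      (∀ f c, intg (P291Z.res j (virF _ e _)) (H.map .snd (lam M f) * H.map .fst c) =
        MvPolynomial.coeff (topM σ M) f * intg (virF _ e _) c) ∧
      (∀ m, H.map j (hcls (psiF m)) = H.map .fst (hcls (psiF m))) ∧
      (∀ l, H.map j (hcls ((ch.sdX ν κ (P.EM M).toWt l).eu (actF _) _)) =
        evA _ M (inH _ (euT (P.cx ρ l) (finrank ℂ (ch.Th l) * ch.h (some l))
          ((ch.sdX ν κ P.E.toWt l).ch (actF _) _)))) ∧
      ∀ l, H.map j (hcls ((ch.sdK ν κ (P.EM M).toWt l).eu (actF _) _)) =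
        evA _ M (inH _ (euT (P.cx ρ l) (ch.rkO l) ((ch.sdK ν κ P.E.toWt l).ch (actF _) _))) := by
  obtain ⟨n, h⟩ := exists_tw hA hm kil hM.lat
  have hW := actL_EM (P := P) (M := M)
  haveI := fp_PMs hW
  haveI := nice_of_orb (Tq.orb (P.EM M).actL (PMs σ M))
  haveI := (h0.gz_cyc (0 : ν → _)).act
  obtain ⟨eB, b1, b2, b3, b4⟩ := exists_eB hW
  have t := h.tZ hM h0
  have hp := t.isHomeomorph
  let j : C(Xc ν κ ch P.E × Bs σ M, Xc ν κ ch (P.EM M)) :=
    ⟨fun z => (hp.homeomorph _).symm (eB z.2, z.1), by fun_prop⟩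
  have a : ∀ z, (t.eqh.toEqv.qm (j z), t.eqM.map (j z)) = (eB z.2, z.1) := fun z =>
    (hp.homeomorph _).apply_symm_apply _
  have a1 : t.eqh.toEqv.qm.comp j = eB.comp .snd := ContinuousMap.ext fun z => congrArg Prod.fst (a z)
  have a2 : t.eqM.map.comp j = .fst := ContinuousMap.ext fun z => congrArg Prod.snd (a z)
  have hj : IsHomeomorph j := (hp.homeomorph _).symm.isHomeomorph.comp
    ((b1.prodMap .id).comp (Homeomorph.prodComm _ _).isHomeomorph)
  have c1 := fun l => T2.hm_chr (nw P.E.toWt P.wt ρ l)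
  have c2 : ∀ l, ∀ τ : σ → ℂ, IsUnit τ → (∏ s, τ s ^ nw P.E.toWt P.wt ρ l s) *
      ∏ s, τ s ^ ∑ r, ρ s r * P.w l r = ∏ s, τ s ^ (P.EM M).wt l s := fun l τ d => by
    rw [← Finset.prod_mul_distrib]
    exact Finset.prod_congr rfl fun s _ => (zpow_add₀ (isUnit_pi_iff.1 d s) _ _).symm.trans
      (congrArg _ (sub_add_cancel _ _))
  have c3 : ∀ l, H.map j (H.map t.eqh.toEqv.qm
      (Tq.lcq _ _ fun τ : σ → ℂ => ∏ s, τ s ^ nw P.E.toWt P.wt ρ l s)) =
      H.map .snd (lam M (P.cx ρ l)) := fun l => by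
    rw [H.map_map, a1, ← H.map_map, T2.lcq_prod _ fun s => T2.hm_ipow (.ev s) _]
    simp only [T2.lcq_ipow (.ev _), cx, map_sum, map_smul, H.map_smulC, ← b3]
  refine ⟨j, hj, fun x p => ⟨(t.mem _).2 ⟨mem_PMs p, mem_of_eq_of_mem (t.q_j _ _) x.2⟩,
    hp.injective ((a _).trans (Prod.ext (b2 p) (congrArg (Quo.mk _)
      (Subtype.ext (t.q_j (uncurry p.val) x.1).symm))))⟩, fun f c => ?_, fun m => ?_, fun l => ?_,
    fun l => ?_⟩
  · have d := (Homeomorph.prodComm (Xc ν κ ch P.E) (Bs σ M)).isHomeomorph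
    rw [h.vir hM h0 (dim_PMs hW), res_cross hp d (f₂ := id) (fun z => congrArg Prod.fst (a z))
      (fun z => congrArg Prod.snd (a z)) b1.isOpenEmbedding .id, ← push_id' (virF _ e _),
      res_push_homeo .id, push_id', ← b4]
    exact intg_cross' (p₁ := .snd) (p₂ := .fst) d _ _ _ _
  · rw [h.psi hM h0, H.map_map, a2]
  · rw [h.euX hM h0 _ (c1 l) (c2 l), evA_euT]
    simp only [map_sum, map_mul, map_pow, c3, H.map_map j t.eqM.map, a2]
  · rw [h.euK hM h0 _ (c1 l) (c2 l), evA_euT]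
    simp only [map_sum, map_mul, map_pow, c3, H.map_map j t.eqM.map, a2]

/-- **the Borel construction over a fixed part is a product** -/
theorem exists_prd (hA : P.movᶜ ⊆ P.zer)
    (kil : ∀ q, (P.wk q ≠ fun s => ∑ r, ρ s r * P.χ q r) →
      ∀ α ∈ (P.G q).support, ∃ i ∈ P.mv ρ, α i ≠ 0)
    {b b' : ℕ} {U : Set (ch.WF ν κ _)} {U' : Set (ch.WF ν κ _)}
    (hM : ch.Ok ((P.V ρ).EM M) e K₀ ℓ b U) (h0 : ch.Ok (P.V ρ).E e K₀ ℓ b' U')
    [CompactSpace (Xc ν κ ch (P.V ρ).E)] [Nice (Xc ν κ ch (P.V ρ).E)]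
    [Nice (Xc ν κ ch ((P.V ρ).EM M))] :
    ∃ j : C(Xc ν κ ch (P.V ρ).E × Bs σ M, Xc ν κ ch ((P.V ρ).EM M)), IsHomeomorph j ∧
      (∀ x p, ∃ h, j (Quo.mk _ x, bp p) = Quo.mk _ ⟨(uncurry p.val, x.1.2), h⟩) ∧
      (∀ f c, intg (P291Z.res j (virF _ e _)) (H.map .snd (lam M f) * H.map .fst c) =
        MvPolynomial.coeff (topM σ M) f * intg (virF _ e _) c) ∧
      (∀ m, H.map j (hcls (psiF m)) = H.map .fst (hcls (psiF m))) ∧
      (∀ l, H.map j (hcls ((ch.sdX ν κ ((P.V ρ).EM M).toWt l).eu (actF _) _)) =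
        evA _ M (inH _ (euT (P.cx ρ l) (finrank ℂ (ch.Th l) * ch.h (some l))
          ((ch.sdX ν κ (P.V ρ).E.toWt l).ch (actF _) _)))) ∧
      ∀ l, H.map j (hcls ((ch.sdK ν κ ((P.V ρ).EM M).toWt l).eu (actF _) _)) =
        evA _ M (inH _ (euT (P.cx ρ l) (ch.rkO l)
          ((ch.sdK ν κ (P.V ρ).E.toWt l).ch (actF _) _))) :=
  exists_prd' (P := P.V ρ) (ρ := ρ)
    (fun i a => (em (i ∈ P.mv ρ)).elim .inr fun b => .inl (hA fun c => a ⟨c, b⟩))
    (fun _ a => a.2) (fun q a α b => (kil q a α b).imp fun _ c => ⟨fun d => d.2 c.1, c.2⟩) hM h0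

end TT

end Vale.Agent.P269.Lz
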