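import Vale.Agent.P287Q.G.LG.HVz
import Vale.Agent.P287Q.G.Bas.Z0

set_option linter.unusedSectionVars false

/-!
# A transversal field is set to zero
-/

namespace Vale.Agent.P269

open Set Function Topology Filter Module P291Z Orb Holo Vir

/-- surjectivity by a count of dimensions -/
theorem HVZ.srj_of_rank {P P' : Type} [AddCommGroup P] [Module ℂ P] [AddCommGroup P'] [Module ℂ P']
    (p : P →ₗ[ℂ] P') {O O₁ : Submodule ℂ P} {B N : Submodule ℂ P'} [FiniteDimensional ℂ O]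
    [FiniteDimensional ℂ O₁] [FiniteDimensional ℂ B] (hN : N ≤ B) (hB : ∀ w ∈ O, p w ∈ B)
    (hk : ∀ w ∈ O, p w ∈ N → w ∈ O₁)
    (hr : finrank ℂ O + finrank ℂ N = finrank ℂ O₁ + finrank ℂ B) :
    ∀ w ∈ B, ∃ w' ∈ O, p w' - w ∈ N := fun w hw => by
  have a := finrank_map_add (N.mkQ ∘ₗ p) (U := O) (W := O ⊓ N.comap p) fun f => by
    simp [Submodule.Quotient.mk_eq_zero]
  have b := finrank_map_add N.mkQ (U := B) (W := N) fun f => by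
    simpa [Submodule.Quotient.mk_eq_zero] using @hN f
  have c : finrank ℂ (O ⊓ N.comap p : Submodule ℂ P) ≤ finrank ℂ O₁ :=
    Submodule.finrank_mono fun f h => hk f h.1 h.2
  have d : O.map (N.mkQ ∘ₗ p) = B.map N.mkQ := Submodule.eq_of_le_of_finrank_le
    (by rintro _ ⟨f, h, rfl⟩; exact ⟨_, hB f h, rfl⟩) (by omega)
  obtain ⟨w', h1, h2⟩ := d.ge ⟨w, hw, rfl⟩
  exact ⟨w', h1, (Submodule.Quotient.eq N).1 h2⟩

namespace Ch

variable {S Λ R J K ι ν κ : Type} [Fintype S] [Fintype Λ] [Fintype R] [Fintype J] [Fintype K]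
  [Fintype ι] [DecidableEq ι] [Fintype ν] [Fintype κ] {ch : Ch ι J} {F : Fam S Λ R J K}
  {e : K → ι → ℕ} {K₀ K₁ K₂ : RD R} {ℓ : R → ι → ℤ} {b : ℕ} {U U₁ U₂ : Set (ch.WF ν κ Λ)}
  {m z T : Set J} {j : J} {x : ch.WF ν κ Λ} {f : ch.P K}

theorem mz_cone (hz : z = F.zer ∪ {j}) {y : (Λ → ℂ) × (J → ℂ)} :
    y ∈ (F.mz m z).cone ↔ y ∈ F.cone ∧ y.2 j = 0 := by
  subst hz
  rw [Fam.mem_cone, Fam.mem_cone]
  exact ⟨fun a => ⟨⟨⟨a.1.1, a.1.2.1, fun i c => a.1.2.2 i (.inl c)⟩, a.2⟩, a.1.2.2 j (.inr rfl)⟩,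
    fun a => ⟨⟨a.1.1.1, a.1.1.2.1, fun i c => c.elim (a.1.1.2.2 i) fun d => d ▸ a.2⟩, a.1.2⟩⟩

/-- the kernel of the Koszul part of a transversal field -/
theorem obs_of_prK (hf : ch.Fits F e) (hm : m = F.mov \ {j}) (hz : z = F.zer ∪ {j})
    (tr : ∀ y ∈ F.cone, y.2 j = 0 → ∃ η ∈ F.vert y, η j ≠ 0) (hx : x ∈ ch.solF ν κ (F.mz m z))
    (h : f ∈ obsM F e x) (h0 : ∀ y ∈ gr x.2, f.1 j y = 0) : f ∈ obsM (F.mz m z) e x := by
  refine mem_obsM.2 ⟨h.1, fun y hy => ?_⟩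
  obtain ⟨Y, a, c⟩ := PD.mem_Im.1 ((mem_obsM.1 h).2 y hy)
  obtain ⟨s, s1, s2⟩ := exists_cone hx hy
  obtain ⟨η, d, d'⟩ := tr _ ((mz_cone hz).1 s1).1 ((mz_cone hz).1 s1).2
  obtain ⟨μ, p⟩ := tvZ_ne (ch := ch) hy.1 j
  have q : Y j = _ := eq_of_kos (t := (pd F e x y).tv j) p fun n =>
    (congrFun (congrFun (congrArg Prod.fst c) j) _).trans (congrFun (h0 y hy) _)
  have r := (hf.rel (x := x) s2).dEq_tv (RP.mem_vert.1 d).1
  rw [show (fun k => ∑ i, F.jac (x.1, s) k i * η i) = 0 from funext (RP.mem_vert.1 d).2,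
    map_zero] at r
  refine PD.mem_Im.2 ⟨Y - (Y j μ / (pd F e x y).tv j μ / η j) • fun i => η i • (pd F e x y).tv i,
    fun i k => ?_, ?_⟩
  · rcases eq_or_ne i j with rfl | l
    · rw [Pi.sub_apply, Pi.smul_apply, smul_smul, div_mul_cancel₀ _ d', ← q, sub_self]
    · have u : i ∉ F.mov := fun u => k (hm.ge ⟨u, l⟩)
      simp [a i u, (RP.mem_vert.1 d).1 i u]
  · change (pd F e x y).dEq pwT _ = _
    rw [map_sub, map_smul, r, smul_zero, sub_zero, c]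

theorem rk_tr (h : ch.Std F e K₀ ℓ) (h' : ch.Std (F.mz m z) e K₁ ℓ) (hj : j ∈ F.mov)
    (hm : m = F.mov \ {j}) (hK : (gr x.2).Nonempty → K₀ = K₁.add ⟨1, F.w j⟩)
    (hx : x ∈ ch.solF ν κ F) (hx' : x ∈ ch.solF ν κ (F.mz m z)) :
    finrank ℂ (obsM F e x) = finrank ℂ (obsM (F.mz m z) e x) + ch.rkO j := by
  rcases (gr x.2).eq_empty_or_nonempty with c | c
  · have a : obsM F e x = obsM (F.mz m z) e x := Submodule.ext fun f =>
      mem_obsM.trans (Iff.trans (by simp only [c, mem_empty_iff_false, false_imp_iff]; rfl)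
        mem_obsM.symm)
    have d : (ch.sdK ν κ F.toWt j).B x = (ch.sdK ν κ F.toWt j).N x := Submodule.ext fun f =>
      mem_sdK_B.trans (Iff.trans (by simp only [c, mem_empty_iff_false, false_imp_iff])
        mem_sdK_N.symm)
    have p := finrank_sdK_B (F := F.toWt) (j := j) h.cuts.ne hx.1.2.1
    rw [d, finrank_sdK_N h.cuts.ne hx.1.2.1] at p
    rw [a]
    omega
  · have p1 := finrank_obsM h.inv h.reg h.fits h.wt h.cuts.ne hx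
    have p2 := finrank_obsM h'.inv h'.reg h'.fits h'.wt h'.cuts.ne hx'
    have p3 := rk_mz (z := z) h.cuts h.wt hx.1.2.1 hj hm (hK c)
    rw [vanM_mz] at p2
    omega

/-- the obstruction theories on the smaller base differ by the Koszul bundle -/
theorem Std.zT (h : ch.Std F e K₀ ℓ) (h' : ch.Std (F.mz m z) e K₁ ℓ) (hj : j ∈ F.mov)
    (hm : m = F.mov \ {j}) (hz : z = F.zer ∪ {j})
    (hK : (F.mz m z).cone.Nonempty → K₀ = K₁.add ⟨1, F.w j⟩)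
    (tr : ∀ y ∈ F.cone, y.2 j = 0 → ∃ η ∈ F.vert y, η j ≠ 0) {Z S₀ : Set (ch.WF ν κ Λ)}
    (hS : ∀ x ∈ S₀, x.2 ∈ ch.base _ ∧ x.2.X j = 0) (hZS : Z ⊆ S₀) (hZ : Z ⊆ ch.solF ν κ F)
    (hZ' : Z ⊆ ch.solF ν κ (F.mz m z)) {d : ℕ} {v v' : BM (Quo (actF F.toWt) Z)}
    (w : (ch.kd ν κ F e).IsW (actF F.toWt) Z S₀ d v)
    (w' : (ch.kd ν κ (F.mz m z) e).IsW (actF F.toWt) Z S₀ d v') :
    v = cap (hcls ((ch.sdK ν κ F.toWt j).eu (actF F.toWt) Z)) v' := by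
  have r : ∀ x ∈ Z, finrank ℂ (obsM F e x) = finrank ℂ (obsM (F.mz m z) e x) + ch.rkO j :=
    fun x c => rk_tr h h' hj hm (fun ⟨_, a⟩ => hK (let ⟨_, p, _⟩ := exists_cone (hZ' c) a; ⟨_, p⟩))
      (hZ c) (hZ' c)
  have l := prK_lin (F := F) h.fits fun x a => (hS x a).2
  refine w.eq_cap w' (h.cuts.okK (fun x a => (hS x a).1) j) l
    (mz_lin (hm.le.trans sdiff_subset) _) (fun _ _ _ _ a => vanM_mz.ge a) (fun x c => ?_)
    (fun x _ f a => prK_N (F := F) (e := e) a.1 fun y hy => funext fun n => ?_) fun x c => ?_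
  · have : FiniteDimensional ℂ (obsM F e x) := Submodule.finiteDimensional_inf_left _ _
    have : FiniteDimensional ℂ (obsM (F.mz m z) e x) := Submodule.finiteDimensional_inf_left _ _
    refine HVZ.srj_of_rank (ch.prK K j) (O := obsM F e x) (O₁ := obsM (F.mz m z) e x)
      (B := (ch.sdK ν κ F.toWt j).B x) (N := (ch.sdK ν κ F.toWt j).N x) sdK_le
      (l.obs x (hZS c) (sctF_mem_vanM h.fits (hZ c))) (fun f a p => obs_of_prK h.fits hm hz tr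
        (hZ' c) a fun y hy => (congrFun (prK_fst f) y).symm.trans ((mem_sdK_N.1 p).2 y hy)) ?_
    rw [r x c, finrank_sdK_B h.cuts.ne (hZ c).1.2.1, finrank_sdK_N h.cuts.ne (hZ c).1.2.1]
    omega
  · obtain ⟨Y, p, q, -⟩ := (mem_obsF.2 a).2 y hy
    simpa [p j fun c => (hm.le c).2 rfl] using q j n
  · have := r x c
    have q : finrank ℂ (vanM (F.mz m z) e x) = finrank ℂ (vanM F e x) := by rw [vanM_mz]
    dsimp only
    omega

/-- setting one transversal field to zero -/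
theorem Ok.zJ (h : ch.Ok F e K₀ ℓ b U) (hA : F.Abs) (h' : ch.Ok (F.mz m z) e K₁ ℓ b U₁)
    (hj : j ∈ F.mov) (hm : m = F.mov \ {j}) (hz : z = F.zer ∪ {j})
    (hK : (F.mz m z).cone.Nonempty → K₀ = K₁.add ⟨1, F.w j⟩)
    (tr : ∀ y ∈ F.cone, y.2 j = 0 → ∃ η ∈ F.vert y, η j ≠ 0)
    [Nice (ModS F (ch.cyc κ F (0 : ν → J → ℕ)))] :
    ∃ (s : ch.solF ν κ (F.mz m z) ∩ ch.cyc κ (F.mz m z) 0 ⊆ ch.solF ν κ F ∩ ch.cyc κ F 0) (d : ℕ)
      (t : Coch (ModS F (ch.cyc κ F (0 : ν → J → ℕ)))),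
      IsClosedEmbedding (Quo.incl (actF F.toWt) s) ∧ IsCo (range (Quo.incl (actF F.toWt) s)) d t ∧
      hcls t = hcls ((ch.sdX ν κ F.toWt j).eu (actF F.toWt) (ch.solF ν κ F ∩ ch.cyc κ F 0)) ∧
      gys (Quo.incl (actF F.toWt) s) t (virF F e _) =
        cap (hcls ((ch.sdK ν κ F.toWt j).eu (actF F.toWt)
          (ch.solF ν κ (F.mz m z) ∩ ch.cyc κ (F.mz m z) 0))) (virF (F.mz m z) e _) := by
  obtain ⟨a1, a2⟩ := h.isW_abs hA
  obtain ⟨b1, b2⟩ := h'.isW_abs (abs_mz hA hm hz)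
  have c1 := fun {x : ch.WF ν κ Λ} => cyc_mz (x := x) h.inv h'.inv hA hm hz
  have c2 : ch.solF ν κ (F.mz m z) ∩ ch.cyc κ (F.mz m z) 0 =
      ch.solF ν κ F ∩ ch.cyc κ F 0 ∩ ch.cyc κ (F.mz m z) 0 := Set.ext fun x =>
    and_congr_left fun a => (mz_sol hz (c1.1 a).2).trans (and_iff_left (c1.1 a).1).symm
  obtain ⟨_, _, _, g, -⟩ := id a2
  have k : ((ch.sdX ν κ F.toWt j).kds (XF j)).Gd (actF F.toWt)
      (ch.solF ν κ (F.mz m z) ∩ ch.cyc κ (F.mz m z) 0) (ch.solF ν κ F ∩ ch.cyc κ F 0) 0 _ :=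
    ⟨⟨c2.le.trans inter_subset_left, ⟨univ, isOpen_univ, (inter_univ _).symm⟩, g.isActZ, g.orbZ,
      fun x a => ⟨fun c => c2.ge ⟨a, c1.2 ⟨a.2, c⟩⟩, fun c => (c1.1 c.2).2⟩⟩, okXF _ _ j⟩
  obtain ⟨d, t, t1, t2, t3⟩ := (okX _ j).vr_kds (fun _ _ => trivial) k
  refine ⟨k.dom.sub, d, t, k.isClosedEmbedding, t1, t2, (t3 _).symm.trans ?_⟩
  rcases eq_empty_or_nonempty (ch.solF ν κ (F.mz m z) ∩ ch.cyc κ (F.mz m z) 0) with c | ⟨x, c⟩
  · have : IsEmpty (Quo (actF F.toWt) (ch.solF ν κ (F.mz m z) ∩ ch.cyc κ (F.mz m z) 0)) :=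
      ⟨fun y => (c.le y.out.2).elim⟩
    exact BM_eq_of_isEmpty _ _
  have d1 := h'.pr.finrank_le (lev_cyc h'.inv h'.cuts 0) (b1 x c.2).2 (h'.pr.sol c.1)
  have d2 := dimM_mz (ch := ch) (ν := ν) (κ := κ) (b := b) (z := z) hj hm
  have d3 := (a1 x (c1.1 c.2).1).1
  have d4 := (b1 x c.2).1
  rw [show (ch.dimM ν κ F b 0).toNat - finrank ℂ (ch.AF ν κ S) = (ch.dimM ν κ (F.mz m z) b 0).toNat -
    finrank ℂ (ch.AF ν κ S) + finrank ℂ (ch.Th j) * ch.h (some j) by omega] at a2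
  exact h.toStd.zT h'.toStd hj hm hz hK tr (fun x a => ⟨a.2.2.1, (c1.1 a).2⟩) inter_subset_right
    (fun _ a => (c2.le a).1.1) inter_subset_left (h.toStd.cutX hj (lev_cyc h.inv h.cuts 0)
      (isClosed_closure.isLocallyClosed.inter h.lc_baseF) c1 c2
      (fun y a => (Nat.add_sub_cancel' d1).symm ▸ (b1 y a).2) a2) b2

/-- the base cycle of an absolute problem -/
theorem Ok.vd_abs (h : ch.Ok F e K₀ ℓ b U) (hA : F.Abs) :
    ∃ O M d, Vd F e (ch.cyc κ F (0 : ν → J → ℕ)) O M d :=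
  have s : F.Sh 0 (Fin.elim0 : Fin 0 → J) 0 1 := ⟨nofun, linearIndependent_empty_type, nofun,
    fun _ a b => (b (hA.1 a)).elim, fun _ _ _ => ⟨analyticAt_const, one_ne_zero⟩,
    fun _ a b => (b (hA.1 a)).elim, fun _ a b => (b (hA.1 a)).elim, fun _ _ _ _ _ =>
      iff_of_true (hA.2.ge (mem_univ _)) fun _ a b => (b (hA.1 a)).elim, fun _ _ => rfl⟩
  ⟨_, _, _, h.vd (h.lat.gr h.inv s 0) (locAn_main h.cuts h.wt
    ⟨∅, nofun, hA.2.trans (eq_univ_of_forall fun _ _ e => nomatch e).symm⟩ _)⟩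

/-- vanishing movable fields can be replaced by vanishing base fields -/
theorem Ok.virF_mz (h : ch.Ok F e K₀ ℓ b U) (hA : F.Abs) (h' : ch.Ok (F.mz m z) e K₁ ℓ b U₁)
    (hT : T ⊆ F.mov) (h0 : ∀ j ∈ T, ∀ y ∈ F.cone, y.2 j = 0) (hm : m = F.mov \ T)
    (hz : z = F.zer ∪ T) :
    ch.solF ν κ (F.mz m z) ∩ ch.cyc κ (F.mz m z) 0 = ch.solF ν κ F ∩ ch.cyc κ F 0 ∧
      HEq (virF (F.mz m z) e (ch.cyc κ (F.mz m z) (0 : ν → J → ℕ)))
        (virF F e (ch.cyc κ F (0 : ν → J → ℕ))) := by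
  subst hm hz
  obtain ⟨_, _, _, a⟩ := h.vd_abs (κ := κ) hA
  obtain ⟨_, _, _, c⟩ := h'.vd_abs (κ := κ) ⟨fun i u => by_cases (p := i ∈ T) .inr
    fun p => .inl (hA.1 fun q => u ⟨q, p⟩), hA.2⟩
  exact a.virF_zro hT h0 h.toStd h'.toStd c

/-- **setting a transversal field to zero** -/
theorem Ok.zT (h : ch.Ok F e K₀ ℓ b U) (hA : F.Abs) (h1 : ch.Ok (F.zro {j}) e K₁ ℓ b U₁)
    (h2 : ch.Ok (F.zro T) e K₂ ℓ b U₂) (hj : j ∈ F.mov) (hT : j ∈ T)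
    (hK : (F.zro T).cone.Nonempty → K₀.n = K₁.n + 1 ∧ K₀.γ = K₁.γ + F.w j)
    (cut : ∀ z ∈ F.cone, z.2 j = 0 → ∀ i ∈ T, z.2 i = 0)
    (tr : ∀ z ∈ F.cone, z.2 j = 0 → ∃ η ∈ F.vert z, η j ≠ 0)
    [Nice (ModS F (ch.cyc κ F (0 : ν → J → ℕ)))] :
    ∃ (s : ch.solF ν κ (F.zro T) ∩ ch.cyc κ (F.zro T) 0 ⊆ ch.solF ν κ F ∩ ch.cyc κ F 0) (d : ℕ)
      (t : Coch (ModS F (ch.cyc κ F (0 : ν → J → ℕ)))),
      IsClosedEmbedding (Quo.incl (actF F.toWt) s) ∧ IsCo (range (Quo.incl (actF F.toWt) s)) d t ∧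
      hcls t = hcls ((ch.sdX ν κ F.toWt j).eu (actF F.toWt) (ch.solF ν κ F ∩ ch.cyc κ F 0)) ∧
      gys (Quo.incl (actF F.toWt) s) t (virF F e _) =
        cap (hcls ((ch.sdK ν κ F.toWt j).eu (actF F.toWt)
          (ch.solF ν κ (F.zro T) ∩ ch.cyc κ (F.zro T) 0))) (virF (F.zro T) e _) := by
  have c := fun {y} => mz_cone (F := F) (m := F.mov \ {j}) (j := j) (y := y) rfl
  have a := h.zJ hA (m := F.mov \ {j}) h1 hj rfl rfl (fun ⟨y, p⟩ => by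
    have q := (F.mem_cone).1 (c.1 p).1
    obtain ⟨u, v⟩ := hK ⟨y, (Fam.mem_cone _).2
      ⟨Fam.bs_zro.2 ⟨q.1, cut y (c.1 p).1 (c.1 p).2⟩, q.2⟩⟩
    cases K₀
    exact congrArg₂ RD.mk u v) tr
  obtain ⟨e1, e2⟩ := Ok.virF_mz (F := F.zro {j}) (T := T ∩ (F.mov \ {j})) (m := F.mov \ T)
    (z := F.zer ∪ T) h1 (abs_mz hA rfl rfl) h2 inter_subset_right
    (fun i p y q => cut y (c.1 q).1 (c.1 q).2 i p.1)
    (Set.ext fun i => ⟨fun p => ⟨⟨p.1, fun q => p.2 (q ▸ hT)⟩, fun q => p.2 q.1⟩,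
      fun p => ⟨p.1.1, fun q => p.2 ⟨q, p.1⟩⟩⟩)
    (Set.ext fun i => ⟨fun p => p.elim (fun q => .inl (.inl q)) fun q => by_cases
      (fun r : i = j => .inl (.inr r)) fun r => by_cases (fun u : i ∈ F.mov => .inr ⟨q, u, r⟩)
        fun u => .inl (.inl (hA.1 u)),
      fun p => p.elim (fun q => q.elim .inl fun r => .inr (r ▸ hT)) fun q => .inr q.1⟩)
  have key : ∀ (Z : Set (ch.WF ν κ Λ)) (v : BM (Quo (actF F.toWt) Z)),
      Z = ch.solF ν κ (F.zro {j}) ∩ ch.cyc κ (F.zro {j}) 0 →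
      HEq v (virF (F.zro {j}) e (ch.cyc κ (F.zro {j}) (0 : ν → J → ℕ))) →
      ∃ (s : Z ⊆ ch.solF ν κ F ∩ ch.cyc κ F 0) (d : ℕ)
        (t : Coch (ModS F (ch.cyc κ F (0 : ν → J → ℕ)))),
        IsClosedEmbedding (Quo.incl (actF F.toWt) s) ∧ IsCo (range (Quo.incl (actF F.toWt) s)) d t ∧
        hcls t = hcls ((ch.sdX ν κ F.toWt j).eu (actF F.toWt) (ch.solF ν κ F ∩ ch.cyc κ F 0)) ∧
        gys (Quo.incl (actF F.toWt) s) t (virF F e _) =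
          cap (hcls ((ch.sdK ν κ F.toWt j).eu (actF F.toWt) Z)) v := by
    rintro _ _ rfl rfl
    exact a
  exact key _ _ e1 e2

end Ch

end Vale.Agent.P269
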