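import Vale.Agent.P287Q.Lz.HVp
import Vale.Agent.P287Q.Lz.HVz
import Vale.Agent.P287Q.Lz.HVq
import Vale.Agent.P287Q.G.Br.Fund

/-! The contribution of a vertex over a fixed divisor. -/

set_option linter.unusedSectionVars false
set_option linter.style.haveILetI false

namespace Vale.Agent.P269.Lz

open Set Function Topology Module TensorProduct B Vale.Agent.P291Z Vale.Agent.P269.Ch
  Vale.Agent.P269.Loc LG HVg

variable {R J K σ ν κ ι : Type} [Fintype R] [Fintype J] [Fintype K] [Fintype σ] [Fintype ν]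
  [Fintype κ] [Fintype ι] [DecidableEq R] [DecidableEq σ] [DecidableEq ι] {P : TT R J K σ}
  {K₀ K₁ : RD R} {ρ : σ → R → ℤ} {j : J}

namespace HVg

theorem Eta.loc' {A Y : Type} [TopologicalSpace A] [TopologicalSpace Y] [Nice Y] {v : C(A, Y)}
    {I' : F ⊗[ℂ] H A →ₗ[F] F} {I : H Y →ₗ[ℂ] ℂ} {χ : Loc.R σ →ₐ[ℂ] F} {w : Loc.R σ} {r r' : ℕ}
    {x y c : PowerSeries (Hev Y)} {s : F} (e : Eta (euT (χ w) r x) (euT (χ w) r' y) s c)
    (h : ∀ z, I' (pb F v (z * bc _ χ (inH _ (euT w r x)))) =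
      intT F (I ∘ₗ LinearMap.mulRight ℂ (hcls (fn ((range v).indicator 1))))
        (z * bc _ χ (inH _ (euT w r' y)))) (u : H Y) :
    I' (pb F v (1 ⊗ₜ u)) = s * Fock.Hat.ofPS ℂ (.mk fun m =>
      I (hcls (ind (range v)) * ((PowerSeries.coeff m c).1 * u))) := by
  rw [← inF_bc, ← inF_bc, bc_euT, bc_euT] at h
  refine (e.loc (I' := I' ∘ₗ (pb F v).toLinearMap) h u).trans (congrArg _ (congrArg _
    (congrArg _ (funext fun m => ?_))))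
  rw [ind_eq_fn]
  exact congrArg I (Hev.commute (fn_mem_Hev _) _).symm

variable {ch : Ch ι J} {e : K → ι → ℕ} {ℓ : R → ι → ℤ} {a : σ → ℂ} {A : Type} [TopologicalSpace A]
  [Nice A] [CompactSpace A] {b : ℕ → ℕ}

/-- **the contribution of a fixed divisor** in a chart -/
theorem core (hA : P.movᶜ ⊆ P.zer) (hI : P.ET.Inv) (E : P.End ρ j) (hb : P.bw ρ j a ≠ 0)
    (hK : (P.V ρ).E.cone.Nonempty → K₀.n = K₁.n + 1 ∧ K₀.γ = K₁.γ + P.w j) {b' : ℕ}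
    {U₀ : Set (ch.WF ν κ _)}
    (ok : ∀ M, ∃ U : Set (ch.WF ν κ _), ch.Ok (P.EM M) e K₀ ℓ (b M) U)
    (ok₁ : ∀ M, ∃ U : Set (ch.WF ν κ _), ch.Ok ((P.zro {j}).EM M) e K₁ ℓ (b M) U)
    (ok₂ : ∀ M, ∃ U : Set (ch.WF ν κ _), ch.Ok ((P.V ρ).EM M) e K₁ ℓ (b M) U)
    (h0 : ch.Ok (P.V ρ).E e K₁ ℓ b' U₀) [CompactSpace (Xc ν κ ch (P.V ρ).E)]
    [Nice (Xc ν κ ch (P.V ρ).E)] [∀ M, Nice (Xc ν κ ch (P.EM M))]
    {i : ∀ M, C(Xc ν κ ch (P.V ρ).E × Bs σ M, Xc ν κ ch (P.EM M))}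
    (pt : ∀ M p z, ∃ x, z = Quo.mk _ x ∧
      ∀ y, y.1 = (Function.uncurry p.val, x.1.2) → i M (z, bp p) = Quo.mk _ y)
    {v : C(A, Xc ν κ ch (P.V ρ).E)} (hv : IsOpenEmbedding v)
    {I : F ⊗[ℂ] H A →ₗ[F] F} {e' : ℕ → K → ι → ℕ} (he : ∀ M, e' M = e)
    (h : IsLoc (chiA a) (fun M => virF (P.EM M) (e' M) _) (fun M => (i M).comp (pr v M)) I) :
    (∀ M m, H.map (i M) (hcls (psiF m)) = H.map .fst (hcls (psiF m))) ∧
    ∀ u, I (pb F v (1 ⊗ₜ u)) = (P.bw ρ j a • tt) ^ (-ch.eu (ch.wd j)) * Fock.Hat.ofPS ℂ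
      (.mk fun m => intg (virF (P.V ρ).E e _) (hcls (ind (range v)) * ((Qrr.evC
        (indC (P.V ρ).E.toWt _) (Qrr.th {j} (fun _ => P.bw ρ j a) id m)).1 * u))) := by
  obtain rfl : e' = fun _ => e := funext he
  choose U hU using ok
  choose U₁ hU₁ using ok₁
  choose U₂ hU₂ using ok₂
  haveI := fun M => ((hU₂ M).gz_cyc (0 : ν → _)).nice
  choose j' j1 j2 j3 j4 j5 j6 using fun M => TT.exists_prd hA (TT.kil_of_inv hI ρ) (hU₂ M) h0
  choose s d t b1 b2 b3 b4 using fun M => (hU M).zT (T := P.mv ρ) (TT.abs hA) (hU₁ M) (hU₂ M)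
    E.mov E.mv (fun ⟨_, c⟩ => hK ⟨_, TT.mem_E (l := Empty.elim) (P := P.V ρ) c⟩)
    (fun z a c => E.cut _ (TT.mem_E (l := Empty.elim) a) c)
    fun z a c => (E.tr _ (TT.mem_E (l := Empty.elim) a) c).imp fun _ f =>
      ⟨(TT.vert_eq z).ge f.1, f.2⟩
  obtain rfl : i = fun M => (EqM.incl (act := actF _) (s M)).map.comp (j' M) :=
    funext fun M => ContinuousMap.ext fun ⟨y, p⟩ => by
      obtain ⟨p, rfl⟩ := bp_surj p
      obtain ⟨x, rfl, a⟩ := pt M p y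
      obtain ⟨b, c⟩ := j2 M x p
      exact (a ⟨_, s M b⟩ rfl).trans (congrArg (EqM.incl (s M)).map c).symm
  have z := h0.gz_cyc (0 : ν → _)
  have η := GZ_eta z hb j
  rw [← TT.chiA_cx] at η ⊢
  simp only [Qrr.evC_th _ _ _ z.constCoeff_indC]
  refine ⟨fun M m => ?_, η.loc' (loc_step hv j1 j3
    (k := fun M => (EqM.incl (act := actF _) (s M)).map) b1 b2 b4 (fun M => ?_) (j6 · j) h)⟩
  · rw [← H.map_map, psi_incl ((hU M).gz_cyc 0) ((hU₂ M).gz_cyc 0) (s M) _ rfl, j4]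
  · have g := (hU M).gz_cyc (0 : ν → _)
    have g' := (hU₂ M).gz_cyc (0 : ν → _)
    haveI := g.act
    haveI := g'.act
    rw [b3, ← ((okX _ _).res_incl g.orb g'.orb (s M)).1, j5]

end HVg

variable {k D : ℕ} {g : ℤ} {d : R → ℤ} {a : σ → ℂ} {τ : Md P ν g d}

/-- **the contribution of a vertex over a fixed divisor** -/
theorem Geo.vx1 (G : Geo k D a τ) (h : P.Ok K₀ k D) (E : P.End ρ j) (hb : P.bw ρ j a ≠ 0)
    (ho : IsOpen (τ.sel (P.Qv ρ))) : ∃ f, Vx1 k D a τ ρ j f := by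
  obtain ⟨K₁, hK, h₁, hV⟩ := E.ok h
  obtain ⟨e, rp⟩ := G.exists_rp h hV
  let ch := (P.V ρ).E.sch ν (Fin 0) k D g d
  have td : ∀ (Q : TT R J K σ) M c, (Q.EM M).tdeg (ι := Option R) c = Q.E.tdeg c :=
    fun _ _ _ => funext₂ fun q _ => congrArg (· * _) (TT.tdeg_G q)
  have ok : ∀ {K₂} {Q : TT R J K σ} (_ : Q.Ok K₂ k D) M,
      ∃ U : Set ((Q.E.sch ν (Fin 0) k D g d).WF ν (Fin 0) _), (Q.E.sch ν (Fin 0) k D g d).Ok
        (Q.EM M) (Q.E.tdeg (Q.E.sch ν (Fin 0) k D g d)) K₂ ℓs (Fintype.card σ * (M + 1)) U :=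
    fun c M => td _ M _ ▸ (c.good_EM M).ok' ν (Fin 0) c.reg_fam (TT.sm_EM M) c.big_fam
      c.bigD_fam g d
  obtain ⟨U₀, h0⟩ := hV.good.ok' ν (Fin 0) hV.reg TT.sm_E hV.big hV.bigD g d
  have z := hV.gz (ν := ν) (g := g) (d := d)
  haveI := hV.cpt_X0 (ν := ν) (g := g) (d := d)
  haveI := z.nice
  haveI := G.nice
  have cl := hV.clopen_conn (ν := ν) (g := g) (d := d)
  haveI := isCompact_iff_compactSpace.1 cl.isClosed.isCompact
  haveI := Nice.of_isLocallyClosed cl.isOpen.isLocallyClosed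
  let v : C((P.V ρ).E.sel fun m => m.Conn, (P.V ρ).X0 ν k D g d) :=
    ⟨Subtype.val, continuous_subtype_val⟩
  have rv : range v = (P.V ρ).E.sel fun m => m.Conn := Subtype.range_coe
  have re : range (e.comp v) = τ.sel (P.Qv ρ) :=
    (range_comp e v).trans ((congrArg (e '' ·) rv).trans (Md.image_V hV rp))
  obtain ⟨I', a1, a2⟩ := G.loc.part (e := e.comp v)
    ⟨((e.comp v).continuous.isClosedEmbedding
      ((Md.inj_V hV rp).comp Subtype.val_injective)).isEmbedding, re ▸ ho⟩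
  obtain ⟨c1, c2⟩ := @core R J K σ ν (Fin 0) _ _ _ _ _ _ _ _ _ _ _ P K₀ K₁ ρ j ch _ _
    a _ _ _ _ _ h.abs h.invT E hb hK _ _ (ok h) (ok h₁) (ok hV) h0 _ _ G.nice
    (fun M => (G.i M).comp (pr e M))
    (fun M p z =>
      let ⟨m, x, b, hm⟩ := Fam.exists_at hV.bigD z
      ⟨x, b, fun ⟨_, c⟩ hy => ((G.pt M _ p m ((rp _ m).2 ⟨x, b, hm⟩)).eq_iff h.bigD_fam
        ⟨⟨_, hy ▸ c⟩, congrArg _ (Subtype.ext hy), rfl, hm.2⟩).2 (.refl _)⟩)
    v cl.isOpen.isOpenEmbedding_subtypeVal I' _ (td P · ch) a1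
  refine ⟨e, rp, fun n => ?_, fun z n => Md.ev_V rp z h.bigD n, fun x u hx => ?_⟩
  · obtain ⟨x, e₁, e₂⟩ := G.psi n
    have b : pb _ e (inH _ x) = 1 ⊗ₜ hcls (psiF (.inl n)) := evA_inj fun M => by
      rw [← map_evA, ← e₂, H.map_map, evA_tmul, map_one, map_one, one_mul]
      exact c1 M _
    rw [← e₁, pbE_bc, inF_bc, inH_map, b, bc_tmul, map_one]
  · have η := c2 u
    rw [funext (Fam.chart_wd' (F := (P.V ρ).E) j), Fam.chart_eu, rv, ← hx, pb_pb, a2, re] at η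
    exact (congrArg τ.I (inF_comm _ x)).trans η

end Vale.Agent.P269.Lz
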