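import Vale.Agent.P287Q.G.LG.HVa
import Vale.Agent.P287Q.G.LG.HVd
import Vale.Agent.P287Q.G.LG.Top
import Vale.Agent.P287Q.G.Qrr.Fac
import Vale.Agent.P269.LG.HVl0

/-! The contribution of a vertex over a fixed divisor: generic lemmas. -/

set_option linter.unusedSectionVars false
set_option linter.style.haveILetI false
set_option maxSynthPendingDepth 3

namespace Vale.Agent.P269.Lz.HVg

open Set Function Topology Filter TensorProduct B Vale.Agent.P291Z Vale.Agent.P269.Ch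
  Vale.Agent.P269.Loc Fock PowerSeries LG

theorem nil_of_deg {Y : Type} [TopologicalSpace Y] [CompactSpace Y] {c : Hev Y} {m : ℕ}
    (h : c ∈ Hev.deg Y m) (hm : m ≠ 0) : IsNilpotent c :=
  let ⟨n, a⟩ := TopP.isNilpotent_of_val exists_pt.choose (c := c.1) fun a => by
    rw [H.map_const_eq_zero a (mul_ne_zero two_ne_zero (Nat.cast_ne_zero.2 hm))
      (Hev.mem_deg.1 h), map_zero]
  ⟨n, Subtype.ext a⟩

/-- `y / x = s c(ε)` -/
def Eta {Y : Type} [TopologicalSpace Y] (x y : F ⊗[ℂ] Hev Y) (s : F) (c : (Hev Y)⟦X⟧) : Prop :=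
  ∃ (q : Polynomial (Hev Y)) (η : F ⊗[ℂ] Hev Y),
    (q : (Hev Y)⟦X⟧) = c ∧ η * x = 1 ∧ η * y = s • HVa.evP _ q

theorem eta_of {Y : Type} [TopologicalSpace Y] [CompactSpace Y] {b : ℂ} (hb : b ≠ 0)
    {c x y : (Hev Y)⟦X⟧} {r s : ℕ} {n : ℤ} (hc : c = x * y.invOfUnit 1)
    (x0 : constantCoeff x = 1) (y0 : constantCoeff y = 1)
    (hx : ∀ m, r < m → coeff m x = 0) (hy : ∀ m, s < m → coeff m y = 0)
    (dg : ∀ m : ℕ, coeff m x ∈ Hev.deg Y m) (hn : Y → (s : ℤ) - r = n) :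
    Eta (euT (b • tt) r x) (euT (b • tt) s y) ((b • tt) ^ n)
      ((rescale (algebraMap ℂ _ b⁻¹) c).invOfUnit 1) := by
  obtain ⟨q, η, h1, h2, h3⟩ := HVa.exists_one hb x0 y0 hx hy fun m => nil_of_deg (dg m)
  refine ⟨q, η, hc ▸ h1, h2, h3.trans ?_⟩
  cases isEmpty_or_nonempty Y
  · rw [Subsingleton.elim q 0, map_zero, smul_zero, smul_zero]
  · rw [hn (Classical.arbitrary Y)]

theorem Eta.loc {Y : Type} [TopologicalSpace Y] {I' : F ⊗[ℂ] H Y →ₗ[F] F} {I : H Y →ₗ[ℂ] ℂ}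
    {x y : F ⊗[ℂ] Hev Y} {s : F} {c : (Hev Y)⟦X⟧} (e : Eta x y s c)
    (h : ∀ z, I' (z * inF _ x) = intT F I (z * inF _ y)) (u : H Y) :
    I' (1 ⊗ₜ u) = s * Hat.ofPS ℂ (mk fun m => I ((coeff m c).1 * u)) := by
  obtain ⟨q, η, rfl, h2, h3⟩ := e
  have := h (1 ⊗ₜ u * inF _ η)
  rwa [mul_assoc, mul_assoc, ← map_mul, ← map_mul, h2, h3, map_one, mul_one, map_smul,
    mul_smul_comm, map_smul, HVa.intT_evP] at this

theorem SD_coeff_gt {A W P : Type} [NormedRing A] [NormedAlgebra ℂ A] [NormedAddCommGroup W]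
    [NormedSpace ℂ W] [AddCommGroup P] [Module ℂ P] [TopologicalSpace P] [IsTopologicalAddGroup P]
    [ContinuousSMul ℂ P] [T2Space P] {act : A → W → W} {T : Set W} {E : SD A W P} {r r' m : ℕ}
    [Holo.IsAct act T] (h : E.Ok act T r r') (ho : Orb.Orb Aˣ (Holo.Sp act T)) (e : r - r' < m) :
    coeff m (E.ch act T) = 0 := by
  obtain ⟨_, E₁, _, _, -, h0, h1, -⟩ := h.exists_isMod ho
  rw [SD.ch, SD.chernT_presA ho h1]
  exact (E₁.coeff_chR m).trans (if_neg (by omega))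

variable {S Λ R J K σ ι ν κ : Type} [Fintype S] [Fintype Λ] [Fintype R] [Fintype J] [Fintype K]
  [Fintype σ] [Fintype ι] [DecidableEq ι] [Fintype ν] [Fintype κ] {ch : Ch ι J} {ℓ : R → ι → ℤ}

/-- the quotient of the two Euler classes of a field -/
theorem GZ_eta {F : Fam S Λ R J K} {Z : Set (ch.WF ν κ Λ)} (z : GZ F ℓ Z)
    [CompactSpace (Quo (actF F.toWt) Z)] {b : ℂ} (hb : b ≠ 0) (j : J) :
    Eta (euT (b • tt) (Module.finrank ℂ (ch.Th j) * ch.h (some j))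
        ((ch.sdX ν κ F.toWt j).ch (actF _) Z))
      (euT (b • tt) (ch.rkO j) ((ch.sdK ν κ F.toWt j).ch (actF _) Z))
      ((b • tt) ^ (-ch.eu (ch.wd j))) (Qrr.thC {j} (fun _ => b) id (indC F.toWt Z)) := by
  have := z.act
  have x := okX (F := F.toWt) Z j
  have y := z.cuts.okK (F := F.toWt) z.base j
  rw [Qrr.thC, Finset.prod_singleton]
  exact eta_of hb (indC_eq j) (x.constCoeff z.orb) (y.constCoeff z.orb)
    (fun _ e => SD_coeff_gt x z.orb ((Nat.sub_zero _).trans_lt e))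
    (fun _ e => SD_coeff_gt y z.orb ((Nat.add_sub_cancel_left ..).trans_lt e))
    (x.coeff_deg z.orb) fun u => by
      rw [rkO_eq z.cuts.ne (z.base _ u.out.2), Nat.cast_mul, sub_sub_cancel_left]

theorem bp_surj {M : ℕ} : Surjective (bp : PM σ M → Bs σ M) := fun b =>
  let ⟨x, e⟩ := ((TS.triv σ pt).B M).surj b
  ⟨x.2, e⟩

theorem bc_euT {L L' A : Type} [CommRing L] [Algebra ℂ L] [CommRing L'] [Algebra ℂ L']
    [TopologicalSpace A] (χ : L →ₐ[ℂ] L') (x : L) (r : ℕ) (c : PowerSeries (Hev A)) :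
    bc _ χ (euT x r c) = euT (χ x) r c := by
  simp only [euT, map_sum, bc_tmul, map_pow]

theorem inH_map {A A' : Type} [TopologicalSpace A] [TopologicalSpace A'] (f : C(A', A))
    (x : Loc.R σ ⊗[ℂ] Hev A) :
    inH A' (Algebra.TensorProduct.map (AlgHom.id ℂ _) (Hev.map f) x) = pb _ f (inH A x) := by
  induction x with
  | zero => simp only [map_zero]
  | add a b ha hb => simp only [map_add, ha, hb]
  | tmul k c => rfl

theorem intT_mul {L A : Type} [CommRing L] [Algebra ℂ L] [Ring A] [Algebra ℂ A] (I : A →ₗ[ℂ] ℂ)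
    (c : A) (x : L ⊗[ℂ] A) :
    intT L (I ∘ₗ LinearMap.mulRight ℂ c) x = intT L I (x * 1 ⊗ₜ c) := by
  induction x with
  | zero => simp only [map_zero, zero_mul]
  | add a b ha hb => simp only [map_add, add_mul, ha, hb]
  | tmul k u => rw [Algebra.TensorProduct.tmul_mul_tmul, intT_tmul, intT_tmul, mul_one]; rfl

theorem psi_incl {F F' : Fam S Λ R J K} {Z Z' : Set (ch.WF ν κ Λ)} (h : GZ F ℓ Z) (h' : GZ F' ℓ Z')
    (e : Z' ⊆ Z) (n : Mk ν κ) (d : F'.toWt = F.toWt) :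
    H.map (EqM.incl (act := actF F.toWt) e).map (hcls (psiF n)) = hcls (psiF n) := by
  obtain ⟨_⟩ := F
  obtain ⟨_⟩ := F'
  subst d
  haveI := h.act
  haveI := h'.act
  exact (congrArg _ (h.cl_psi n)).trans ((map_neg _ _).trans ((congrArg Neg.neg
    ((h.psi n).res_incl h.orb h'.orb e).1.symm).trans (h'.cl_psi n).symm))

theorem at_ev [DecidableEq R] {F : Fam S Λ R J K} {k D : ℕ} {g : ℤ} {d : R → ℤ} {u : ν → J → ℕ}
    {y : F.Mod κ k D g d u} {m : AM Λ R J ν κ} (h : F.At y m)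
    (hz : GZ F ℓs (F.Zs κ k D g d u)) (n : Mk ν κ) {A : Set _}
    (hA : ∀ x ∈ F.Zs κ k D g d u, vl x n ∈ A) (hm : m.vl (m.p n) ∈ A) :
    (hz.eqh_vl n hA).toEqv.qm y = Quo.mk _ ⟨_, hm⟩ := by
  obtain ⟨x, rfl, a⟩ := h
  obtain ⟨t, b, c⟩ := a.vl (W := F.toWt) x.2.1.1.2.1 Fam.chart_wd'
  exact (Quot.sound ⟨_, Prod.isUnit_iff.2 ⟨isUnit_one, b _⟩, c n⟩).symm

variable {L : Type} [Field L] [Algebra ℂ L] {χ : Loc.R σ →ₐ[ℂ] L} {A Y : Type} [TopologicalSpace A]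
  [Nice A] [CompactSpace A] [TopologicalSpace Y] [Nice Y] [CompactSpace Y] {X X' : ℕ → Type}
  [∀ M, TopologicalSpace (X M)] [∀ M, Nice (X M)] [∀ M, TopologicalSpace (X' M)]
  [∀ M, Nice (X' M)]

/-- one Gysin map to a product family -/
theorem loc_step {β : ∀ M, BM (X M)} {β' : ∀ M, BM (X' M)} {β₀ : BM Y} {v : C(A, Y)}
    (hv : IsOpenEmbedding v) {j : ∀ M, C(Y × Bs σ M, X' M)} (hj : ∀ M, IsHomeomorph (j M))
    (h₀ : ∀ M f a, intg (P291Z.res (j M) (β' M)) (H.map .snd (lam M f) * H.map .fst a) =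
      MvPolynomial.coeff (topM σ M) f * intg β₀ a)
    {k : ∀ M, C(X' M, X M)} (hk : ∀ M, IsClosedEmbedding (k M)) {θ : ∀ M, Coch (X M)} {d : ℕ → ℕ}
    (hθ : ∀ M, IsCo (range (k M)) (d M) (θ M)) {w : ∀ M, H (X' M)}
    (e : ∀ M, P291Z.gys (k M) (θ M) (β M) = P291Z.cap (w M) (β' M)) {x y : Loc.R σ ⊗[ℂ] H Y}
    (hx : ∀ M, H.map (j M) (H.map (k M) (hcls (θ M))) = evA Y M x)
    (hy : ∀ M, H.map (j M) (w M) = evA Y M y) {I : L ⊗[ℂ] H A →ₗ[L] L}
    (h : IsLoc χ β (fun M => ((k M).comp (j M)).comp (pr v M)) I) (z : L ⊗[ℂ] H Y) :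
    I (pb L v (z * bc _ χ x)) = intT L (intg β₀ ∘ₗ
      LinearMap.mulRight ℂ (hcls (fn ((range v).indicator 1)))) (z * bc _ χ y) := by
  obtain ⟨I', a, b⟩ := (IsLoc.of_prod (χ := χ) hj h₀).part hv
  have c := h.gys hk hθ (i' := fun M => (j M).comp (pr v M)) (fun _ _ => rfl) (n := pb _ v x)
    fun M => by rw [← map_evA, ← hx, H.map_map, H.map_map]; rfl
  simp only [e] at c
  have := LinearMap.congr_fun (c.unique (a.cap (n := pb _ v y) fun M => by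
    rw [← map_evA, ← hy, H.map_map])) (pb L v z)
  rw [intT_mul, ← b, map_mul (pb L v), map_mul (pb L v), ← bc_pb, ← bc_pb]
  exact this

end Vale.Agent.P269.Lz.HVg
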