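import Vale.Agent.P287Q.Lz.HVo
import Vale.Agent.P287Q.Lz.HVa
import Vale.Agent.P287Q.Lz.FxB
import Vale.Agent.P287Q.G.Fg.PtB
import Vale.Agent.P287Q.G.Bas.Supp

/-! The contribution of a vertex over a fixed divisor: points. -/

set_option linter.unusedSectionVars false

namespace Vale.Agent.P269.Lz

open Set Function Topology Filter B Vale.Agent.P291Z Vale.Agent.P269.Ch Vale.Agent.P269.Loc LG

variable {S Λ R J K σ ι ν κ : Type} [Fintype S] [Fintype Λ] [Fintype R] [Fintype J] [Fintype K]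
  [Fintype σ] [Fintype ι] [DecidableEq ι] [Fintype ν] [Fintype κ]

namespace HVg

theorem sol_zro {F : Fam S Λ R J K} {T : Set J} {m : AM Λ R J ν κ} :
    m.Sol (F.zro T) ↔ m.Sol F ∧ ∀ j ∈ T, m.y j = 0 :=
  ⟨fun h => ⟨⟨h.1, h.2.1, fun z => (HVo.mem_zro.1 (h.2.2 z)).1⟩,
    fun j a => funext fun z => (HVo.mem_zro.1 (h.2.2 z)).2 j a⟩,
    fun h => ⟨h.1.1, h.1.2.1, fun z => HVo.mem_zro.2 ⟨h.1.2.2 z, fun j a => congrFun (h.2 j a) z⟩⟩⟩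

theorem sub_zro [DecidableEq R] {F : Fam S Λ R J K} {ch : Ch ι J} (hA : F.Abs) (hF : F.Inv) (T : Set J) :
    ch.solF ν κ (F.zro T) ∩ ch.cyc κ (F.zro T) (0 : ν → J → ℕ) ⊆
      ch.solF ν κ F ∩ ch.cyc κ F (0 : ν → J → ℕ) := fun x hx =>
  have a : x ∈ ch.solF ν κ F := mem_solF.2 ⟨hx.1.1, fun c hc =>
    (mem_solF.1 hx.1).2 c hc |>.imp_right fun b => (HVo.mem_zro.1 b).1⟩
  ⟨a, hA.sol_subset hF a⟩

end HVg

open HVg

variable [DecidableEq R] [DecidableEq σ] {P : TT R J K σ} {K₀ K₁ : RD R} {k D : ℕ} {g : ℤ}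
  {d : R → ℤ} {ρ : σ → R → ℤ} {m : AM1 R J ν} {a : σ → ℂ} {T : Set J}

namespace TT

variable (ν g d T) in
/-- the inclusion of the maps to a coordinate subspace -/
noncomputable def Ok.jZ (h : P.Ok K₀ k D) : C((P.zro T).X0 ν k D g d, P.X0 ν k D g d) :=
  (EqM.incl (act := actF P.E.toWt) (sub_zro (TT.abs h.abs) h.good.toInv T)).map

theorem Ok.at_jZ (h : P.Ok K₀ k D) (h' : (P.zro T).Ok K₁ k D) {y : (P.zro T).X0 ν k D g d} :
    P.E.At (h.jZ ν g d T y) m ↔ (P.zro T).E.At y m := by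
  have a : ∀ m, (P.zro T).E.At y m → P.E.At (h.jZ ν g d T y) m :=
    fun _ ⟨x, b, c⟩ => ⟨inclusion (sub_zro (TT.abs h.abs) h.good.toInv T) x, congrArg _ b, c⟩
  obtain ⟨m₀, b⟩ := Fam.exists_at h'.bigD y
  exact ⟨fun c => b.of_iso h'.good.toInv h'.bigD (((a _ b).eq_iff h.bigD c).1 rfl), a m⟩

theorem sol_V : m.Sol (P.V ρ).E ↔ m.Sol P.E ∧ Vert P.E.toWt P.wt m {ρ} :=
  (sol_zro (F := P.E)).trans (and_congr_right' vert_single.symm)

theorem Ok.cpt_X0 (h : P.Ok K₀ k D) : CompactSpace (P.X0 ν k D g d) := h.one.compactSpace h.bigD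

theorem Ok.gz (h : P.Ok K₀ k D) : GZ P.E ℓs (P.E.Zs (Fin 0) k D g d (0 : ν → J → ℕ)) :=
  h.one.gz' ν (Fin 0) h.bigD g d 0

theorem Ok.clopen_conn (h : P.Ok K₀ k D) :
    IsClopen (P.E.sel (fun m => m.Conn) : Set (P.X0 ν k D g d)) :=
  Fam.isClopen_sel_of_same h.bigD fun _ _ => AM.Same.conn

theorem Ok.mem_conn (h : P.Ok K₀ k D) {y : P.X0 ν k D g d} :
    y ∈ P.E.sel (fun m => m.Conn) ↔ ∃ m, P.E.At y m ∧ m.Conn :=
  exists_congr fun _ => and_congr_left' (Fam.at_iff_out h.good.toInv h.bigD).symm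

end TT

variable {τ : Md P ν g d} (G : Geo k D a τ) (h : P.Ok K₀ k D) (hV : (P.V ρ).Ok K₁ k D)
include G h hV

/-- **the maps to a fixed part** -/
theorem Geo.exists_rp : ∃ e : C((P.V ρ).X0 ν k D g d, τ.A),
    ∀ y m, τ.Rp (e y) m ↔ (P.V ρ).E.At y m := by
  have r : ∀ y, ∃ x, G.g0 x = h.jZ ν g d (P.mv ρ) y := fun y => by
    obtain ⟨m, hm⟩ := Fam.exists_at hV.bigD y
    have b := (h.at_jZ hV).2 hm
    have c := TT.sol_V.1 (hm.sol hV.good.toInv)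
    obtain ⟨x, hx⟩ := τ.surj ⟨c.1, (b.stable h.bigD :), b.typ, c.2.str h.free c.1⟩
    exact ⟨x, (((G.rp _ _).1 hx).eq_iff h.bigD b).2 (.refl _)⟩
  choose e he using r
  exact ⟨⟨e, G.emb.isEmbedding.continuous_iff.2
    ((h.jZ ν g d (P.mv ρ)).continuous.congr fun y => (he y).symm)⟩, fun y m =>
    (G.rp _ _).trans ((congrArg (P.E.At · m) (he y)).to_iff.trans (h.at_jZ hV))⟩

omit G h

variable {e : C((P.V ρ).X0 ν k D g d, τ.A)} (rp : ∀ y m, τ.Rp (e y) m ↔ (P.V ρ).E.At y m)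
include rp

theorem Md.inj_V : Injective e := fun y y' c => by
  obtain ⟨m, hm⟩ := Fam.exists_at hV.bigD y
  exact (hm.eq_iff hV.bigD ((rp _ _).1 (c ▸ (rp _ _).2 hm))).2 (.refl _)

theorem Md.image_V : e '' (P.V ρ).E.sel (fun m => m.Conn) = τ.sel (P.Qv ρ) :=
  Set.ext fun x => ⟨fun ⟨y, b, c⟩ =>
    let ⟨m, hm, f⟩ := hV.mem_conn.1 b
    ⟨m, c ▸ (rp _ _).2 hm, f, (TT.sol_V.1 (hm.sol hV.good.toInv)).2⟩, fun ⟨m, b, c⟩ => by
      have f := τ.fx b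
      obtain ⟨y, hy⟩ := Fam.exists_at_of (u := 0) hV.good.toInv (TT.abs hV.abs) hV.big
        hV.bigD (TT.sol_V.2 ⟨f.sol, c.2⟩) f.stable f.typ
      exact ⟨y, hV.mem_conn.2 ⟨m, hy, c.1⟩, τ.inj ((rp _ _).2 hy) b⟩⟩

omit hV in
/-- the evaluation maps on a vertex -/
theorem Md.ev_V (z : GZ (P.V ρ).E ℓs ((P.V ρ).E.Zs (Fin 0) k D g d (0 : ν → J → ℕ)))
    (hD : P.E.BigD k D) (n : ν) :
    (τ.ev n).comp e = (P.iV ρ).comp (z.eqh_vl (.inl n) (z.vl_cone _)).toEqv.qm :=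
  ContinuousMap.ext fun y => by
    obtain ⟨m, hm⟩ := Fam.exists_at (F := (P.V ρ).E) hD y
    obtain ⟨_, b⟩ := τ.evp n ((rp _ _).2 hm)
    exact b.trans (congrArg (P.iV ρ) (at_ev hm z _ (z.vl_cone _) ((hm.sol z.inv).2.2 _))).symm

end Vale.Agent.P269.Lz
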