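import Vale.Agent.P287Q.G.LG.HVt

set_option linter.unusedSectionVars false
set_option linter.style.haveILetI false

/-!
# Families that are products after a change of the frames by a homomorphism of tori
-/

namespace Vale.Agent.P269

open Set Function Topology Filter Module P291Z Orb Holo

variable {S Λ R J K ι ν κ ν' : Type} [Fintype S] [Fintype Λ] [Fintype R] [Fintype J] [Fintype K]
  [Fintype ι] [DecidableEq ι] [Fintype ν] [Fintype κ] [Fintype ν'] [DecidableEq R]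

namespace Ch

variable {ch : Ch ι J} {n : S → ι → ℤ}

namespace T2

section hm

variable {A W : Type} [NormedRing A] [NormedAlgebra ℂ A] [NormedAddCommGroup W] [NormedSpace ℂ W]

theorem hm_ipow {c : A → ℂ} (h : Tq.Hm c) (k : ℤ) : Tq.Hm fun a => c a ^ k :=
  ⟨by rw [h.one, one_zpow], fun a b ha hb => by rw [h.mul a b ha hb, mul_zpow],
    fun a ha => (h.cont a ha).zpow₀ k (.inl (h.isUnit ha).ne_zero)⟩

theorem hm_prod {I : Type} {c : I → A → ℂ} (s : Finset I) (h : ∀ i, Tq.Hm (c i)) :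
    Tq.Hm fun a => ∏ i ∈ s, c i a :=
  ⟨Finset.prod_eq_one fun i _ => (h i).one, fun a b ha hb => by
    rw [← Finset.prod_mul_distrib]
    exact Finset.prod_congr rfl fun i _ => (h i).mul a b ha hb,
    fun a ha => tendsto_finsetProd s fun i _ => (h i).cont a ha⟩

theorem hm_chr (w : S → ℤ) : Tq.Hm fun τ : S → ℂ => ∏ s, τ s ^ w s :=
  hm_prod _ fun s => hm_ipow (.ev s) (w s)

variable {act : A → W → W} {T : Set W} [FiniteDimensional ℂ A] [FiniteDimensional ℂ W]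
  [IsAct act univ] [Mono.FP act T]

theorem lcq_prod {I : Type} {c : I → A → ℂ} (s : Finset I) (h : ∀ i, Tq.Hm (c i)) :
    Tq.lcq act T (fun a => ∏ i ∈ s, c i a) = ∑ i ∈ s, Tq.lcq act T (c i) := by
  classical
  induction s using Finset.induction_on with
  | empty => simpa using Tq.lcq_one
  | insert i s hi ih =>
    simp only [Finset.prod_insert hi, Finset.sum_insert hi]
    rw [Tq.lcq_mul (h i) (hm_prod s h), ih]

theorem lcq_ipow {c : A → ℂ} (h : Tq.Hm c) (k : ℤ) :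
    Tq.lcq act T (fun a => c a ^ k) = (k : ℂ) • Tq.lcq act T c := by
  have a : ∀ k : ℤ, Tq.lcq act T (fun a => c a ^ (k + 1)) =
      Tq.lcq act T (fun a => c a ^ k) + Tq.lcq act T c := fun k =>
    (Tq.lcq_congr ((hm_ipow h k).mul' h) fun a ha =>
      zpow_add_one₀ (h.isUnit ha).ne_zero k).trans (Tq.lcq_mul (hm_ipow h k) h)
  induction k using Int.induction_on with
  | zero => simpa using Tq.lcq_one
  | succ k ih => rw [a, ih, Int.cast_add, Int.cast_one, add_smul, one_smul]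
  | pred k ih =>
    have := a (-(k : ℤ) - 1)
    rw [sub_add_cancel, ih] at this
    rw [Int.cast_sub, Int.cast_one, sub_smul, one_smul, this, add_sub_cancel_right]

end hm

/-- the homomorphism of tori -/
noncomputable def tw (n : S → ι → ℤ) (τ : S → ℂ) : ι → ℂ := fun i => ∏ s, τ s ^ n s i

section tw

variable {τ : S → ℂ} (h : ∀ s, τ s ≠ 0)
include h

theorem tw_ne (i : ι) : tw n τ i ≠ 0 :=
  Finset.prod_ne_zero_iff.2 fun s _ => zpow_ne_zero _ (h s)

theorem tw_mul {n' : S → ι → ℤ} (e : n + n' = 0) : tw n τ * tw n' τ = 1 := funext fun i => by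
  rw [Pi.mul_apply, tw, tw, ← Finset.prod_mul_distrib]
  exact Finset.prod_eq_one fun s _ => by
    rw [← zpow_add₀ (h s), show n s i + n' s i = 0 from congrFun (congrFun e s) i, zpow_zero]

theorem prod_tw (b : ι → ℤ) : ∏ i, tw n τ i ^ b i = ∏ s, τ s ^ ∑ i, b i * n s i := by
  simp only [tw, ← Finset.prod_zpow]
  rw [Finset.prod_comm]
  exact Finset.prod_congr rfl fun s _ => prod_zpow_zpow (h s) (n s) b

end tw

theorem hm_tw : Tq.Hm (tw n) :=
  ⟨funext fun i => (hm_chr fun s => n s i).one,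
    fun a b ha hb => funext fun i => (hm_chr fun s => n s i).mul a b ha hb,
    fun a ha => continuousAt_pi.2 fun i => (hm_chr fun s => n s i).cont a ha⟩

theorem tw_tw {n' : S → ι → ℤ} {τ : S → ℂ} (h : ∀ s, τ s ≠ 0) (e : n + n' = 0) (a : ch.A ν') :
    a * ch.ctr ν' (tw n τ) * ch.ctr ν' (tw n' τ) = a := by
  rw [mul_assoc, ← ctr_mul, tw_mul h e, ctr_one, mul_one]

theorem hm_tw2 {B : Type} [NormedRing B] [NormedAlgebra ℂ B] {u : B → S → ℂ} {a : B → ch.A ν'}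
    (hu : Tq.Hm u) (ha : Tq.Hm a) : Tq.Hm fun b => a b * ch.ctr ν' (tw n (u b)) :=
  have hc := (hu.comp (hm_tw (n := n))).comp (hm_ctr (ch := ch) (ν' := ν'))
  ⟨(congrArg₂ (· * ·) ha.one hc.one).trans (mul_one 1), fun b b' h h' =>
    (congrArg₂ (· * ·) (ha.mul b b' h h') (hc.mul b b' h h')).trans
      (Commute.mul_mul_mul_comm (ctr_comm _ _).symm _ _), fun b h => (ha.cont b h).mul (hc.cont b h)⟩

variable (n) in
/-- the projection of the groups -/
noncomputable def tP (s : ch.AF ν κ S) : ch.AF ν κ Empty := (1, s.2 * ch.ctr _ (tw n s.1))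

variable (n) in
/-- the splitting of the group -/
noncomputable def tI (y : (S → ℂ) × ch.AF ν κ Empty) : ch.AF ν κ S :=
  (y.1, y.2.2 * ch.ctr _ (tw (-n) y.1))

open Classical in
/-- forgetting the relations of the fields in `T` and the equations in `KT` -/
noncomputable def BK (T : Set J) (KT : Set K) : ch.P K →ₗ[ℂ] ch.P K where
  toFun f := (fun j => if j ∈ T then 0 else f.1 j, fun k => if k ∈ KT then 0 else f.2 k)
  map_add' _ _ := Prod.ext (funext fun j => by by_cases h : j ∈ T <;> simp [h])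
    (funext fun k => by by_cases h : k ∈ KT <;> simp [h])
  map_smul' _ _ := Prod.ext (funext fun j => by by_cases h : j ∈ T <;> simp [h])
    (funext fun k => by by_cases h : k ∈ KT <;> simp [h])

variable {T : Set J} {KT : Set K} {F : Fam S Λ R J K} {e : K → ι → ℕ} {x : ch.WF ν κ Λ}

theorem BK_mem (f : ch.P K) {j : J} (h : j ∈ T) : (BK T KT f).1 j = 0 := if_pos h

theorem BK_not (f : ch.P K) {j : J} (h : j ∉ T) : (BK T KT f).1 j = f.1 j := if_neg h

theorem BK_mem' (f : ch.P K) {k : K} (h : k ∈ KT) : (BK T KT f).2 k = 0 := if_pos h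

theorem BK_not' (f : ch.P K) {k : K} (h : k ∉ KT) : (BK T KT f).2 k = f.2 k := if_neg h

theorem BK_pol {f : ch.P K} (hf : f ∈ ch.polF F e) : BK T KT f ∈ ch.polF F e :=
  mem_polS.2 ⟨fun j => by
    by_cases a : j ∈ T
    · exact mem_of_eq_of_mem (BK_mem f a) (zero_mem _)
    · exact mem_of_eq_of_mem (BK_not f a) ((mem_polS.1 hf).1 j), fun k => by
    by_cases a : k ∈ KT
    · exact mem_of_eq_of_mem (BK_mem' f a) (zero_mem _)
    · exact mem_of_eq_of_mem (BK_not' f a) ((mem_polS.1 hf).2 k)⟩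

variable {q : K} (hq : ∀ α ∈ (F.G q).support, ∃ j ∉ F.mov, α j ≠ 0)
  (hX : ∀ j ∉ F.mov, x.2.X j = 0)
include hq hX

theorem D_kil (z : ch.Pt) (ζ : ch.Zt) {j : J} (hj : j ∈ F.mov) : (pd F e x z).D q ζ j = 0 := by
  classical
  refine (D_eq z q ζ j).trans (Finset.sum_eq_zero fun β a => ?_)
  obtain ⟨i, b, c⟩ := hq β a
  have d : j ≠ i := fun d => b (d ▸ hj)
  rw [Finset.prod_eq_zero (Finset.mem_univ i), zero_mul, mul_zero]
  rw [show yv x.2 z i (pwT ζ i) = 0 by simp [yv, hX i b], Finsupp.tsub_apply,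
    Finsupp.single_eq_of_ne d.symm, tsub_zero, zero_pow c]

theorem sct_kil (z : ch.Pt) (ζ : ch.Zt) : (sctF F e x).2 q z ζ = 0 := by
  refine (hmg_fib _ _ _ _ _ _ _).trans ((Ch.eval_hp _ _ _ _ _ _ _).trans
    (Finset.sum_eq_zero fun β a => ?_))
  obtain ⟨i, b, c⟩ := hq β a
  rw [Finset.prod_eq_zero (Finset.mem_univ i), mul_zero, zero_mul]
  rw [hX i b, zero_apply, map_zero, zero_pow c]

end T2

open T2

variable (ch) in
/-- The torus `S` acts on the movable fields and on the equations of `F` outside `KT` through the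
homomorphism `n` to the torus of the frames, the equations in `KT` vanish if the fields that are not
movable vanish; `F'` is the fibre of `F`. -/
structure Tw2 (F : Fam S Λ R J K) (F' : Fam Empty Empty R J K) (ℓ : R → ι → ℤ) (n : S → ι → ℤ)
    (c : J → S → ℤ) (KT : Set K) : Prop where
  abs : F.Abs
  abs' : F'.Abs
  B : F'.B = univ
  mov : F'.mov = F.mov
  χ : F'.χ = F.χ
  fib : ∀ l l', F.fib l = F'.fib l'
  sup : ∀ k, (F'.G k).support = (F.G k).support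
  xi : ∀ s, ∑ i, ch.χ i * n s i = 0
  wd : ∀ j s, ∑ i, ch.wd j i * n s i = c j s
  wt : ∀ j ∈ F.mov, F.wt j = c j
  wk : ∀ q ∉ KT, ∀ s, F.wk q s = ∑ i, F.dk ℓ q i * n s i
  kil : ∀ q ∈ KT, ∀ α ∈ (F.G q).support, ∃ j ∉ F.mov, α j ≠ 0

namespace Tw2

variable {F : Fam S Λ R J K} {F' : Fam Empty Empty R J K} {ℓ : R → ι → ℤ} {c : J → S → ℤ}
  {KT : Set K} {e : K → ι → ℕ} {x : ch.WF ν κ Λ} (h : ch.Tw2 F F' ℓ n c KT)
include h

theorem wd' {τ : S → ℂ} (u : ∀ s, τ s ≠ 0) (j : J) :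
    ∏ i, tw n τ i ^ ch.wd j i = ∏ s, τ s ^ c j s := by
  simp only [prod_tw u, h.wd]

theorem tprd {T : Set (ch.WF ν κ Λ)} {T' : Set (ch.WF ν κ Empty)}
    (e : ∀ x, x ∈ T ↔ x.1 ∈ F.B ∧ twQ x ∈ T') (hX : ∀ x ∈ T, ∀ j ∉ F.mov, x.2.X j = 0) :
    TPrd (actF F.toWt) (actF F'.toWt) F.actL (tI n) Prod.fst (tP n) (.fst ℂ _ _) twQ
      (fun v y => (v, y.2)) F.B T T' where
  rk := by simp only [finrank_AF, finrank_fintype_fun_eq_card, Fintype.card_empty, zero_add]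
  hm₀ := .pair .fst (hm_tw2 .fst (Tq.Hm.snd.comp .snd))
  hm := .fst
  hm₂ := .pair .const (hm_tw2 .fst .snd)
  e₀ a ha := Prod.ext rfl (tw_tw (ne_S ha) (add_neg_cancel n) _)
  e₁ _ _ := rfl
  e₂ a ha := Prod.ext (Subsingleton.elim _ _)
    (tw_tw (isUnit_pi_iff.1 (Prod.isUnit_iff.1 ha).1) (neg_add_cancel n) _)
  an_q _ := analyticAt_const.prod analyticAt_snd
  an_j _ := analyticAt_fst.prod (analyticAt_snd.comp analyticAt_snd)
  mem := e
  p_j _ _ := rfl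
  q_j _ _ := Prod.ext (Subsingleton.elim _ _) rfl
  j_pq _ := rfl
  p_act _ _ _ := rfl
  q_act a ha x hx := by
    have u := ne_S ha
    refine Prod.ext (Subsingleton.elim _ _) (Eq.trans (congrArg (act (dup a.2)) ?_) (actF_ctr
      (tw_ne u) (by simp only [prod_tw u, h.xi, zpow_zero, Finset.prod_const_one]) (twQ x)).symm)
    refine W.ext (fun _ => rfl) (fun _ => rfl) rfl fun j => ?_
    rw [scl_X, scl_X, h.wd' u, Fintype.prod_empty (ι := Empty), mul_one]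
    by_cases b : j ∈ F.mov
    · rw [h.wt j b]
      rfl
    · change _ • x.2.X j = _ • x.2.X j
      rw [hX x hx j b]
      ext
      simp

theorem base : x ∈ ch.baseF ν κ F.B ↔ x.1 ∈ F.B ∧ twQ x ∈ ch.baseF ν κ F'.B :=
  ⟨fun a => ⟨a.1, h.B ▸ trivial, a.2⟩, fun a => ⟨a.1, a.2.2⟩⟩

theorem sol : x ∈ ch.solF ν κ F ↔ x.1 ∈ F.B ∧ twQ x ∈ ch.solF ν κ F' :=
  (and_congr h.base (iff_of_eq (congrArg (x.2 ∈ ch.sol _ ·) (h.fib _ _)))).trans and_assoc

theorem cyc (hF : F.Inv) (hF' : F'.Inv) : x ∈ ch.cyc κ F (0 : ν → J → ℕ) ↔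
    x.1 ∈ F.B ∧ twQ x ∈ ch.cyc κ F' (0 : ν → J → ℕ) := by
  rw [h.abs.mem_cyc hF, h.abs'.mem_cyc hF', h.base, h.mov, and_assoc]
  rfl

theorem pol : ch.polF F' e = ch.polF F e := congrArg (ch.polS e) (funext h.sup)

theorem sct : sctF F' e (twQ x) = sctF F e x := congrArg (Ch.sct · e x.2) (h.fib _ _).symm

theorem van : vanM F' e (twQ x) = vanM F e x := congrArg (· ⊓ _) h.pol

theorem obs {f : ch.P K} : f ∈ obsM F' e (twQ x) ↔ f ∈ obsM F e x := by
  rw [← mem_obsF, ← mem_obsF, obsF, obsF, h.pol, h.mov, h.fib x.1 (twQ x).1]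
  rfl

theorem evZ_BK (hX : ∀ j ∉ F.mov, x.2.X j = 0) {f : ch.P K} (hf : f ∈ obsM F e x) {z}
    (hz : z ∈ gr x.2) : evZ z (BK F.movᶜ KT f) = evZ z f := by
  obtain ⟨y, b, d, d'⟩ := (mem_obsF.2 hf).2 z hz
  refine Prod.ext (funext fun j => ?_) (funext fun k => ?_)
  · by_cases a : j ∈ F.movᶜ
    · refine (congrFun (BK_mem (KT := KT) f a) z).trans (funext fun m => Eq.symm ((d j m).trans ?_))
      simp [b j a]
    · exact congrFun (BK_not (KT := KT) f a) z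
  · by_cases a : k ∈ KT
    · refine (congrFun (BK_mem' (T := F.movᶜ) f a) z).trans (funext fun ζ => Eq.symm
        ((d' k ζ).trans ((deriv_hmg _ k ζ).trans (Finset.sum_eq_zero fun j _ => ?_))))
      by_cases g : j ∈ F.mov
      · rw [D_kil (h.kil k a) hX z ζ g, zero_mul]
      · simp [b j g]
    · exact congrFun (BK_not' (T := F.movᶜ) f a) z

variable {K₀ : RD R} (hs : ch.Std F' e K₀ ℓ)
include hs

theorem lin {T : Set (ch.WF ν κ Λ)} (hX : ∀ x ∈ T, ∀ j ∉ F.mov, x.2.X j = 0) :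
    (ch.kd ν κ F e).Lin (ch.kd ν κ F' e) (tP n) twQ T (BK F.movᶜ KT) where
  mem _ a := h.pol.ge (BK_pol a)
  eqv a ha f hf := by
    have u := ne_S ha
    have v := tw_ne (n := n) u
    have b := (isUnitF_iff.1 ha).2
    refine P_ext (fun j z m => ?_) fun k z ζ => ?_
    · refine Eq.trans ?_ (ρF_ctr_fst v b ((mem_polS.1 (BK_pol hf)).1 j) z m).symm
      rw [ρF_fst, h.wd' u, Fintype.prod_empty (ι := Empty), one_mul]
      by_cases d : j ∈ F.movᶜ
      · rw [BK_mem _ d, BK_mem _ d]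
        exact (mul_zero _).symm
      · rw [BK_not _ d, BK_not _ d, ← h.wt j (not_not.1 d)]
        rfl
    · refine Eq.trans ?_ (ρF_ctr_snd v hs.inv hs.fits hs.wt b (h.pol.ge (BK_pol hf)) k z ζ).symm
      rw [ρF_snd, prod_tw u, Fintype.prod_empty (ι := Empty), one_mul]
      by_cases d : k ∈ KT
      · rw [BK_mem' _ d, BK_mem' _ d]
        exact (mul_zero _).symm
      · rw [BK_not' _ d, BK_not' _ d, show F'.dk ℓ k = F.dk ℓ k by unfold Fam.dk; rw [h.χ]]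
        simp only [← h.wk k d]
        rfl
  van x hx f hf := h.van.ge (mem_vanM.2 ⟨BK_pol hf.1, fun z hz =>
    (h.evZ_BK (hX x hx) (vanM_le_obsM hf) hz).trans ((mem_vanM.1 hf).2 z hz)⟩)
  sec x hx := mem_of_eq_of_mem (sub_eq_zero.2 (Eq.trans (b := sctF F e x) (P_ext (fun j z m => by
    by_cases d : j ∈ F.movᶜ
    · refine (congrFun (congrFun (BK_mem (KT := KT) _ d) z) m).trans (Eq.symm ?_)
      change _ * z.2 _ (x.2.X j _) - _ * z.2 _ (x.2.X j _) = 0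
      simp [hX x hx j d]
    · exact congrFun (congrFun (BK_not (KT := KT) _ d) z) m) fun k z ζ => by
    by_cases d : k ∈ KT
    · exact (congrFun (congrFun (BK_mem' (T := F.movᶜ) _ d) z) ζ).trans
        (sct_kil (h.kil k d) (hX x hx) z ζ).symm
    · exact congrFun (congrFun (BK_not' (T := F.movᶜ) _ d) z) ζ) h.sct.symm)) (zero_mem _)
  obs x hx _ f hf := h.obs.2 (mem_obsM.2 ⟨BK_pol hf.1, fun z hz =>
    (h.evZ_BK (hX x hx) hf hz).symm ▸ (mem_obsM.1 hf).2 z hz⟩)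

omit hs in
theorem inj {T : Set (ch.WF ν κ Λ)} (hX : ∀ x ∈ T, ∀ j ∉ F.mov, x.2.X j = 0) :
    (ch.kd ν κ F e).Inj (ch.kd ν κ F' e) twQ T (BK F.movᶜ KT) := fun x hx _ hf a =>
  mem_vanM.2 ⟨hf.1, fun z hz =>
    (h.evZ_BK (hX x hx) hf hz).symm.trans ((mem_vanM.1 (h.van.le a)).2 z hz)⟩

omit hs

variable {b b' N : ℕ} {U : Set (ch.WF ν κ Λ)} {U' : Set (ch.WF ν κ Empty)}
  (hM : ch.Ok F e K₀ ℓ b U) (h0 : ch.Ok F' e K₀ ℓ b' U')
include hM h0

theorem tS : TPrd (actF F.toWt) (actF F'.toWt) F.actL (tI n) Prod.fst (tP n) (.fst ℂ _ _)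
    twQ (fun v y => (v, y.2)) F.B (ch.cyc κ F (0 : ν → J → ℕ)) (ch.cyc κ F' 0) :=
  h.tprd (fun _ => h.cyc hM.inv h0.inv) fun _ a => ((h.abs.mem_cyc hM.inv).1 a).2

theorem tZ : TPrd (actF F.toWt) (actF F'.toWt) F.actL (tI n) Prod.fst (tP n) (.fst ℂ _ _)
    twQ (fun v y => (v, y.2)) F.B (ch.solF ν κ F ∩ ch.cyc κ F (0 : ν → J → ℕ))
    (ch.solF ν κ F' ∩ ch.cyc κ F' 0) :=
  h.tprd (fun _ => (and_congr h.sol (h.cyc hM.inv h0.inv)).trans and_and_left.symm)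
    fun _ a => ((h.abs.mem_cyc hM.inv).1 a.2).2

variable [Mono.FP F.actL F.B]

theorem psi (m : Mk ν κ) : hcls (psiF m) = H.map (h.tZ hM h0).eqM.map (hcls (psiF m)) := by
  have a := hM.gz_cyc (0 : ν → J → ℕ)
  have a' := h0.gz_cyc (0 : ν → J → ℕ)
  haveI := a.act
  haveI := a'.act
  refine (a.cl_psi m).trans (Eq.trans ?_ (congrArg _ (a'.cl_psi m)).symm)
  rw [map_neg, ← ((a.psi m).pull_id (a'.psi m) a.orb a'.orb (h.tZ hM h0).eqM (fun _ _ => rfl)
    (fun _ _ => rfl) fun _ _ s hs w _ => (ρψ_ctr (tw_ne (ne_S hs)) m w).symm).1]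

/-- **the virtual class of a product** -/
theorem vir (hB : Tq.Dim F.actL F.B N) : virF F e (ch.cyc κ F (0 : ν → J → ℕ)) =
    cross (h.tZ hM h0).eqh.toEqv.qm (h.tZ hM h0).eqM.map (Tq.fnd F.actL F.B) (virF F' e _) := by
  have a := lev_cyc hM.inv hM.cuts (0 : ν → J → ℕ) (κ := κ)
  have a' := lev_cyc h0.inv h0.cuts (0 : ν → J → ℕ) (κ := κ)
  obtain ⟨_, d⟩ := hM.toStd.reg' a.adm a.inv (isClosed_closure.isLocallyClosed.inter hM.lc_baseF)
  obtain ⟨_, d'⟩ := h0.toStd.reg' a'.adm a'.inv (isClosed_closure.isLocallyClosed.inter h0.lc_baseF)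
  refine (hM.isW_abs h.abs).2.unique' ((h.tS hM h0).isW hB (h.tZ hM h0) d d'
    (fun x hx f => ⟨hx, a.adm hx, fun g => h.sol.2 ⟨hx.2.1, f.2.2 (h.van.ge (mem_of_eq_of_mem h.sct g))⟩⟩)
    (h.lin h0.toStd fun _ a => ((h.abs.mem_cyc hM.inv).1 a).2)
    (h.inj fun _ a => ((h.abs.mem_cyc hM.inv).1 a.2).2) (fun _ => ?_) (h0.isW_abs h.abs').2)
  unfold rk
  rw [h.mov]

variable (j : J) {χ : (S → ℂ) → ℂ} (hc : Tq.Hm χ)
  (hχ : ∀ τ, IsUnit τ → χ τ * ∏ s, τ s ^ c j s = ∏ s, τ s ^ F.wt j s)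
include hc hχ

theorem euX : hcls ((ch.sdX ν κ F.toWt j).eu (actF F.toWt) _) =
    ∑ m ∈ Finset.range (finrank ℂ (ch.Th j) * ch.h (some j) + 1),
      H.map (h.tZ hM h0).eqh.toEqv.qm (Tq.lcq F.actL F.B χ) ^
        (finrank ℂ (ch.Th j) * ch.h (some j) - m) * H.map (h.tZ hM h0).eqM.map
          (PowerSeries.coeff m ((ch.sdX ν κ F'.toWt j).ch (actF F'.toWt) _)).1 := by
  have a := hM.gz_cyc (0 : ν → J → ℕ)
  have a' := h0.gz_cyc (0 : ν → J → ℕ)
  haveI := a.act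
  haveI := a'.act
  rw [map_lcq a.orb (Tq.orb _ _) (h.tZ hM h0).eqh hc]
  refine (okX _ j).eu_tw (okX _ j) a.orb a'.orb (h.tZ hM h0).eqM (Tq.Hm.fst.comp hc)
    (fun _ _ => rfl) (fun _ _ => rfl) fun _ _ s hs w _ => ?_
  refine Eq.trans ?_ (congrArg _ (ρX_ctr (tw_ne (ne_S hs)) w).symm)
  rw [h.wd' (ne_S hs), smul_smul, hχ _ (isUnit_S hs)]
  unfold ρX
  rw [Fintype.prod_empty (ι := Empty), one_smul]
  rfl

theorem euK : hcls ((ch.sdK ν κ F.toWt j).eu (actF F.toWt) _) =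
    ∑ m ∈ Finset.range (ch.rkO j + 1),
      H.map (h.tZ hM h0).eqh.toEqv.qm (Tq.lcq F.actL F.B χ) ^ (ch.rkO j - m) *
        H.map (h.tZ hM h0).eqM.map
          (PowerSeries.coeff m ((ch.sdK ν κ F'.toWt j).ch (actF F'.toWt) _)).1 := by
  have a := hM.gz_cyc (0 : ν → J → ℕ)
  have a' := h0.gz_cyc (0 : ν → J → ℕ)
  haveI := a.act
  haveI := a'.act
  rw [map_lcq a.orb (Tq.orb _ _) (h.tZ hM h0).eqh hc]
  have := (a.cuts.okK a.base j).eu_tw (a'.cuts.okK a'.base j) a.orb a'.orb (h.tZ hM h0).eqM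
    (Tq.Hm.fst.comp hc) (fun _ _ => rfl) (fun _ _ => rfl) fun _ _ s hs w hw => ?_
  · rwa [Nat.add_sub_cancel_left] at this
  have k := (mem_sdK_B.1 hw).1
  refine Eq.trans ?_ (congrArg _ (ρK_ctr (tw_ne (ne_S hs)) (isUnitF_iff.1 hs).2 k).symm)
  rw [h.wd' (ne_S hs), smul_smul, hχ _ (isUnit_S hs)]
  refine P_ext (fun j' z m => ?_) fun k => k.elim
  change _ * w.1 j' _ _ = _ * (_ * w.1 j' _ _)
  by_cases d : j' = j
  · subst d
    rw [Fintype.prod_empty (ι := Empty), one_mul]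
  · simp [k.2 j' d]

end Tw2

end Ch

end Vale.Agent.P269
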