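import Vale.Agent.P287Q.Lz.HV

/-! The contribution of a vertex over a fixed divisor: numbers. -/

set_option linter.unusedSectionVars false
set_option maxSynthPendingDepth 3

namespace Vale.Agent.P269.Lz

open Set Function Topology TensorProduct B Vale.Agent.P291Z Vale.Agent.P269.Ch
  Vale.Agent.P269.Loc LG

variable {R J K σ ν : Type} [Fintype R] [Fintype J] [Fintype K] [Fintype σ] [Fintype ν]
  {P : TT R J K σ} {K₀ : RD R} {ρ : σ → R → ℤ} {j : J} {k D : ℕ} {g : ℤ} {d : R → ℤ} {a : σ → ℂ}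
  {τ : Md P ν g d}

theorem HVg.pbE_prod {A Y X X' : Type} [TopologicalSpace A] [TopologicalSpace Y]
    [TopologicalSpace X] [TopologicalSpace X'] (e : C(Y, A)) {ψ : ν → F ⊗[ℂ] Hev A}
    {ev : ν → C(A, X)} {p : ν → Hev Y} {i : C(X', X)} {q : ν → C(Y, X')}
    (h1 : ∀ n, inF _ (pbE e (ψ n)) = 1 ⊗ₜ (p n).1) (h2 : ∀ n, (ev n).comp e = i.comp (q n))
    (x : ν → ℕ × Hev X) : pb F e (inF _ (∏ n, ψ n ^ (x n).1 * pbE (ev n) (1 ⊗ₜ (x n).2))) =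
      1 ⊗ₜ (∏ n, p n ^ (x n).1 * Hev.map (q n) (Hev.map i (x n).2)).1 := by
  have ps : ∀ n, pbE e (ψ n) = 1 ⊗ₜ p n := fun n => inF_injective (h1 n)
  rw [pb_inF, ← inF_tmul, map_prod]
  refine congrArg _ (Eq.trans (Finset.prod_congr rfl fun n _ => ?_)
    (map_prod (Algebra.TensorProduct.includeRight (R := ℂ) (A := F)) _ _).symm)
  rw [map_mul, map_pow, ps, pbE_pbE, h2, ← pbE_pbE, pbE_tmul, pbE_tmul, map_mul, map_pow]
  rfl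

theorem HVg.mul_prod {A : Type} [CommRing A] {c u : A} {f g : ν → A} (n : ν) (h : u * g n = g n) :
    c * u * ∏ a, f a * g a = c * ∏ a, f a * g a := by
  classical
  rw [← Finset.mul_prod_erase _ _ (Finset.mem_univ n), mul_assoc, ← mul_assoc u, mul_left_comm u, h]

theorem TT.mk_mem_XL {z : P.Fix} : Quo.mk _ z ∈ P.XL ρ ↔ OvP P.E.toWt P.wt z.1.2 ρ :=
  ⟨fun ⟨_, e, b⟩ => (congrArg (Quot.lift (fun z : P.Fix => OvP P.E.toWt P.wt z.1.2 ρ)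
    fun _ _ ⟨_, c, f⟩ => propext ⟨fun u => f ▸ TT.ovP_act u _, fun u l v =>
      (mul_eq_zero.1 ((congrArg (·.2 l) f).symm.trans (u l v))).resolve_left (mul_ne_zero
        (prod_zpow_ne (isUnit_pi_iff.1 (Prod.isUnit_iff.1 c).1) _)
        (prod_zpow_ne (isUnit_pi_iff.1 (Prod.isUnit_iff.1 c).2) _))⟩) e).mpr b,
    fun b => ⟨z, rfl, b⟩⟩

/-- a bare vertex has the label of any of its marked points -/
theorem Md.sel_Qv (hF : Free P.E) (n : ν) : τ.sel (P.Qv ρ) =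
    τ.sel (fun m => m.Conn ∧ ∀ z, OnV P.E.toWt P.wt m z) ∩ τ.ev n ⁻¹' P.XL ρ :=
  Set.ext fun _ => ⟨fun ⟨m, b, c, e⟩ => ⟨⟨m, b, c, vert_univ.1 (e.mono (subset_univ _))⟩,
    let ⟨_, f⟩ := τ.evp n b
    mem_preimage.2 (f ▸ TT.mk_mem_XL.2 fun l u => congrFun (vert_single.1 e l u) _)⟩,
    fun ⟨⟨m, b, c, e⟩, u⟩ =>
      let ⟨_, f⟩ := τ.evp n b
      ⟨m, b, c, (vert_univ.2 e).single hF (τ.fx b).sol c
        (TT.mk_mem_XL.1 (mem_of_eq_of_mem f.symm u))⟩⟩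

theorem Md.clopen_Qv (hF : Free P.E) (n : ν)
    (cE : IsClopen (τ.sel fun m => m.Conn ∧ ∀ z, OnV P.E.toWt P.wt m z))
    (cl : IsClopen (P.XL ρ)) : IsClopen (τ.sel (P.Qv ρ)) :=
  Md.sel_Qv (τ := τ) hF n ▸ cE.inter (cl.preimage (τ.ev n).continuous)

theorem Md.id_Qv [Nice P.X] (hF : Free P.E) (n : ν)
    (cE : IsClopen (τ.sel fun m => m.Conn ∧ ∀ z, OnV P.E.toWt P.wt m z))
    (cl : IsClopen (P.XL ρ)) : τ.id (P.Qv ρ) =
      τ.id (fun m => m.Conn ∧ ∀ z, OnV P.E.toWt P.wt m z) * pbE (τ.ev n) (idE (P.XL ρ)) := by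
  rw [pbE_idE _ cl, Md.id, Md.id, idE_mul cE (cl.preimage (τ.ev n).continuous), Md.sel_Qv hF n]

variable [DecidableEq R] [DecidableEq σ]

/-- the product of the insertions on the moduli space of maps to a fixed part -/
noncomputable def insV (z : GZ (P.V ρ).E ℓs ((P.V ρ).E.Zs (Fin 0) k D g d (0 : ν → J → ℕ)))
    (x : ν → ℕ × Hev P.X) : Hev ((P.V ρ).X0 ν k D g d) :=
  ∏ n, ⟨_, z.cl_psi_mem (.inl n)⟩ ^ (x n).1 *
    Hev.map (z.eqh_vl (.inl n) (z.vl_cone _)).toEqv.qm (Hev.map (P.iV ρ) (x n).2)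

theorem Vx1.pb_ins {e} (h : Vx1 k D a τ ρ j e)
    (z : GZ (P.V ρ).E ℓs ((P.V ρ).E.Zs (Fin 0) k D g d (0 : ν → J → ℕ))) (x : ν → ℕ × Hev P.X) :
    pb F e (inF _ (∏ n, τ.ψ n ^ (x n).1 * pbE (τ.ev n) (1 ⊗ₜ (x n).2))) = 1 ⊗ₜ (insV z x).1 :=
  HVg.pbE_prod e (p := fun n => ⟨_, z.cl_psi_mem (.inl n)⟩) h.psi (h.ev z) x

/-- **the contribution of a bare vertex over a fixed divisor** -/
theorem Geo.vx_num [Nice P.X] (G : Geo k D a τ) (h : P.Ok K₀ k D) (E : P.End ρ j)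
    (hb : P.bw ρ j a ≠ 0)
    (cE : IsClopen (τ.sel fun m => m.Conn ∧ ∀ z, OnV P.E.toWt P.wt m z)) (cl : IsClopen (P.XL ρ))
    (x : ν → ℕ × Hev P.X) (n₀ : ν) (hx : idE (P.XL ρ) * 1 ⊗ₜ (x n₀).2 = 1 ⊗ₜ (x n₀).2)
    (z : GZ (P.V ρ).E ℓs ((P.V ρ).E.Zs (Fin 0) k D g d (0 : ν → J → ℕ))) :
    τ.I (inF _ (τ.id (fun m => m.Conn ∧ ∀ z, OnV P.E.toWt P.wt m z) *
      ∏ n, τ.ψ n ^ (x n).1 * pbE (τ.ev n) (1 ⊗ₜ (x n).2))) =
    (P.bw ρ j a • tt) ^ (-(∑ r, P.w j r * d r + 1 - g)) * Fock.Hat.ofPS ℂ (.mk fun m =>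
      intg ((P.V ρ).E.vir (Fin 0) k D g d 0) (hcls (ind ((P.V ρ).E.sel fun m => m.Conn)) *
        ((Qrr.evC (indC (P.V ρ).E.toWt _) (Qrr.th {j} (fun _ => P.bw ρ j a) id m)).1 *
          (insV z x).1))) := by
  obtain ⟨e, v⟩ := G.vx1 h E hb (Md.clopen_Qv h.free n₀ cE cl).isOpen
  rw [← v.loc _ _ (v.pb_ins z x), ← map_mul, Md.id_Qv h.free n₀ cE cl,
    HVg.mul_prod (g := fun n => pbE (τ.ev n) (1 ⊗ₜ (x n).2)) n₀
      ((map_mul (pbE (τ.ev n₀)) _ _).symm.trans (congrArg _ hx))]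

end Vale.Agent.P269.Lz
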