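import Vale.Agent.P287Q.Lz.HZ0
import Vale.Agent.P287Q.Lz.Ex
import Vale.Agent.P287Q.Lz.Dg3
import Vale.Agent.P287Q.Lz.Hy

/-! Three marked points in degree zero. -/

set_option linter.unusedSectionVars false
set_option linter.style.haveILetI false
set_option maxSynthPendingDepth 3

namespace Vale.Agent.P269.Lz

open Set Function Topology TensorProduct B Vale.Agent.P291Z Vale.Agent.P269.Ch Vale.Agent.P269.Loc
  LG

variable {R J K σ ν : Type} [Fintype R] [Fintype J] [Fintype K] [Fintype σ] [Fintype ν]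
  [DecidableEq R] [DecidableEq σ] {P : TT R J K σ} {K₀ : RD R} {k D : ℕ} {a : σ → ℂ}
  {τ : Md P ν 0 0} (G : Geo k D a τ) (hP : P.Ok K₀ k D) (hν : Fintype.card ν = 3)
include G hP hν

/-- the constant maps to the fixed locus -/
theorem Geo.exists_cst : ∃ u : C(P.X, τ.A), ∀ n, (τ.ev n).comp u = .id _ := by
  obtain ⟨O, h⟩ := hP.exists_as ν 0 0
  obtain ⟨c⟩ := Th.exists_dat (F := P.E) (κ := Fin 0) hP.big hP.bigD hν
  have e := c.eqh hP.good.toInv (Z := P.Z0 ν (Fin 0) (P.ch ν k D 0 0))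
    (subset_inter subset_rfl (hP.abs_fam.sol_subset hP.good.toInv))
  have hm : ∀ z ∈ P.Fix, c.σ z ∈ h.tc.FZ := fun z ⟨hz, ρ, b⟩ => ⟨e.maps hz, fun s _ => by
    have ht : IsUnit (((1 : Empty → ℂ), fun r => ∏ i, (s i : ℂ) ^ ρ i r) : _ × (R → ℂ)) :=
      isUnit_T.2 ⟨fun _ => one_ne_zero, fun _ => prod_zpow_ne (fun i => (s i).ne_zero) _⟩
    refine ⟨_, c.hm_θ.isUnit ht, (h.b_apply s _).trans (.trans ?_ (c.σ_act ht z))⟩
    exact Prod.ext (Subsingleton.elim _ _) ((scl_mul ..).symm.trans (congrArg (scl · c.x)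
      (funext fun j => (b.tc_mul (fun i => (s i).ne_zero) j).trans (actT_snd _ _ z j).symm)))⟩
  have q : Tq.Eqv P.E.actT (actF P.E.toWt) P.Fix h.tc.FZ c.σ :=
    ⟨hm, e.cont.mono TT.fix_sub, fun b hb z hz => e.toEqv.eqv b hb z hz.1⟩
  refine ⟨((G.φ hP h).symm : C(h.tc.F, _)).comp q.qm, fun n => ContinuousMap.ext
    (Tq.mk_surj.forall.2 fun z => ?_)⟩
  obtain ⟨m, f⟩ := (Fam.chart_lat (F := P.E) hP.bigD).exists_rep_sol (hm _ z.2).1.1
  obtain ⟨_, b⟩ := τ.evp n ((G.rp_iff hP h (z := (G.φ hP h).symm (h.tc.cl _ (hm _ z.2)))).2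
    ⟨_, hm _ z.2, (G.φ hP h).apply_symm_apply _, f⟩)
  obtain ⟨-, t, v, w⟩ := Ex.vl_rep hP h (hm _ z.2) f n
  exact b.trans (Quot.sound ⟨t, v, (c.vl_σ _ _).symm.trans w⟩)

/-- **the contribution of the constant maps** -/
theorem Geo.cst (t : TG P a) {n : ν} {u : C(P.X, τ.A)} (hu : (τ.ev n).comp u = .id _) (x) :
    τ.I x = t.I (pb F u x) := by
  haveI := G.nice
  haveI := t.nice
  haveI := t.niceX
  haveI := t.cptX
  have c := fun M => (Th.exists_dat (F := P.EM M) (κ := Fin 0) hP.big_fam hP.bigD_fam hν).some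
  have e := fun M => (c M).eqh hP.inv_EM
    (Z := (P.EM M).Zs (Fin 0) k D 0 0 (0 : ν → J → ℕ))
    (subset_inter subset_rfl (hP.abs_fam.sol_subset hP.inv_EM))
  have v := fun M => (c M).push_vir (hP.good_EM M) hP.reg_fam hP.abs_fam (isOpen_PMs M)
    (TT.sm_of_open (isOpen_PMs M)) (fun l l' => (TT.fib_eq l).trans (TT.fib_eq l').symm)
    hP.big_fam hP.bigD_fam hν (e M)
  have w := fun M => (D3c.gz_EM (g := 0) (d := 0) hP M).eqh_vl (.inl n) (A := (P.EM M).cone)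
    fun _ b => vl_mem b.1 _
  have li : ∀ M, LeftInverse (w M).toEqv.qm (e M).toEqv.qm := fun M =>
    Tq.mk_surj.forall.2 fun z => congrArg (Quo.mk _) (Subtype.ext ((c M).vl_σ _ _))
  have sq : ∀ M z, (w M).toEqv.qm (G.i M z) = t.i M (pr (τ.ev n) M z) := fun M z =>
    DFunLike.congr_fun (G.ev1 t (D3c.gz_EM hP M) n (w M).maps) z
  refine (t.loc.push_eq G.loc (fun M => .of_isClosedEmbedding (v M).1.isClosedEmbedding)
    (fun M => (v M).2) (fun M z => ?_) (fun M y ⟨z, b⟩ => ⟨_, (sq M z).symm.trans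
      ((congrArg _ b).trans (li M y))⟩) x).symm
  refine ((li M).rightInverse_of_surjective (v M).1.surjective).injective ((li M _).trans
    (.trans ?_ (sq M _).symm))
  exact congrArg (fun y => t.i M (y, z.2)) (DFunLike.congr_fun hu z.1).symm

omit G hP in
theorem Md.id_conn : τ.id (fun m => m.Conn) = 1 :=
  (congrArg idE (eq_univ_of_forall fun z => (τ.ex z).imp fun _ b =>
    ⟨b, (Th.smooth_of_typ (τ.fx b).stable (τ.fx b).typ (by simp [hν])).1⟩)).trans idE_univ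

omit G hν in
/-- **three marked points in degree zero** -/
theorem GeoT.hZ {T : Th P} (G : GeoT k D a T) (t : TG P a) : HZ T t.I :=
  let ⟨u, h⟩ := (G (Fin 3) 0 0).exists_cst hP rfl
  ⟨u, h, fun x => by
    rw [Md.id_conn rfl, map_one, one_mul, (G (Fin 3) 0 0).cst hP rfl t (h 0)]⟩

end Vale.Agent.P269.Lz
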