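import Vale.Agent.P287Q.G.Qrr.ThV
import Vale.Agent.P287Q.G.Qrr.ThP

/-! The virtual class of the constant maps with three marked points, over an open base. -/

set_option linter.unusedSectionVars false
set_option linter.style.haveILetI false

namespace Vale.Agent.P269.Th

open P291Z Set Function Topology Filter Module Base Ch Cv P1 Tq Holo Vir
open OnePoint hiding some map_smul

variable {S Λ R J K ι ν κ : Type} [Fintype S] [Fintype Λ] [Fintype R] [Fintype J] [Fintype K]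
  [Fintype ι] [DecidableEq ι] [Fintype ν] [Fintype κ] {ch : Ch ι J} {F : Fam S Λ R J K}
  {e : K → ι → ℕ} {ℓ : R → ι → ℤ} {K₀ : RD R}

variable (ch ν κ Λ) in
/-- the directions of the parameters -/
noncomputable def dirL : Submodule ℂ (ch.WF ν κ Λ) :=
  LinearMap.range (LinearMap.inl ℂ (Λ → ℂ) (ch.W (Mk ν κ)))

theorem finrank_dirL : finrank ℂ (dirL Λ ν κ ch) = Fintype.card Λ :=
  (LinearMap.finrank_range_of_inj LinearMap.inl_injective).trans (finrank_fintype_fun_eq_card ℂ)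

theorem mem_dirO {N : Submodule ℂ (ch.WF ν κ Λ)} (h : ∀ y ∈ N, y.1 = 0) {y : ch.WF ν κ Λ} :
    y ∈ dirL Λ ν κ ch ⊔ N ↔ ((0, y.2) : ch.WF ν κ Λ) ∈ N := by
  refine Submodule.mem_sup.trans ⟨?_, fun a => ⟨(y.1, 0), ⟨y.1, rfl⟩, _, a,
    Prod.ext (add_zero _) (zero_add _)⟩⟩
  rintro ⟨_, ⟨l, rfl⟩, z, a, rfl⟩
  exact mem_of_eq_of_mem (Prod.ext (h z a).symm (zero_add _)) a

theorem finrank_dirO (mov : Set J) : finrank ℂ ↥(dirL Λ ν κ ch ⊔ dirs Λ ν κ ch mov) =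
    Fintype.card Λ + finrank ℂ (dirs Λ ν κ ch mov) := by
  have := Submodule.finrank_sup_add_finrank_inf_eq (dirL Λ ν κ ch) (dirs Λ ν κ ch mov)
  rwa [show dirL Λ ν κ ch ⊓ dirs Λ ν κ ch mov = ⊥ from eq_bot_iff.2 fun _ ⟨⟨_, a⟩, b⟩ =>
    Prod.ext (mem_dirs.1 b).1 (congrArg Prod.snd a).symm, finrank_bot, add_zero,
    finrank_dirL] at this

namespace Dat

variable (c : Dat ν κ ch F.toWt ℓ)

/-- the slice -/
def FlO : Set (ch.WF ν κ Λ) := {y | Std y.2 c.q ∧ ∀ j ∉ F.mov, y.2.X j = 0}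

variable [DecidableEq R] [IsEmpty κ] {U : Set (ch.WF ν κ Λ)}

theorem slcO (hF : F.Inv) (hA : F.Abs) (hB : IsOpen F.B) (hU : IsOpen U) :
    Slc (actF F.toWt) (ch.cyc κ F (0 : ν → J → ℕ) ∩ U) c.θ c.FlO
      (dirL Λ ν κ ch ⊔ dirs Λ ν κ ch F.mov) := by
  obtain ⟨n₀, e₀⟩ := c.n0
  obtain ⟨n₁, e₁⟩ := c.n1
  obtain ⟨n₂, e₂⟩ := c.n2
  refine ⟨c.hm_θ, c.an_θ, ⟨_, hm_θv ℓ n₀, c.θv_θ n₀⟩, fun x hx y =>
    .trans ⟨fun hy => ?_, fun hy => ?_⟩ (mem_dirO fun _ a => (mem_dirs.1 a).1).symm,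
    fun x hx => ((hU.eventually_mem hx.1.2).and ((hB.preimage continuous_fst).eventually_mem
      hx.1.1.2.1)).mono fun y a b =>
      ⟨(hA.mem_cyc hF).2 ⟨c.mem_baseF a.2 b.1, b.2⟩, a.1⟩, fun b hb x hx => ?_,
    fun s hs x hx hy => ?_⟩
  · obtain ⟨a1, a2, a3⟩ := hx.1.unique hy.1
    exact mem_dirs.2 ⟨rfl, fun l => sub_eq_zero.2 (congrFun a1 l),
      fun n => sub_eq_zero.2 (congrFun a2 n), sub_eq_zero.2 a3,
      fun j hj => sub_eq_zero.2 ((hy.2 j hj).trans (hx.2 j hj).symm)⟩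
  · obtain ⟨-, a2, a3, a4, a5⟩ := mem_dirs.1 hy
    exact ⟨hx.1.congr (funext fun l => sub_eq_zero.1 (a2 l)) (funext fun n => sub_eq_zero.1 (a3 n))
      (sub_eq_zero.1 a4), fun j hj => (sub_eq_zero.1 (a5 j hj)).trans (hx.2 j hj)⟩
  · rw [c.act_θ hb hx.1]
    exact ⟨hx.1.congr rfl rfl rfl, fun j hj =>
      (congrArg (_ • ·) (hx.2 j hj)).trans (by ext; simp)⟩
  have h : Std (scl (fun j => ∏ i, s.1 i ^ F.wt j i) x.2) c.q := hx.1.congr rfl rfl rfl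
  have k : ∀ n, Orb (par ch (c.q n)) fun i => (dup s.2).1 i (par ch (c.q n) i) := fun n => by
    have := (orb_p (x := scl (fun j => ∏ i, s.1 i ^ F.wt j i) x.2) (isUnit_dupF hs) n).symm
    rwa [h.p, show (act _ _).p n = _ from hy.1.p n] at this
  obtain ⟨a, t, -, ht, d1, d2, d3⟩ := h.eq_dgA c.gz (isUnit_dupF hs) hy.1
    (e₀ ▸ k n₀) (e₁ ▸ k n₁)
  obtain rfl : a = 1 := by
    have := congrFun d2 n₂
    rw [comp_apply (f := sc a), show c.q n₂ = _ from e₂, sc_coe, mul_one] at this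
    exact (coe_injective this).symm
  rw [nf_one, one_pow, mul_one] at d3
  refine ⟨(s.1, fun r => (∏ i, t i ^ ℓ r i)⁻¹), isUnit_T.2 ⟨ne_S hs, fun r =>
    inv_ne_zero (prod_zpow_ne ht _)⟩, Prod.ext rfl ?_⟩
  change dgA ch c.q' 1 (c.t _) = _
  rw [c.t_eq ht d3]
  refine Prod.ext (congrArg Prod.fst d1).symm (Prod.ext (congrArg (·.2.1) d1).symm
    (funext fun n => ?_))
  rcases n with n | n
  exacts [(congrArg (·.2.2 (.inl n)) d1).symm, isEmptyElim n]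

theorem res_genO (h : ch.Ok F e K₀ ℓ (Fintype.card Λ) U) (hA : F.Abs) (hB : IsOpen F.B)
    (hc : ∀ l l', F.fib l = F.fib l') [Mono.FP F.actT F.cone]
    (hι : Fintype.card ι = Fintype.card R + 1) (hν : Fintype.card ν = 3)
    (hf : Eqh F.actT (actF F.toWt) F.cone (ch.solF ν κ F ∩ ch.cyc κ F (0 : ν → J → ℕ)) c.θ c.σ) :
    IsOpenEmbedding hf.toEqv.qm ∧ haveI := (h.gz_cyc (0 : ν → J → ℕ)).nice
      res hf.toEqv.qm (virF F e (ch.cyc κ F (0 : ν → J → ℕ))) = Tq.fnd F.actT F.cone := by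
  classical
  have v : Vm F e (0 : ν → J → ℕ) U _ := h.vd_sh
    ⟨∅, nofun, hA.2.trans (eq_univ_of_forall fun _ _ e => nomatch e).symm⟩ (sh_abs hA) 0
  have em := main_eq (ν := ν) (κ := κ) hA h.inv h.cuts
  obtain ⟨n, g⟩ := v.gd h.toStd
  obtain ⟨O, hO, eO⟩ := v.dom.opn
  obtain ⟨τ, a2, a3⟩ := c.exists_τ
  have hm : ∀ z ∈ F.cone, MfdAt F.cone (Fintype.card Λ + K₀.n) z := fun z hz => by
    obtain ⟨m, h1, h2⟩ := (sh_abs hA).mfd h.inv h.sm hz
    obtain ⟨m', h3, h4⟩ := h.reg.mfd h.inv hz h2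
    have := Set.ncard_add_ncard_compl F.mov
    rw [range_eq_empty, sdiff_empty, ← Nat.card_eq_fintype_card (α := J),
      Nat.card_coe_set_eq] at h1
    rwa [show Fintype.card Λ + K₀.n = m' by omega]
  rw [v.virF_vr h.toStd]
  refine (eO ▸ c.slcO h.inv hA hB hO).main g (T := gr c.x × _) (φ := fun t => tst t.1 t.2)
    (fun _ => an_tst _ _) (fun x hx w hw => ?_) (fun x hx => ⟨hx, by
      have := v.cyc.mfd
      rw [em] at this
      exact this _⟩)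
    (.of_mfd hm) hf c.an_σ a2 a3
    (fun _ a => (c.σ_mem_Fl h.inv hA a).2) (fun y hy => ?_)
    (fun z hz => ⟨dirL Λ ν κ ch ⊔ (F.vert z).map c.dσ, ?_, fun u hu H => ?_⟩) fun ⟨z, hz⟩ => ?_
  · have : gr x.2 = gr c.x := by rw [gr, gr, (c.std.unique hx.2.1).1]
    simp only [mem_vanM, this, tst_zero, Prod.forall, Subtype.forall]
    exact and_iff_right hw
  · obtain ⟨z, a, rfl⟩ := c.exists_σ hy.1.1 hy.2.1
    exact ⟨z, a, rfl⟩
  · have := h.reg.dim z hz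
    have a := Submodule.finrank_map_le c.dσ (F.vert z)
    refine (Submodule.finrank_add_le_finrank_add_finrank _ _).trans ?_
    rw [finrank_dirL]
    omega
  · refine (mem_dirO ?_).2 (c.ker_le h.fits z ((mem_dirO fun _ a => (mem_dirs.1 a).1).1 hu)
      fun p hp t => .trans ?_ (H (⟨p, hp⟩, t)))
    · rintro _ ⟨_, -, rfl⟩
      rfl
    · rw [fderiv_tst, fderiv_tst]
      refine congrArg (deriv · 0) (funext fun ε => congrArg _ ?_)
      rw [sctF, sctF, hc]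
      rfl
  have h3 := Mono.FP.finrank_le (x := Sp.of F.actT z hz) ((hm z hz).isMfd hz)
  have b0 := c.σ_mem h.inv hz
  have b1 := (h.num.mfd_main h.sm (h.lat.gr h.inv (sh_abs hA) 0)
    (em.ge (hA.sol_subset h.inv b0))).1
  have b2 := vdim_eq (F := F) (ℓ := ℓ) (K₀ := K₀) (b := Fintype.card Λ) h.cuts.ne b0.1.2.1
    (Fintype.card Empty)
  have b3 := h.toStd.rk_nonneg b0
  have b4 : ∑ i, (∑ r, K₀.γ r * ℓ r i) * ch.m i = 0 := by
    have := c.eu_eq K₀.γ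
    rw [eu, c.gz.g] at this
    omega
  have b6 : ch.rk F ℓ K₀ = finrank ℂ (dirs Λ ν κ ch F.mov) - K₀.n := by
    have a : ∀ j, ch.eu (fun i => ch.a (some j) i) = ch.h (some j) := fun j =>
      (h_eq₁ b0.1.2.1 (h.cuts.ne _)).symm
    simp only [rk, finrank_dirs, a, b4, c.gz.g]
    simp
  have b7 : ch.vdim ν κ F ℓ K₀ (Fintype.card Λ) (Fintype.card Empty) =
      Fintype.card Λ + K₀.n - finrank ℂ ((S → ℂ) × (R → ℂ)) := by
    simp only [vdim, b4, c.gz.g, hι]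
    simp [hν]
    ring
  rw [finrank_dirO]
  omega

end Dat

variable [DecidableEq R] [IsEmpty κ] {k D : ℕ}

/-- **the virtual class is the fundamental class of the target** -/
theorem Dat.push_vir (c : Dat ν κ (F.sch ν κ k D 0 0) F.toWt ℓs) (hF : F.Good) (hR : F.Reg K₀)
    (hA : F.Abs) (hB : IsOpen F.B) (hS : F.Sm (Fintype.card Λ)) (hc : ∀ l l', F.fib l = F.fib l')
    (hk : F.Big k) (hD : F.BigD k D) (hν : Fintype.card ν = 3)
    (h : Eqh F.actT (actF F.toWt) F.cone (F.Zs κ k D 0 0 (0 : ν → J → ℕ)) c.θ c.σ)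
    [Nice (F.X F.cone)] [Nice (F.Mod κ k D 0 0 (0 : ν → J → ℕ))] :
    IsHomeomorph h.toEqv.qm ∧
      push h.toEqv.qm (Tq.fnd F.actT F.cone) = F.vir κ k D 0 0 (0 : ν → J → ℕ) := by
  obtain ⟨_, d⟩ := hF.ok' ν κ hR hS hk hD 0 0
  haveI := hF.fp
  obtain ⟨a, b⟩ := c.res_genO d hA hB hc Fintype.card_option hν h
  have e : IsHomeomorph h.toEqv.qm :=
    ⟨a.continuous, a.isOpenMap, a.injective, c.surj_qm hF.toInv hD hν h⟩
  exact ⟨e, (congrArg _ b.symm).trans (push_res_homeo e _)⟩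

end Vale.Agent.P269.Th
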