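import Vale.Agent.P287Q.Lz.Amb
import Vale.Agent.P269.LG.Kun
import Vale.Agent.P269.LG.HVs
import Vale.Agent.P287Q.G.Bas.Lv

/-! Tautological classes on the approximations of the Borel construction. -/

set_option linter.unusedSectionVars false
set_option linter.style.haveILetI false

namespace Vale.Agent.P269.Lz

open Set Function Topology Filter Module TensorProduct Vale.Agent.P291Z Vale.Agent.P269.Ch
  Vale.Agent.P269.Orb Vale.Agent.P269.Loc LG

variable {R J K σ ι ν κ : Type} [Fintype R] [Fintype J] [Fintype K] [Fintype σ] [Fintype ι]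
  [DecidableEq ι] [Fintype ν] [Fintype κ] [DecidableEq σ] {P : TT R J K σ} {ch : Ch ι J}
  {e : K → ι → ℕ} {K₀ : RD R} {ℓ : R → ι → ℤ} {O : Set (ch.WF ν κ Empty)} {n : ℕ}

namespace Lev

variable {S S' Λ Λ' T T' : Type} [Fintype S] [Fintype S'] [Fintype Λ] [Fintype Λ'] [Fintype T]
  [Fintype T']

variable {J' : Type} [Fintype J'] {ch : Ch ι J'} {F : Wt S Λ T J'} {F' : Wt S' Λ' T' J'}
  {Y : Set (ch.WF ν κ Λ)} {Y' : Set (ch.WF ν κ Λ')} {θ : ch.AF ν κ S → ch.AF ν κ S'}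
  {f : ch.WF ν κ Λ → ch.WF ν κ Λ'}

theorem hm_ξ (ℓ : T → ι → ℤ) (q : Mk ν κ) (r : T) :
    Tq.Hm fun s : ch.AF ν κ S => (θv ℓ q s).2 r :=
  have a := hm_θv (ch := ch) (S := S) ℓ q
  ⟨congrArg (·.2 r) a.one, fun s t hs ht => congrArg (·.2 r) (a.mul s t hs ht),
    fun s hs => (continuous_apply r).continuousAt.comp (a.cont s hs).snd⟩

theorem lcq_deg (g : OZ F Y) {c : ch.AF ν κ S → ℂ} (hc : Tq.Hm c) :
    H.IsDeg 2 (Tq.lcq (actF F) Y c) := by
  haveI := g.act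
  rw [Tq.lcq_eq (presA g.orb) (χ := hc.ρ) fun _ => rfl]
  exact (Hev.mem_deg.1 (c1_deg _)).map _

theorem map_ξ (g : OZ F Y) (g' : OZ F' Y') (hf : Tq.Eqh (actF F) (actF F') Y Y' θ f)
    (h1 : ∀ a, (θ a).2 = a.2) {T'' : Type} [Fintype T''] (ℓ : T'' → ι → ℤ) (q : Mk ν κ) (r : T'') :
    H.map hf.toEqv.qm (Tq.lcq (actF F') Y' fun s => (θv ℓ q s).2 r) =
      Tq.lcq (actF F) Y fun s => (θv ℓ q s).2 r :=
  haveI := g.act
  haveI := g'.act
  (map_lcq g.orb g'.orb hf (hm_ξ ℓ q r)).trans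
    (congrArg (Tq.lcq (actF F) Y) (funext fun a => by simp only [θv, h1]))

/-- maps that do not change the curve -/
theorem map_psi (g : OZ F Y) (g' : OZ F' Y') (hf : Tq.Eqh (actF F) (actF F') Y Y' θ f)
    (h1 : ∀ a, (θ a).2 = a.2) (h2 : ∀ x ∈ Y, (f x).2 = x.2) (q : Mk ν κ) :
    H.map hf.toEqv.qm (hcls (psiF q)) = hcls (psiF q) := by
  haveI := g.act
  haveI := g'.act
  have k : EqM (actF F) (actF F') Y Y' θ f :=
    ⟨⟨hf.hm.ρ.toMonoidHom, hf.hm.ρ.continuous, fun _ => rfl⟩, hf.maps, hf.cont, hf.eqv⟩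
  have hB : ∀ x ∈ Y, (ch.sdψ S' Λ' q).B (f x) = (ch.sdψ S Λ q).B x := fun x hx => by
    simp only [h2 x hx]
  have hN : ∀ x ∈ Y, (ch.sdψ S' Λ' q).N (f x) = (ch.sdψ S Λ q).N x := fun x hx => by
    simp only [h2 x hx]
  have o := g.cuts.okψ (S := S) (F := F) g.base q
  have o' := g'.cuts.okψ (S := S') (F := F') g'.base q
  rw [show hf.toEqv.qm = k.map from rfl, H.map_hcls _ (psiF_cocycle g'.orb g'.cuts g'.base q),
    psiF_eq, psiF_eq, map_neg, hcls_neg (o.cocycle g.orb),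
    hcls_neg (cocycle_pull k.map.continuous (o'.cocycle g'.orb))]
  exact congrArg Neg.neg (o.pull g.orb g'.orb o' k (L := fun _ => .id)
    ⟨fun _ _ => continuousOn_const, fun x hx _ h => (hB x hx).ge h, fun x hx _ h => (hN x hx).ge h,
      fun x hx a ha w hw => mem_of_eq_of_mem (sub_eq_zero.2 (by simp only [h1, LinearMap.id_apply]))
        (zero_mem _)⟩ (fun x hx _ _ h => (hN x hx).le h)
    fun x hx w hw => ⟨w, (hB x hx).le hw, (sub_self w).symm ▸ zero_mem _⟩).1.symm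

end Lev

namespace TT.Am

variable (h : P.Am e K₀ ℓ O n)

section
include h

theorem gz0 : GZ P.E ℓ (P.Z0 ν κ ch) :=
  haveI := h.tc.gd.isActZ
  h.std_E.gz inter_subset_left
    (inter_subset_right.trans (h.std.cuts.cyc_subset_adm h.std_E.inv 0)) h.tc.gd.orbZ

theorem gzM (M : ℕ) : GZ (P.EM M) ℓ (P.ZM ν κ ch M) :=
  haveI := (h.lv M).gd.isActZ
  h.std_EM.gz inter_subset_left
    (inter_subset_right.trans (h.std.cuts.cyc_subset_adm h.std_EM.inv 0)) (h.lv M).gd.orbZ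

end

/-- the evaluation map -/
noncomputable def ev0 (q : Mk ν κ) : C(Quo (actF P.E.toWt) (P.Z0 ν κ ch), P.E.X P.E.cone) :=
  (h.gz0.eqh_vl q fun _ a => vl_mem a.1 q).toEqv.qm

/-- the evaluation map to the Borel construction of the target -/
noncomputable def evM (M : ℕ) (q : Mk ν κ) :
    C(Quo (actF (P.EM M).toWt) (P.ZM ν κ ch M), (P.EM M).X (P.EM M).cone) :=
  ((h.gzM M).eqh_vl q fun _ a => vl_mem a.1 q).toEqv.qm

variable (M : ℕ) (q : Mk ν κ)

theorem ev0_mk (x : P.Z0 ν κ ch) :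
    h.ev0 q (Quo.mk _ x) = Quo.mk _ ⟨vl x.1 q, vl_mem x.2.1 q⟩ := rfl

theorem evM_cl (x hx p) : ∃ a, h.evM M q ((h.lv M).cl x hx p) =
    Quo.mk _ ⟨(uncurry p.val, (vl x q).2), a⟩ := ⟨_, rfl⟩

include h in
theorem psi_deg :
    H.IsDeg 2 (hcls (psiF q : Coch (Quo (actF (P.EM M).toWt) (P.ZM ν κ ch M)))) :=
  hcls_isDeg ((h.gzM M).psi_deg q)

theorem inc_psi : H.map ((h.lv M).inc (h.lv (M + 1))) (hcls (psiF q)) = hcls (psiF q) :=
  Lev.map_psi (h.gzM M).toOZ (h.gzM (M + 1)).toOZ ((h.lv M).eqh_inc (h.lv (M + 1)))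
    (fun _ => rfl) (fun _ _ => rfl) q

theorem base_psi : H.map (h.lv 0).base (hcls (psiF q)) = hcls (psiF q) :=
  Lev.map_psi h.gz0.toOZ (h.gzM 0).toOZ (h.lv 0).eqh_base (fun _ => rfl) (fun _ _ => rfl) q

theorem psi_tws : (fun _ => hcls (psiF q)) ∈ Tws fun M => (h.lv M).inc (h.lv (M + 1)) :=
  Tws.of (fun _ => h.inc_psi _ q) fun _ => h.psi_deg _ q

/-- the equivariant cotangent line class on the fixed locus -/
theorem exists_psi : ∃ x : Loc.R σ ⊗[ℂ] Hev h.tc.F,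
    ∀ M, H.map (h.lv M).i (hcls (psiF q)) = evA _ M (inH _ x) := by
  refine (exists_evA_ev (c := fun M => H.map (h.lv M).i (hcls (psiF q))) (d := 1)
    (fun M => (h.psi_deg M q).map _) fun M => ?_).imp fun _ a M => (a M).symm
  rw [← h.inc_psi M q, H.map_map, H.map_map]
  exact congrArg (H.map · _) (ContinuousMap.ext fun z => ((h.lv M).inc_i _ z).symm)

end TT.Am

end Vale.Agent.P269.Lz
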