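import Vale.Agent.P287Q.Lz.TlN

/-! The relation between cotangent classes and boundary divisors for the localised correlators. -/

set_option linter.unusedSectionVars false
set_option maxSynthPendingDepth 3

namespace Vale.Agent.P269.Lz

open Function Filter TensorProduct Cv B Vale.Agent.P291Z Vale.Agent.P269.Ch LG Finset

variable {R J K σ ν ν₁ ν₂ ι : Type} [Fintype R] [Fintype J] [Fintype K] [Fintype σ] [Fintype ν]
  [Fintype ν₁] [Fintype ν₂] [Fintype ι] {P : TT R J K σ} {T : Th P} {δ : F ⊗[ℂ] Hev (P.X × P.X)}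

section gen

variable {m : AM1 R J (ν ⊕ Unit × Bool)} {φ : ν₁ ⊕ ν₂ ≃ ν ⊕ Unit × Bool} {q₁ : ν₁} {q₂ : ν₂}
  {A : Set ν} {m₁ : AM1 R J ν₁} {m₂ : AM1 R J ν₂} {j₁ : m₁.X → m.X} {j₂ : m₂.X → m.X}
  (s : Sd φ q₁ q₂ A) (c : AM.Split m m₁ m₂ φ e00 j₁ j₂) {a b : ν}
include s c

theorem Sd.lr_mem : m.p (.inl (.inl a)) ∈ Set.range j₁ ↔ a ∈ A := by
  refine ⟨fun ⟨x, e⟩ => by_contra fun u => ?_, fun u => ?_⟩
  · obtain ⟨y, f⟩ := s.notMem.1 u
    exact c.ne x _ (e.trans (f ▸ c.two.mark_inl y).symm)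
  · obtain ⟨y, f⟩ := (s.mem a).1 u
    exact ⟨_, f ▸ c.one.mark_inl y⟩

theorem Sd.lr_range (c₁ : m₁.Conn) : Set.range j₁ = m.cmp (m.p (.inl (qq false))) := by
  rw [range_eq_cmp c.one c₁ q₁, s.e₁]

theorem Sd.lr_sep (c₁ : m₁.Conn) (c₂ : m₂.Conn) : SpQ a b m ↔ a ∈ A ∧ b ∉ A := by
  have e : m.cmp (m.p (.inl (qq true))) = (Set.range j₁)ᶜ := by
    rw [← c.compl.symm.eq_compl, range_eq_cmp c.two c₂ q₂, s.e₂]
  have u := AC.mem_cmp_self (c := m.toAC) (m.p (.inl (qq true)))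
  rw [SpQ, AM.Sep, ← s.lr_range c c₁, e, s.lr_mem c, Set.mem_compl_iff, s.lr_mem c]
  exact and_congr_right' (and_iff_left ⟨e.le u, fun _ => em _⟩)

end gen

section tags

variable {p : ν → Prop} [DecidablePred p] (t : ν → Bool)

theorem lr_tag₁ : {n | op p true t n} = insert none (pr₁ (spP p) {n | t n}) ∧
    {n | op p false t n} = pr₁ (spP p) {n | t n} := by
  have k : ∀ a : {a // p a}, t a ↔ some a ∈ pr₁ (spP p) {n | t n} := fun a =>
    ⟨fun u => ⟨a, u, rfl⟩, fun ⟨_, u, v⟩ => (Sum.inl_injective v : a.1 = _) ▸ u⟩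
  refine ⟨Set.ext ?_, Set.ext ?_⟩ <;> rintro (_ | a)
  exacts [iff_of_true rfl (.inl rfl), (k a).trans (or_iff_right nofun).symm,
    iff_of_false nofun nofun, k a]

theorem lr_tag₂ : {n | op (¬p ·) true t n} = insert none (pr₂ (spP p) {n | t n}) ∧
    {n | op (¬p ·) false t n} = pr₂ (spP p) {n | t n} := by
  have k : ∀ a : {a // ¬p a}, t a ↔ some a ∈ pr₂ (spP p) {n | t n} := fun a =>
    ⟨fun u => ⟨a, u, rfl⟩, fun ⟨_, u, v⟩ => (Sum.inl_injective v : a.1 = _) ▸ u⟩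
  refine ⟨Set.ext ?_, Set.ext ?_⟩ <;> rintro (_ | a)
  exacts [iff_of_true rfl (.inl rfl), (k a).trans (or_iff_right nofun).symm,
    iff_of_false nofun nofun, k a]

variable [Fintype (Option {a // p a})] [Fintype (Option {a // ¬p a})] {m : AM1 R J ν}
  {n : Unit × Bool → m.X} {h : m.Nds n} {W : Wt Empty Empty R J} {wt : J → σ → ℤ} {b : Bool}

theorem lr_com (hb : b ↔ (∃ a, p a ∧ t a) ∧ ∃ a, ¬p a ∧ t a) {m₁ m₂ j₁ j₂}
    (c : AM.Split (ctp m h) m₁ m₂ (spP p) e00 j₁ j₂) :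
    Com W wt m₁ {n | op p b t n} ∧ Com W wt m₂ {n | op (¬p ·) b t n} ↔ Com W wt m {n | t n} := by
  cases b
  · rw [(lr_tag₁ t).2, (lr_tag₂ t).2]
    rcases not_and_or.1 (mt hb.2 nofun) with u | u
    · rw [com_split₂ (S := {n | t n}) (sd_spP p) c fun a v w => u ⟨a, w, v⟩]
      refine and_iff_right ?_
      rintro (_ | a) ⟨_, v, ⟨⟩⟩
      exact (u ⟨_, a.2, v⟩).elim
    · rw [com_split₁ (S := {n | t n}) (sd_spP p) c fun a v => by_contra fun w => u ⟨a, w, v⟩]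
      refine and_iff_left ?_
      rintro (_ | a) ⟨_, v, ⟨⟩⟩
      exact (u ⟨_, a.2, v⟩).elim
  · obtain ⟨⟨a, u, v⟩, a', u', v'⟩ := hb.1 rfl
    rw [(lr_tag₁ t).1, (lr_tag₂ t).1, com_split (sd_spP p) c (a := a) (b := a') v u v' u']

end tags

variable [DecidableEq R] [DecidableEq ν]

variable (P) in
/-- the normalisation at a node of a given type -/
abbrev LrQ (t : ν → Bool) (bo : Finset ν → Bool) (A : Finset ν) (d₁ : R → ℤ)
    (m : AM1 R J (ν ⊕ Unit × Bool)) : Prop :=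
  Sps m (spP (· ∈ A)) (fun m => m.Typ 0 d₁ ∧ CS P {n | op (· ∈ A) (bo A) t n} m)
    (CS P {n | op (· ∉ A) (bo A) t n})

variable {t : ν → Bool} {bo : Finset ν → Bool}

theorem inv_lrQ (A : Finset ν) (d₁ : R → ℤ) : Inv P (LrQ P t bo A d₁) :=
  invW_sps _ (invW_typ.and (inv_cs _)) (inv_cs _)

theorem LrQ.unique {A A' : Finset ν} {d₁ d₁' : R → ℤ} {m : AM1 R J (ν ⊕ Unit × Bool)}
    (u : LrQ P t bo A d₁ m) (v : LrQ P t bo A' d₁' m) : A = A' ∧ d₁ = d₁' := by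
  obtain ⟨m₁, m₂, j₁, j₂, c, u, -⟩ := u
  obtain ⟨m₁', m₂', j₁', j₂', c', v, -⟩ := v
  have e := ((sd_spP _).lr_range c u.2.1).trans ((sd_spP _).lr_range c' v.2.1).symm
  refine ⟨Finset.ext fun a => ((sd_spP _).lr_mem c).symm.trans (e ▸ (sd_spP _).lr_mem c'),
    funext fun r => ?_⟩
  rw [← u.1.2 r, ← v.1.2 r, c.one.deg_eq r, c'.one.deg_eq r, e]

theorem LrQ.sep {A : Finset ν} {d₁ : R → ℤ} {m : AM1 R J (ν ⊕ Unit × Bool)}
    (u : LrQ P t bo A d₁ m) {a b : ν} : SpQ a b m ↔ a ∈ A ∧ b ∉ A :=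
  let ⟨_, _, _, _, c, u, v⟩ := u
  (sd_spP _).lr_sep c u.2.1 v.1

variable {I : F ⊗[ℂ] H P.X →ₗ[F] F} {e f : ι → F ⊗[ℂ] H P.X} (h : Hp T δ I e f)
include h

theorem Hp.lr_side {d d₁ d₂ : R →₀ ℕ} (hd : d₁ + d₂ = d) (X : ν → Tg P) (bo : Finset ν → Bool)
    (A : Finset ν) : IsClopen ((T _ (-1) (dz d)).sel (LrQ P (fun n => (X n).1) bo A (dz d₁))) ∧
    (T _ (-1) (dz d)).Je ((T _ (-1) (dz d)).id (LrQ P (fun n => (X n).1) bo A (dz d₁)) *
      (T _ (-1) (dz d)).dg δ (qq false) (qq true) * (T _ (-1) (dz d)).ins (xt fun n => (X n).2)) =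
      ∑ β, nm T wC d₁ (op (· ∈ A) (bo A, 0, evn (e β)) X) *
        nm T wC d₂ (op (· ∉ A) (bo A, 0, evn (f β)) X) := by
  obtain ⟨g, I', hS⟩ := h.hS _ _ _ (spP (· ∈ A)) (-1) 0 0 (dz d) _ _ (by norm_num) (hd ▸ dz_add d₁ d₂)
  have c₁ := h.toHy.clopen_cs (d := dz d₁) {n | op (· ∈ A) (bo A) (fun n => (X n).1) n}
  have c₂ := h.toHy.clopen_cs (d := dz d₂) {n | op (· ∉ A) (bo A) (fun n => (X n).1) n}
  refine ⟨hS.clopen (inv_cs _) (inv_cs _) c₁ c₂ none fun _ u => u.1, (hS.dg (inv_cs _) (inv_cs _) c₁ c₂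
    none (fun _ u => u.1) (h.hE _ _ _) (h.hE _ _ _) h.dec none {()} (y₁ := fun _ => _) (y₂ := fun _ => _)
      (congrArg _ ((hS.ins _).trans (sum_singleton _ _).symm))).trans (sum_congr rfl fun β _ => ?_)⟩
  have t₁ := ins_op (T (Option {a // a ∈ A}) 0 (dz d₁)) X (bo A) 0 (evn (e β))
    (x := fun n => xt (fun n => (X n).2) (spP (· ∈ A) (.inl n))) rfl fun _ => rfl
  have t₂ := ins_op (T (Option {a // a ∉ A}) 0 (dz d₂)) X (bo A) 0 (evn (f β))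
    (x := fun n => xt (fun n => (X n).2) (spP (· ∈ A) (.inr n))) rfl fun _ => rfl
  rw [pow_zero, one_mul, mul_comm] at t₁ t₂
  have k : ∀ {p : ν → Prop} (y : ℕ × HH P), (fun n => (op p (bo A, y) X n).1) =
      op p (bo A) fun n => (X n).1 := fun y => funext (by rintro (_ | _) <;> rfl)
  rw [sum_singleton, nm, nm, t₁, t₂, k, k, mul_assoc, mul_assoc]
  rfl

/-- **the localised relation** `ψ a + ψ b = D(a | b)` -/
theorem Hp.lr (d : R →₀ ℕ) (X : ν → Tg P) {bo : Finset ν → Bool}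
    (hb : ∀ A, bo A ↔ (∃ n, n ∈ A ∧ (X n).1) ∧ ∃ n, n ∉ A ∧ (X n).1) {a b : ν} (hab : a ≠ b) :
    (T ν 0 (dz d)).Je ((T ν 0 (dz d)).id (CS P {n | (X n).1}) *
      (((T ν 0 (dz d)).ψ a + (T ν 0 (dz d)).ψ b) * (T ν 0 (dz d)).ins fun n => (X n).2)) =
      ∑ p ∈ antidiagonal d, ∑ A : Finset ν with a ∈ A ∧ b ∉ A, ∑ β,
        nm T wC p.1 (op (· ∈ A) (bo A, 0, evn (e β)) X) *
          nm T wC p.2 (op (· ∉ A) (bo A, 0, evn (f β)) X) := by
  classical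
  obtain ⟨A₀, _, _, _, φ, φ', hN, hL⟩ := h.hL ν (dz d)
  obtain ⟨c, w⟩ := hL a b hab
  have i : Inv P fun m => ∃ x ∈ (↑(antidiagonal d ×ˢ (univ : Finset (Finset ν))) :
      Set (((R →₀ ℕ) × (R →₀ ℕ)) × Finset ν)),
      LrQ P (fun n => (X n).1) bo x.2 (dz x.1.1) m :=
    fun m m' r ⟨x, u, v⟩ => ⟨x, u, inv_lrQ _ _ m m' r v⟩
  have i' : Inv P (SpQ a b) := fun m m' r u => r.same.sep u
  have c' := Md.clopen_ex (T _ (-1) (dz d)) (finite_toSet (antidiagonal d ×ˢ univ))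
    fun x u => (h.lr_side (mem_antidiagonal.1 (mem_product.1 u).1) X bo x.2).1
  have k := hN.id (inv_cs _) i (h.toHy.clopen_cs {n | (X n).1}) c' fun m n r u => by
    refine ⟨fun v => ?_, fun ⟨x, _, v⟩ => ⟨v.conn r (sd_spP _), ((sps_iff r (v.conn r (sd_spP _))
      u.typ.1 (sd_spP _) fun _ _ _ _ s => lr_com _ (hb _) s).1 v).1⟩⟩
    obtain ⟨p, hp, s⟩ := mem_image.1 (h.eff.anti u (clopen_sid r))
    exact ⟨(p, (side m n).toFinset), mem_product.2 ⟨hp, mem_univ _⟩, (sps_iff r v.1 u.typ.1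
      (sd_spP _) fun _ _ _ _ s => lr_com _ (hb _) s).2 ⟨v.2, by simp, s.symm⟩⟩
  have l := w _ _ ((pb_inF _ _).trans ((congrArg (inF A₀) ((map_mul _ _ _).trans ((congrArg₂
    (· * ·) k (hN.ins fun n => (X n).2)).trans (map_mul _ _ _).symm))).trans (pb_inF _ _).symm))
  rw [← map_mul, ← map_mul, ← map_mul, mul_mul_mul_comm, mul_comm ((T ν 0 (dz d)).id _) (Md.id _ _),
    Md.id_of_imp _
    (inv_cs _) invW_conn (h.toHy.clopen_cs _) (h.conn _ _) fun _ u => u.1, mul_mul_mul_comm,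
    Md.id_mul _ i' i c c', ← Md.fnE_ite _ (InvW.and i' i), Md.fnE_cf_sum _
      (antidiagonal d ×ˢ univ.filter fun A : Finset ν => a ∈ A ∧ b ∉ A)
      (u := fun x m => if LrQ P (fun n => (X n).1) bo x.2 (dz x.1.1) m then 1 else 0)
      (fun x u => Md.lc_ite _ (inv_lrQ _ _)
        (h.lr_side (mem_antidiagonal.1 (mem_product.1 u).1) X bo x.2).1 (IsLocallyConstant.const _))
      fun m _ => ?_, sum_mul, map_sum, map_sum, sum_product] at l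
  · refine l.trans (sum_congr rfl fun p hp => sum_congr rfl fun A _ => ?_)
    rw [Md.fnE_ite _ (inv_lrQ _ _), ← mul_assoc]
    exact (h.lr_side (mem_antidiagonal.1 hp) X bo A).2
  split_ifs with v
  · obtain ⟨v, x, u, s⟩ := v
    have u := (mem_product.1 u).1
    rw [sum_eq_single_of_mem x (mem_product.2 ⟨u, mem_filter.2 ⟨mem_univ _, s.sep.1 v⟩⟩)
      fun y r z => if_neg fun s' => z ?_, if_pos s]
    have q := dz_inj (s'.unique s).2
    exact Prod.ext (Prod.ext q (add_left_cancel (a := y.1.1) ((mem_antidiagonal.1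
      (mem_product.1 r).1).trans (q ▸ (mem_antidiagonal.1 u).symm)))) (s'.unique s).1
  · exact (sum_eq_zero fun x u => if_neg fun s => v ⟨s.sep.2 (mem_filter.1 (mem_product.1 u).2).2,
      x, mem_product.2 ⟨(mem_product.1 u).1, mem_univ _⟩, s⟩).symm

end Vale.Agent.P269.Lz
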