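import Vale.Agent.P269.Orb.Quot
import Vale.Agent.P269.Br.LCA

/-!
# Two sections of a proper map with simply shaped fibres: the topological part
-/

set_option linter.unusedSectionVars false

namespace Vale.Agent.P287Q.Mov

open Set Function Topology Filter TopologicalSpace Vale.Agent.P291Z Vale.Agent.P269

variable {E B C X T : Type} [TopologicalSpace E] [TopologicalSpace B] [TopologicalSpace C]
  [TopologicalSpace X] [TopologicalSpace T]

/-- local primitives of one element give a primitive along a compact set -/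
theorem prim_of_stalk {K : Type} [AddCommGroup K] [Module ℂ K] (S : Soft ℂ B K) [T3Space B]
    {A : Set B} (hA : IsCompact A) {n : ℤ} {a : K}
    (hs : ∀ x ∈ A, ∃ b ∈ S.deg (n - 1), a - S.δ b ∈ S.Van x)
    (hl : ∀ A' ⊆ A, IsCompact A' → S.ExactOn A' (n - 1)) :
    ∃ b ∈ S.deg (n - 1), a - S.δ b ∈ S.VanOn A := by
  have key : ∃ A', IsCompact A' ∧ A ⊆ A' ∧ A' ⊆ A ∧
      ∃ b ∈ S.deg (n - 1), a - S.δ b ∈ S.VanOn A' := by
    refine hA.induction_on (p := fun s => ∃ A', IsCompact A' ∧ s ⊆ A' ∧ A' ⊆ A ∧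
      ∃ b ∈ S.deg (n - 1), a - S.δ b ∈ S.VanOn A') ?_ ?_ ?_ ?_
    · exact ⟨∅, isCompact_empty, subset_rfl, empty_subset _, 0, Submodule.zero_mem _,
        fun _ h => h.elim⟩
    · rintro s t hst ⟨A', h1, h2, h3⟩
      exact ⟨A', h1, hst.trans h2, h3⟩
    · rintro s t ⟨A₁, c₁, s₁, t₁, b₁, h₁, e₁⟩ ⟨A₂, c₂, s₂, t₂, b₂, h₂, e₂⟩
      exact ⟨A₁ ∪ A₂, c₁.union c₂, union_subset_union s₁ s₂, union_subset t₁ t₂,
        S.union_prim h₁ h₂ e₁ e₂ (hl _ (inter_subset_left.trans t₁) (c₁.inter c₂))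
          (Soft.sep_compact c₁ c₂)⟩
    · intro x hx
      obtain ⟨b, hb, e⟩ := hs x hx
      obtain ⟨D, hD, hDc, hDs⟩ := exists_mem_nhds_isClosed_subset
        ((S.van_open (a - S.δ b)).mem_nhds e)
      exact ⟨A ∩ D, inter_mem self_mem_nhdsWithin (mem_nhdsWithin_of_mem_nhds hD), A ∩ D,
        hA.inter_right hDc, subset_rfl, inter_subset_left, b, hb, fun y hy => hDs hy.2⟩
  obtain ⟨A', -, h1, -, b, hb, e⟩ := key
  exact ⟨b, hb, Soft.VanOn.mono e h1⟩

/-- `a` is a coboundary near `K` -/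
def Ex (K : Set E) (n : ℤ) (a : Coch E) : Prop := ∃ c, IsDeg (n - 1) c ∧ ∀ e ∈ K, a - δ c ∈ Van e

/-- `K` is connected and has no cohomology in degree one -/
structure Tr (K : Set E) : Prop where
  conn : IsConnected K
  one : ∀ b, IsDeg 1 b → (∀ e ∈ K, δ b ∈ Van e) → Ex K 1 b

theorem isMap_pull {p : E → B} (hp : Continuous p) :
    (asSoft continuous_id (Fam.all B)).IsMap (asSoft hp (Fam.all E)) 0 (pull p).toLinearMap where
  deg n c hc := ⟨IsDeg.cast (IsDeg.pull hc.1 p) (add_zero n).symm, trivial⟩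
  van x c hc := VanB.pull hp (vanB_id.1 hc)
  comm c x := by
    change δ (pull p c) - pull p (δ c) ∈ VanB p x
    rw [δ_pull, sub_self]
    exact Submodule.zero_mem _

theorem stalk_inj {p : E → B} (hp : Continuous p) {x : B} (hx : x ∈ range p) (n : ℤ) :
    Soft.InjOn' (asSoft continuous_id (Fam.all B)) (asSoft hp (Fam.all E)) 0
      (pull p).toLinearMap {x} n := by
  intro c hc hd b hb e
  obtain ⟨u, rfl⟩ := hx
  have h0 := local_cocycle (vanB_id.1 (hd _ rfl))
  have h1 : (pull p c - δ b).1 [u] = 0 := Van.val_single (VanB.van (p := p) (e _ rfl))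
  rw [Coch.sub_val, Pi.sub_apply, δ_val_single, sub_zero, pull_val, List.map_singleton] at h1
  rw [h1, zero_smul, sub_zero] at h0
  refine ⟨coneOp (p u) c, ⟨coneOp_deg _ hc.1, trivial⟩, ?_⟩
  rintro _ rfl
  exact vanB_id.2 h0

theorem const_on {K : Set E} (hK : IsPreconnected K) {f : E → ℂ}
    (h : ∀ e ∈ K, ∀ᶠ y in 𝓝 e, f y = f e) {e e' : E} (he : e ∈ K) (he' : e' ∈ K) : f e = f e' := by
  have := isPreconnected_iff_preconnectedSpace.1 hK
  exact ((IsLocallyConstant.iff_eventually_eq fun z : K => f z).2 fun z =>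
    continuous_subtype_val.continuousAt.eventually (h z z.2)).apply_eq_of_preconnectedSpace
      ⟨e, he⟩ ⟨e', he'⟩

variable [Nice B] {p : E → B}

theorem stalk_surj (hp : IsPr p) {x : B} (h : Tr (p ⁻¹' {x})) {n : ℤ} (hn : n ≤ 1) :
    Soft.SurjOn (asSoft continuous_id (Fam.all B)) (asSoft hp.cont (Fam.all E)) 0
      (pull p).toLinearMap {x} n := by
  intro b hb hd
  have hd' : ∀ e ∈ p ⁻¹' {x}, δ b ∈ Van e := fun e he =>
    VanB.van (p := p) ((show p e = x from he) ▸ hd x rfl)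
  have k : ∀ {a : Coch E}, (∀ e ∈ p ⁻¹' {x}, a ∈ Van e) →
      a ∈ (asSoft hp.cont (Fam.all E)).VanOn {x} := fun ha y hy =>
    (show y = x from hy) ▸ vanB_of_prop hp.cont (hp.prop (isClosed_supp _)) ha
  rcases lt_trichotomy n 0 with h0 | rfl | h0
  · refine ⟨0, zero_mem _, by rw [map_zero]; exact zero_mem _, 0, zero_mem _, ?_⟩
    rw [IsDeg.eq_zero hb.1 h0, map_zero, map_zero, sub_zero, sub_zero]
    exact zero_mem _
  · obtain ⟨e₀, h₀⟩ := h.conn.nonempty
    have e1 := IsDeg.eq_fn hb.1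
    rw [e1] at hd'
    refine ⟨b.1 [e₀] • 1, ⟨(isDeg_one.smul _).cast (by simp), trivial⟩, ?_, 0, zero_mem _,
      k fun e he => ?_⟩
    · rw [asSoft_δ, map_smul, δ_one_eq_zero, smul_zero]
      exact zero_mem _
    · change b - pull p (b.1 [e₀] • 1) - δ 0 ∈ _
      rw [map_zero, sub_zero, map_smul, map_one, ← fn_const]
      nth_rw 1 [e1]
      rw [← fn_sub]
      exact fn_van.2 ((δ_fn_van.1 (hd' e he)).mono fun y hy => sub_eq_zero.2 (hy.trans
        (const_on h.conn.isPreconnected (fun e he => δ_fn_van.1 (hd' e he)) he h₀)))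
  · obtain rfl : n = 1 := by omega
    obtain ⟨c, c1, c2⟩ := h.one b hb.1 hd'
    refine ⟨0, zero_mem _, by rw [map_zero]; exact zero_mem _, c, ⟨c1, trivial⟩, k ?_⟩
    rwa [map_zero, sub_zero]

/-- **A class of degree two that dies on the fibres comes from the base.** -/
theorem exists_base (hp : IsPr p) {K : Set B} (hK : IsCompact K) {a : Coch E}
    (h : ∀ x ∈ K, Tr (p ⁻¹' {x})) (ha : ∀ x ∈ K, Ex (p ⁻¹' {x}) 2 a) :
    ∃ β c, ∀ e, p e ∈ K → a - pull p β - δ c ∈ Van e := by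
  have key := Soft.cone_exactOn_of_stalk (isMap_pull hp.cont) (U := K) (n₀ := -1) (k := 1)
    (fun n hn a ha => asSoft_low _ _ (by omega) ha _) (fun n hn a ha => asSoft_low _ _ (by omega) ha _)
    (fun x hx n _ hn => stalk_surj hp (h x hx) hn)
    fun x hx n _ _ => stalk_inj hp.cont (h x hx).conn.nonempty _
  obtain ⟨⟨β, c⟩, -, e⟩ := prim_of_stalk (Soft.cone (isMap_pull hp.cont)) hK (n := 2) (a := (0, a))
    (fun x hx => by
      obtain ⟨c, c1, c2⟩ := ha x hx
      refine ⟨(0, c), ⟨zero_mem _, c1, trivial⟩, ?_, ?_⟩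
      · change (0 : Coch B) - -δ 0 ∈ VanB id x
        simp
      · change a - (pull p 0 + δ c) ∈ VanB p x
        rw [map_zero, zero_add]
        exact vanB_of_prop hp.cont (hp.prop (isClosed_supp _)) c2)
    fun A h1 h2 => key _ (by omega) A h1 h2
  refine ⟨β, c, fun u hu => ?_⟩
  rw [sub_sub]
  exact VanB.van (p := p) (e _ hu).2

/-- **Two lifts of the same map pull such a class back to the same class.** -/
theorem hcls_eq (hp : IsPr p) {K : Set B} (hK : IsCompact K) {a : Coch E}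
    (h : ∀ x ∈ K, Tr (p ⁻¹' {x})) (ha : ∀ x ∈ K, Ex (p ⁻¹' {x}) 2 a) {s s' : T → E}
    (hs : Continuous s) (hs' : Continuous s') (e : ∀ t, p (s' t) = p (s t)) (m : ∀ t, p (s t) ∈ K)
    (hc : supp (δ (pull s' a)) = ∅) : hcls (pull s a) = hcls (pull s' a) := by
  obtain ⟨β, c, k⟩ := exists_base hp hK h ha
  refine hcls_eq_of_cohom (c := pull s c - pull s' c) hc (supp_eq_empty.2 fun t => ?_)
  have := sub_mem (Van.pull hs.continuousAt (k _ (m t))) (Van.pull hs'.continuousAt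
    (k _ (e t ▸ m t)))
  rw [map_sub, map_sub, map_sub, map_sub, pull_pull, pull_pull, ← δ_pull, ← δ_pull,
    show p ∘ s' = p ∘ s from funext e] at this
  rw [map_sub]
  exact mem_of_eq_of_mem (by abel) this

/-! ### finite quotients -/

theorem exists_deg {n : ℤ} {a : Coch C} (ha : IsDeg n a) (hc : supp (δ a) = ∅) (h : hcls a = 0) :
    ∃ c, IsDeg (n - 1) c ∧ ∀ x, a - δ c ∈ Van x := by
  obtain ⟨c, k⟩ := (hcls_eq_zero hc).1 h
  refine ⟨comp (n - 1) c, isDeg_comp _ c, fun x => ?_⟩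
  have := Van.comp (supp_eq_empty.1 k x) n
  rwa [map_sub, ha.comp_eq, comp_δ'] at this

theorem ex_of_quot [Nice E] [CompactSpace C] [T2Space C] {Γ : Type} [Group Γ] [Finite Γ]
    {act : Γ → C → C} {q : C → E} (h1 : ∀ u, act 1 u = u)
    (h2 : ∀ γ γ' u, act (γ * γ') u = act γ (act γ' u)) (h3 : ∀ γ, Continuous (act γ))
    (hq : Continuous q) (h4 : ∀ u u', q u = q u' ↔ ∃ γ, act γ u = u') {n : ℤ} {b : Coch E}
    (hb : IsDeg n b) (hd : ∀ u, δ b ∈ Van (q u)) (h : hcls (pull q b) = 0) : Ex (range q) n b := by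
  have := Fintype.ofFinite Γ
  have cl := (isCompact_range hq).isClosed
  have : Nice (range q) := Nice.of_isLocallyClosed cl.isLocallyClosed
  have c0 : Continuous (rangeFactorization q) := hq.subtype_mk _
  have f : ∀ u u', rangeFactorization q u = rangeFactorization q u' ↔ ∃ γ, act γ u = u' :=
    fun u u' => Subtype.ext_iff.trans (h4 u u')
  have U : Orb.IsUC act (rangeFactorization q) := by
    refine ⟨h1, h2, h3, c0, fun V hV => ?_, f⟩
    refine (c0.isClosedMap.isQuotientMap c0 rangeFactorization_surjective).isOpen_preimage.1 ?_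
    have : rangeFactorization q ⁻¹' (rangeFactorization q '' V) = ⋃ γ, act γ ⁻¹' V :=
      Set.ext fun u => ⟨fun ⟨v, a, e⟩ => let ⟨γ, k⟩ := (f _ _).1 e.symm
        mem_iUnion.2 ⟨γ, show act γ u ∈ V from k ▸ a⟩, fun k => let ⟨γ, a⟩ := mem_iUnion.1 k
          ⟨_, a, ((f _ _).2 ⟨γ, rfl⟩).symm⟩⟩
    exact this ▸ isOpen_iUnion fun γ => hV.preimage (h3 γ)
  have hc : supp (δ (pull (Subtype.val : range q → E) b)) = ∅ := supp_eq_empty.2 fun ⟨_, u, rfl⟩ =>
    δ_pull _ b ▸ Van.pull continuous_subtype_val.continuousAt (hd u)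
  obtain ⟨c, c1, c2⟩ := exists_deg (hb.pull _) hc (U.map_injective rangeFactorization_surjective (by
    rw [map_zero, H.map_hcls _ hc, pull_pull]
    exact h))
  obtain ⟨c', d1, -, d2⟩ := (Taut.of_isClosedEmbedding cl.isClosedEmbedding_subtypeVal).inj hb c1
  exact ⟨c', d1, fun _ ⟨u, e⟩ => e ▸ d2 ⟨_, u, rfl⟩ (hd u) (c2 _)⟩

/-! ### trees -/

/-- there is no cohomology in degree one -/
def No1 (X : Type) [TopologicalSpace X] : Prop :=
  ∀ b : Coch X, IsDeg 1 b → supp (δ b) = ∅ → hcls b = 0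

theorem No1.exists_fn (h : No1 X) {b : Coch X} (hb : IsDeg 1 b) (hc : supp (δ b) = ∅) :
    ∃ f : X → ℂ, ∀ x, b - δ (fn f) ∈ Van x :=
  let ⟨_, c1, c2⟩ := exists_deg hb hc (h b hb hc)
  ⟨_, IsDeg.eq_fn (c1.cast (sub_self 1)) ▸ c2⟩

theorem No1.tree [CompactSpace X] [T2Space C] (h : No1 X) {G : X → C} (hG : Continuous G)
    (hs : Surjective G) {N : Finset (X × X)}
    (hi : ∀ x y, G x = G y → x = y ∨ (x, y) ∈ N ∨ (y, x) ∈ N)
    (ht : ∀ j : X → ℂ, ∃ g : X → ℂ, IsLocallyConstant g ∧ ∀ n ∈ N, g n.1 - g n.2 = j n.1 - j n.2) :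
    No1 C := fun b hb hc => by
  have fin : (Prod.fst '' (N : Set (X × X)) ∪ Prod.snd '' (N : Set (X × X))).Finite :=
    (N.finite_toSet.image _).union (N.finite_toSet.image _)
  obtain ⟨e, e1, e2⟩ := LC.exists_prim (fin.image G) one_ne_zero hb
    fun x _ => supp_eq_empty.1 hc x
  have d : IsDeg 1 (b - δ e) := hb.sub (e1.δ.cast (by simp))
  have c : supp (δ (b - δ e)) = ∅ := by rwa [map_sub, δ_δ, sub_zero]
  obtain ⟨f, hf⟩ := h.exists_fn (d.pull G) (cocycle_pull hG c)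
  obtain ⟨g, g1, g2⟩ := ht f
  have k : ∀ x y, G x = G y → (f - g) x = (f - g) y := fun x y a => by
    rcases hi x y a with rfl | a | a
    · rfl
    · have := g2 _ a
      simp only [Pi.sub_apply] at this ⊢
      linear_combination -this
    · have := g2 _ a
      simp only [Pi.sub_apply] at this ⊢
      linear_combination this
  have r : ∀ z, G (surjInv hs z) = z := surjInv_eq hs
  have k1 : ∀ x, pull G (b - δ e) - δ (fn (f - g)) ∈ Van x := fun x => by
    have := add_mem (hf x) (supp_eq_empty.1 (Orb.cocycle_fn.2 g1) x)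
    rw [fn_sub, map_sub δ]
    exact mem_of_eq_of_mem (by abel) this
  have r6 : ∀ z O, IsOpen O → (∀ y, G y = z → y ∈ O) → ∀ᶠ w in 𝓝 z, surjInv hs w ∈ O :=
    fun z O hO a => Eventually.mono ((hO.isClosed_compl.isCompact.image
      hG).isClosed.isOpen_compl.mem_nhds fun ⟨y, k1, k2⟩ => k1 (a y k2)) fun w hw =>
        by_contra fun k1 => hw ⟨_, k1, r w⟩
  refine (hcls_eq_zero hc).2 ⟨e + fn ((f - g) ∘ surjInv hs), supp_eq_empty.2 fun z => ?_⟩
  rw [map_add, ← sub_sub]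
  by_cases a : z ∈ G '' (Prod.fst '' (N : Set (X × X)) ∪ Prod.snd '' (N : Set (X × X)))
  · refine sub_mem (e2 z a) (δ_fn_van.2 ((r6 z (interior {y | (f - g) y = (f - g) (surjInv hs z)})
      isOpen_interior fun y hy => mem_interior_iff_mem_nhds.2 ?_).mono fun w hw =>
        (interior_subset hw :)))
    have := sub_mem (Van.pull hG.continuousAt (hy ▸ e2 z a)) (k1 y)
    rw [sub_sub_cancel] at this
    exact (δ_fn_van.1 this).mono fun w hw => hw.trans (k _ _ (hy.trans (r z).symm))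
  · have u : ∀ y, G y = z → y = surjInv hs z := fun y hy =>
      (hi _ _ (hy.trans (r z).symm)).resolve_right fun m =>
        a ⟨y, m.elim (fun m => .inl ⟨_, m, rfl⟩) fun m => .inr ⟨_, m, rfl⟩, hy⟩
    have := Van.pull (f := surjInv hs) (x := z)
      (tendsto_nhds.2 fun O hO m => r6 z O hO fun y hy => u y hy ▸ m) (k1 _)
    rwa [map_sub, pull_pull, show G ∘ surjInv hs = id from funext r, pull_id, ← δ_pull,
      pull_fn] at this

/-- a space covered by disjoint open pieces -/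
theorem No1.of_pieces {Y : Type} [TopologicalSpace Y] (h : No1 Y)
    (hX : ∀ x : X, ∃ k : Y → X, IsOpenEmbedding k ∧ range k = connectedComponent x) : No1 X :=
  fun b hb hc => by
  have : ∀ U : range (connectedComponent : X → Set X), ∃ f : X → ℂ, ∀ y ∈ U.1,
      b - δ (fn f) ∈ Van y := by
    rintro ⟨_, x, rfl⟩
    obtain ⟨k, k1, k2⟩ := hX x
    obtain ⟨c, c1, c2⟩ := exists_deg (hb.pull k) (cocycle_pull k1.continuous hc)
      (h _ (hb.pull k) (cocycle_pull k1.continuous hc))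
    obtain ⟨c', d1, -, d2⟩ := (Taut.of_isOpenEmbedding k1).inj hb c1
    refine ⟨fun y => c'.1 [y], fun y hy => ?_⟩
    obtain ⟨z, rfl⟩ := k2.ge hy
    rw [← IsDeg.eq_fn (d1.cast (sub_self 1))]
    exact d2 z (supp_eq_empty.1 hc _) (c2 z)
  choose f hf using this
  refine (hcls_eq_zero hc).2 ⟨fn fun x => f ⟨_, x, rfl⟩ x, supp_eq_empty.2 fun x => ?_⟩
  obtain ⟨k, k1, k2⟩ := hX x
  have := add_mem (hf ⟨_, x, rfl⟩ x mem_connectedComponent) (Van.δ ((fn_van (f := f ⟨_, x, rfl⟩ -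
    fun y => f ⟨_, y, rfl⟩ y)).2 (Eventually.mono ((k2 ▸ k1.isOpen_range).mem_nhds
      mem_connectedComponent) fun y hy => sub_eq_zero.2 (congrArg (f · y)
        (Subtype.ext (connectedComponent_eq hy) : (⟨_, x, rfl⟩ : range _) = ⟨_, y, rfl⟩)))))
  rwa [fn_sub, map_sub, sub_add_sub_cancel] at this

theorem no1_sphere : No1 (OnePoint ℂ) := fun b hb hc => by
  let j : (Fin 1 → ℂ) → OnePoint ℂ := fun z => (z 0 : ℂ)
  have hj : IsOpenEmbedding j :=
    OnePoint.isOpenEmbedding_coe.comp (Homeomorph.funUnique (Fin 1) ℂ).isOpenEmbedding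
  have rj : ∀ y, y ≠ OnePoint.infty → y ∈ range j := fun y hy => by
    lift y to ℂ using hy
    exact ⟨fun _ => y, rfl⟩
  have h0 := local_cocycle (supp_eq_empty.1 hc OnePoint.infty)
  rw [hb.val_single one_ne_zero, zero_smul, sub_zero] at h0
  have d : IsDeg 1 (b - δ (coneOp OnePoint.infty b)) :=
    hb.sub ((coneOp_deg _ hb).δ.cast (by simp))
  have c : supp (δ (b - δ (coneOp OnePoint.infty b))) = ∅ := by rwa [map_sub, δ_δ, sub_zero]
  have s : IsCompact (j ⁻¹' supp (b - δ (coneOp OnePoint.infty b))) :=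
    hj.isInducing.isCompact_preimage' (isClosed_supp _).isCompact fun y hy =>
      rj y fun e => h0 (e ▸ hy)
  have z : pull j (b - δ (coneOp OnePoint.infty b)) ∈ Zc _ :=
    ⟨isCompact_supp_of_subset s (supp_pull hj.continuous _), cocycle_pull hj.continuous c⟩
  obtain ⟨e, e1, e2, e3⟩ := Bc.exists_deg ((cls_eq_zero z).1
    ((isGen_tau 1).eq_zero (k := 1) (by simp) (cls_mem_deg (d.pull j)))) (d.pull j)
  obtain ⟨e', -, -, f1, -, f2⟩ := (Taut.of_isOpenEmbedding hj).inj_c d e1 (s.union e2)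
    subset_union_left subset_union_right hj.isOpen_range (image_subset_range _ _)
  refine (hcls_eq_zero hc).2 ⟨coneOp OnePoint.infty b + e', supp_eq_empty.2 fun y => ?_⟩
  rw [map_add, ← sub_sub]
  by_cases a : y = OnePoint.infty
  · refine sub_mem (a ▸ h0) (Van.δ fun m => ?_)
    obtain ⟨w, hw⟩ := f1 m
    exact OnePoint.coe_ne_infty _ (hw.trans a)
  · obtain ⟨w, rfl⟩ := rj y a
    exact f2 w (supp_eq_empty.1 c _) (e3 w)

end Vale.Agent.P287Q.Mov
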