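import Vale.Agent.P287Q.Lz.Mov0
import Vale.Agent.P269.Cv.Rat
import Vale.Agent.P269.Br.CrvA

/-!
# Connected nodal curves of genus zero are trees of spheres
-/

set_option linter.unusedSectionVars false

namespace Vale.Agent.P287Q.Mov

open Set Function Topology Filter Module Vale.Agent.P291Z Vale.Agent.P269 Vale.Agent.P269.Cv

variable {X : Type} [TopologicalSpace X] [T2Space X] [CompactSpace X] {R : RS X}
  {N : Finset (X × X)}

/-- the nodal curve is connected -/
def Cn (N : Finset (X × X)) : Prop := Nonempty X ∧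
  ∀ U : Set X, IsClopen U → (∀ n ∈ N, n.1 ∈ U ↔ n.2 ∈ U) → U = ∅ ∨ U = univ

theorem isRat_of_K (h : finrank ℂ R.K.Γ = 0) (x : X) : IsRat R (connectedComponent x) := by
  have c := (exists_comp (R := R) x).1
  refine ⟨c, isConnected_connectedComponent, ?_⟩
  obtain ⟨R', _, _, k, e, -⟩ := exists_sub_conn (R := R) c isConnected_connectedComponent
  have z : (R'.K / 1).Γ = ⊥ := (Submodule.eq_bot_iff _).2 fun s hs => by
    have m := LB.mul_mem hs (LB.inv_mem k.d_mem k.ne)
    rw [div_one, inv_div, mul_div_cancel] at m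
    have := (Submodule.eq_bot_iff _).1 (Submodule.finrank_eq_zero.1 h) _
      (k.extend_mem Subtype.val_injective m)
    funext y
    have a := congrFun this y
    rw [Subtype.val_injective.extend_apply] at a
    exact (mul_eq_zero.1 a).resolve_right (inv_ne_zero (k.ne y))
  rw [e, chi, finrank_one, z, finrank_bot]
  simp

theorem tree_of_gen (hc : Cn N) (hg : gen R N = 0) : finrank ℂ R.K.Γ = 0 ∧
    ∀ j : X → ℂ, ∃ g : X → ℂ, IsLocallyConstant g ∧ ∀ n ∈ N, g n.1 - g n.2 = j n.1 - j n.2 := by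
  let D : (1 : LB R).Γ →ₗ[ℂ] N → ℂ :=
    { toFun := fun s n => s.1 n.1.1 - s.1 n.1.2
      map_add' := fun _ _ => funext fun _ => by simp; ring
      map_smul' := fun _ _ => funext fun _ => by simp; ring }
  have lc : ∀ s ∈ (1 : LB R).Γ, IsLocallyConstant s := fun s hs =>
    (IsLocallyConstant.iff_eventually_eq _).2 (ev_const hs)
  obtain ⟨x⟩ := hc.1
  have k : finrank ℂ (LinearMap.ker D) ≤ 1 := by
    refine (Submodule.finrank_mono (t := Submodule.span ℂ {⟨1, LB.one_mem⟩}) fun s hs => ?_).trans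
      ((finrank_span_le_card _).trans (by simp))
    have := (hc.2 _ ((lc _ s.2).isClopen_fiber (s.1 x)) fun n hn => by
      rw [mem_ofPred_eq, mem_ofPred_eq, sub_eq_zero.1 (congrFun hs ⟨n, hn⟩)]).resolve_left
        (Nonempty.ne_empty ⟨x, rfl⟩)
    exact Submodule.mem_span_singleton.2 ⟨s.1 x, Subtype.ext (funext fun y =>
      (mul_one _).trans (this.ge (mem_univ y)).symm)⟩
  have a := D.finrank_range_add_finrank_ker
  have b := (LinearMap.range D).finrank_le
  have c : finrank ℂ (N → ℂ) = N.card := by simp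
  rw [gen, chi, div_one] at hg
  refine ⟨by omega, fun j => ?_⟩
  obtain ⟨s, e⟩ := LinearMap.range_eq_top.1 (Submodule.eq_top_of_finrank_eq (S := LinearMap.range D)
    (by omega)) fun n => j n.1.1 - j n.1.2
  exact ⟨s, lc _ s.2, fun n hn => congrFun e ⟨n, hn⟩⟩

theorem isRat_of_gen (hc : Cn N) (hg : gen R N = 0) (x : X) : IsRat R (connectedComponent x) :=
  isRat_of_K (tree_of_gen hc hg).1 x

/-- a rational component is parametrised by the projective line -/
theorem exists_param {E : Set X} (h : IsRat R E) :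
    ∃ k : OnePoint ℂ → X, LIso P1 R k ∧ Injective k ∧ range k = E := by
  obtain ⟨x, hx⟩ := h.conn.nonempty
  have := R.neBot x
  obtain ⟨T, a, b⟩ := (infinite_of_mem_nhds x (h.clopen.isOpen.mem_nhds hx)).exists_subset_card_eq 3
  classical
  obtain ⟨p, q, r, h1, h2, h3, rfl⟩ := Finset.card_eq_three.1 b
  obtain ⟨k, c, d, e, -⟩ := h.exists_param (a (show p ∈ _ by simp)) (a (show q ∈ _ by simp))
    (a (show r ∈ _ by simp)) h1 h2 h3
  exact ⟨k, c, d, e⟩

theorem exists_emb (hc : Cn N) (hg : gen R N = 0) (x : X) : ∃ k : OnePoint ℂ → X,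
    LIso P1 R k ∧ IsOpenEmbedding k ∧ range k = connectedComponent x :=
  let ⟨k, a, b, c⟩ := exists_param (isRat_of_gen hc hg x)
  ⟨k, a, .of_continuous_injective_isOpenMap a.cont b a.isOpenMap, c⟩

theorem no1_of_gen (hc : Cn N) (hg : gen R N = 0) : No1 X :=
  no1_sphere.of_pieces fun x => let ⟨k, _, h⟩ := exists_emb hc hg x; ⟨k, h⟩

/-- a class that vanishes on the pieces vanishes -/
theorem hcls_eq_zero_of_pieces {Y Z : Type} [TopologicalSpace Y] [TopologicalSpace Z] {n : ℤ}
    {b : Coch Z} (hb : IsDeg n b) (hc : supp (δ b) = ∅)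
    (h : ∀ x : Z, ∃ k : Y → Z, IsOpenEmbedding k ∧ range k = connectedComponent x ∧
      hcls (pull k b) = 0) [Finite (ConnectedComponents Z)] : hcls b = 0 := by
  classical
  have : ∀ U : ConnectedComponents Z, ∃ c : Coch Z, ∀ y : Z, (y : ConnectedComponents Z) = U →
      b - δ c ∈ Van y := fun U => by
    obtain ⟨x, rfl⟩ := ConnectedComponents.surjective_coe U
    obtain ⟨k, k1, k2, k3⟩ := h x
    obtain ⟨c, c1, c2⟩ := exists_deg (hb.pull k) (cocycle_pull k1.continuous hc) k3
    obtain ⟨c', -, -, d2⟩ := (Taut.of_isOpenEmbedding k1).inj hb c1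
    refine ⟨c', fun y hy => ?_⟩
    obtain ⟨z, rfl⟩ := k2.ge (ConnectedComponents.coe_eq_coe'.1 hy)
    exact d2 z (supp_eq_empty.1 hc _) (c2 z)
  choose c hc' using this
  have := Fintype.ofFinite (ConnectedComponents Z)
  refine (hcls_eq_zero hc).2 ⟨∑ U, cut (ConnectedComponents.mk ⁻¹' {U}) (c U),
    supp_eq_empty.2 fun x => ?_⟩
  obtain ⟨k, k1, k2, -⟩ := h x
  have n := (k2 ▸ k1.isOpen_range).mem_nhds mem_connectedComponent
  have h4 : c x - ∑ U, cut (ConnectedComponents.mk ⁻¹' {U}) (c U) ∈ Van x := by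
    rw [← Finset.add_sum_erase _ _ (Finset.mem_univ (x : ConnectedComponents Z)), ← sub_sub]
    refine sub_mem (cut_in (mem_of_superset n fun y hy => ConnectedComponents.coe_eq_coe'.2 hy) _)
      (sum_mem fun U hU => cut_out (mem_of_superset n fun y hy e => (Finset.mem_erase.1 hU).1
        (Eq.trans (Eq.symm e) (ConnectedComponents.coe_eq_coe'.2 hy))) _)
  have := add_mem (hc' _ x rfl) (Van.δ h4)
  rwa [map_sub, sub_add_sub_cancel] at this

variable {E Γ C : Type} [TopologicalSpace E] [Nice E] [TopologicalSpace C] [Nice C] [Group Γ]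
  [Finite Γ]

/-- `q` presents a set as the quotient by a finite group of the nodal curve normalised by `G` -/
structure Qt (N : Finset (X × X)) (G : X → C) (act : Γ → C → C) (q : C → E) : Prop where
  cG : Continuous G
  sG : Surjective G
  iG : ∀ x y, G x = G y ↔ x = y ∨ (x, y) ∈ N ∨ (y, x) ∈ N
  one : ∀ u, act 1 u = u
  mul : ∀ γ γ' u, act (γ * γ') u = act γ (act γ' u)
  ca : ∀ γ, Continuous (act γ)
  cq : Continuous q
  fib : ∀ u u', q u = q u' ↔ ∃ γ, act γ u = u'

variable {G : X → C} {act : Γ → C → C} {q : C → E} (h : Qt N G act q)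
include h

theorem Qt.compact : CompactSpace C := ⟨h.sG.range_eq ▸ isCompact_range h.cG⟩

theorem Qt.tr (hc : Cn N) (hg : gen R N = 0) : Tr (range q) := by
  have := h.compact
  refine ⟨?_, fun b hb hd => ex_of_quot h.one h.mul h.ca h.cq h.fib hb (fun u => hd _ ⟨u, rfl⟩)
    ((no1_of_gen hc hg).tree h.cG h.sG (fun x y => (h.iG x y).1) (tree_of_gen hc hg).2 _ (hb.pull q)
      (supp_eq_empty.2 fun u => δ_pull q b ▸ Van.pull h.cq.continuousAt (hd _ ⟨u, rfl⟩)))⟩
  have : Nonempty C := hc.1.map G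
  have : PreconnectedSpace C := preconnectedSpace_iff_clopen.2 fun V hV =>
    (hc.2 _ (hV.preimage h.cG) fun n hn => by
      rw [mem_preimage, mem_preimage, (h.iG _ _).2 (.inr (.inl hn))]).imp
      (fun e => by rw [← h.sG.image_preimage V, e, image_empty])
      fun e => by rw [← h.sG.image_preimage V, e, image_univ, h.sG.range_eq]
  have : ConnectedSpace C := ⟨‹_›⟩
  exact isConnected_range h.cq

theorem Qt.ex (hc : Cn N) (hg : gen R N = 0) {a : Coch E} (ha : IsDeg 2 a)
    (hd : ∀ u, δ a ∈ Van (q u))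
    (h0 : ∀ k : OnePoint ℂ → X, LIso P1 R k → hcls (pull (q ∘ G ∘ k) a) = 0) :
    Ex (range q) 2 a := by
  have := h.compact
  have c : ∀ u, δ (pull q a) ∈ Van u := fun u => δ_pull q a ▸ Van.pull h.cq.continuousAt (hd u)
  have : Finite (ConnectedComponents X) := by
    obtain ⟨x⟩ := hc.1
    have := (exists_comp (R := R) x).2.to_subtype
    refine Finite.of_injective (β := range (connectedComponent : X → Set X))
      (fun U => ⟨_, Quotient.out U, rfl⟩) fun U V e => ?_
    exact (Quotient.out_eq U).symm.trans ((Quotient.sound (congrArg Subtype.val e)).trans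
      (Quotient.out_eq V))
  obtain ⟨b, hb⟩ := LC.taut h.cG (Crv.finite_not_sm N) (fun x y e => ((h.iG x y).1 e).imp_right
    fun m => m.elim (fun k => ⟨fun m => (m _ k).2 rfl, fun m => (m _ k).1 rfl⟩)
      fun k => ⟨fun m => (m _ k).1 rfl, fun m => (m _ k).2 rfl⟩) (ha.pull q) (fun x => c _)
    (hcls_eq_zero_of_pieces ((ha.pull q).pull G) (cocycle_pull h.cG (supp_eq_empty.2 c)) fun x =>
      let ⟨k, k1, k2, k3⟩ := exists_emb hc hg x
      ⟨k, k2, k3, by rw [pull_pull, pull_pull]; exact h0 k k1⟩)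
  exact ex_of_quot h.one h.mul h.ca h.cq h.fib ha hd ((hcls_eq_zero (supp_eq_empty.2 c)).2
    ⟨b, supp_eq_empty.2 fun u => let ⟨x, e⟩ := h.sG u; e ▸ hb x⟩)

end Vale.Agent.P287Q.Mov
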