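import Vale.Agent.P287Q.Lz.Mov1
import Vale.Agent.P287Q.G.Fg.Unv
import Vale.Agent.P287Q.G.Bas.Defs
import Vale.Agent.P269.LG.TopA

/-!
# Classes that vanish on rational curves move between the marked points
-/

set_option linter.unusedSectionVars false

namespace Vale.Agent.P287Q.Mov

open Set Function Topology Filter Vale.Agent.P291Z Vale.Agent.P269 Vale.Agent.P269.Cv
  Vale.Agent.P269.Ch Vale.Agent.P269.Holo

/-- classes that agree on an open and closed part -/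
theorem ind_mul_eq {A : Type} [TopologicalSpace A] {U : Set A} (hU : IsClopen U) {c c' : H A}
    (h : H.map ⟨_, (continuous_subtype_val : Continuous fun x : U => x.1)⟩ c =
      H.map ⟨_, continuous_subtype_val⟩ c') :
    hcls (fn (U.indicator 1)) * c = hcls (fn (U.indicator 1)) * c' := by
  rcases U.eq_empty_or_nonempty with rfl | e
  · rw [indicator_empty, show (fn fun _ : A => (0 : ℂ)) = 0 from LG.TopP.fn_zero, hcls_zero,
      zero_mul, zero_mul]
  have := e.to_subtype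
  obtain ⟨r, hr⟩ := LG.TopP.exists_retr
    (φ := ⟨_, (continuous_subtype_val : Continuous fun x : U => x.1)⟩) .subtypeVal
    (Subtype.range_coe (s := U).symm ▸ hU)
  have k := fun c => LG.TopP.ind_mul_map hU (f := .id A) (g := ContinuousMap.comp ⟨_,
    (continuous_subtype_val : Continuous fun x : U => x.1)⟩ r)
    (fun x hx => (hr x ⟨⟨x, hx⟩, rfl⟩).symm) c
  simp only [H.map_id (f := ContinuousMap.id A) fun _ => rfl, ← H.map_map] at k
  rw [k, k c', h]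

variable {S Λ R J K ι ν κ : Type} [Fintype S] [Fintype Λ] [Fintype R] [Fintype J] [Fintype K]
  [Fintype ι] [DecidableEq ι] [Fintype ν] [Fintype κ] {ch : Ch ι J} {Z : Set (ch.WF ν κ Λ)}

section fib

variable (W : Wt S Λ R J) (x : Z)

/-- the curve of a point of the chart -/
abbrev Cq : Type := Quo (fun (t : ι → ℂ) (c : V ch.M) => t • c) (crv x.1.2)

/-- the curve is mapped onto a fibre of the universal curve -/
def qF : Cq x → Quo (actC W) (unv Z) :=
  Quot.map (fun c => ⟨(x.1, c.1), x.2, c.2⟩) fun _ _ ⟨a, h, e⟩ =>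
    ⟨(1, a), Prod.isUnit_iff.2 ⟨isUnit_one, h⟩, Prod.ext (actF_one _).symm e⟩

variable [IsAct (actF W) Z]

/-- the automorphisms -/
abbrev Au : Type := MulAction.stabilizer (ch.AF ν κ S)ˣ (Sp.of (actF W) x.1 x.2)

variable {W x}

theorem Au.fix (γ : Au W x) : actF W γ.1.1 x.1 = x.1 := congrArg Sp.val γ.2

theorem Au.mem (γ : Au W x) {c : V ch.M} (h : c ∈ crv x.1.2) :
    (fun i => γ.1.1.2.1 i (c i)) ∈ crv x.1.2 :=
  (congrArg (fun y : ch.WF ν κ Λ => _ ∈ crv y.2) γ.fix).mp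
    ((mem_crv_actF (F := W) γ.1.isUnit).2 ⟨c, h, rfl⟩)

/-- the action of the automorphisms on the curve -/
noncomputable def aF (γ : Au W x) : Cq x → Cq x :=
  Quot.map (fun c => ⟨_, γ.mem c.2⟩) fun _ _ ⟨a, h, e⟩ =>
    ⟨a, h, funext fun i => (congrArg (fun c : V ch.M => γ.1.1.2.1 i (c i)) e).trans
      (map_smul (γ.1.1.2.1 i) _ _)⟩

theorem range_qF : range (qF W x) = prC W Z ⁻¹' {Quo.mk _ x} := by
  refine Subset.antisymm (range_subset_iff.2 (Quot.ind fun _ => rfl)) fun y e => ?_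
  obtain ⟨y, rfl⟩ := Quot.exists_rep y
  obtain ⟨g, k⟩ := Sp.mk_eq_iff.1 e
  replace k : actF W g y.1.1 = x.1 := congrArg Sp.val k
  have u : IsUnit ((g, 1) : ch.AU ν κ S) := isUnitU_iff.2 ⟨g.isUnit, fun _ => one_ne_zero⟩
  have v := actC_mem_crv (F := W) u y.2.2
  rw [actC_fst, k] at v
  exact ⟨Quo.mk _ ⟨_, v⟩, (Quot.sound ⟨_, u, Prod.ext k.symm rfl⟩).symm⟩

theorem qt {X : Type} [TopologicalSpace X] [T2Space X] [CompactSpace X] {Q : RS X}
    {N : Finset (X × X)} {A : ι → LB Q} {π : X → V ch.M} (hp : Par ch.o (crv x.1.2) N A π) :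
    Qt N hp.nrm (aF (W := W)) (qF W x) where
  cG := hp.continuous_nrm
  sG := hp.surjective_nrm
  iG _ _ := hp.nrm_eq_iff
  one := Quot.ind fun _ => rfl
  mul _ _ := Quot.ind fun _ => rfl
  ca γ := continuous_quot_lift _ (continuous_quot_mk.comp (Continuous.subtype_mk
    (continuous_pi fun i => (γ.1.1.2.1 i).continuous.comp
      ((continuous_apply i).comp continuous_subtype_val)) _))
  cq := continuous_quot_lift _ (continuous_quot_mk.comp
    ((continuous_const.prodMk continuous_subtype_val).subtype_mk _))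
  fib := Quot.ind fun c => Quot.ind fun c' => by
    refine ⟨fun e => ?_, fun ⟨γ, e⟩ => (congrArg (qF W x) e).symm ▸ ?_⟩
    · obtain ⟨g, k⟩ := Sp.mk_eq_iff.1 e
      replace k : actC W g (x.1, c.1) = (x.1, c'.1) := congrArg Sp.val k
      exact ⟨⟨θU g, Sp.ext (congrArg Prod.fst k)⟩, Quot.sound ⟨g.1.2,
        isUnit_pi_iff.2 (isUnitU_iff.1 g.isUnit).2, (congrArg Prod.snd k).symm⟩⟩
    · exact Quot.sound ⟨(γ.1.1, 1), isUnitU_iff.2 ⟨γ.1.isUnit, fun _ => one_ne_zero⟩,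
        Prod.ext γ.fix.symm (funext fun _ => (one_smul _ _).symm)⟩

end fib

variable {F : Fam S Λ R J K} {ℓ : R → ι → ℤ}

/-- the universal map -/
theorem eqv_un (h : GZ F ℓ Z) : Tq.Eqv (actC F.toWt) F.actT (unv Z) F.cone
    fun x => (x.1.1, fld x.1.2 x.2) := by
  have a : ∀ x ∈ unv Z, _ := fun x hx => (mem_solF.1 (h.sol hx.1)).2 _ hx.2
  refine ⟨fun x hx => (a x hx).2, fun x hx => ?_, fun s hs x hx => ?_⟩
  · have b : Tendsto (fun y => y) (𝓝[unv Z] x) (𝓝 x) := nhdsWithin_le_nhds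
    exact b.fst_nhds.fst_nhds.prodMk_nhds (tendsto_pi_nhds.2 fun j =>
      tendsto_val (h.base _ hx.1).1 b.fst_nhds.snd_nhds b.snd_nhds hx.2
        (eventually_mem_nhdsWithin.mono fun y hy => ⟨hy.2, val_fld ((a y hy).1 j)⟩)
        (val_fld ((a x hx).1 j)))
  · obtain ⟨h1, h2⟩ := isUnitU_iff.1 hs
    refine ⟨(s.1.1, fun r => ∏ i, s.2 i ^ ℓ r i), Prod.isUnit_iff.2 ⟨(Prod.isUnit_iff.1 h1).1,
      Pi.isUnit_iff.2 fun r => (Finset.prod_ne_zero_iff.2 fun i _ => zpow_ne_zero _ (h2 i)).isUnit⟩,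
      Prod.ext rfl (funext fun j => ?_)⟩
    refine (Cv.fld_eq (actC_mem_crv hs hx.2) (((val_fld ((a x hx).1 j)).actF h1).smul h2)).trans ?_
    rw [← mul_assoc, mul_comm (∏ i, s.2 i ^ ch.wd j i)]
    refine congrArg (fun z => _ * z * _) ?_
    simp only [h.wt, ← Finset.prod_zpow, ← zpow_mul, zpow_sum_ne (h2 _), mul_comm]
    exact Finset.prod_comm

variable (F) in
/-- a holomorphic map from the projective line -/
def Rc (f : OnePoint ℂ → F.X F.cone) : Prop := ∀ z, ∃ Φ : ℂ → (Λ → ℂ) × (J → ℂ),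
  AnalyticAt ℂ Φ 0 ∧ ∀ t, ∃ h, f (P1.i z t) = Quo.mk _ ⟨Φ t, h⟩

theorem rc_vl (hF : F.Inv) {m : AM Λ R J ν κ} (hs : m.Sol F) {k : OnePoint ℂ → m.X}
    (hk : LIso P1 m.R k) : Rc F fun z => Quo.mk _ ⟨m.vl (k z), hs.2.2 _⟩ := fun z => by
  have u : ∀ y, IsUnit ((1, fun r => ((m.L r).φ (k z) y)⁻¹) : (S → ℂ) × (R → ℂ)) := fun y =>
    Prod.isUnit_iff.2 ⟨isUnit_one, isUnit_pi_iff.2 fun r => inv_ne_zero ((m.L r).ne _ _)⟩
  refine ⟨fun t => F.actT (1, fun r => ((m.L r).φ (k z) (k (P1.i z t)))⁻¹) (m.vl (k (P1.i z t))),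
    AnalyticAt.prod (analyticAt_const (v := F.actL 1 m.l)) (analyticAt_pi_iff.2 fun j => ?_),
    fun t => ⟨hF.cone_act (u _) (hs.2.2 _), Quot.sound ⟨_, u _, rfl⟩⟩⟩
  refine AnalyticAt.congr (hk.sec_pb.2 ((hs.2.1 j).1 (k z))) (.of_forall fun t => ?_)
  simp [LB.loc, bz_φ, AM.vl, div_eq_inv_mul]

variable {Y T : Type} [TopologicalSpace Y] [TopologicalSpace T]

variable (F) in
/-- the class `w` vanishes on the rational curves -/
def Kil (j : Y → F.X F.cone) (w : H Y) : Prop :=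
  ∀ f : C(OnePoint ℂ, Y), Rc F (j ∘ f) → H.map f w = 0

/-- **Moving a class.** -/
theorem move (h : GZ F ℓ Z) [CompactSpace T] {j : Y → F.X F.cone} (hj : Taut j)
    (hi : IsEmbedding j) {w : H Y} (hw : H.IsDeg 2 w) (hk : Kil F j w)
    {f : T → Quo (actF F.toWt) Z} (hf : Continuous f) {e e' : C(T, Y)} {n n' : Mk ν κ}
    (hp : ∀ t, ∃ (x : Z) (m : AM Λ R J ν κ) (hs : m.Sol F), f t = Quo.mk _ x ∧ Rep ℓ univ x.1 m ∧
      m.Conn ∧ gen m.R m.N = 0 ∧ (∀ z, Quo.mk _ ⟨_, hs.2.2 z⟩ ∈ range j) ∧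
      j (e t) = Quo.mk _ ⟨_, hs.2.2 (m.p n)⟩ ∧ j (e' t) = Quo.mk _ ⟨_, hs.2.2 (m.p n')⟩) :
    H.map e w = H.map e' w := by
  have := h.act
  have := nice_of_orb h.orb
  have := nice_of_orb (h.cuts.orb_unv h.base h.orb)
  obtain ⟨a, a1, a2, rfl⟩ := H.isDeg_iff.1 hw
  obtain ⟨b, b1, rfl, -, b2⟩ := hj.surj a2
  replace b2 := fun y => b2 y (supp_eq_empty.1 a1 y)
  let U := (eqv_un h).qm
  have key : ∀ t, Tr (prC F.toWt Z ⁻¹' {f t}) ∧ Ex (prC F.toWt Z ⁻¹' {f t}) 2 (pull U b) ∧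
      U (secC _ h.base n (f t)) = j (e t) ∧ U (secC _ h.base n' (f t)) = j (e' t) := fun t => by
    obtain ⟨x, m, hs, e1, r, c, g, v, p1, p2⟩ := hp t
    obtain ⟨B, π, u, s, r⟩ := r.exists_data (h.base _ x.2)
    have q := qt (W := F.toWt) r.cr.par
    have := r.cr.par.nice_quo
    have := h.orb.finite_stabilizer (Sp.of _ x.1 x.2)
    have o : ∀ z, U (qF _ x (r.cr.par.nrm z)) = Quo.mk _ ⟨_, hs.2.2 z⟩ := fun z =>
      congrArg (Quo.mk _) (Subtype.ext (r.vl_π z))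
    have o' : ∀ n, U (secC _ h.base n (Quo.mk _ x)) = Quo.mk _ ⟨_, hs.2.2 (m.p n)⟩ := fun n =>
      Eq.symm (Quot.sound ⟨_, r.unit (r.ne _), r.vl h.wt n⟩)
    rw [e1, ← range_qF, p1, p2]
    refine ⟨q.tr c g, q.ex c g (b1.pull _) (fun y => ?_) fun k l => ?_, o' n, o' n'⟩
    · obtain ⟨z, rfl⟩ := q.sG y
      obtain ⟨y, hy⟩ := v z
      exact δ_pull U b ▸ Van.pull U.continuous.continuousAt ((hy.trans (o z).symm) ▸ b2 y)
    · choose φ hφ using v
      have e2 : j ∘ φ ∘ k = U ∘ qF _ x ∘ r.cr.par.nrm ∘ k := funext fun z =>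
        (hφ _).trans (o _).symm
      have := hk ⟨φ ∘ k, hi.continuous_iff.2 (e2 ▸ U.continuous.comp (q.cq.comp
        (q.cG.comp l.cont)))⟩ ((funext fun z => hφ (k z) : j ∘ φ ∘ k = _) ▸ rc_vl h.inv hs l)
      rw [H.map_hcls _ a1, pull_pull] at this
      rw [pull_pull, ← e2]
      exact this
  have e1 : U ∘ secC _ h.base n ∘ f = j ∘ e := funext fun t => (key t).2.2.1
  have e2 : U ∘ secC _ h.base n' ∘ f = j ∘ e' := funext fun t => (key t).2.2.2
  have := hcls_eq (h.cuts.isPr_prC h.base h.orb) (isCompact_range hf) (a := pull U b)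
    (forall_mem_range.2 fun t => (key t).1) (forall_mem_range.2 fun t => (key t).2.1)
    ((continuous_secC h.base n).comp hf) ((continuous_secC h.base n').comp hf)
    (fun t => (prC_secC _ _ _).trans (prC_secC _ _ _).symm) (fun t => ⟨t, (prC_secC _ _ _).symm⟩)
    (by rw [pull_pull, e2, ← pull_pull]; exact cocycle_pull e'.continuous a1)
  rwa [pull_pull, pull_pull, e1, e2, ← pull_pull, ← pull_pull, ← H.map_hcls _ a1,
    ← H.map_hcls _ a1] at this

end Vale.Agent.P287Q.Mov
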