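import Vale.Agent.P287Q.Lz.Mov2
import Vale.Agent.P287Q.Lz.Fam
import Vale.Agent.P287Q.G.Bas.Lv
import Vale.Agent.P287Q.G.Vir.Std
import Vale.Agent.P287Q.G.Vir.Clo
import Vale.Agent.P269.Mono.DgIntA

/-!
# Moving classes on the fixed loci
-/

set_option linter.unusedSectionVars false
set_option maxSynthPendingDepth 3

namespace Vale.Agent.P287Q.Mov

open Set Function Topology Filter TensorProduct Vale.Agent.P291Z Vale.Agent.P269 Vale.Agent.P269.Cv
  Vale.Agent.P269.Ch Vale.Agent.P269.Holo Vale.Agent.P269.Lz Vale.Agent.P269.LG Vale.Agent.P269.B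

section gz

variable {S Λ R J K ι ν κ : Type} [Fintype S] [Fintype Λ] [Fintype R] [Fintype J] [Fintype K]
  [Fintype ι] [DecidableEq ι] [Fintype ν] [Fintype κ] {ch : Ch ι J} {F : Fam S Λ R J K}

theorem gz_cyc {ℓ : R → ι → ℤ} {e : K → ι → ℕ} {K₀ : RD R} {b : ℕ} {U : Set (ch.WF ν κ Λ)}
    (h : ch.Ok F e K₀ ℓ b U) (u : ν → J → ℕ) : GZ F ℓ (ch.solF ν κ F ∩ ch.cyc κ F u) := by
  have hl : IsLocallyClosed (ch.cyc κ F u) := isClosed_closure.isLocallyClosed.inter h.lc_baseF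
  have hv : Lev F (ch.cyc κ F u) := lev_cyc h.inv h.cuts u
  have hd := h.toStd.dom_lev h.pr hv hl
  obtain ⟨n, a⟩ := h.toStd.gd hv.adm hd
  have := a.isActZ
  exact h.toStd.gz inter_subset_left (inter_subset_right.trans hv.adm) a.orbZ

end gz

variable {R J K σ ν : Type} [Fintype R] [Fintype J] [Fintype K] [Fintype σ] [Fintype ν]
  [DecidableEq R] [DecidableEq σ] {P : TT R J K σ} {K₀ : RD R} {k D : ℕ} {d : R → ℤ} {a : σ → ℂ}

theorem gz_E (h : P.Ok K₀ k D) (ν : Type) [Fintype ν] (g : ℤ) (d : R → ℤ) :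
    GZ P.E ℓs (P.E.Z0 ν (Fin 0) k D g d) :=
  let ⟨_, c⟩ := h.good.ok' ν (Fin 0) h.reg TT.sm_E h.big h.bigD g d
  gz_cyc c 0

variable (P) in
/-- the inclusion of the fixed locus -/
noncomputable def jX : P.X → P.E.X P.E.cone := Quo.incl _ TT.fix_sub

theorem emb_jX (h : P.Ok K₀ k D) : IsClosedEmbedding (jX P) := by
  have := h.fp_fix
  have := h.good.fp
  obtain ⟨C, a, b⟩ := h.fix_eq
  refine Mono.isClosedEmbedding_qinc TT.fix_sub ?_
  rw [b, Subtype.preimage_coe_self_inter]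
  exact a.preimage continuous_subtype_val

/-- maps that agree on the selected part -/
theorem id_mul_eq {g : ℤ} {τ : Lz.Md P ν g d} {Q : AM1 R J ν → Prop} (hQ : IsClopen (τ.sel Q))
    {c c' : Hev τ.A} (h : H.map ⟨_, (continuous_subtype_val : Continuous fun x : τ.sel Q => x.1)⟩
      c.1 = H.map ⟨_, continuous_subtype_val⟩ c'.1) (z : F) :
    τ.id Q * z ⊗ₜ c = τ.id Q * z ⊗ₜ c' := by
  simp only [Lz.Md.id, idE, fnE, Algebra.TensorProduct.tmul_mul_tmul]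
  exact congrArg _ (Subtype.ext (ind_mul_eq hQ h))

/-- **(VM)** classes of degree two that vanish on rational curves move between the marked points
of a vertex. -/
theorem vm (h : P.Ok K₀ k D) {τ : Lz.Md P ν 0 d} (G : Lz.Geo k D a τ) {Q : AM1 R J ν → Prop}
    (hQ : IsClopen (τ.sel Q)) (hc : ∀ m, P.Fx m 0 d → Q m → m.Conn ∧ ∀ z, m.vl z ∈ P.Fix)
    {w : Hev P.X} (hw : H.IsDeg 2 w.1) (hk : Kil P.E (jX P) w.1) (n n' : ν) (z : F) :
    τ.id Q * pbE (τ.ev n) (z ⊗ₜ w) = τ.id Q * pbE (τ.ev n') (z ⊗ₜ w) := by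
  have := h.good.fp
  have : CompactSpace (τ.sel Q) := isCompact_iff_compactSpace.1 hQ.isClosed.isCompact
  refine id_mul_eq hQ (c := Hev.map (τ.ev n) w) (c' := Hev.map (τ.ev n') w) ?_ z
  rw [Hev.coe_map, Hev.coe_map, H.map_map, H.map_map]
  refine move (gz_E h ν 0 d) (Taut.of_isClosedEmbedding (emb_jX h)) (emb_jX h).isEmbedding hw hk
    (G.g0.continuous.comp continuous_subtype_val) (n := .inl n) (n' := .inl n') fun t => ?_
  obtain ⟨m, r, q⟩ := t.2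
  obtain ⟨x, e, r'⟩ := (G.rp _ _).1 r
  obtain ⟨c1, c2⟩ := hc m (τ.fx r) q
  obtain ⟨_, e1⟩ := τ.evp n r
  obtain ⟨_, e2⟩ := τ.evp n' r
  exact ⟨x, m, (τ.fx r).sol, e, r', c1, (τ.fx r).typ.1, fun z => ⟨Quo.mk _ ⟨_, c2 z⟩, rfl⟩,
    congrArg (jX P) e1, congrArg (jX P) e2⟩

/-- **(FM)** classes pulled back along a map that is constant on the selected curves move. -/
theorem fm {g : ℤ} {τ : Lz.Md P ν g d} {Q : AM1 R J ν → Prop} (hQ : IsClopen (τ.sel Q)) {Y : Type}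
    [TopologicalSpace Y] (φ : C(P.X, Y)) {n n' : ν}
    (hφ : ∀ m, P.Fx m g d → Q m → ∀ h h', φ (Quo.mk _ ⟨m.vl (m.p (.inl n)), h⟩) =
      φ (Quo.mk _ ⟨m.vl (m.p (.inl n')), h'⟩)) (y : F ⊗[ℂ] Hev Y) :
    τ.id Q * pbE (τ.ev n) (pbE φ y) = τ.id Q * pbE (τ.ev n') (pbE φ y) := by
  induction y with
  | zero => simp only [map_zero]
  | add a b ha hb => rw [map_add, map_add, map_add, left_distrib, left_distrib, ha, hb]
  | tmul z c =>
    refine id_mul_eq hQ (c := Hev.map (τ.ev n) (Hev.map φ c))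
      (c' := Hev.map (τ.ev n') (Hev.map φ c)) ?_ z
    simp only [Hev.coe_map, H.map_map]
    refine congrArg (H.map · c.1) (ContinuousMap.ext fun t => ?_)
    obtain ⟨m, r, q⟩ := t.2
    obtain ⟨_, e1⟩ := τ.evp n r
    obtain ⟨_, e2⟩ := τ.evp n' r
    exact (congrArg φ e1).trans ((hφ m (τ.fx r) q _ _).trans (congrArg φ e2).symm)

end Vale.Agent.P287Q.Mov
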