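import Vale.Agent.P287Q.Lz.Ser

/-! The branch map, faces of the cone of degrees, matrices. -/

namespace Vale.Agent.P287Q.Lz

open Finset TensorProduct

variable {K H R ι : Type} [Field K] [CommRing H] [Algebra K H] [DecidableEq R]

variable (R ι) in
/-- series with values in a subspace -/
noncomputable abbrev TyM (N : Submodule K H) : Submodule (Sr K R ι) (Md K H R ι) := N.baseChange _

open Classical in
/-- the coordinates and the Novikov variables outside `S` are set to zero -/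
noncomputable def sp0 (K ι : Type) [Field K] (S : Set R) : Sr K R ι →ₐ[K] Sr K R ι :=
  MvPowerSeries.rescaleAlgHom (Sum.elim (fun r => if r ∈ S then 1 else 0) 0)

variable (K H ι) in
/-- the same for series with values in `H` -/
noncomputable def spM (S : Set R) : Md K H R ι →ₐ[K] Md K H R ι :=
  Algebra.TensorProduct.map (sp0 K ι S) (AlgHom.id K H)

open Classical in
theorem cv_cut {α : Type} (S : Set R)
    {Φ Ψ : (R →₀ ℕ) → Multiset α → (R →₀ ℕ) → Multiset α → K}
    (h1 : ∀ d₁ t₁ d₂ t₂, ↑d₁.support ⊆ S → ↑d₂.support ⊆ S → Φ d₁ t₁ d₂ t₂ = Ψ d₁ t₁ d₂ t₂)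
    (h2 : ∀ d₁ t₁ d₂ t₂, ¬(↑d₁.support ⊆ S ∧ ↑d₂.support ⊆ S) → Φ d₁ t₁ d₂ t₂ = 0) (d t) :
    cv Φ d t = if ↑d.support ⊆ S then cv Ψ d t else 0 := by
  have e : ∀ d₁ d₂ : R →₀ ℕ, ↑(d₁ + d₂).support ⊆ S ↔ ↑d₁.support ⊆ S ∧ ↑d₂.support ⊆ S :=
    fun d₁ d₂ => by rw [Finsupp.support_add_eq_union, coe_union, Set.union_subset_iff]
  split_ifs with h
  · exact cv_congr fun d₁ _ d₂ _ a _ => h1 _ _ _ _ ((e _ _).1 (a ▸ h)).1 ((e _ _).1 (a ▸ h)).2
  · exact (cv_congr fun d₁ _ d₂ _ a _ => h2 _ _ _ _ fun b => h (by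
      rw [← a]; exact (e _ _).2 b)).trans (cv_zero _ _)

open Classical in
theorem cv_cut' {α A : Type} [Fintype A] (S : Set R) (Φ Ψ : A → (R →₀ ℕ) → Multiset α → K) (d t) :
    cv (fun d₁ t₁ d₂ t₂ => ∑ a, (if ↑d₁.support ⊆ S then Φ a d₁ t₁ else 0) *
      if ↑d₂.support ⊆ S then Ψ a d₂ t₂ else 0) d t =
    if ↑d.support ⊆ S then cv (fun d₁ t₁ d₂ t₂ => ∑ a, Φ a d₁ t₁ * Ψ a d₂ t₂) d t else 0 :=
  cv_cut S (fun _ _ _ _ a b => by simp only [if_pos a, if_pos b])
    (fun _ _ _ _ a => by rcases not_and_or.1 a with a | a <;> simp [if_neg a]) d t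

theorem lin_ite {p : Prop} [Decidable p] {g : H → K} (h : IsLinearMap K g) :
    IsLinearMap K fun x => if p then g x else 0 := by
  split_ifs
  exacts [h, LinearMap.isLinear 0]

namespace Pk

variable (P : Pk K H R) (φ : ι → H)

open Classical in
/-- only the degrees supported in `S` are kept -/
noncomputable def cut (S : Set R) : Pk K H R where
  A := P.A
  e := P.e
  f := P.f
  η := P.η
  C d s t := if ↑d.support ⊆ S then P.C d s t else 0
  E d k s t := if ↑d.support ⊆ S then P.E d k s t else 0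
  T j d y t := if ↑d.support ⊆ S then P.T j d y t else 0
  cas := P.cas
  linC₁ _ _ _ _ := lin_ite (P.linC₁ _ _ _ _)
  linC₂ _ _ _ _ := lin_ite (P.linC₂ _ _ _ _)
  linE₁ _ _ _ _ _ := lin_ite (P.linE₁ _ _ _ _ _)
  linT _ _ _ := lin_ite (P.linT _ _ _)
  zero₃ x y z := by simpa using P.zero₃ x y z
  zero₂ x y z := by simpa using P.zero₂ x y z
  zero₀ x y z := by simpa using P.zero₀ x y z
  sum d := (P.sum d).imp fun N h s t hs => by split_ifs <;> simp [h s t hs]
  vtx d s t hs := by rw [P.vtx d s t hs]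
  tail d k n n' := (P.tail d k n n').imp fun N h s t hs ht => by
    rw [cv_cut S (fun _ _ _ _ a b => by simp only [if_pos a, if_pos b]; rfl)
      fun _ _ _ _ a => by rcases not_and_or.1 a with a | a <;> simp [if_neg a], ← h s t hs ht]
    split_ifs <;> simp
  tl0 j y t := by simp [P.tl0]
  tlG j d t := (P.tlG j d t).imp fun c h y => by split_ifs <;> simp [h]
  oneG j d t := (P.oneG j d t).imp fun c h y => by split_ifs <;> simp [h]
  w1 d t x y z w := by rw [cv_cut', cv_cut', P.w1]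
  w2 d t x y z w := by rw [cv_cut', cv_cut', P.w2]
  w3 d t x y z w := by rw [cv_cut', cv_cut', P.w3]

/-- the unit of the product of the dressed vertex -/
noncomputable def unit : Md K H R ι := Classical.epsilon fun u => ∀ x, P.circ φ u x = x

/-- the branch map -/
noncomputable def U : Md K H R ι →ₗ[Sr K R ι] Md K H R ι := (P.mid φ).flip (P.unit φ)

variable {n : Type} [Fintype n] [DecidableEq n]

/-- `v` is a basis of `N` with the dual vectors `w` -/
structure Dual (N : Submodule K H) (v w : n → H) : Prop where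
  mem : ∀ i, v i ∈ N
  eq : ∀ i j, P.η (v i * w j) = if i = j then 1 else 0
  sum : ∀ x ∈ N, ∑ i, P.η (x * w i) • v i = x

/-- the matrix of an operator -/
noncomputable def mat (v w : n → H) (T : Md K H R ι →ₗ[Sr K R ι] Md K H R ι) :
    Matrix n n (Sr K R ι) := Matrix.of fun i j => P.ηM (T (1 ⊗ₜ v j) * 1 ⊗ₜ w i)

/-- the matrix of a constant operator -/
noncomputable def mat0 (v w : n → H) (T : H →ₗ[K] H) : Matrix n n K :=
  Matrix.of fun i j => P.η (T (v j) * w i)

end Pk

end Vale.Agent.P287Q.Lz
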