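import Vale.Agent.P287Q.Lz.PkD

/-! Correlators with tails lie in the span of the vertex correlators of smaller degree. -/

namespace Vale.Agent.P287Q.Lz

open Finset TensorProduct

variable {K H R ι : Type} [Field K] [CommRing H] [Algebra K H] [DecidableEq R]

/-- all insertions lie in `N` -/
def In (N : Submodule K H) (t : Ms H) : Prop := ∀ z ∈ t, z.2 ∈ N

theorem In.add {N : Submodule K H} {s t : Ms H} (hs : In N s) (ht : In N t) : In N (s + t) :=
  fun z hz => (Multiset.mem_add.1 hz).elim (hs z) (ht z)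

theorem In.cons {N : Submodule K H} {s : Ms H} {x : H} (hx : x ∈ N) (i : ℕ) (hs : In N s) :
    In N ((i, x) ::ₘ s) :=
  fun z hz => (Multiset.mem_cons.1 hz).elim (fun e => e ▸ hx) (hs z)

theorem In.zero (N : Submodule K H) : In N (0 : Ms H) := fun _ hz => absurd hz (by simp)

theorem In.left {N : Submodule K H} {s t : Ms H} (h : In N (s + t)) : In N s :=
  fun z hz => h z (Multiset.mem_add.2 (Or.inl hz))

theorem In.right {N : Submodule K H} {s t : Ms H} (h : In N (s + t)) : In N t :=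
  fun z hz => h z (Multiset.mem_add.2 (Or.inr hz))

omit [DecidableEq R] in
theorem In.ins {N : Submodule K H} {φ : ι → H} (h : ∀ a, φ a ∈ N) (m : R ⊕ ι →₀ ℕ) :
    In N (ins φ m) := fun z hz => by
  obtain ⟨a, -, rfl⟩ := Multiset.mem_map.1 hz
  exact h a

theorem In.map {N : Submodule K H} {φ : ι → H} (h : ∀ a, φ a ∈ N) (I : Multiset ι) :
    In N (I.map fun a => (0, φ a)) := fun z hz => by
  obtain ⟨a, -, rfl⟩ := Multiset.mem_map.1 hz
  exact h a

namespace Pk

variable (P : Pk K H R) {Ty : ℤ → Submodule K H}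

theorem S_nondeg {x : H} (h : ∀ y, P.η (x * y) = 0) : x = 0 := by
  rw [← P.cas x]; simp [h]

theorem S_dual {φ : H → K} (h : IsLinearMap K φ) (y : H) :
    P.η ((∑ a, φ (P.f a) • P.e a) * y) = φ y := by
  conv_rhs => rw [← P.cas y]
  rw [sum_mul, map_sum, ← h.mk'_apply, map_sum]
  refine sum_congr rfl fun a _ => ?_
  rw [smul_mul_assoc, map_smul, map_smul, h.mk'_apply, smul_eq_mul, smul_eq_mul, mul_comm,
    mul_comm y]

variable {P}

theorem Typed.S_glob (h : P.Typed Ty) {l : ℤ} (hl : l ≠ 0) {y : H} (hy : y ∈ Ty l) {t : Ms H}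
    (ht : In (Ty 0) t) (d i) : P.C d 0 ((i, y) ::ₘ t) = 0 := by
  have h1 := h.glob d ((l, i, y) ::ₘ t.map fun z => (0, z)) (fun x hx => by
    rcases Multiset.mem_cons.1 hx with rfl | hx
    · exact hy
    · obtain ⟨z, hz, rfl⟩ := Multiset.mem_map.1 hx
      exact ht z hz) (by simpa using hl)
  simpa using h1

theorem Typed.S_orth (h : P.Typed Ty) {k l : ℤ} (hl : k + l ≠ 0) {x y : H} (hx : x ∈ Ty k)
    (hy : y ∈ Ty l) : P.η (x * y) = 0 := by
  have h1 := h.S_glob hl (h.mul k l x hx y hy)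
    (In.cons h.one 0 (In.cons h.one 0 (In.zero _))) 0 0
  have h2 := P.zero₀ (x * y) 1 1
  rw [mul_one, mul_one] at h2
  rw [← h2]
  exact h1

theorem Typed.S_mem (h : P.Typed Ty) {z : H} {m : ℤ}
    (hz : ∀ l, m + l ≠ 0 → ∀ y ∈ Ty l, P.η (z * y) = 0) : z ∈ Ty m := by
  classical
  obtain ⟨c, hc, hs⟩ := (Submodule.mem_iSup_iff_exists_finsupp Ty z).1 (by rw [h.top]; trivial)
  have key : ∀ k, k ≠ m → c k = 0 := by
    intro k hk
    refine P.S_nondeg fun y => ?_
    have hy : y ∈ ⨆ l, Ty l := by rw [h.top]; trivial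
    induction hy using Submodule.iSup_induction' with
    | mem l y hy =>
      by_cases hl : k + l = 0
      · have h1 := hz l (by omega) y hy
        rw [← hs, Finsupp.sum, sum_mul, map_sum, sum_eq_single k
          (fun j _ hj => h.S_orth (by omega) (hc j) hy) (fun hk => by
            rw [Finsupp.notMem_support_iff.1 hk, zero_mul, map_zero])] at h1
        exact h1
      · exact h.S_orth hl (hc k) hy
    | zero => simp
    | add x y _ _ hx hy => rw [mul_add, map_add, hx, hy, add_zero]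
  rw [← hs]
  refine Submodule.sum_mem _ fun k _ => ?_
  by_cases hk : k = m
  · exact hk ▸ hc k
  · rw [key k hk]; exact zero_mem _

/-- the vector of a tail has type zero -/
theorem Typed.S_tail (h : P.Typed Ty) (j d) {t : Ms H} (ht : In (Ty 0) t) :
    ∑ a, P.T j d (P.f a) t • P.e a ∈ Ty 0 := by
  refine h.S_mem fun l hl y hy => ?_
  rw [P.S_dual (P.linT j d t)]
  obtain ⟨c, hc⟩ := P.tlG j d t
  rw [hc, Finsupp.sum]
  exact sum_eq_zero fun i _ => by rw [h.S_glob (by simpa using hl) hy ht, mul_zero]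

section span

variable [CharZero K] {β : Type} (u : β → Ms H) {n : ℕ} (W : Submodule K (β → K))

theorem Typed.tail_mem (h : P.Typed Ty) (hu : ∀ b, (u b).card = n + 1) (d : R →₀ ℕ) (k : ℕ)
    (ih : ∀ d' < d, ∀ s t, In (Ty 0) s → In (Ty 0) t → (fun b => P.E d' k (u b + s) t) ∈ W)
    {s t : Ms H} (hs : In (Ty 0) s) (ht : In (Ty 0) t) :
    (fun b => P.E d (k + 1) (u b + s) t) ∈ W := by
  obtain ⟨N, hN⟩ := P.tail d k (n + s.card) t.card
  have h1 : (fun b => P.E d (k + 1) (u b + s) t) = ((k : K) + 1)⁻¹ •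
      cv (fun d₁ t₁ d₂ t₂ => fun b => ∑ a, ∑ j ∈ range N,
        P.E d₁ k ((j, P.e a) ::ₘ (u b + s)) t₁ * P.T j d₂ (P.f a) t₂) d t := by
    funext b
    have h2 := hN (u b + s) t (by rw [Multiset.card_add, hu]; ring) rfl
    have h3 := map_cv (LinearMap.proj (R := K) (φ := fun _ : β => K) b)
      (fun d₁ t₁ d₂ t₂ => fun b => ∑ a, ∑ j ∈ range N,
        P.E d₁ k ((j, P.e a) ::ₘ (u b + s)) t₁ * P.T j d₂ (P.f a) t₂) d t
    simp only [LinearMap.proj_apply] at h3
    rw [Pi.smul_apply, h3, ← h2, smul_eq_mul, inv_mul_cancel_left₀ (Nat.cast_add_one_ne_zero k)]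
  rw [h1]
  refine W.smul_mem _ (cv_mem W fun d₁ t₁ d₂ t₂ hd htt => ?_)
  subst htt
  by_cases h0 : d₂ = 0
  · simp only [h0, P.tl0, mul_zero, sum_const_zero]
    exact W.zero_mem
  have hlt : d₁ < d := by rw [← hd]; exact lt_add_of_pos_right _ (pos_iff_ne_zero.2 h0)
  have h2 : (fun b => ∑ a, ∑ j ∈ range N,
      P.E d₁ k ((j, P.e a) ::ₘ (u b + s)) t₁ * P.T j d₂ (P.f a) t₂) = ∑ j ∈ range N,
      fun b => P.E d₁ k (u b + (j, ∑ a, P.T j d₂ (P.f a) t₂ • P.e a) ::ₘ s) t₁ := by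
    funext b
    rw [sum_comm, Finset.sum_apply]
    refine sum_congr rfl fun j _ => ?_
    rw [Multiset.add_cons, ← (P.linE₁ d₁ k j (u b + s) t₁).mk'_apply, map_sum]
    refine sum_congr rfl fun a _ => ?_
    rw [map_smul, smul_eq_mul, mul_comm]
    rfl
  rw [h2]
  exact W.sum_mem fun j _ => ih d₁ hlt _ _ (In.cons (h.S_tail j d₂ ht.right) j hs) ht.left

/-- span -/
theorem Typed.E_mem (h : P.Typed Ty) (hu : ∀ b, (u b).card = n + 1) {D : Set (R →₀ ℕ)}
    (hD : IsLowerSet D) (h0 : ∀ d ∈ D, ∀ s, In (Ty 0) s → (fun b => P.E d 0 (u b + s) 0) ∈ W)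
    (k : ℕ) : ∀ d ∈ D, ∀ s t, In (Ty 0) s → In (Ty 0) t → (fun b => P.E d k (u b + s) t) ∈ W := by
  induction k with
  | zero =>
    intro d hd s t hs ht
    have h1 : (fun b => P.E d 0 (u b + s) t) = fun b => P.E d 0 (u b + (s + t)) 0 := by
      funext b
      rw [P.vtx d _ t fun e => by simpa [hu] using congrArg Multiset.card e, add_assoc]
    rw [h1]
    exact h0 d hd _ (hs.add ht)
  | succ k ih =>
    intro d hd s t hs ht
    exact h.tail_mem u W hu d k (fun d' hd' => ih d' (hD hd'.le hd)) hs ht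

/-- triangularity -/
theorem Typed.C_sub_mem (h : P.Typed Ty) (hu : ∀ b, (u b).card = n + 1) (d : R →₀ ℕ)
    (h0 : ∀ d' < d, ∀ s, In (Ty 0) s → (fun b => P.E d' 0 (u b + s) 0) ∈ W)
    {s t : Ms H} (hs : In (Ty 0) s) (ht : In (Ty 0) t) :
    (fun b => P.C d (u b + s) t - P.E d 0 (u b + (s + t)) 0) ∈ W := by
  obtain ⟨N, hN⟩ := P.sum d
  have h1 : (fun b => P.C d (u b + s) t - P.E d 0 (u b + (s + t)) 0) =
      ∑ k ∈ range N, fun b => P.E d (k + 1) (u b + s) t := by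
    funext b
    have hne : u b + s ≠ 0 := fun e => by simpa [hu] using congrArg Multiset.card e
    rw [hN _ _ hne, sum_range_succ', P.vtx d _ t hne, add_assoc, add_sub_cancel_right,
      Finset.sum_apply]
  rw [h1]
  exact W.sum_mem fun k _ => h.tail_mem u W hu d k
    (fun d' hd' => h.E_mem u W hu (isLowerSet_Iio d) h0 k d' hd') hs ht

theorem Typed.C_mem (h : P.Typed Ty) (hu : ∀ b, (u b).card = n + 1) {D : Set (R →₀ ℕ)}
    (hD : IsLowerSet D) (h0 : ∀ d ∈ D, ∀ s, In (Ty 0) s → (fun b => P.E d 0 (u b + s) 0) ∈ W)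
    {d : R →₀ ℕ} (hd : d ∈ D) {s t : Ms H} (hs : In (Ty 0) s) (ht : In (Ty 0) t) :
    (fun b => P.C d (u b + s) t) ∈ W := by
  have h1 := W.add_mem (h.C_sub_mem u W hu d (fun d' hd' => h0 d' (hD hd'.le hd)) hs ht)
    (h0 d hd _ (hs.add ht))
  have h2 : ((fun b => P.C d (u b + s) t - P.E d 0 (u b + (s + t)) 0) +
      fun b => P.E d 0 (u b + (s + t)) 0) = fun b => P.C d (u b + s) t := by
    funext b; simp
  rwa [h2] at h1

end span

/-- If the vertex correlators act on `X` by scalars, so does the dressed product. -/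
theorem Typed.circ_scalar [CharZero K] (h : P.Typed Ty) (X : Set H)
    (hE : ∀ d s, In (Ty 0) s → ∃ c : K, ∀ x ∈ X, ∀ y,
      P.E d 0 ((0, x) ::ₘ (0, y) ::ₘ s) 0 = c * P.η (x * y))
    {φ : ι → H} (hφ : ∀ a, φ a ∈ Ty 0) {v : Md K H R ι} (hv : v ∈ TyM R ι (Ty 0)) :
    ∃ θ : Sr K R ι, ∀ x ∈ X, P.circ φ v (1 ⊗ₜ x) = θ • ((1 : Sr K R ι) ⊗ₜ[K] x) := by
  let W : Submodule K (X × H → K) := K ∙ fun b => P.η (b.1 * b.2)
  have key : ∀ z ∈ Ty 0, ∃ θ : Sr K R ι, ∀ x ∈ X,
      P.circ φ (1 ⊗ₜ z) (1 ⊗ₜ x) = θ • ((1 : Sr K R ι) ⊗ₜ[K] x) := by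
    intro z hz
    have h1 : ∀ m : R ⊕ ι →₀ ℕ, ∃ c : K, ∀ x ∈ X, ∀ y,
        P.C (dgm m) {(0, z), (0, x), (0, y)} (ins φ m) = c * P.η (x * y) := by
      intro m
      have h2 := h.C_mem (fun b : X × H => (0, b.1.1) ::ₘ {(0, b.2)}) W (n := 1) (fun _ => by simp)
        isLowerSet_univ (fun d _ s hs => by
          obtain ⟨c, hc⟩ := hE d s hs
          refine Submodule.mem_span_singleton.2 ⟨c, funext fun b => ?_⟩
          rw [Multiset.cons_add, Multiset.singleton_add, hc _ b.1.2]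
          rfl) (Set.mem_univ (dgm m)) (In.cons hz 0 (In.zero _)) (In.ins hφ m)
      obtain ⟨c, hc⟩ := Submodule.mem_span_singleton.1 h2
      refine ⟨c, fun x hx y => ?_⟩
      have h3 := congrFun hc (⟨x, hx⟩, y)
      simp only [Pi.smul_apply, smul_eq_mul] at h3
      rw [h3]
      congr 1
      rw [add_comm]
      rfl
    choose c hc using h1
    let θ : Sr K R ι := fun m => (fac K m)⁻¹ * c m
    refine ⟨θ, fun x hx => ?_⟩
    have h2 : ∀ y, P.D0 φ z x y = P.η (x * y) • θ := fun y => by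
      ext m
      change (fac K m)⁻¹ * P.C (dgm m) {(0, z), (0, x), (0, y)} (ins φ m) =
        P.η (x * y) * ((fac K m)⁻¹ * c m)
      rw [hc m x hx]; ring
    rw [circ, op_apply]
    conv_rhs => rw [← P.cas x, tmul_sum, smul_sum]
    refine sum_congr rfl fun a _ => ?_
    rw [ext3_tmul, h2, one_mul, one_mul, one_mul, tmul_smul, smul_assoc, smul_comm]
  rw [TyM, Submodule.baseChange_eq_span] at hv
  induction hv using Submodule.span_induction with
  | mem v hv =>
    obtain ⟨z, hz, rfl⟩ := hv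
    exact key z hz
  | zero => exact ⟨0, fun x _ => by simp⟩
  | add v w _ _ hv hw =>
    obtain ⟨a, ha⟩ := hv
    obtain ⟨b, hb⟩ := hw
    exact ⟨a + b, fun x hx => by rw [map_add, LinearMap.add_apply, ha x hx, hb x hx, add_smul]⟩
  | smul r v _ hv =>
    obtain ⟨a, ha⟩ := hv
    exact ⟨r * a, fun x hx => by rw [map_smul, LinearMap.smul_apply, ha x hx, mul_smul]⟩

end Pk

end Vale.Agent.P287Q.Lz
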