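import Vale.Agent.P287Q.Lz.PkH
import Vale.Agent.P287Q.Lz.PkV
import Vale.Agent.P287Q.Pcs.Desc

/-! The ends of a master space: the bare vertex acts by scalars on the pieces and separates them. -/

set_option linter.unusedSectionVars false

namespace Vale.Agent.P287Q.Lz

open Module Multiset Pcs

/-- A multilinear function of the insertions is determined by its values on a spanning set. -/
theorem PkE_ind {K H M : Type} [Field K] [AddCommGroup H] [Module K H] [AddCommGroup M]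
    [Module K M] (W : Submodule K M) (S : Set H) (t : Ms H)
    (ht : ∀ z ∈ t, z.2 ∈ Submodule.span K S) : ∀ Φ : Ms H → M,
    (∀ k s, IsLinearMap K fun e => Φ ((k, e) ::ₘ s)) →
    (∀ t' : Ms H, (∀ z ∈ t', z.2 ∈ S) → t'.map Prod.fst = t.map Prod.fst → Φ t' ∈ W) →
    Φ t ∈ W := by
  induction t using Multiset.induction_on with
  | empty => exact fun Φ _ h => h 0 (by simp) rfl
  | cons z s ih =>
    intro Φ l h
    have a : Submodule.span K S ≤ W.comap ((l z.1 s).mk' _) :=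
      Submodule.span_le.2 fun e he => ih (fun x b => ht x (mem_cons_of_mem b))
        (fun s => Φ ((z.1, e) ::ₘ s)) (fun k s => by simpa only [cons_swap (z.1, e)] using l k _)
        fun t' b c => h _ (forall_mem_cons.2 ⟨he, b⟩) (by rw [map_cons, map_cons, c])
    exact a (ht z (mem_cons_self _ _))

theorem PkE_lift {α β : Type} (f : α → β) (p : α → Prop) (t : Ms β)
    (h : ∀ z ∈ t, ∃ a, p a ∧ f a = z.2) :
    ∃ u : Ms α, u.map (Prod.map id f) = t ∧ ∀ x ∈ u, p x.2 := by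
  induction t using Multiset.induction_on with
  | empty => exact ⟨0, rfl, by simp⟩
  | cons z s ih =>
    obtain ⟨u, a, b⟩ := ih fun x c => h x (mem_cons_of_mem c)
    obtain ⟨x, c, d⟩ := h z (mem_cons_self _ _)
    exact ⟨(z.1, x) ::ₘ u, by rw [map_cons, a, Prod.map_apply, d]; rfl, forall_mem_cons.2 ⟨c, b⟩⟩

variable {K H R R' H₀ V Hc : Type} [Field K] [CommRing H] [Algebra K H] [DecidableEq R]
  [Fintype R'] [DecidableEq R'] [Algebra ℂ K] [Algebra ℂ H] [CommRing H₀] [Algebra ℂ H₀] [AddCommGroup V] [Module ℂ V]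

namespace Pk

/-- An end of a master space.  `jc` is a complex form of `H`, `res` the restriction to the end,
`En` the classes supported on the end, `gz m` the coefficients of the twisted invariants, `S d`
the degrees of the end that contribute to the degree `d`. -/
structure Ed (P : Pk K H R) (Ty : ℤ → Submodule K H) (G : Gw H₀ R') (ι : V →ₗ[ℂ] H₀)
    (j : V →ₗ[ℂ] H) (jc : Hc → H) (res : Hc → H₀) (En : Set Hc) (ψ : PowerSeries ℂ →ₐ[ℂ] K)
    (c : (R →₀ ℕ) → K) (gz : ℕ → (R →₀ ℕ) → Ms H₀ → ℂ) (S : (R →₀ ℕ) → Set (R' →₀ ℕ)) :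
    Prop where
  fr : G.Fr ι
  inj : Function.Injective ψ
  c0 : ∀ d, c d ≠ 0
  gz0 : ∀ s, gz 0 0 s = G.C 0 s
  s0 : S 0 ⊆ {0}
  up : ∀ d' t, G.C d' t ≠ 0 → ∃ d, (∀ s, gz 0 d s = G.C d' s) ∧ ∀ d₁ < d, S d₁ ⊆ Set.Iio d'
  ty : ∀ m d s, G.PP s → ∃ A ∈ G.alg ι (S d), ∀ v y,
    gz m d ((0, ι v) ::ₘ (0, y) ::ₘ s) = G.η (ι (A v) * y)
  hv : ∀ d, ∀ x ∈ En, ∀ s : Ms Hc, P.E d 0 ((0, jc x) ::ₘ s.map (Prod.map id jc)) 0 =
    c d * ψ (PowerSeries.mk fun m => gz m d ((0, res x) ::ₘ s.map (Prod.map id res)))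
  top : Submodule.span K (Set.range jc) = ⊤
  t0 : Ty 0 ≤ Submodule.span K (jc '' {x | res x ∈ G.Tp})
  on : ∀ y ∈ G.Tp, ∃ x, jc x ∈ Ty 0 ∧ res x = y
  jv : ∀ v, ∃ x ∈ En, jc x = j v ∧ res x = ι v
  jinj : Function.Injective j
  one : ∃ x, jc x = 1 ∧ res x = 1

theorem ScE.uniq {P : Pk K H R} {X : Set H} {d s c c'} (h : P.ScE X d s c) (h' : P.ScE X d s c')
    {x : H} (hx : x ∈ X) (h0 : x ≠ 0) : c = c' := by
  by_contra hne
  refine h0 (P.S_nondeg fun y => ?_)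
  have := (h x hx y).symm.trans (h' x hx y)
  rw [← sub_eq_zero, ← sub_mul] at this
  exact (mul_eq_zero.1 this).resolve_left (sub_ne_zero.2 hne)

theorem ScE.mono {P : Pk K H R} {X X' : Set H} {d s c} (h : P.ScE X d s c) (a : X' ⊆ X) :
    P.ScE X' d s c := fun x hx => h x (a hx)

theorem ScE.span (P : Pk K H R) (X : Set H) (d) {S : Set H} {s : Ms H}
    (hs : ∀ z ∈ s, z.2 ∈ Submodule.span K S)
    (h : ∀ s' : Ms H, (∀ z ∈ s', z.2 ∈ S) → s'.map Prod.fst = s.map Prod.fst →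
      ∃ c, P.ScE X d s' c) : ∃ c, P.ScE X d s c := by
  have := PkE_ind (K ∙ fun b : X × H => P.η (b.1 * b.2)) S s hs
    (fun s b => P.E d 0 ((0, b.1.1) ::ₘ (0, b.2) ::ₘ s) 0) (fun k s => by
      have l : ∀ x y : ℕ × H, IsLinearMap K fun e => P.E d 0 (x ::ₘ y ::ₘ (k, e) ::ₘ s) 0 :=
        fun x y => by
          simpa only [cons_swap (k, _) x, cons_swap (k, _) y] using P.linE₁ d 0 k (x ::ₘ y ::ₘ s) 0
      exact ⟨fun a b => funext fun _ => (l _ _).map_add a b,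
        fun c a => funext fun _ => (l _ _).map_smul c a⟩) fun s' a b => by
      obtain ⟨c, hc⟩ := h s' a b
      exact Submodule.mem_span_singleton.2 ⟨c, funext fun b => (hc _ b.1.2 _).symm⟩
  obtain ⟨c, hc⟩ := Submodule.mem_span_singleton.1 this
  exact ⟨c, fun x hx y => (congrFun hc (⟨x, hx⟩, y)).symm⟩

namespace Ed

variable {P : Pk K H R} {Ty : ℤ → Submodule K H} {G : Gw H₀ R'} {ι : V →ₗ[ℂ] H₀}
  {j : V →ₗ[ℂ] H} {jc : Hc → H} {res : Hc → H₀} {En : Set Hc} {ψ : PowerSeries ℂ →ₐ[ℂ] K}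
  {c : (R →₀ ℕ) → K} {gz : ℕ → (R →₀ ℕ) → Ms H₀ → ℂ} {S : (R →₀ ℕ) → Set (R' →₀ ℕ)}
  (h : P.Ed Ty G ι j jc res En ψ c gz S)
include h

theorem ops (d) {s : Ms Hc} (hs : G.PP (s.map (Prod.map id res))) :
    ∃ A : ℕ → End ℂ V, (∀ m, A m ∈ G.alg ι (S d)) ∧
      (∀ d', (∀ s, gz 0 d s = G.C d' s) → A 0 = G.op ι d' 0 0 (s.map (Prod.map id res))) ∧ ∀ v y,
      P.E d 0 ((0, j v) ::ₘ (0, jc y) ::ₘ s.map (Prod.map id jc)) 0 =
        c d * ψ (PowerSeries.mk fun m => G.η (ι (A m v) * res y)) := by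
  choose A a b using fun m => h.ty m d _ hs
  refine ⟨A, a, fun d' e => h.fr.ext fun v y _ => ?_, fun v y => ?_⟩
  · rw [← b, e, h.fr.η_op d' 0 0 hs]
  · obtain ⟨x, hx, e1, e2⟩ := h.jv v
    have := h.hv d x hx ((0, y) ::ₘ s)
    rw [map_cons, map_cons, e1, e2] at this
    exact this.trans (congrArg (fun f => c d * ψ (PowerSeries.mk f)) (funext fun m => b m v _))

omit h in
theorem psi_mul (f : ℕ → ℂ) (a : ℂ) : ψ (PowerSeries.mk fun m => f m * a) =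
    ψ (PowerSeries.mk f) * algebraMap ℂ K a := by
  rw [← ψ.commutes, ← map_mul]
  congr 1
  ext m
  simp [PowerSeries.algebraMap_eq]

theorem eta [CharZero K] : ∃ κ : K, κ ≠ 0 ∧ ∀ v y,
    P.η (j v * jc y) = κ * algebraMap ℂ K (G.η (ι v * res y)) := by
  obtain ⟨x, e1, e2⟩ := h.one
  have hs : G.PP (((0, x) ::ₘ 0 : Ms Hc).map (Prod.map id res)) := by
    simpa [e2] using G.pp_zero.cons 0 (G.mem_Tp G.one)
  obtain ⟨A, a, b, e⟩ := h.ops 0 hs
  have k : ∀ m, ∃ r : ℂ, (m = 0 → r = 1) ∧ ∀ v, ι (A m v) = r • ι v := fun m => by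
    by_cases hm : m = 0
    · refine ⟨1, fun _ => rfl, fun v => ?_⟩
      have := h.fr.ι_mul (G.mem_Tp G.one) v
      rw [hm, b 0 h.gz0, one_smul]
      simpa [e2] using this
    · have := a m
      rw [h.fr.alg_zero h.s0] at this
      obtain ⟨r, hr⟩ := Algebra.mem_bot.1 this
      exact ⟨r, fun a => absurd a hm, fun v => by simp [← hr]⟩
  choose r r0 hr using k
  refine ⟨c 0 * ψ (PowerSeries.mk r), mul_ne_zero (h.c0 0) fun e0 => ?_, fun v y => ?_⟩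
  · have := congrArg (PowerSeries.coeff 0) (h.inj (e0.trans (_root_.map_zero ψ).symm))
    simp [r0 0 rfl] at this
  · have e3 := e v y
    simp only [hr, smul_mul_assoc, map_smul, smul_eq_mul, psi_mul] at e3
    rw [mul_assoc, ← e3, ← mul_one (j v * jc y), ← P.zero₃]
    obtain ⟨N, hN⟩ := P.sum 0
    rw [hN _ _ (by simp), Finset.sum_range_succ', Finset.sum_eq_zero, zero_add]
    · simp [e1]
    · intro k _
      obtain ⟨M, hM⟩ := P.tail 0 k 2 0
      have h1 := hM {(0, j v), (0, jc y), (0, 1)} 0 (by simp) rfl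
      rw [cv_eq_zero fun d₁ t₁ d₂ t₂ hd _ => by simp [(add_eq_zero.1 hd).2, P.tl0]] at h1
      exact (mul_eq_zero.1 h1).resolve_left (Nat.cast_add_one_ne_zero k)

variable [CharZero K] {n : ℕ} {π : Fin n → End ℂ V} {χ : Fin n → G.alg ι Set.univ →ₐ[ℂ] ℂ}
  (hp : G.Pieces ι π χ)
include hp

theorem pure : ∃ κ : K, κ ≠ 0 ∧ ∀ d, ∀ s : Ms Hc, G.PP (s.map (Prod.map id res)) →
    ∃ A : ℕ → G.alg ι Set.univ, (∀ m, (A m).1 ∈ G.alg ι (S d)) ∧
      (∀ d', (∀ s, gz 0 d s = G.C d' s) →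
        (A 0).1 = G.op ι d' 0 0 (s.map (Prod.map id res))) ∧ ∀ γ,
      P.ScE (j '' LinearMap.range (π γ)) d (s.map (Prod.map id jc))
        (c d * ψ (PowerSeries.mk fun m => χ γ (A m)) / κ) := by
  obtain ⟨κ, h0, hκ⟩ := h.eta
  refine ⟨κ, h0, fun d s hs => ?_⟩
  obtain ⟨A, a, b, e⟩ := h.ops d hs
  refine ⟨fun m => ⟨A m, Gw.alg_mono (Set.subset_univ _) (a m)⟩, a, b, fun γ => ?_⟩
  rintro _ ⟨_, ⟨v, rfl⟩, rfl⟩ y
  have hy : y ∈ Submodule.span K (Set.range jc) := h.top ▸ trivial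
  have l : IsLinearMap K fun y =>
      P.E d 0 ((0, j (π γ v)) ::ₘ (0, y) ::ₘ s.map (Prod.map id jc)) 0 := by
    simpa only [cons_swap (0, j (π γ v))] using P.linE₁ d 0 0 ((0, j (π γ v)) ::ₘ _) 0
  induction hy using Submodule.span_induction with
  | mem y hy =>
    obtain ⟨y, rfl⟩ := hy
    have e1 : ∀ m, A m (π γ v) = χ γ ⟨A m, Gw.alg_mono (Set.subset_univ _) (a m)⟩ • π γ v :=
      fun m => LinearMap.congr_fun (hp.left γ ⟨A m, _⟩) v
    rw [e, hκ]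
    simp only [e1, map_smul, smul_mul_assoc, smul_eq_mul, psi_mul]
    field_simp
  | zero => rw [l.map_zero, mul_zero, _root_.map_zero, mul_zero]
  | add x y _ _ hx hy => rw [l.map_add, hx, hy, mul_add (j _), _root_.map_add, mul_add]
  | smul a x _ hx => rw [l.map_smul, hx, mul_smul_comm, map_smul, smul_eq_mul, smul_eq_mul,
      mul_left_comm]

theorem sca₂ (γ γ' : Fin n) (d) (hd : ∀ A : G.alg ι Set.univ, A.1 ∈ G.alg ι (S d) →
    χ γ A = χ γ' A) (s : Ms H) (hs : ∀ x ∈ s, x.2 ∈ Ty 0) :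
    ∃ a, P.ScE (j '' LinearMap.range (π γ) ∪ j '' LinearMap.range (π γ')) d s a := by
  refine ScE.span P _ d (fun z hz => h.t0 (hs z hz)) fun s' a _ => ?_
  obtain ⟨u, rfl, hu⟩ := PkE_lift jc (fun x => res x ∈ G.Tp) s' a
  obtain ⟨κ, -, hκ⟩ := h.pure hp
  obtain ⟨A, a1, -, a3⟩ := hκ d u (forall_mem_map_iff.2 hu)
  refine ⟨_, fun x hx => hx.elim (a3 γ x) fun hx => ?_⟩
  simp only [hd _ (a1 _)]
  exact a3 γ' x hx

/-- The bare vertex acts by scalars on the pieces. -/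
theorem sca (γ : Fin n) (d) (s : Ms H) (hs : ∀ x ∈ s, x.2 ∈ Ty 0) :
    ∃ a, P.ScE (j '' LinearMap.range (π γ)) d s a :=
  (h.sca₂ hp γ γ d (fun _ _ => rfl) s hs).imp fun _ a => a.mono Set.subset_union_left

theorem uniq (γ : Fin n) {d s a a'} (e : P.ScE (j '' LinearMap.range (π γ)) d s a)
    (e' : P.ScE (j '' LinearMap.range (π γ)) d s a') : a = a' := by
  obtain ⟨v, hv⟩ := DFunLike.ne_iff.1 (hp.ne γ)
  exact e.uniq e' ⟨_, ⟨v, rfl⟩, rfl⟩ fun e0 => hv (h.jinj (e0.trans (_root_.map_zero j).symm))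

theorem min {γ γ' : Fin n} (hne : γ ≠ γ') : ∃ d₀, (∀ A : G.alg ι Set.univ,
    A.1 ∈ G.alg ι (Set.Iio d₀) → χ γ A = χ γ' A) ∧ ∃ t, G.PP t ∧ Prim t ∧ t ≠ 0 ∧
    ∀ A : G.alg ι Set.univ, A.1 = G.op ι d₀ 0 0 t → χ γ A ≠ χ γ' A := by
  have key : ∀ S : Set (R' →₀ ℕ), (∀ d ∈ S, ∀ t (a : G.PP t) (b : Prim t),
      χ γ ⟨_, h.fr.op_mem (Set.mem_univ d) a b⟩ = χ γ' ⟨_, h.fr.op_mem (Set.mem_univ d) a b⟩) →
      ∀ A : G.alg ι Set.univ, A.1 ∈ G.alg ι S → χ γ A = χ γ' A := by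
    rintro S hS ⟨A, hA⟩ a
    change A ∈ Algebra.adjoin ℂ _ at a
    induction a using Algebra.adjoin_induction with
    | mem B hB =>
      obtain ⟨d, a, t, b, b', e⟩ := hB
      obtain rfl := h.fr.eq_op b e
      exact hS d a t b b'
    | algebraMap r => exact ((χ γ).commutes r).trans ((χ γ').commutes r).symm
    | add x y hx hy ix iy =>
      have hx' := Gw.alg_mono (Set.subset_univ S) hx
      have hy' := Gw.alg_mono (Set.subset_univ S) hy
      change χ γ (⟨x, hx'⟩ + ⟨y, hy'⟩) = χ γ' (⟨x, hx'⟩ + ⟨y, hy'⟩)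
      rw [_root_.map_add, _root_.map_add, ix hx', iy hy']
    | mul x y hx hy ix iy =>
      have hx' := Gw.alg_mono (Set.subset_univ S) hx
      have hy' := Gw.alg_mono (Set.subset_univ S) hy
      change χ γ (⟨x, hx'⟩ * ⟨y, hy'⟩) = χ γ' (⟨x, hx'⟩ * ⟨y, hy'⟩)
      rw [map_mul, map_mul, ix hx', iy hy']
  let B : Set (R' →₀ ℕ) := {d | ∃ t, ∃ (a : G.PP t) (b : Prim t),
    χ γ ⟨_, h.fr.op_mem (Set.mem_univ d) a b⟩ ≠ χ γ' ⟨_, h.fr.op_mem (Set.mem_univ d) a b⟩}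
  have hB : B.Nonempty := by
    by_contra hn
    refine hne (hp.inj (AlgHom.ext fun A => key _ (fun d _ t a b => ?_) A A.2))
    by_contra e
    exact hn ⟨d, t, a, b, e⟩
  obtain ⟨d₀, ⟨t, a, b, e⟩, hm⟩ := wellFounded_lt.has_min B hB
  refine ⟨d₀, key _ fun d' hd' t a b => ?_, ?_⟩
  · by_contra e
    exact hm d' ⟨t, a, b, e⟩ hd'
  · have h0 : d₀ ≠ 0 := by
      rintro rfl
      obtain ⟨r, hr⟩ := Algebra.mem_bot.1 (h.fr.prim_zero a b)
      apply e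
      have : (⟨_, h.fr.op_mem (Set.mem_univ 0) a b⟩ : G.alg ι Set.univ) = algebraMap ℂ _ r :=
        Subtype.ext hr.symm
      rw [this, AlgHom.commutes, AlgHom.commutes]
    obtain ⟨r, hr⟩ := DFunLike.ne_iff.1 h0
    refine ⟨(0, G.L r) ::ₘ t, a.cons 0 (G.mem_Tp (G.LT r)), forall_mem_cons.2 ⟨rfl, b⟩,
      cons_ne_zero, fun A hA => ?_⟩
    have : A = (d₀ r : ℂ) • ⟨_, h.fr.op_mem (Set.mem_univ d₀) a b⟩ :=
      Subtype.ext (hA.trans (h.fr.op_div r d₀ 0 0 a b (.inl h0)))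
    rw [this, map_smul, map_smul, smul_eq_mul, smul_eq_mul]
    exact fun e' => e (mul_left_cancel₀ (Nat.cast_ne_zero.2 hr) e')

/-- The bare vertex separates the pieces. -/
theorem sep {I : Type} {τ : I → H} (τT : ∀ a, τ a ∈ Ty 0)
    (hτ : Ty 0 ≤ Submodule.span K (Set.range τ)) (γ γ' : Fin n) (hne : γ ≠ γ') :
    ∃ d₀, (∀ d < d₀, ∀ s a a', (∀ x ∈ s, x.2 ∈ Ty 0) →
      P.ScE (j '' LinearMap.range (π γ)) d s a → P.ScE (j '' LinearMap.range (π γ')) d s a' →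
      a = a') ∧ ∃ x ∈ Ty 0, ∃ (t : Multiset I) (a a' : K), a ≠ a' ∧
      P.ScE (j '' LinearMap.range (π γ)) d₀ ((0, x) ::ₘ t.map fun i => (0, τ i)) a ∧
      P.ScE (j '' LinearMap.range (π γ')) d₀ ((0, x) ::ₘ t.map fun i => (0, τ i)) a' := by
  obtain ⟨d', h1, t, a1, a2, a3, a4⟩ := h.min hp hne
  have a5 : ∃ t, G.C d' t ≠ 0 := by
    by_contra hn
    push Not at hn
    refine a4 0 (h.fr.ext fun v y _ => ?_) (by simp)
    rw [h.fr.η_op d' 0 0 a1, hn]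
    simp
  obtain ⟨d₀, a6, a7⟩ := h.up d' _ a5.choose_spec
  refine ⟨d₀, fun d hd s a a' hs e e' => ?_, ?_⟩
  · obtain ⟨b, hb⟩ := h.sca₂ hp γ γ' d (fun A hA => h1 A (Gw.alg_mono (a7 d hd) hA)) s hs
    exact (h.uniq hp γ e (hb.mono Set.subset_union_left)).trans
      (h.uniq hp γ' (hb.mono Set.subset_union_right) e')
  by_contra hn
  push Not at hn
  obtain ⟨u, rfl, hu⟩ := PkE_lift res (fun x => jc x ∈ Ty 0) t fun z hz => h.on _ (a1 z hz)
  obtain ⟨κ, h0, hκ⟩ := h.pure hp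
  obtain ⟨A, -, b2, b3⟩ := hκ d₀ u a1
  obtain ⟨b, hb⟩ := ScE.span P (j '' LinearMap.range (π γ) ∪ j '' LinearMap.range (π γ')) d₀
    (s := u.map (Prod.map id jc)) (forall_mem_map_iff.2 fun z hz => hτ (hu z hz))
    fun s' c1 c2 => by
      obtain ⟨w, rfl, -⟩ := PkE_lift τ (fun _ => True) s' fun z hz =>
        (c1 z hz).imp fun _ e => ⟨trivial, e⟩
      have c3 : ∀ z ∈ w, z.1 = 0 := fun z hz => by
        have : z.1 ∈ (u.map (Prod.map id res)).map Prod.fst := by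
          have := mem_map_of_mem Prod.fst (mem_map_of_mem (Prod.map id τ) hz)
          rw [c2] at this
          simpa using this
        obtain ⟨y, hy, e⟩ := mem_map.1 this
        exact e ▸ a2 y hy
      have c4 : w.map (Prod.map id τ) = (w.map Prod.snd).map fun i => (0, τ i) := by
        rw [map_map]
        exact map_congr rfl fun z hz => Prod.ext (c3 z hz) rfl
      have c5 : w.map Prod.snd ≠ 0 := fun e => a3 (by
        have := congrArg card c2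
        rw [map_eq_zero.1 e] at this
        rw [← card_eq_zero]
        simpa using this.symm)
      obtain ⟨i, hi⟩ := exists_mem_of_ne_zero c5
      obtain ⟨w', hw⟩ := exists_cons_of_mem hi
      rw [c4, hw, map_cons]
      have c6 : ∀ x ∈ ((0, τ i) ::ₘ w'.map fun i => (0, τ i) : Ms H), x.2 ∈ Ty 0 :=
        forall_mem_cons.2 ⟨τT i, forall_mem_map_iff.2 fun i _ => τT i⟩
      obtain ⟨a, ha⟩ := h.sca hp γ d₀ _ c6
      obtain ⟨a', ha'⟩ := h.sca hp γ' d₀ _ c6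
      obtain rfl : a = a' := by
        by_contra e
        exact hn _ (τT i) w' a a' e ha ha'
      exact ⟨a, fun x hx => hx.elim (ha x) (ha' x)⟩
  have e := (h.uniq hp γ (b3 γ) (hb.mono Set.subset_union_left)).trans
    (h.uniq hp γ' (hb.mono Set.subset_union_right) (b3 γ'))
  rw [div_left_inj' h0, mul_right_inj' (h.c0 d₀)] at e
  have := congrArg (PowerSeries.coeff 0) (h.inj e)
  simp only [PowerSeries.coeff_mk] at this
  exact a4 _ (b2 d' a6) this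

theorem nd [IsScalarTower ℂ K H] (mem : ∀ v, j v ∈ Ty 2)
    (inj : Function.Injective (j.liftBaseChange K)) : P.Nd Ty j π :=
  ⟨mem, inj, hp.coi, h.sca hp⟩

end Ed

end Pk

/-- The form of `Pk.Ed.ty` that the twisted theory delivers. -/
theorem PkE_ty {G : Gw H₀ R'} {ι : V →ₗ[ℂ] H₀} (h : G.Fr ι) {φ : Ms H₀ → ℂ} {S : Set (R' →₀ ℕ)}
    (hφ : φ ∈ Qz.Ty G.η G.H0 (G.T 3 1) (G.alg (G.T 3 1).subtype S)) (s : Ms H₀) (hs : G.PP s) :
    ∃ A ∈ G.alg ι S, ∀ v y, φ ((0, ι v) ::ₘ (0, y) ::ₘ s) = G.η (ι (A v) * y) := by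
  obtain ⟨T, a, b⟩ := (hφ s hs).2 0 0
  let e : V ≃ₗ[ℂ] G.T 3 1 := (LinearEquiv.ofInjective ι h.inj).trans (.ofEq _ _ h.rng)
  have he : ∀ v, (e v).1 = ι v := fun _ => rfl
  have he' : ∀ (T : End ℂ (G.T 3 1)) v, ι (e.symm.conjAlgEquiv ℂ T v) = (T (e v)).1 := fun T v => by
    rw [← he]
    simp [LinearEquiv.conjAlgEquiv_apply]
  refine ⟨e.symm.conjAlgEquiv ℂ T, ?_, fun v y => by rw [he']; exact b (e v) y⟩
  refine (Algebra.adjoin_le (S := (G.alg ι S).comap (e.symm.conjAlgEquiv ℂ).toAlgHom) ?_) a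
  rintro B ⟨d, c1, t, c2, c3, c4⟩
  refine Algebra.subset_adjoin ⟨d, c1, t, c2, c3, fun v y hy => ?_⟩
  exact (congrArg (fun z => G.η (z * y)) (he' B v)).trans (c4 (e v) y hy)

open TensorProduct in
theorem PkE_top {Hc : Type} [AddCommGroup Hc] [Module ℂ Hc] :
    Submodule.span K (Set.range fun x : Hc => (1 : K) ⊗ₜ[ℂ] x) = ⊤ := by
  rw [← Submodule.baseChange_top, Submodule.baseChange_eq_span]
  congr 1
  ext x
  simp

open TensorProduct in
theorem PkE_t0 {Hc : Type} [AddCommGroup Hc] [Module ℂ Hc] (res : Hc →ₗ[ℂ] H₀)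
    (N : Submodule ℂ H₀) {z : K ⊗[ℂ] Hc} (hz : res.baseChange K z ∈ N.baseChange K) :
    z ∈ Submodule.span K ((fun x : Hc => (1 : K) ⊗ₜ[ℂ] x) '' {x | res x ∈ N}) := by
  have h1 := Module.Flat.lTensor_exact K (LinearMap.exact_subtype_ker_map (N.mkQ ∘ₗ res))
  have h2 : (N.mkQ ∘ₗ res).lTensor K z = 0 := by
    obtain ⟨w, hw⟩ := hz
    rw [LinearMap.lTensor_comp_apply, ← LinearMap.baseChange_eq_ltensor res, ← hw,
      LinearMap.baseChange_eq_ltensor, ← LinearMap.lTensor_comp_apply,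
      show N.mkQ ∘ₗ N.subtype = 0 by ext; simp, LinearMap.lTensor_zero, LinearMap.zero_apply]
  have h3 : z ∈ (LinearMap.ker (N.mkQ ∘ₗ res)).baseChange K := (h1 z).1 h2
  rw [Submodule.baseChange_eq_span] at h3
  refine Submodule.span_mono ?_ h3
  rintro _ ⟨x, hx, rfl⟩
  exact ⟨x, by simpa using hx, rfl⟩

end Vale.Agent.P287Q.Lz
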