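import Vale.Agent.P287Q.Lz.PkS

/-! The branch map is a ring homomorphism. -/

namespace Vale.Agent.P287Q.Lz

open Finset TensorProduct

section ext

variable {K H O : Type} [Field K] [CommRing H] [Algebra K H] [CommRing O] [Algebra K O]

theorem PkF_flip (B : H →ₗ[K] H →ₗ[K] H →ₗ[K] O) (x y z : O ⊗[K] H) :
    ext3 B.flip x y z = ext3 B y x z := by
  induction x using TensorProduct.induction_on with
  | zero => simp only [map_zero, LinearMap.zero_apply]
  | add a b ha hb => simp only [map_add, LinearMap.add_apply, ha, hb]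
  | tmul a x =>
    induction y using TensorProduct.induction_on with
    | zero => simp only [map_zero, LinearMap.zero_apply]
    | add a b ha hb => simp only [map_add, LinearMap.add_apply, ha, hb]
    | tmul b y =>
      induction z using TensorProduct.induction_on with
      | zero => simp only [map_zero]
      | add a b ha hb => simp only [map_add, ha, hb]
      | tmul c z => rw [ext3_tmul, ext3_tmul, mul_comm a, LinearMap.flip_apply]

theorem PkF_four {A : Type} [Fintype A] {B₁ B₂ B₃ B₄ : H →ₗ[K] H →ₗ[K] H →ₗ[K] O} {e f : A → H}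
    (h : ∀ x y z w, ∑ a, B₁ x y (e a) * B₂ (f a) z w = ∑ a, B₃ x z (e a) * B₄ (f a) y w)
    (x y z w : O ⊗[K] H) :
    ∑ a, ext3 B₁ x y (1 ⊗ₜ e a) * ext3 B₂ (1 ⊗ₜ f a) z w =
      ∑ a, ext3 B₃ x z (1 ⊗ₜ e a) * ext3 B₄ (1 ⊗ₜ f a) y w := by
  induction x using TensorProduct.induction_on with
  | zero => simp only [map_zero, LinearMap.zero_apply, zero_mul]
  | add a b ha hb => simp only [map_add, LinearMap.add_apply, add_mul, sum_add_distrib, ha, hb]
  | tmul a x =>
    induction y using TensorProduct.induction_on with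
    | zero => simp only [map_zero, LinearMap.zero_apply, zero_mul, mul_zero]
    | add a b ha hb =>
      simp only [map_add, LinearMap.add_apply, add_mul, mul_add, sum_add_distrib, ha, hb]
    | tmul b y =>
      induction z using TensorProduct.induction_on with
      | zero => simp only [map_zero, LinearMap.zero_apply, zero_mul, mul_zero]
      | add a b ha hb =>
        simp only [map_add, LinearMap.add_apply, add_mul, mul_add, sum_add_distrib, ha, hb]
      | tmul c z =>
        induction w using TensorProduct.induction_on with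
        | zero => simp only [map_zero, mul_zero]
        | add a b ha hb => simp only [map_add, mul_add, sum_add_distrib, ha, hb]
        | tmul d w =>
          have e := congrArg (a * b * c * d * ·) (h x y z w)
          simp only [mul_sum] at e
          simp only [ext3_tmul]
          exact (sum_congr rfl fun _ _ => by ring).trans (e.trans (sum_congr rfl fun _ _ => by ring))

end ext

namespace Pk

variable {K H R ι : Type} [Field K] [CommRing H] [Algebra K H] [DecidableEq R] (P : Pk K H R)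
  (φ : ι → H)

theorem eq_of_η {x y : H} (h : ∀ z, P.η (x * z) = P.η (y * z)) : x = y := by
  rw [← P.cas x, ← P.cas y]
  simp only [h]

theorem cas' (x : H) : ∑ a, P.η (P.f a * x) • P.e a = x := P.eq_of_η fun z => by
  conv_rhs => rw [← P.cas z, mul_sum, map_sum]
  rw [sum_mul, map_sum]
  refine sum_congr rfl fun a _ => ?_
  rw [smul_mul_assoc, mul_smul_comm, map_smul, map_smul, smul_eq_mul, smul_eq_mul, mul_comm x,
    mul_comm z, mul_comm]

theorem PkF_cas {e f : P.A → H} (h : ∀ x, ∑ a, P.η (x * e a) • f a = x) (x : Md K H R ι) :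
    ∑ a, P.ηM (x * 1 ⊗ₜ e a) • ((1 : Sr K R ι) ⊗ₜ[K] f a) = x := by
  induction x using TensorProduct.induction_on with
  | zero => simp only [zero_mul, map_zero, zero_smul, sum_const_zero]
  | add a b ha hb => simp only [add_mul, map_add, add_smul, sum_add_distrib, ha, hb]
  | tmul s x =>
    conv_rhs => rw [← h x, tmul_sum]
    refine sum_congr rfl fun a _ => ?_
    rw [Algebra.TensorProduct.tmul_mul_tmul, mul_one, ηM_tmul, smul_tmul', smul_eq_mul, mul_one,
      tmul_smul, smul_tmul', mul_comm, MvPowerSeries.smul_eq_C_mul]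

theorem casM (x : Md K H R ι) :
    ∑ a, P.ηM (x * 1 ⊗ₜ P.e a) • ((1 : Sr K R ι) ⊗ₜ[K] P.f a) = x := P.PkF_cas P.cas x

theorem casM' (x : Md K H R ι) :
    ∑ a, P.ηM (x * 1 ⊗ₜ P.f a) • ((1 : Sr K R ι) ⊗ₜ[K] P.e a) = x :=
  P.PkF_cas (fun x => by simpa only [mul_comm x] using P.cas' x) x

theorem eq_of_ηM {x y : Md K H R ι} (h : ∀ z : H, P.ηM (x * 1 ⊗ₜ z) = P.ηM (y * 1 ⊗ₜ z)) :
    x = y := by
  rw [← P.casM x, ← P.casM y]
  simp only [h]

theorem ηM_op (B : Md K H R ι →ₗ[Sr K R ι] Md K H R ι →ₗ[Sr K R ι] Md K H R ι →ₗ[Sr K R ι]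
    Sr K R ι) (x y z : Md K H R ι) : P.ηM (P.op B x y * z) = B x y z := by
  conv_rhs => rw [← P.casM' z, map_sum]
  rw [op_apply, sum_mul, map_sum]
  refine sum_congr rfl fun a _ => ?_
  rw [smul_mul_assoc, map_smul, map_smul, smul_eq_mul, smul_eq_mul, mul_comm z, mul_comm]

theorem PkF_comm {B : H →ₗ[K] H →ₗ[K] H →ₗ[K] Sr K R ι} (h : ∀ x y z, B x y z = B y x z)
    (x y : Md K H R ι) : P.op (ext3 B) x y = P.op (ext3 B) y x := by
  have e : B.flip = B := LinearMap.ext fun x => LinearMap.ext fun y => LinearMap.ext fun z =>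
    h y x z
  simp only [op_apply, ← PkF_flip B x y, e]

theorem G0_apply (x y z : H) :
    P.G0 φ x y z = ser φ fun d t => P.C d 0 ((0, x) ::ₘ (0, y) ::ₘ (0, z) ::ₘ t) := rfl

theorem M0_apply (x y z : H) :
    P.M0 φ x y z = ser φ fun d t => P.C d {(0, y), (0, z)} ((0, x) ::ₘ t) := rfl

theorem D0_apply (x y z : H) :
    P.D0 φ x y z = ser φ fun d t => P.C d {(0, x), (0, y), (0, z)} t := rfl

theorem star_comm (x y : Md K H R ι) : P.star φ x y = P.star φ y x :=
  P.PkF_comm (fun x y z => congrArg (ser φ) (funext₂ fun d t =>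
    congrArg (P.C d 0) (Multiset.cons_swap (0, x) (0, y) ((0, z) ::ₘ t)))) x y

theorem circ_comm (x y : Md K H R ι) : P.circ φ x y = P.circ φ y x :=
  P.PkF_comm (fun x y z => congrArg (ser φ) (funext₂ fun d t =>
    congrArg (P.C d · t) (Multiset.cons_swap (0, x) (0, y) {(0, z)}))) x y

theorem PkF_cc {B : H →ₗ[K] H →ₗ[K] H →ₗ[K] Sr K R ι}
    (h : ∀ x y z, MvPowerSeries.constantCoeff (B x y z) = P.η (x * y * z)) (x y : Md K H R ι)
    (z : H) : MvPowerSeries.constantCoeff (ext3 B x y (1 ⊗ₜ z)) = P.η (cf 0 x * cf 0 y * z) := by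
  induction x using TensorProduct.induction_on with
  | zero => simp only [map_zero, LinearMap.zero_apply, zero_mul]
  | add a b ha hb => simp only [map_add, LinearMap.add_apply, add_mul, ha, hb]
  | tmul a x =>
    induction y using TensorProduct.induction_on with
    | zero => simp only [map_zero, LinearMap.zero_apply, zero_mul, mul_zero]
    | add a b ha hb => simp only [map_add, LinearMap.add_apply, add_mul, mul_add, ha, hb]
    | tmul b y =>
      rw [ext3_tmul, cf_tmul, cf_tmul, mul_one, map_mul, map_mul, h, smul_mul_smul_comm,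
        smul_mul_assoc, map_smul, smul_eq_mul, MvPowerSeries.coeff_zero_eq_constantCoeff_apply,
        MvPowerSeries.coeff_zero_eq_constantCoeff_apply]

theorem PkF_cf {B : H →ₗ[K] H →ₗ[K] H →ₗ[K] Sr K R ι}
    (h : ∀ x y z, MvPowerSeries.constantCoeff (B x y z) = P.η (x * y * z)) (x y : Md K H R ι) :
    cf 0 (P.op (ext3 B) x y) = cf 0 x * cf 0 y := by
  rw [op_apply, map_sum, ← P.cas (cf 0 x * cf 0 y)]
  refine sum_congr rfl fun a _ => ?_
  rw [cf_zero_smul, P.PkF_cc h, cf_tmul, MvPowerSeries.coeff_zero_one, one_smul]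

theorem cf_star (x y : Md K H R ι) : cf 0 (P.star φ x y) = cf 0 x * cf 0 y :=
  P.PkF_cf (fun x y z => by rw [G0_apply, constantCoeff_ser]; exact P.zero₀ x y z) x y

theorem cf_circ (x y : Md K H R ι) : cf 0 (P.circ φ x y) = cf 0 x * cf 0 y :=
  P.PkF_cf (fun x y z => by rw [D0_apply, constantCoeff_ser]; exact P.zero₃ x y z) x y

theorem cf_mid (x y : Md K H R ι) : cf 0 (P.mid φ x y) = cf 0 x * cf 0 y :=
  P.PkF_cf (fun x y z => by rw [M0_apply, constantCoeff_ser]; exact P.zero₂ x y z) x y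

theorem PkF_op {B₁ B₂ B₃ B₄ : H →ₗ[K] H →ₗ[K] H →ₗ[K] Sr K R ι}
    (h : ∀ x y z w, ∑ a, B₁ x y (P.e a) * B₂ (P.f a) z w = ∑ a, B₃ x z (P.e a) * B₄ (P.f a) y w)
    (x y z : Md K H R ι) :
    P.op (ext3 B₂) (P.op (ext3 B₁) x y) z = P.op (ext3 B₄) (P.op (ext3 B₃) x z) y :=
  P.eq_of_ηM fun w => by
    rw [ηM_op, ηM_op, op_apply, op_apply]
    simp only [map_sum, map_smul, LinearMap.sum_apply, LinearMap.smul_apply, smul_eq_mul]
    exact PkF_four h x y z _

omit [DecidableEq R] in
theorem cf_one : cf (0 : R ⊕ ι →₀ ℕ) (1 : Md K H R ι) = 1 := by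
  rw [Algebra.TensorProduct.one_def, cf_tmul, MvPowerSeries.coeff_zero_one, one_smul]

variable [CharZero K]

theorem PkF_w1 (x y z : Md K H R ι) :
    P.circ φ (P.circ φ x y) z = P.circ φ (P.circ φ x z) y :=
  P.PkF_op (fun x y z w => by
    simp only [D0_apply, ← ser_cv]
    exact congrArg (ser φ) (funext₂ fun d t => P.w1 d t x y z w)) x y z

theorem PkF_w2 (v x y : Md K H R ι) :
    P.circ φ (P.mid φ v x) y = P.circ φ (P.mid φ v y) x :=
  P.PkF_op (fun x y z w => by
    simp only [D0_apply, M0_apply, ← ser_cv]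
    exact congrArg (ser φ) (funext₂ fun d t => P.w2 d t x y z w)) v x y

theorem PkF_w3 (u v x : Md K H R ι) :
    P.mid φ (P.star φ u v) x = P.mid φ v (P.mid φ u x) := by
  refine (P.PkF_op (B₃ := P.M0 φ) (B₄ := (P.M0 φ).flip) (fun x y z w => ?_) u v x).trans
    (P.eq_of_ηM fun w => ?_)
  · simp only [LinearMap.flip_apply, G0_apply, M0_apply, ← ser_cv]
    exact congrArg (ser φ) (funext₂ fun d t => P.w3 d t x y z w)
  · rw [ηM_op, PkF_flip, mid, ηM_op]

theorem circ_assoc (x y z : Md K H R ι) :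
    P.circ φ (P.circ φ x y) z = P.circ φ x (P.circ φ y z) := by
  rw [P.circ_comm φ x y, PkF_w1, circ_comm]

theorem unit_circ (x : Md K H R ι) : P.circ φ (P.unit φ) x = x := by
  have := P.findim
  have hb := bij_of_cf (P.circ φ 1) fun x => by rw [cf_circ, cf_one, one_mul]
  obtain ⟨u, hu⟩ := hb.2 1
  exact Classical.epsilon_spec (p := fun u => ∀ x, P.circ φ u x = x)
    ⟨u, fun x => hb.1 (by rw [← circ_assoc, hu])⟩ x

theorem circ_unit (x : Md K H R ι) : P.circ φ x (P.unit φ) = x := by rw [circ_comm, unit_circ]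

theorem cf_unit : cf 0 (P.unit φ) = 1 := by
  have h := P.cf_circ φ (P.unit φ) 1
  rwa [unit_circ, cf_one, mul_one, eq_comm] at h

omit [CharZero K] in
theorem U_apply (x : Md K H R ι) : P.U φ x = P.mid φ x (P.unit φ) := rfl

theorem cf_U (x : Md K H R ι) : cf 0 (P.U φ x) = cf 0 x := by
  rw [U_apply, cf_mid, cf_unit, mul_one]

theorem U_bij : Function.Bijective (P.U φ) :=
  haveI := P.findim
  bij_of_cf _ (P.cf_U φ)

theorem mid_eq (v x : Md K H R ι) : P.mid φ v x = P.circ φ (P.U φ v) x := by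
  rw [U_apply, ← PkF_w2, circ_unit]

/-- **the branch map is a ring homomorphism** -/
theorem U_star (x y : Md K H R ι) : P.U φ (P.star φ x y) = P.circ φ (P.U φ x) (P.U φ y) := by
  rw [U_apply, PkF_w3, ← U_apply, mid_eq, circ_comm]

end Pk

end Vale.Agent.P287Q.Lz
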