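import Vale.Agent.P287Q.Lz.PkF

/-! The products on constant vectors; multilinear extensionality. -/

namespace Vale.Agent.P287Q.Lz.Pk

open Finset TensorProduct

variable {K H R ι : Type} [Field K] [CommRing H] [Algebra K H] [DecidableEq R] (P : Pk K H R)
  (φ : ι → H)

omit [DecidableEq R] in
/-- bilinear identities can be checked on constant vectors -/
theorem PkG_ext₂ {V : Type} [AddCommGroup V] [Module (Sr K R ι) V]
    {B B' : Md K H R ι →ₗ[Sr K R ι] Md K H R ι →ₗ[Sr K R ι] V}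
    (h : ∀ x y : H, B (1 ⊗ₜ x) (1 ⊗ₜ y) = B' (1 ⊗ₜ x) (1 ⊗ₜ y)) (x y : Md K H R ι) :
    B x y = B' x y := by
  have e : ∀ (s : Sr K R ι) (x : H), s ⊗ₜ[K] x = s • ((1 : Sr K R ι) ⊗ₜ[K] x) := fun s x => by
    rw [smul_tmul', smul_eq_mul, mul_one]
  induction x using TensorProduct.induction_on with
  | zero => simp
  | add x x' hx hx' => simp only [map_add, LinearMap.add_apply, hx, hx']
  | tmul s x =>
    induction y using TensorProduct.induction_on with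
    | zero => simp
    | add y y' hy hy' => simp only [map_add, hy, hy']
    | tmul t y => rw [e s, e t]; simp only [map_smul, LinearMap.smul_apply, h]

omit [DecidableEq R] in
/-- trilinear identities can be checked on constant vectors -/
theorem PkG_ext₃ {V : Type} [AddCommGroup V] [Module (Sr K R ι) V]
    {B B' : Md K H R ι →ₗ[Sr K R ι] Md K H R ι →ₗ[Sr K R ι] Md K H R ι →ₗ[Sr K R ι] V}
    (h : ∀ x y z : H, B (1 ⊗ₜ x) (1 ⊗ₜ y) (1 ⊗ₜ z) = B' (1 ⊗ₜ x) (1 ⊗ₜ y) (1 ⊗ₜ z))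
    (x y z : Md K H R ι) : B x y z = B' x y z := by
  induction x using TensorProduct.induction_on with
  | zero => simp
  | add x x' hx hx' => simp only [map_add, LinearMap.add_apply, hx, hx']
  | tmul s x =>
    rw [show s ⊗ₜ[K] x = s • ((1 : Sr K R ι) ⊗ₜ[K] x) by rw [smul_tmul', smul_eq_mul, mul_one]]
    simp only [map_smul, LinearMap.smul_apply, PkG_ext₂ (h x) y z]

theorem ηM_star (x y z : H) : P.ηM (P.star φ (1 ⊗ₜ x) (1 ⊗ₜ y) * 1 ⊗ₜ z) =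
    ser φ fun d t => P.C d 0 ((0, x) ::ₘ (0, y) ::ₘ (0, z) ::ₘ t) := by
  rw [star, ηM_op, ext3_tmul, G0_apply, one_mul, one_mul, one_mul]

theorem ηM_mid (x y z : H) : P.ηM (P.mid φ (1 ⊗ₜ x) (1 ⊗ₜ y) * 1 ⊗ₜ z) =
    ser φ fun d t => P.C d {(0, y), (0, z)} ((0, x) ::ₘ t) := by
  rw [mid, ηM_op, ext3_tmul, M0_apply, one_mul, one_mul, one_mul]

theorem ηM_circ (x y z : H) : P.ηM (P.circ φ (1 ⊗ₜ x) (1 ⊗ₜ y) * 1 ⊗ₜ z) =
    ser φ fun d t => P.C d {(0, x), (0, y), (0, z)} t := by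
  rw [circ, ηM_op, ext3_tmul, D0_apply, one_mul, one_mul, one_mul]

/-- a linear form on a product is a sum over the Casimir element -/
theorem PkG_sum (x : Md K H R ι) (g : Md K H R ι →ₗ[Sr K R ι] Sr K R ι) :
    g x = ∑ a, P.ηM (x * 1 ⊗ₜ P.e a) * g (1 ⊗ₜ P.f a) := by
  conv_lhs => rw [← P.casM x, map_sum]
  simp only [map_smul, smul_eq_mul]

theorem PkG_sum₁ (B : Md K H R ι →ₗ[Sr K R ι] Md K H R ι →ₗ[Sr K R ι] Md K H R ι)
    (x y z : Md K H R ι) :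
    P.ηM (B x y * z) = ∑ a, P.ηM (x * 1 ⊗ₜ P.e a) * P.ηM (B (1 ⊗ₜ P.f a) y * z) :=
  P.PkG_sum x (P.ηM ∘ₗ LinearMap.mulRight _ z ∘ₗ B.flip y)

theorem PkG_sum₂ (B : Md K H R ι →ₗ[Sr K R ι] Md K H R ι →ₗ[Sr K R ι] Md K H R ι)
    (x y z : Md K H R ι) :
    P.ηM (B y x * z) = ∑ a, P.ηM (x * 1 ⊗ₜ P.e a) * P.ηM (B y (1 ⊗ₜ P.f a) * z) :=
  P.PkG_sum x (P.ηM ∘ₗ LinearMap.mulRight _ z ∘ₗ B y)

end Vale.Agent.P287Q.Lz.Pk
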