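import Vale.Agent.P287Q.Lz.PkT

/-! Classes that move between the markings; faces. -/

namespace Vale.Agent.P287Q.Lz.Pk

open Finset TensorProduct

variable {K H R ι : Type} [Field K] [CharZero K] [CommRing H] [Algebra K H] [DecidableEq R]
  {P : Pk K H R} {φ : ι → H} {Ty : ℤ → Submodule K H} {a : H} {S : Set R}

theorem VM.E (h : P.VM a) (d k i j x y s t) :
    P.E d k ((i, a * x) ::ₘ (j, y) ::ₘ s) t = P.E d k ((i, x) ::ₘ (j, a * y) ::ₘ s) t := by
  induction k generalizing d s t with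
  | zero =>
    rw [P.vtx d _ t Multiset.cons_ne_zero, P.vtx d (_ ::ₘ _) t Multiset.cons_ne_zero]
    simp only [Multiset.cons_add]
    exact h d i j x y (s + t)
  | succ k ih =>
    obtain ⟨N, hN⟩ := P.tail d k (s.card + 1) t.card
    have h0 : ((k : K) + 1) ≠ 0 := by exact_mod_cast Nat.succ_ne_zero k
    apply mul_left_cancel₀ h0
    rw [hN _ t (by simp) rfl, hN _ t (by simp) rfl]
    refine cv_congr fun d₁ t₁ d₂ t₂ _ _ => sum_congr rfl fun b _ => sum_congr rfl fun l _ => ?_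
    rw [Multiset.cons_swap (l, P.e b) (i, a * x), Multiset.cons_swap (l, P.e b) (j, y), ih,
      Multiset.cons_swap (l, P.e b) (i, x), Multiset.cons_swap (l, P.e b) (j, a * y)]

theorem VM.C (h : P.VM a) (d i j x y s t) :
    P.C d ((i, a * x) ::ₘ (j, y) ::ₘ s) t = P.C d ((i, x) ::ₘ (j, a * y) ::ₘ s) t := by
  obtain ⟨N, hN⟩ := P.sum d
  rw [hN _ t Multiset.cons_ne_zero, hN _ t Multiset.cons_ne_zero]
  exact sum_congr rfl fun k _ => h.E d k i j x y s t

omit [CharZero K] in
theorem pkM_op_move (B : H →ₗ[K] H →ₗ[K] H →ₗ[K] Sr K R ι)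
    (h : ∀ x y z, B (a * x) y z = B x y (a * z)) (x y : Md K H R ι) :
    P.op (ext3 B) (1 ⊗ₜ a * x) y = 1 ⊗ₜ a * P.op (ext3 B) x y := by
  refine P.eq_of_ηM fun z => ?_
  have e : (1 : Sr K R ι) ⊗ₜ[K] a * P.op (ext3 B) x y * 1 ⊗ₜ z
      = P.op (ext3 B) x y * 1 ⊗ₜ (a * z) := by
    rw [mul_comm (1 ⊗ₜ a), mul_assoc, Algebra.TensorProduct.tmul_mul_tmul, one_mul]
  rw [e, ηM_op, ηM_op]
  clear e
  induction x using TensorProduct.induction_on with
  | zero => simp
  | add x x' hx hx' => simp only [mul_add, map_add, LinearMap.add_apply, hx, hx']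
  | tmul s x =>
    induction y using TensorProduct.induction_on with
    | zero => simp
    | add y y' hy hy' => simp only [map_add, LinearMap.add_apply, hy, hy']
    | tmul s' y =>
      rw [Algebra.TensorProduct.tmul_mul_tmul, one_mul, ext3_tmul, ext3_tmul, h]

omit [CharZero K] in
theorem pkM_circ
    (h : ∀ d x y z t, P.C d ((0, a * x) ::ₘ (0, z) ::ₘ {(0, y)}) t =
      P.C d ((0, x) ::ₘ (0, a * z) ::ₘ {(0, y)}) t) (φ : ι → H) (x y : Md K H R ι) :
    P.circ φ (1 ⊗ₜ a * x) y = 1 ⊗ₜ a * P.circ φ x y := by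
  refine pkM_op_move _ (fun x y z => ?_) x y
  change ser φ (fun d t => P.C d {(0, a * x), (0, y), (0, z)} t) =
    ser φ fun d t => P.C d {(0, x), (0, y), (0, a * z)} t
  congr 1
  funext d t
  have e : ∀ u v w : ℕ × H, ({u, v, w} : Ms H) = u ::ₘ w ::ₘ {v} := fun u v w => by
    rw [Multiset.insert_eq_cons, Multiset.pair_comm, Multiset.insert_eq_cons]
  rw [e, e, h]

theorem VM.circ (h : P.VM a) (φ : ι → H) (x y : Md K H R ι) :
    P.circ φ (1 ⊗ₜ a * x) y = 1 ⊗ₜ a * P.circ φ x y :=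
  pkM_circ (fun d x _ z t => h.C d 0 0 x z _ t) φ x y

omit [CharZero K] in
theorem FM.cut (h : P.FM S a) : (P.cut S).FM Set.univ a := by
  refine ⟨fun d _ i j x y s t => ?_, fun d _ i j x y s t => ?_, fun d _ i j x y s t => ?_⟩
  · simp only [Pk.cut]
    split_ifs with hd
    exacts [h.ss d hd i j x y s t, rfl]
  · simp only [Pk.cut]
    split_ifs with hd
    exacts [h.sf d hd i j x y s t, rfl]
  · simp only [Pk.cut]
    split_ifs with hd
    exacts [h.ff d hd i j x y s t, rfl]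

omit [CharZero K] in
theorem FM.circ (h : P.FM Set.univ a) (φ : ι → H) (x y : Md K H R ι) :
    P.circ φ (1 ⊗ₜ a * x) y = 1 ⊗ₜ a * P.circ φ x y :=
  pkM_circ (fun d x _ z t => h.ss d (Set.subset_univ _) 0 0 x z _ t) φ x y

omit [CharZero K] in
theorem FM.star (h : P.FM Set.univ a) (φ : ι → H) (x y : Md K H R ι) :
    P.star φ (1 ⊗ₜ a * x) y = 1 ⊗ₜ a * P.star φ x y := by
  refine pkM_op_move _ (fun x y z => ?_) x y
  change ser φ (fun d t => P.C d 0 ((0, a * x) ::ₘ (0, y) ::ₘ (0, z) ::ₘ t)) =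
    ser φ fun d t => P.C d 0 ((0, x) ::ₘ (0, y) ::ₘ (0, a * z) ::ₘ t)
  congr 1
  funext d t
  rw [Multiset.cons_swap (0, y) (0, z), h.ff d (Set.subset_univ _),
    Multiset.cons_swap (0, y) (0, a * z)]

omit [CharZero K] in
theorem FM.mid (h : P.FM Set.univ a) (φ : ι → H) (x y : Md K H R ι) :
    P.mid φ (1 ⊗ₜ a * x) y = 1 ⊗ₜ a * P.mid φ x y := by
  refine pkM_op_move _ (fun x y z => ?_) x y
  change ser φ (fun d t => P.C d {(0, y), (0, z)} ((0, a * x) ::ₘ t)) =
    ser φ fun d t => P.C d {(0, y), (0, a * z)} ((0, x) ::ₘ t)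
  congr 1
  funext d t
  have e : ∀ u v : ℕ × H, ({u, v} : Ms H) = v ::ₘ {u} := fun u v => by
    rw [Multiset.pair_comm, Multiset.insert_eq_cons]
  rw [e, e, h.sf d (Set.subset_univ _)]

omit [CharZero K] in
theorem FM.U (h : P.FM Set.univ a) (φ : ι → H) (x : Md K H R ι) :
    P.U φ (1 ⊗ₜ a * x) = 1 ⊗ₜ a * P.U φ x := h.mid φ x (P.unit φ)

variable (P φ S)

omit [CharZero K] [DecidableEq R] in
theorem pkM_spM_tmul (s : Sr K R ι) (x : H) :
    spM K H ι S (s ⊗ₜ[K] x) = sp0 K ι S s ⊗ₜ[K] x := rfl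

omit [CharZero K] [DecidableEq R] in
theorem pkM_spM_smul (s : Sr K R ι) (x : Md K H R ι) :
    spM K H ι S (s • x) = sp0 K ι S s • spM K H ι S x := by
  induction x using TensorProduct.induction_on with
  | zero => simp
  | add x x' hx hx' => simp only [smul_add, map_add, hx, hx']
  | tmul s' x =>
    rw [TensorProduct.smul_tmul', pkM_spM_tmul, pkM_spM_tmul, TensorProduct.smul_tmul',
      smul_eq_mul, smul_eq_mul, map_mul]

omit [CharZero K] in
theorem pkM_sp_op (B B' : H →ₗ[K] H →ₗ[K] H →ₗ[K] Sr K R ι)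
    (h : ∀ x y z, sp0 K ι S (B x y z) = B' x y z) (x y : Md K H R ι) :
    spM K H ι S (P.op (ext3 B) x y) =
      (P.cut S).op (ext3 B') (spM K H ι S x) (spM K H ι S y) := by
  rw [op_apply, op_apply, map_sum]
  refine sum_congr rfl fun b _ => ?_
  rw [pkM_spM_smul, pkM_spM_tmul, map_one]
  congr 1
  change _ = ext3 B' _ _ (1 ⊗ₜ P.e b)
  induction x using TensorProduct.induction_on with
  | zero => simp
  | add x x' hx hx' => simp only [map_add, LinearMap.add_apply, hx, hx']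
  | tmul s x =>
    induction y using TensorProduct.induction_on with
    | zero => simp
    | add y y' hy hy' => simp only [map_add, LinearMap.add_apply, hy, hy']
    | tmul s' y =>
      rw [pkM_spM_tmul, pkM_spM_tmul, ext3_tmul, ext3_tmul, map_mul, map_mul, map_mul, map_one, h]

omit [CharZero K] in
theorem pkM_C_zero (d : R →₀ ℕ) (s t : Ms H) : P.C d s ((0, 0) ::ₘ t) = 0 :=
  (P.linC₂ d 0 s t).map_zero

omit [CharZero K] in
theorem sp_star (x y : Md K H R ι) : spM K H ι S (P.star φ x y) =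
    (P.cut S).star (0 : ι → H) (spM K H ι S x) (spM K H ι S y) := by
  refine pkM_sp_op P S _ _ (fun x y z => ?_) x y
  refine sp0_ser φ S (Φ := fun d t => P.C d 0 ((0, x) ::ₘ (0, y) ::ₘ (0, z) ::ₘ t)) fun d t => ?_
  rw [Multiset.cons_swap (0, z) (0, 0), Multiset.cons_swap (0, y) (0, 0),
    Multiset.cons_swap (0, x) (0, 0), pkM_C_zero]

omit [CharZero K] in
theorem sp_circ (x y : Md K H R ι) : spM K H ι S (P.circ φ x y) =
    (P.cut S).circ (0 : ι → H) (spM K H ι S x) (spM K H ι S y) := by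
  refine pkM_sp_op P S _ _ (fun x y z => ?_) x y
  exact sp0_ser φ S (Φ := fun d t => P.C d {(0, x), (0, y), (0, z)} t) fun d t =>
    pkM_C_zero P _ _ _

omit [CharZero K] in
theorem sp_mid (x y : Md K H R ι) : spM K H ι S (P.mid φ x y) =
    (P.cut S).mid (0 : ι → H) (spM K H ι S x) (spM K H ι S y) := by
  refine pkM_sp_op P S _ _ (fun x y z => ?_) x y
  refine sp0_ser φ S (Φ := fun d t => P.C d {(0, y), (0, z)} ((0, x) ::ₘ t)) fun d t => ?_
  rw [Multiset.cons_swap (0, x) (0, 0), pkM_C_zero]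

theorem sp_unit : spM K H ι S (P.unit φ) = (P.cut S).unit (0 : ι → H) := by
  have h : ∀ x : Md K H R ι, (P.cut S).circ (0 : ι → H) (spM K H ι S (P.unit φ)) x = x := by
    intro x
    induction x using TensorProduct.induction_on with
    | zero => simp
    | add x x' hx hx' => rw [map_add, hx, hx']
    | tmul s x =>
      have e : s ⊗ₜ[K] x = s • ((1 : Sr K R ι) ⊗ₜ[K] x) := by
        rw [TensorProduct.smul_tmul', smul_eq_mul, mul_one]
      have e' : spM K H ι S ((1 : Sr K R ι) ⊗ₜ[K] x) = 1 ⊗ₜ[K] x := by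
        rw [pkM_spM_tmul, map_one]
      have e'' := sp_circ P φ S (P.unit φ) (1 ⊗ₜ x)
      rw [unit_circ, e'] at e''
      rw [e, map_smul, ← e'']
  rw [← unit_circ (P.cut S) (0 : ι → H) (spM K H ι S (P.unit φ)), circ_comm, h]

theorem sp_U (x : Md K H R ι) :
    spM K H ι S (P.U φ x) = (P.cut S).U (0 : ι → H) (spM K H ι S x) := by
  change spM K H ι S (P.mid φ x (P.unit φ)) =
    (P.cut S).mid (0 : ι → H) (spM K H ι S x) ((P.cut S).unit (0 : ι → H))
  rw [sp_mid, sp_unit]

variable {P φ S}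

/-- the value of a series of classes -/
noncomputable def valM (val : H →ₗ[K] K) : Md K H R ι →ₗ[Sr K R ι] Sr K R ι :=
  LinearMap.liftBaseChange _ ((Algebra.linearMap K (Sr K R ι)).comp val)

omit [CharZero K] [DecidableEq R] in
theorem valM_tmul (val : H →ₗ[K] K) (s : Sr K R ι) (x : H) :
    valM val (s ⊗ₜ[K] x) = s * algebraMap K (Sr K R ι) (val x) := by
  simp [valM]

omit [CharZero K] [DecidableEq R] in
theorem sp_valM (val : H →ₗ[K] K) (x : Md K H R ι) :
    sp0 K ι S (valM val x) = valM val (spM K H ι S x) := by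
  induction x using TensorProduct.induction_on with
  | zero => simp
  | add x x' hx hx' => simp only [map_add, hx, hx']
  | tmul s x => rw [pkM_spM_tmul, valM_tmul, valM_tmul, map_mul, AlgHom.commutes]

variable (P S) in
omit [CharZero K] in
theorem sp_ηM (x : Md K H R ι) : sp0 K ι S (P.ηM x) = P.ηM (spM K H ι S x) := sp_valM P.η x

omit [CharZero K] [DecidableEq R] in
theorem cc_valM (val : H →ₗ[K] K) (x : Md K H R ι) :
    MvPowerSeries.constantCoeff (valM val x) = val (cf 0 x) := by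
  induction x using TensorProduct.induction_on with
  | zero => simp
  | add x x' hx hx' => simp only [map_add, hx, hx']
  | tmul s x =>
    have e : cf 0 (s ⊗ₜ[K] x) = MvPowerSeries.coeff 0 s • x := rfl
    rw [valM_tmul, e, map_mul, map_smul, smul_eq_mul, MvPowerSeries.coeff_zero_eq_constantCoeff_apply,
      MvPowerSeries.algebraMap_apply, MvPowerSeries.constantCoeff_C]
    rfl

/-- **a class that moves is an eigenvector** -/
theorem Typed.circ_eq (h : P.Typed Ty) (hφ : ∀ i, φ i ∈ Ty 0)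
    (ha : ∀ x y : Md K H R ι, P.circ φ (1 ⊗ₜ a * x) y = 1 ⊗ₜ a * P.circ φ x y)
    {val : H →ₗ[K] K} (hv : ∀ c ∈ Ty 0, a * c = val c • a) {z : Md K H R ι}
    (hz : z ∈ TyM R ι (Ty 0)) : P.circ φ z (1 ⊗ₜ a) = valM val (P.circ φ z 1) • 1 ⊗ₜ[K] a := by
  have h1 : (1 : Md K H R ι) ∈ TyM R ι (Ty 0) := Submodule.tmul_mem_baseChange_of_mem 1 h.one
  have h2 := h.circ_mem hφ hz h1
  rw [add_zero] at h2
  have h3 := ha 1 z
  rw [mul_one] at h3
  rw [circ_comm, h3, circ_comm P φ 1 z]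
  obtain ⟨w, hw⟩ := h2
  rw [← hw]
  clear hw
  induction w using TensorProduct.induction_on with
  | zero => simp
  | add x x' hx hx' => simp only [map_add, mul_add, add_smul, hx, hx']
  | tmul s x =>
    rw [LinearMap.baseChange_tmul, Algebra.TensorProduct.tmul_mul_tmul, one_mul, valM_tmul,
      Submodule.subtype_apply, hv _ x.2, TensorProduct.smul_tmul', smul_eq_mul, mul_one,
      TensorProduct.tmul_smul, TensorProduct.smul_tmul', Algebra.smul_def, mul_comm]

end Vale.Agent.P287Q.Lz.Pk
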