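import Vale.Agent.P287Q.Lz.PkT

/-! Matrices and lattices. -/

set_option linter.unusedSectionVars false

namespace Vale.Agent.P287Q.Lz.Pk

open Finset TensorProduct

variable {K H R ι : Type} [Field K] [CharZero K] [CommRing H] [Algebra K H] [DecidableEq R]
  {P : Pk K H R} {φ : ι → H} {Ty : ℤ → Submodule K H} {n : Type} [Fintype n] [DecidableEq n]
  {N : Submodule K H} {v w : n → H}

theorem PkX_ext {M : Type} [AddCommGroup M] [Module (Sr K R ι) M]
    (f g : Md K H R ι →ₗ[Sr K R ι] M) (h : ∀ y ∈ N, f (1 ⊗ₜ y) = g (1 ⊗ₜ y)) {x : Md K H R ι}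
    (hx : x ∈ TyM R ι N) : f x = g x := by
  rw [TyM, Submodule.baseChange_eq_span] at hx
  refine LinearMap.eqOn_span' (fun _ a => ?_) hx
  obtain ⟨y, hy, rfl⟩ := a
  exact h y hy

theorem PkX_mem {y : H} (hy : y ∈ N) : (1 : Sr K R ι) ⊗ₜ[K] y ∈ TyM R ι N :=
  Submodule.tmul_mem_baseChange_of_mem _ hy

theorem PkX_η (x y : H) : P.ηM ((1 : Sr K R ι) ⊗ₜ[K] x * 1 ⊗ₜ y) =
    algebraMap K (Sr K R ι) (P.η (x * y)) := by
  rw [Algebra.TensorProduct.tmul_mul_tmul, mul_one, ηM_tmul, one_mul]; rfl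

/-- the pairing with a constant class -/
noncomputable def PkX_pr (P : Pk K H R) (y : H) : Md K H R ι →ₗ[Sr K R ι] Sr K R ι :=
  P.ηM ∘ₗ LinearMap.mulRight (Sr K R ι) ((1 : Sr K R ι) ⊗ₜ[K] y)

theorem PkX_pr_apply (y : H) (x : Md K H R ι) : PkX_pr P y x = P.ηM (x * 1 ⊗ₜ y) := rfl

/-- rectangular matrices -/
noncomputable def PkX_m (P : Pk K H R) {n n' : Type} (v : n → H) (w : n' → H)
    (T : Md K H R ι →ₗ[Sr K R ι] Md K H R ι) : Matrix n' n (Sr K R ι) :=
  Matrix.of fun i j => P.ηM (T (1 ⊗ₜ v j) * 1 ⊗ₜ w i)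

theorem mat_baseChange (T : H →ₗ[K] H) : P.mat v w (T.baseChange (Sr K R ι)) =
    (P.mat0 v w T).map (algebraMap K (Sr K R ι)) :=
  Matrix.ext fun i j => PkX_η (T (v j)) (w i)

theorem mat_star (g : H) (i j : n) : P.mat v w (P.star φ (1 ⊗ₜ g)) i j =
    ser φ fun d t => P.C d 0 ((0, g) ::ₘ (0, v j) ::ₘ (0, w i) ::ₘ t) := by
  change P.ηM (P.op _ _ _ * _) = _
  rw [ηM_op, ext3_tmul, mul_one, mul_one, one_mul]; rfl

theorem PkX_cf0 (x : H) : cf 0 ((1 : Sr K R ι) ⊗ₜ[K] x) = x := by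
  rw [cf_tmul, MvPowerSeries.coeff_zero_one, one_smul]

theorem cc_mat {T : Md K H R ι →ₗ[Sr K R ι] Md K H R ι} {T₀ : H →ₗ[K] H}
    (hT : ∀ x, cf 0 (T x) = T₀ (cf 0 x)) :
    (P.mat v w T).map MvPowerSeries.constantCoeff = P.mat0 v w T₀ := by
  ext i j
  change MvPowerSeries.coeff 0 (P.ηM (T _ * _)) = P.η (T₀ _ * _)
  rw [coeff_ηM, hT, PkX_cf0]

namespace Dual

variable (h : P.Dual N v w)
include h

theorem sumM {x : Md K H R ι} (hx : x ∈ TyM R ι N) :
    ∑ i, P.ηM (x * 1 ⊗ₜ w i) • ((1 : Sr K R ι) ⊗ₜ[K] v i) = x := by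
  have := PkX_ext (∑ i, (PkX_pr P (w i)).smulRight ((1 : Sr K R ι) ⊗ₜ[K] v i)) LinearMap.id
    (fun y hy => by
      simp only [LinearMap.sum_apply, LinearMap.smulRight_apply, PkX_pr_apply, PkX_η,
        algebraMap_smul, LinearMap.id_apply, ← tmul_smul, ← tmul_sum, h.sum y hy]) hx
  simpa only [LinearMap.sum_apply, LinearMap.smulRight_apply, PkX_pr_apply,
    LinearMap.id_apply] using this

theorem mat_id : P.mat v w (LinearMap.id : Md K H R ι →ₗ[Sr K R ι] _) = 1 := by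
  ext1 i j
  change P.ηM (1 ⊗ₜ v j * 1 ⊗ₜ w i) = _
  rw [PkX_η, h.eq, Matrix.one_apply]
  by_cases e : i = j
  · rw [if_pos e, if_pos e.symm, map_one]
  · rw [if_neg e, if_neg (Ne.symm e), map_zero]

theorem PkX_comp {n₁ n₂ : Type} (v₁ : n₁ → H) (w₂ : n₂ → H)
    (T : Md K H R ι →ₗ[Sr K R ι] Md K H R ι) {T' : Md K H R ι →ₗ[Sr K R ι] Md K H R ι}
    (hT : ∀ j, T' (1 ⊗ₜ v₁ j) ∈ TyM R ι N) :
    PkX_m P v₁ w₂ (T ∘ₗ T') = PkX_m P v w₂ T * PkX_m P v₁ w T' := by
  ext1 i j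
  change PkX_pr P (w₂ i) (T (T' _)) = _
  rw [← h.sumM (hT j), map_sum, map_sum, Matrix.mul_apply]
  refine sum_congr rfl fun k _ => ?_
  rw [map_smul, map_smul, smul_eq_mul, mul_comm]; rfl

theorem mat_comp (T : Md K H R ι →ₗ[Sr K R ι] Md K H R ι) {T' : Md K H R ι →ₗ[Sr K R ι] Md K H R ι}
    (hT : ∀ x ∈ TyM R ι N, T' x ∈ TyM R ι N) :
    P.mat v w (T ∘ₗ T') = P.mat v w T * P.mat v w T' :=
  h.PkX_comp v w T fun j => hT _ (PkX_mem (h.mem j))

theorem mat0_comp (T : H →ₗ[K] H) {T' : H →ₗ[K] H} (hT : ∀ x ∈ N, T' x ∈ N) :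
    P.mat0 v w (T ∘ₗ T') = P.mat0 v w T * P.mat0 v w T' := by
  ext i j
  change P.η (T (T' _) * _) = _
  rw [← h.sum _ (hT _ (h.mem j)), map_sum, sum_mul, map_sum, Matrix.mul_apply]
  refine sum_congr rfl fun k _ => ?_
  rw [map_smul, smul_mul_assoc, map_smul, smul_eq_mul, mul_comm]; rfl

theorem mat0_id : P.mat0 v w LinearMap.id = 1 := by
  ext i j
  change P.η (v j * w i) = _
  rw [h.eq, Matrix.one_apply]
  exact if_congr eq_comm rfl rfl

/-- the characteristic polynomial of the matrix is that of the restriction -/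
theorem charpoly_mat {T : Md K H R ι →ₗ[Sr K R ι] Md K H R ι}
    (hT : ∀ x ∈ TyM R ι N, T x ∈ TyM R ι N) {n' : Type} [Fintype n'] [DecidableEq n']
    {v' w' : n' → H} (h' : P.Dual N v' w') :
    (P.mat v w T).charpoly = (P.mat v' w' T).charpoly := by
  set A : Matrix n n' (Sr K R ι) := PkX_m P v' w LinearMap.id
  set B : Matrix n' n (Sr K R ι) := PkX_m P v w' LinearMap.id
  have e1 : A * B = 1 :=
    (h'.PkX_comp v w LinearMap.id fun j => PkX_mem (h.mem j)).symm.trans h.mat_id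
  have e2 : B * A = 1 :=
    (h.PkX_comp v' w' LinearMap.id fun j => PkX_mem (h'.mem j)).symm.trans h'.mat_id
  have e3 : P.mat v w T = A * PkX_m P v w' T :=
    h'.PkX_comp v w LinearMap.id fun j => hT _ (PkX_mem (h.mem j))
  have e4 : P.mat v' w' T = PkX_m P v w' T * A :=
    h.PkX_comp v' w' T (T' := LinearMap.id) fun j => PkX_mem (h'.mem j)
  have e5 : Fintype.card n = Fintype.card n' := by
    have := Matrix.trace_mul_comm A B
    rw [e1, e2, Matrix.trace_one, Matrix.trace_one] at this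
    have := congrArg MvPowerSeries.constantCoeff this
    rw [map_natCast, map_natCast] at this
    exact Nat.cast_injective this
  rw [e3, e4, Matrix.charpoly_mul_comm_of_le _ _ e5.ge, e5, Nat.sub_self, pow_zero, one_mul]

theorem det_U : IsUnit (P.mat v w (P.U φ)).det := by
  rw [MvPowerSeries.isUnit_iff_constantCoeff, RingHom.map_det, RingHom.mapMatrix_apply,
    cc_mat (T₀ := LinearMap.id) (P.cf_U φ), h.mat0_id, Matrix.det_one]
  exact isUnit_one

end Dual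

/-- **conjugation** -/
theorem Typed.conj (h : P.Typed Ty) (hφ : ∀ a, φ a ∈ Ty 0) {k : ℤ} (hd : P.Dual (Ty k) v w)
    {g : Md K H R ι} (hg : g ∈ TyM R ι (Ty 0)) :
    P.mat v w (P.U φ) * P.mat v w (P.star φ g) =
      P.mat v w (P.circ φ (P.U φ g)) * P.mat v w (P.U φ) := by
  rw [← hd.mat_comp _ fun x hx => by simpa only [zero_add] using h.star_mem hφ hg hx,
    ← hd.mat_comp _ fun x hx => h.U_mem hφ hx]
  exact congrArg _ (LinearMap.ext fun x => P.U_star φ g x)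

theorem Typed.charpoly (h : P.Typed Ty) (hφ : ∀ a, φ a ∈ Ty 0) {k : ℤ} (hd : P.Dual (Ty k) v w)
    {g : Md K H R ι} (hg : g ∈ TyM R ι (Ty 0)) :
    (P.mat v w (P.star φ g)).charpoly = (P.mat v w (P.circ φ (P.U φ g))).charpoly := by
  have e := h.conj hφ hd hg
  have u := hd.det_U (φ := φ)
  rw [← Matrix.nonsing_inv_mul_cancel_left _ (P.mat v w (P.star φ g)) u, e,
    Matrix.charpoly_mul_comm, Matrix.mul_nonsing_inv_cancel_right _ _ u]

theorem PkX_blk {S L : Type} [CommRing S] [Fintype L] [DecidableEq L] {n' : L → Type}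
    [∀ l, Fintype (n' l)] [∀ l, DecidableEq (n' l)] (A : Matrix (Σ l, n' l) (Σ l, n' l) S)
    (hA : ∀ x y, x.1 ≠ y.1 → A x y = 0) :
    A.charpoly = ∏ l, (Matrix.of fun i j : n' l => A ⟨l, i⟩ ⟨l, j⟩).charpoly := by
  let _ : LinearOrder L := LinearOrder.lift' _ (Fintype.equivFin L).injective
  have h : A.BlockTriangular Sigma.fst := fun x y hxy => hA x y hxy.ne'
  have e := h.charmatrix.det_fintype
  rw [Matrix.charpoly]
  refine e.trans (prod_congr (by congr) fun l _ => ?_)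
  rw [Matrix.charpoly, ← Matrix.det_submatrix_equiv_self (Equiv.sigmaSubtype l).symm]
  congr 1
  ext1 i j
  change A.charmatrix ⟨l, i⟩ ⟨l, j⟩ = _
  by_cases e : i = j
  · subst e
    rw [Matrix.charmatrix_apply_eq, Matrix.charmatrix_apply_eq]; rfl
  · rw [Matrix.charmatrix_apply_ne _ _ _ e,
      Matrix.charmatrix_apply_ne _ _ _ fun a => e (by simpa using a)]; rfl

theorem PkX_sigma {L : Type} [Fintype L] [DecidableEq L] {M : L → Submodule K H}
    {n' : L → Type} [∀ l, Fintype (n' l)] [∀ l, DecidableEq (n' l)] {v' w' : ∀ l, n' l → H}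
    (h' : ∀ l, P.Dual (M l) (v' l) (w' l))
    (ho : ∀ l l', l ≠ l' → ∀ x ∈ M l, ∀ i, P.η (x * w' l' i) = 0) :
    P.Dual (⨆ l, M l) (fun x : Σ l, n' l => v' x.1 x.2) fun x => w' x.1 x.2 where
  mem x := le_iSup M x.1 ((h' x.1).mem x.2)
  eq := by
    rintro ⟨l, i⟩ ⟨l', j⟩
    by_cases e : l = l'
    · subst e
      rw [(h' l).eq]
      exact if_congr (by simp) rfl rfl
    · rw [ho l l' e _ ((h' l).mem i), if_neg fun a => e (congrArg Sigma.fst a)]
  sum x hx := by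
    refine Submodule.iSup_induction M (motive := fun x => ∑ i : Σ l, n' l,
      P.η (x * w' i.1 i.2) • v' i.1 i.2 = x) hx (fun l x hx => ?_) (by simp) fun x y hx hy => ?_
    · rw [← univ_sigma_univ, sum_sigma, sum_eq_single l (fun l' _ e => sum_eq_zero fun i _ => by
        rw [ho l l' e.symm x hx, zero_smul]) fun a => (a (mem_univ _)).elim, (h' l).sum x hx]
    · simp only [add_mul, map_add, add_smul, sum_add_distrib, hx, hy]

/-- the characteristic polynomial is the product over blocks -/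
theorem charpoly_blocks {L : Type} [Fintype L] [DecidableEq L] {M : L → Submodule K H}
    {n' : L → Type} [∀ l, Fintype (n' l)] [∀ l, DecidableEq (n' l)] {v' w' : ∀ l, n' l → H}
    (h : P.Dual N v w) (h' : ∀ l, P.Dual (M l) (v' l) (w' l)) (hs : ⨆ l, M l = N)
    (ho : ∀ l l', l ≠ l' → ∀ x ∈ M l, ∀ i, P.η (x * w' l' i) = 0)
    {T : Md K H R ι →ₗ[Sr K R ι] Md K H R ι} (hT : ∀ l, ∀ x ∈ TyM R ι (M l), T x ∈ TyM R ι (M l)) :
    (P.mat v w T).charpoly = ∏ l, (P.mat (v' l) (w' l) T).charpoly := by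
  subst hs
  have hd := PkX_sigma h' ho
  rw [h.charpoly_mat (fun x hx => ?_) hd, PkX_blk _ fun x y e => ?_]
  · rfl
  · exact PkX_ext (PkX_pr P (w' x.1 x.2)) 0 (fun z hz => by
      rw [PkX_pr_apply, PkX_η, ho _ _ e.symm z hz, map_zero]; rfl)
      (hT y.1 _ (PkX_mem ((h' y.1).mem y.2)))
  · rw [← hd.sumM hx, map_sum]
    refine Submodule.sum_mem _ fun i _ => ?_
    rw [map_smul]
    exact Submodule.smul_mem _ _ (Submodule.baseChange_mono _ (le_iSup M i.1)
      (hT i.1 _ (PkX_mem ((h' i.1).mem i.2))))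

/-- **lattices are stable** -/
theorem Lat.cf_star {Λ : AddSubgroup H} (h : P.Lat Λ)
    (hq : ∀ k : ℕ, ∀ x ∈ Λ, (k : K)⁻¹ • x ∈ Λ) (hφ : ∀ a, φ a ∈ Λ) {x y : H} (hx : x ∈ Λ)
    (hy : y ∈ Λ) (m : R ⊕ ι →₀ ℕ) : cf m (P.star φ (1 ⊗ₜ x) (1 ⊗ₜ y)) ∈ Λ := by
  obtain ⟨c, hc, e⟩ := h (dgm m) ((0, x) ::ₘ (0, y) ::ₘ ins φ m) fun z hz => by
    simp only [Multiset.mem_cons, ins, Multiset.mem_map] at hz
    rcases hz with rfl | rfl | ⟨a, -, rfl⟩
    exacts [hx, hy, hφ a]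
  have e1 : fac K m = ((exm m).prod fun _ n => n.factorial : ℕ) := by
    simp only [fac, Finsupp.prod, Nat.cast_prod]
  rw [P.eq_of_η (x := cf m _) (y := (fac K m)⁻¹ • c) fun z => ?_, e1]
  · exact hq _ c hc
  · rw [← coeff_ηM, star, ηM_op, ext3_tmul, mul_one, mul_one, one_mul, smul_mul_assoc, map_smul,
      ← e, Multiset.cons_swap (0, z), Multiset.cons_swap (0, z)]
    rfl

/-- the characteristic polynomial has coefficients in the power series over `L` -/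
theorem Lat.charpoly {L : Type} [CommRing L] (χ : L →+* K) {Λ : AddSubgroup H} (h : P.Lat Λ)
    (hq : ∀ k : ℕ, ∀ x ∈ Λ, (k : K)⁻¹ • x ∈ Λ) (hφ : ∀ a, φ a ∈ Λ) {g : H} (hg : g ∈ Λ)
    (hv : ∀ i, v i ∈ Λ) (hw : ∀ x ∈ Λ, x ∈ N → ∀ i, P.η (x * w i) ∈ χ.range)
    (hN : ∀ x ∈ TyM R ι N, P.star φ (1 ⊗ₜ g) x ∈ TyM R ι N) (hd : P.Dual N v w) :
    ∃ A : Matrix n n (Sr L R ι), A.map (MvPowerSeries.map χ) = P.mat v w (P.star φ (1 ⊗ₜ g)) := by
  have := P.findim
  choose a ha using fun i j m => hw _ (h.cf_star hq hφ hg (hv j) m)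
    (mem_TyM.1 (hN _ (PkX_mem (hd.mem j))) m) i
  refine ⟨Matrix.of fun i j => a i j, Matrix.ext fun i j => MvPowerSeries.ext fun m => ?_⟩
  exact (ha i j m).trans (P.coeff_ηM _ _ m).symm

/-- a lattice over a principal ideal domain has a basis -/
theorem exists_lat_basis {L : Type} [CommRing L] [IsDomain L] [IsPrincipalIdealRing L]
    (χ : L →+* K) (hχ : Function.Injective χ) {Λ : AddSubgroup H}
    (h1 : ∀ l, ∀ x ∈ Λ, χ l • x ∈ Λ)
    {m : Type} [Fintype m] (β : Module.Basis m K H) (h2 : ∀ x ∈ Λ, ∀ i, β.repr x i ∈ χ.range)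
    (hN : N ≤ Submodule.span K {x | x ∈ Λ ∧ x ∈ N}) :
    ∃ (r : ℕ) (b : Module.Basis (Fin r) K N), (∀ i, (b i).1 ∈ Λ) ∧
      ∀ x : N, x.1 ∈ Λ → ∀ i, b.repr x i ∈ χ.range := by
  let _ := χ.toAlgebra
  have : FaithfulSMul L K := (faithfulSMul_iff_algebraMap_injective L K).2 hχ
  let θ : (m → L) → H := fun u => β.equivFun.symm (χ ∘ u)
  have ta : ∀ u u', θ (u + u') = θ u + θ u' := fun u u' => by
    rw [← map_add]; exact congrArg β.equivFun.symm (funext fun i => map_add χ _ _)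
  have ts : ∀ (l : L) u, θ (l • u) = χ l • θ u := fun l u => by
    rw [← map_smul]; exact congrArg β.equivFun.symm (funext fun i => map_mul χ _ _)
  have t0 : θ 0 = 0 := by simpa using ts 0 0
  let Q : Submodule L (m → L) :=
    { carrier := {u | θ u ∈ Λ ∧ θ u ∈ N}
      add_mem' := fun a b => by
        rw [Set.mem_ofPred_eq, ta]; exact ⟨Λ.add_mem a.1 b.1, N.add_mem a.2 b.2⟩
      zero_mem' := by rw [Set.mem_ofPred_eq, t0]; exact ⟨Λ.zero_mem, N.zero_mem⟩
      smul_mem' := fun l u a => by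
        rw [Set.mem_ofPred_eq, ts]; exact ⟨h1 l _ a.1, N.smul_mem _ a.2⟩ }
  obtain ⟨r, c⟩ := Q.basisOfPid (Pi.basisFun L m)
  let v : Fin r → N := fun i => ⟨θ (c i), (c i).2.2⟩
  have hi : LinearIndependent K v := by
    refine LinearIndependent.of_comp N.subtype ?_
    have h3 : LinearIndependent L fun i => (c i).1 :=
      c.linearIndependent.map' Q.subtype Q.ker_subtype
    have h4 := (linearIndependent_algebraMap_comp_iff (S := K)).2 h3
    exact h4.map' β.equivFun.symm.toLinearMap (LinearEquiv.ker _)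
  have hx : ∀ x : N, x.1 ∈ Λ → ∃ a : Fin r → L, x = ∑ i, χ (a i) • v i := fun x hx => by
    choose u hu using h2 _ hx
    have e : θ u = x := by
      rw [show θ u = β.equivFun.symm (β.equivFun x) from
        congrArg β.equivFun.symm (funext hu),
        LinearEquiv.symm_apply_apply]
    let u' : Q := ⟨u, e ▸ hx, e ▸ x.2⟩
    refine ⟨fun i => c.repr u' i, Subtype.ext ?_⟩
    have e2 : u = ∑ i, c.repr u' i • (c i).1 :=
      (congrArg Subtype.val (c.sum_repr u').symm).trans (Submodule.coe_sum _ _ _)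
    rw [← e, e2, Submodule.coe_sum]
    exact (map_sum (AddMonoidHom.mk' θ ta) _ _).trans (sum_congr rfl fun i _ => ts _ _)
  have hs : ⊤ ≤ Submodule.span K (Set.range v) := fun x _ => by
    have : x.1 ∈ (Submodule.span K (Set.range v)).map N.subtype := by
      refine (Submodule.span_le.2 fun y hy => ?_ : _ ≤ _) (hN x.2)
      obtain ⟨a, e⟩ := hx ⟨y, hy.2⟩ hy.1
      exact ⟨⟨y, hy.2⟩, e ▸ Submodule.sum_mem _ fun i _ =>
        Submodule.smul_mem _ _ (Submodule.subset_span ⟨i, rfl⟩), rfl⟩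
    obtain ⟨y, hy, e⟩ := this
    exact (Subtype.ext e : y = x) ▸ hy
  refine ⟨r, .mk hi hs, fun i => by rw [Module.Basis.mk_apply]; exact (c i).2.1, fun x h i => ?_⟩
  obtain ⟨a, rfl⟩ := hx x h
  refine ⟨a i, ?_⟩
  have := (Module.Basis.mk hi hs).repr_sum_self fun i => χ (a i)
  simp only [Module.Basis.mk_apply] at this
  exact (congrFun this i).symm

end Vale.Agent.P287Q.Lz.Pk
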