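import Vale.Agent.P287Q.Lz.PkH
import Vale.Agent.P287Q.Lz.PkM
import Vale.Agent.P287Q.Lz.PkX
import Vale.Agent.P287Q.Lz.PkG
import Vale.Agent.P287Q.Alg.Th
import Vale.Agent.P287Q.Alg.Chp

/-! Eigenvectors, lattices, first order perturbation. -/

namespace Vale.Agent.P287Q.Lz

open Module Polynomial TensorProduct Finset

theorem Q_cic {A K : Type} [CommRing A] [IsDomain A] [IsNoetherianRing A] [IsIntegrallyClosed A]
    [Field K] {χ : A →+* K} (hχ : Function.Injective χ) : Alg.Cic χ := by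
  intro f c hc h
  let j : FractionRing A →+* K := IsFractionRing.lift hχ
  have hj : ∀ a, j (algebraMap A _ a) = χ a := IsFractionRing.lift_algebraMap hχ
  obtain ⟨a, ha⟩ := h 1
  have h0 : j (algebraMap A _ a / algebraMap A _ c) = f := by
    rw [map_div₀, hj, hj, ha, pow_one, mul_div_cancel_left₀ _ ((map_ne_zero_iff _ hχ).2 hc)]
  obtain ⟨b, hb⟩ := Alg.cic_frac A (FractionRing A) (algebraMap A _ a / algebraMap A _ c) c hc
    fun m => (h m).imp fun b hb => j.injective (by rw [hj, hb, map_mul, map_pow, hj, h0])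
  exact ⟨b, by rw [← hj, hb, h0]⟩

theorem Q_ext {K V n : Type} [Field K] [AddCommGroup V] [Module K V] [FiniteDimensional K V]
    {u : n → V} (hu : LinearIndependent K u) :
    ∃ (r : ℕ) (b : Basis (n ⊕ Fin r) K V), ∀ i, b (.inl i) = u i := by
  obtain ⟨W, hW⟩ := Submodule.exists_isCompl (Submodule.span K (Set.range u))
  refine ⟨_, ((Basis.span hu).prod (finBasis K W)).map (Submodule.prodEquivOfIsCompl _ _ hW),
    fun i => ?_⟩
  simp [Basis.prod_apply]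

variable {K H R ι : Type} [Field K] [CommRing H] [Algebra K H] [DecidableEq R]

omit [DecidableEq R] in
theorem Q_cf_one (x : H) : cf 0 ((1 : Sr K R ι) ⊗ₜ[K] x) = x := by simp [cf_tmul]

omit [DecidableEq R] in
theorem Q_cf_mul (e : H) (x : Md K H R ι) (m) : cf m (1 ⊗ₜ e * x) = e * cf m x := by
  induction x using TensorProduct.induction_on with
  | zero => simp
  | tmul s y => simp [cf_tmul]
  | add x y hx hy => rw [mul_add, map_add, map_add, hx, hy, mul_add]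

omit [DecidableEq R] in
theorem Q_mem {N : Submodule K H} {x : H} (hx : x ∈ N) :
    (1 : Sr K R ι) ⊗ₜ[K] x ∈ TyM R ι N := Submodule.tmul_mem_baseChange_of_mem _ hx

omit [DecidableEq R] in
theorem Q_scal {N : Submodule K H} {T : Md K H R ι →ₗ[Sr K R ι] Md K H R ι} {θ : Sr K R ι}
    (h : ∀ x ∈ N, T (1 ⊗ₜ x) = θ • ((1 : Sr K R ι) ⊗ₜ[K] x)) {y : Md K H R ι}
    (hy : y ∈ TyM R ι N) : T y = θ • y := by
  rw [TyM, Submodule.baseChange_eq_span] at hy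
  induction hy using Submodule.span_induction with
  | mem x hx => obtain ⟨x, hx, rfl⟩ := hx; exact h x hx
  | zero => simp
  | add x y _ _ hx hy => rw [map_add, hx, hy, smul_add]
  | smul s x _ hx => rw [map_smul, hx, smul_comm]

omit [DecidableEq R] in
theorem Q_smul_inj {x : H} (hx : x ≠ 0) {θ θ' : Sr K R ι}
    (h : θ • ((1 : Sr K R ι) ⊗ₜ[K] x) = θ' • ((1 : Sr K R ι) ⊗ₜ[K] x)) : θ = θ' := by
  ext m
  have := congrArg (cf m) h
  simp only [TensorProduct.smul_tmul', smul_eq_mul, mul_one, cf_tmul] at this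
  exact smul_left_injective K hx this

omit [DecidableEq R] in
theorem Q_sp_smul (S : Set R) (s : Sr K R ι) (x : H) :
    spM K H ι S (s • ((1 : Sr K R ι) ⊗ₜ[K] x)) = sp0 K ι S s • ((1 : Sr K R ι) ⊗ₜ[K] x) := by
  simp [spM, TensorProduct.smul_tmul']

omit [DecidableEq R] in
theorem Q_sp_one (S : Set R) (x : H) :
    spM K H ι S ((1 : Sr K R ι) ⊗ₜ[K] x) = (1 : Sr K R ι) ⊗ₜ[K] x := by simp [spM]

open Classical in
omit [DecidableEq R] in
theorem Q_low {s : Sr K R ι} {m : R ⊕ ι →₀ ℕ} (hs : ∀ m' < m, MvPowerSeries.coeff m' s = 0)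
    (x : Md K H R ι) : cf m (s • x) = MvPowerSeries.coeff m s • cf 0 x := by
  rw [cf_smul, Finset.sum_eq_single (m, 0)]
  · intro p hp hne
    rw [Finset.HasAntidiagonal.mem_antidiagonal] at hp
    rw [hs p.1 (lt_of_le_of_ne (hp ▸ le_self_add) fun e => hne ?_), zero_smul]
    exact Prod.ext e (by simpa [e] using hp)
  · simp

omit [DecidableEq R] in
theorem Q_dom : IsDomain (Sr K R ι) := NoZeroDivisors.to_isDomain _

namespace Pk

variable (P : Pk K H R) {n n' : Type} [Fintype n] [DecidableEq n] [Fintype n'] [DecidableEq n']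
  {N : Submodule K H} {φ : ι → H} {Ty : ℤ → Submodule K H}

theorem Q_dual (b : Basis n K N) : ∃ w : n → H, P.Dual N (fun i => (b i).1) w ∧
    ∀ (x : N) i, P.η (x * w i) = b.repr x i := by
  have h : ∀ i, ∃ w, ∀ x : N, P.η (x * w) = b.repr x i := fun i => by
    obtain ⟨ψ, hψ⟩ := LinearMap.exists_extend (b.coord i)
    refine ⟨∑ a, ψ (P.f a) • P.e a, fun x => ?_⟩
    rw [mul_comm, ← b.coord_apply, ← hψ, LinearMap.comp_apply, Submodule.subtype_apply]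
    conv_rhs => rw [← P.cas x]
    simp [Finset.mul_sum, mul_comm]
  choose w hw using h
  refine ⟨w, ⟨fun i => (b i).2, fun i j => ?_, fun x hx => ?_⟩, fun x i => hw i x⟩
  · rw [hw, b.repr_self, Finsupp.single_apply]
  · simpa [← hw] using congrArg Subtype.val (b.sum_repr ⟨x, hx⟩)

variable [CharZero K] {P} {v w : n → H}

/-- independent eigenvectors give a factor of the characteristic polynomial -/
theorem Dual.Q_eig (h : P.Dual N v w) {T : Md K H R ι →ₗ[Sr K R ι] Md K H R ι}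
    (hT : ∀ x ∈ TyM R ι N, T x ∈ TyM R ι N) {u : n' → H} (hu : ∀ i, u i ∈ N)
    (hi : LinearIndependent K u) {θ : n' → Sr K R ι}
    (he : ∀ i, T (1 ⊗ₜ u i) = θ i • ((1 : Sr K R ι) ⊗ₜ[K] u i)) :
    ∃ Q : (Sr K R ι)[X], Q.Monic ∧ Q.natDegree + Fintype.card n' = finrank K N ∧
      (P.mat v w T).charpoly = (∏ i, (X - Polynomial.C (θ i))) * Q := by
  have := P.findim
  obtain ⟨r, b, hb⟩ := Q_ext (u := fun i => (⟨u i, hu i⟩ : N))
    (LinearIndependent.of_comp N.subtype hi)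
  obtain ⟨w', h', -⟩ := P.Q_dual b
  have e : ∀ i j, P.mat (fun i => (b i).1) w' T i (.inl j) = if .inl j = i then θ j else 0 := by
    intro i j
    have := h'.eq (.inl j) i
    simp only [hb] at this
    simp only [mat, Matrix.of_apply, hb, he, smul_mul_assoc, map_smul,
      Algebra.TensorProduct.tmul_mul_tmul, ηM_tmul, this]
    split_ifs <;> simp
  refine ⟨(P.mat (fun i => (b i).1) w' T).toBlocks₂₂.charpoly, Matrix.charpoly_monic _, ?_, ?_⟩
  · rw [Matrix.charpoly_natDegree_eq_dim, finrank_eq_card_basis b, Fintype.card_sum, add_comm]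
  rw [h.charpoly_mat hT h', ← Matrix.charpoly_diagonal, ← Matrix.charpoly_fromBlocks_zero₂₁]
  congr 1
  rw [← Matrix.fromBlocks_toBlocks (P.mat _ w' T)]
  congr 1
  · ext i j : 2
    simp [Matrix.toBlocks₁₁, e, Matrix.diagonal_apply, eq_comm]
    split_ifs with h <;> simp [h]
  · ext i j : 2
    simp [Matrix.toBlocks₂₁, e]

theorem Dual.Q_dec (h : P.Dual N v w) {T : Md K H R ι →ₗ[Sr K R ι] Md K H R ι}
    (hT : ∀ x ∈ TyM R ι N, T x ∈ TyM R ι N) {u : n' → H}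
    (hu : Submodule.span K (Set.range u) = N) (hi : LinearIndependent K u) {θ : n' → Sr K R ι}
    (he : ∀ i, T (1 ⊗ₜ u i) = θ i • ((1 : Sr K R ι) ⊗ₜ[K] u i)) :
    (P.mat v w T).charpoly = ∏ i, (X - Polynomial.C (θ i)) := by
  obtain ⟨Q, h1, h2, h3⟩ := h.Q_eig hT (fun i => hu ▸ Submodule.subset_span ⟨i, rfl⟩) hi he
  rw [← hu, finrank_span_eq_card hi, add_eq_right] at h2
  rw [h3, h1.natDegree_eq_zero.1 h2, mul_one]

omit [CharZero K] in
/-- the residue count -/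
theorem Q_res (b : Basis n K N) (hw : ∀ (x : N) i, P.η (x * w i) = b.repr x i) {g e y : H} {r : K}
    (hg : ∀ x ∈ N, g * x ∈ N) (he : e * e = e) (hy : (g - algebraMap K H r) * y = 1 - e) :
    rootMultiplicity r (P.mat0 (fun i => (b i).1) w (LinearMap.mulLeft K g)).charpoly ≤
      finrank K (N.map (LinearMap.mulLeft K e)) := by
  have := P.findim
  let f : End K N := (LinearMap.mulLeft K g).restrict hg
  have e1 : P.mat0 (fun i => (b i).1) w (LinearMap.mulLeft K g) = LinearMap.toMatrix b b f := by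
    ext i j
    rw [LinearMap.toMatrix_apply, ← hw]
    rfl
  rw [e1, LinearMap.charpoly_toMatrix, ← LinearMap.finrank_maxGenEigenspace_eq,
    ← Submodule.finrank_map_subtype_eq]
  refine Submodule.finrank_mono ?_
  rintro _ ⟨x, hx, rfl⟩
  obtain ⟨k, hk⟩ := (End.mem_maxGenEigenspace f r x).1 hx
  have e2 : ∀ k : ℕ, (((f - r • 1) ^ k) x).1 = (g - algebraMap K H r) ^ k * x.1 := fun k => by
    induction k with
    | zero => simp
    | succ k ih =>
      rw [pow_succ', pow_succ', End.mul_apply, mul_assoc, ← ih, sub_mul, ← Algebra.smul_def]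
      rfl
  have e3 : (1 - e) ^ (k + 1) * x.1 = 0 := by
    rw [← hy, mul_pow, mul_comm _ (y ^ _), mul_assoc, pow_succ' (g - _), mul_assoc, ← e2, hk]
    simp
  rw [(IsIdempotentElem.one_sub he).pow_succ_eq, sub_mul, one_mul, sub_eq_zero] at e3
  exact ⟨x.1, x.2, e3.symm⟩

variable (P φ) in
/-- the eigenvalue of a class that moves -/
noncomputable def evl (z : H →ₗ[K] K) : H →ₗ[K] Sr K R ι :=
  (valM z ∘ₗ (P.circ φ).flip 1 ∘ₗ P.U φ).restrictScalars K ∘ₗ TensorProduct.mk K (Sr K R ι) H 1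

omit [CharZero K] in
theorem evl_apply (z : H →ₗ[K] K) (g : H) :
    P.evl φ z g = valM z (P.circ φ (P.U φ (1 ⊗ₜ g)) 1) := rfl

theorem Typed.evl_eig (h : P.Typed Ty) (hφ : ∀ i, φ i ∈ Ty 0) {a g : H}
    (ha : ∀ x y : Md K H R ι, P.circ φ (1 ⊗ₜ a * x) y = 1 ⊗ₜ a * P.circ φ x y)
    {z : H →ₗ[K] K} (hz : ∀ c ∈ Ty 0, a * c = z c • a) (hg : g ∈ Ty 0) :
    P.circ φ (P.U φ (1 ⊗ₜ g)) (1 ⊗ₜ a) = P.evl φ z g • (1 : Sr K R ι) ⊗ₜ[K] a :=
  h.circ_eq hφ ha hz (h.U_mem hφ (Q_mem hg))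

theorem sp_evl (S : Set R) (z : H →ₗ[K] K) (g : H) :
    sp0 K ι S (P.evl φ z g) = (P.cut S).evl (0 : ι → H) z g := by
  rw [evl_apply, sp_valM, sp_circ, sp_U, Q_sp_one, map_one, evl_apply]

theorem cc_evl (z : H →ₗ[K] K) (g : H) : MvPowerSeries.constantCoeff (P.evl φ z g) = z g := by
  rw [evl_apply, cc_valM, cf_circ, cf_U, Q_cf_one, cf_one, mul_one]

theorem sp_eig (S : Set R) {g x : H} {θ : Sr K R ι}
    (h : P.circ φ (P.U φ (1 ⊗ₜ g)) (1 ⊗ₜ x) = θ • (1 : Sr K R ι) ⊗ₜ[K] x) :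
    (P.cut S).circ (0 : ι → H) ((P.cut S).U 0 (1 ⊗ₜ g)) (1 ⊗ₜ x) =
      sp0 K ι S θ • (1 : Sr K R ι) ⊗ₜ[K] x := by
  simpa only [sp_circ, sp_U, Q_sp_one, Q_sp_smul] using congrArg (spM K H ι S) h

theorem cc_eig {g x : H} {θ : Sr K R ι} {r : K} (hx : x ≠ 0) (hr : x * g = r • x)
    (h : P.circ φ (P.U φ (1 ⊗ₜ g)) (1 ⊗ₜ x) = θ • (1 : Sr K R ι) ⊗ₜ[K] x) :
    MvPowerSeries.constantCoeff θ = r := by
  have := congrArg (cf 0) h
  rw [cf_circ, cf_U, cf_zero_smul, Q_cf_one, Q_cf_one, mul_comm, hr] at this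
  exact (smul_left_injective K hx this).symm

theorem Q_mv {a e : H} (ha : P.FM Set.univ a) (he : P.VM e) (x y : Md K H R ι) :
    P.circ φ (1 ⊗ₜ (e * a) * x) y = 1 ⊗ₜ (e * a) * P.circ φ x y := by
  have : (1 : Sr K R ι) ⊗ₜ[K] (e * a) = 1 ⊗ₜ e * 1 ⊗ₜ a := by simp
  rw [this, mul_assoc, he.circ, ha.circ, mul_assoc]

/-- **first order perturbation** -/
theorem Q_pert {g e A : H} {θ : Sr K R ι} {r : K} (he : P.VM e) (hA : A ≠ 0) (heA : e * A = A)
    (hg : g * A = r • A) (hθ : P.circ φ (P.U φ (1 ⊗ₜ g)) (1 ⊗ₜ e * P.U φ (1 ⊗ₜ A)) =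
      θ • (1 ⊗ₜ e * P.U φ (1 ⊗ₜ A))) {m : R ⊕ ι →₀ ℕ} (hm : m ≠ 0)
    (h : ∀ m' < m, m' ≠ 0 → cf m' (P.star φ (1 ⊗ₜ g) (1 ⊗ₜ A)) = 0) :
    MvPowerSeries.coeff m θ • A = e * cf m (P.star φ (1 ⊗ₜ g) (1 ⊗ₜ A)) := by
  classical
  set y := P.star φ (1 ⊗ₜ g) (1 ⊗ₜ A) - MvPowerSeries.C r ⊗ₜ A with hy
  have h0 : ∀ m', m' ≠ 0 → cf m' y = cf m' (P.star φ (1 ⊗ₜ g) (1 ⊗ₜ A)) := fun m' hm' => by
    simp [hy, cf_tmul, MvPowerSeries.coeff_C, hm']
  have h1 : ∀ m' < m, cf m' y = 0 := fun m' hm' => by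
    by_cases e0 : m' = 0
    · simp [e0, hy, cf_star, cf_tmul, hg]
    · rw [h0 _ e0, h _ hm' e0]
  have h2 : ∀ m' ≤ m, cf m' (P.U φ y) = cf m' y := fun m' hm' => by
    have : ∀ a, ∀ m'' < m', MvPowerSeries.coeff m'' (P.ηM (y * 1 ⊗ₜ P.e a)) = 0 :=
      fun a m'' h' => by rw [coeff_ηM, h1 _ (h'.trans_le hm'), zero_mul, map_zero]
    rw [← P.casM y]
    simp only [map_sum, map_smul, Q_low (this _), cf_U]
  have h3 : (θ - MvPowerSeries.C r) • (1 ⊗ₜ e * P.U φ (1 ⊗ₜ A)) = 1 ⊗ₜ e * P.U φ y := by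
    refine (sub_smul θ (MvPowerSeries.C r) (_ : Md K H R ι)).trans ?_
    rw [hy, map_sub, U_star, mul_sub, circ_comm, ← he.circ, circ_comm, hθ,
      ← mul_smul_comm (MvPowerSeries.C r), ← map_smul, TensorProduct.smul_tmul', smul_eq_mul,
      mul_one]
  have h4 : ∀ m' ≤ m, (∀ m'' < m', MvPowerSeries.coeff m'' (θ - MvPowerSeries.C r) = 0) →
      MvPowerSeries.coeff m' (θ - MvPowerSeries.C r) • A = e * cf m' y := fun m' hm' h' => by
    have := congrArg (cf m') h3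
    rwa [Q_low h', Q_cf_mul, Q_cf_mul, cf_U, Q_cf_one, heA, h2 _ hm'] at this
  have h5 : ∀ m' < m, MvPowerSeries.coeff m' (θ - MvPowerSeries.C r) = 0 := fun m' => by
    induction m' using WellFoundedLT.induction with
    | ind m' ih =>
      intro hm'
      have := h4 m' hm'.le fun m'' h' => ih m'' h' (h'.trans hm')
      rw [h1 _ hm', mul_zero] at this
      exact (smul_eq_zero.1 this).resolve_right hA
  simpa [h0 _ hm, MvPowerSeries.coeff_C, hm] using h4 m le_rfl h5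

/-- the perturbation in a degree without coordinates -/
theorem Q_pert' {g e A : H} {θ : Sr K R ι} {r : K} (he : P.VM e) (hA : A ≠ 0) (heA : e * A = A)
    (hg : g * A = r • A) (hθ : P.circ φ (P.U φ (1 ⊗ₜ g)) (1 ⊗ₜ e * P.U φ (1 ⊗ₜ A)) =
      θ • (1 ⊗ₜ e * P.U φ (1 ⊗ₜ A))) {l : R →₀ ℕ} (hl : l ≠ 0)
    (h : ∀ d < l, d ≠ 0 → ∀ y, P.C d 0 {(0, g), (0, A), (0, y)} = 0) :
    ∃ m : R ⊕ ι →₀ ℕ, MvPowerSeries.coeff m θ • A = e * cf m (P.star φ (1 ⊗ₜ g) (1 ⊗ₜ A)) ∧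
      ∀ y, P.η (cf m (P.star φ (1 ⊗ₜ g) (1 ⊗ₜ A)) * y) = P.C l 0 {(0, g), (0, A), (0, y)} := by
  obtain ⟨m, h1, h2⟩ := exists_mon (ι := ι) l 0
  replace h2 : exm m = 0 := by
    classical simpa using Finsupp.toMultiset_eq_iff.1 h2
  have e1 : ∀ m : R ⊕ ι →₀ ℕ, exm m = 0 → ∀ y, P.η (cf m (P.star φ (1 ⊗ₜ g) (1 ⊗ₜ A)) * y) =
      P.C (dgm m) 0 {(0, g), (0, A), (0, y)} := fun m hm y => by
    rw [← coeff_ηM, ηM_star, coeff_ser]
    simp [fac, ins, hm]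
  refine ⟨m, Q_pert he hA heA hg hθ (fun e => hl (by rw [← h1, e, dgm_zero])) fun m' hm' h0 => ?_,
    h1 ▸ e1 m h2⟩
  obtain ⟨c, rfl⟩ := exists_add_of_le hm'.le
  rw [exm_add, add_eq_zero] at h2
  refine P.eq_of_η fun y => ?_
  rw [e1 _ h2.1, zero_mul, map_zero]
  refine h _ ?_ (fun e => h0 (eq_zero_of_dgm_ins φ e (by simp [ins, h2.1]))) y
  rw [← h1, dgm_add]
  refine lt_of_le_of_ne le_self_add fun e => hm'.ne ?_
  rw [eq_zero_of_dgm_ins φ (left_eq_add.1 e) (by simp [ins, h2.2]), add_zero]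

variable [Algebra ℂ K] [Algebra ℂ H] [IsScalarTower ℂ K H]

/-- evaluation at the equivariant parameter -/
noncomputable abbrev chi (lam : K) : ℂ[X] →+* K := (aeval lam : ℂ[X] →ₐ[ℂ] K)

variable (R ι) in
/-- series with polynomial coefficients -/
noncomputable abbrev io (lam : K) : Sr ℂ[X] R ι →+* Sr K R ι := MvPowerSeries.map (chi lam)

variable (P) in
/-- a lattice -/
structure Lt (lam : K) (Λ : Subalgebra ℂ H) : Prop where
  tr : Transcendental ℂ lam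
  lamΛ : algebraMap K H lam ∈ Λ
  lat : P.Lat Λ.toSubring.toAddSubgroup
  pol : ∀ x ∈ Λ, ∃ q : ℂ[X], P.η x = aeval lam q
  top : Submodule.span K (Λ : Set H) = ⊤

variable {lam : K} {Λ : Subalgebra ℂ H}

omit [CharZero K] in
theorem chi_inj (h : Transcendental ℂ lam) : Function.Injective (chi lam) :=
  transcendental_iff_injective.1 h

omit [CharZero K] [IsScalarTower ℂ K H] in
theorem Lt.cut (h : P.Lt lam Λ) (S : Set R) : (P.cut S).Lt lam Λ :=
  { h with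
    lat := fun d t ht => by
      by_cases e : ↑d.support ⊆ S
      · simpa [Pk.cut, e] using h.lat d t ht
      · exact ⟨0, zero_mem _, fun y => by simp [Pk.cut, e]⟩ }

theorem Lt.poly (h : P.Lt lam Λ) (hN : N ≤ Submodule.span K ((Λ : Set H) ∩ N))
    (hφ : ∀ a, φ a ∈ Λ) {g : H} (hg : g ∈ Λ)
    (hs : ∀ x ∈ TyM R ι N, P.star φ (1 ⊗ₜ g) x ∈ TyM R ι N) :
    ∃ (r : ℕ) (b : Basis (Fin r) K N) (w : Fin r → H) (F : (Sr ℂ[X] R ι)[X]),
      P.Dual N (fun i => (b i).1) w ∧ (∀ (x : N) i, P.η (x * w i) = b.repr x i) ∧ F.Monic ∧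
      F.map (io R ι lam) = (P.mat (fun i => (b i).1) w (P.star φ (1 ⊗ₜ g))).charpoly := by
  have := P.findim
  obtain ⟨s, hs1, hs2, hs3⟩ := exists_linearIndependent K (Λ : Set H)
  have := hs3.set_finite_of_isNoetherian.fintype
  let L : H →ₗ[K] s → K := LinearMap.pi fun i => P.η ∘ₗ LinearMap.mulRight K i.1
  have hL : Function.Injective L := (injective_iff_map_eq_zero _).2 fun x hx =>
    P.eq_of_η fun y => by
      have hy : y ∈ Submodule.span K s := by rw [hs2, h.top]; trivial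
      rw [zero_mul, map_zero]
      induction hy using Submodule.span_induction with
      | mem y hy => exact congrFun hx ⟨y, hy⟩
      | zero => simp
      | add y z _ _ hy hz => rw [mul_add, map_add, hy, hz, add_zero]
      | smul c y _ hy => rw [mul_smul_comm, map_smul, hy, smul_zero]
  have hd : finrank K H = finrank K (s → K) := by
    rw [finrank_fintype_fun_eq_card, ← finrank_span_eq_card hs3, Subtype.range_coe, hs2, h.top,
      finrank_top]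
  obtain ⟨r, b, hb1, hb2⟩ := exists_lat_basis (N := N) (chi lam) (chi_inj h.tr)
    (Λ := Λ.toSubring.toAddSubgroup) (fun l x hx => by
      rw [Algebra.smul_def]
      refine Λ.mul_mem ?_ hx
      change algebraMap K H (aeval lam l) ∈ Λ
      rw [← aeval_algebraMap_apply]
      exact Algebra.adjoin_le (Set.singleton_subset_iff.2 h.lamΛ) (aeval_mem_adjoin_singleton _ _))
    (Basis.ofEquivFun (L.linearEquivOfInjective hL hd))
    (fun x hx i => (h.pol _ (Λ.mul_mem hx (hs1 i.2))).imp fun q hq => hq.symm) hN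
  obtain ⟨w, hw, hw'⟩ := P.Q_dual b
  obtain ⟨A, hA⟩ := Lat.charpoly (chi lam) h.lat (fun k x hx => by
    rw [← map_natCast (algebraMap ℂ K), ← map_inv₀, algebraMap_smul]
    exact Λ.smul_mem hx _) hφ hg hb1 (fun x hx hx' i => (hw' ⟨x, hx'⟩ i).symm ▸ hb2 _ hx i) hs hw
  exact ⟨r, b, w, A.charpoly, hw, hw', A.charpoly_monic, by rw [← hA, Matrix.charpoly_map]⟩

variable (P) in
/-- the classes on the general fibre -/
structure Qc (Ty : ℤ → Submodule K H) (p e₁ e₂ : H) (z₁ z₂ : H →ₗ[K] K) : Prop where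
  ty : P.Typed Ty
  fm : P.FM Set.univ p
  vm₁ : P.VM e₁
  vm₂ : P.VM e₂
  id₁ : e₁ * e₁ = e₁
  pe : p = p * e₁ + p * e₂
  pz₁ : ∀ y, p * e₁ * y = z₁ y • (p * e₁)
  pz₂ : ∀ y, p * e₂ * y = z₂ y • (p * e₂)
  ne₁ : p * e₁ ≠ 0
  li : LinearIndependent K ![p * e₁, p * e₂]

variable {p e₁ e₂ g : H} {z₁ z₂ : H →ₗ[K] K}

omit [Algebra ℂ K] [Algebra ℂ H] [IsScalarTower ℂ K H] in
theorem Qc.eig₁ (h : P.Qc Ty p e₁ e₂ z₁ z₂) (hφ : ∀ i, φ i ∈ Ty 0) (hg : g ∈ Ty 0) :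
    P.circ φ (P.U φ (1 ⊗ₜ g)) (1 ⊗ₜ e₁ * P.U φ (1 ⊗ₜ (p * e₁))) =
      P.evl φ z₁ g • (1 ⊗ₜ e₁ * P.U φ (1 ⊗ₜ (p * e₁))) := by
  have := P.findim
  refine Q_scal (N := Submodule.span K {p * e₁}) (fun x hx => ?_) (mem_TyM.2 fun m => ?_)
  · obtain ⟨c, rfl⟩ := Submodule.mem_span_singleton.1 hx
    rw [tmul_smul, LinearMap.map_smul_of_tower, smul_comm, h.ty.evl_eig hφ
      (mul_comm p e₁ ▸ Q_mv h.fm h.vm₁) (fun c _ => h.pz₁ c) hg]
  · have : (1 : Sr K R ι) ⊗ₜ[K] (p * e₁) = 1 ⊗ₜ p * 1 ⊗ₜ e₁ := by simp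
    rw [this, h.fm.U, Q_cf_mul, Q_cf_mul, ← mul_assoc, mul_comm e₁, h.pz₁]
    exact Submodule.smul_mem _ _ (Submodule.mem_span_singleton_self _)

/-- the quadratic equation -/
theorem Qc.quad (h : P.Qc Ty p e₁ e₂ z₁ z₂) (hl : P.Lt lam Λ) (hp : p ∈ Λ) (hφ : ∀ i, φ i ∈ Ty 0)
    (hφ' : ∀ i, φ i ∈ Λ) (hg : g ∈ Ty 0) (hg' : g ∈ Λ) : ∃ t n,
    io R ι lam t = P.evl φ z₁ g + P.evl φ z₂ g ∧ io R ι lam n = P.evl φ z₁ g * P.evl φ z₂ g := by
  have := P.findim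
  have := Q_dom (K := K) (R := R) (ι := ι)
  let N := LinearMap.range (LinearMap.mulLeft K p)
  have hN : ∀ {x : Md K H R ι}, x ∈ TyM R ι N ↔ ∃ y, x = 1 ⊗ₜ p * y := by
    refine fun {x} => ⟨fun hx => ?_, ?_⟩
    · rw [TyM, Submodule.baseChange_eq_span] at hx
      induction hx using Submodule.span_induction with
      | mem x hx => obtain ⟨_, ⟨y, rfl⟩, rfl⟩ := hx; exact ⟨1 ⊗ₜ y, by simp⟩
      | zero => exact ⟨0, by simp⟩
      | add x y _ _ hx hy =>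
        obtain ⟨x, rfl⟩ := hx
        obtain ⟨y, rfl⟩ := hy
        exact ⟨_, (mul_add _ _ _).symm⟩
      | smul s x _ hx => obtain ⟨x, rfl⟩ := hx; exact ⟨_, (mul_smul_comm _ _ _).symm⟩
    · rintro ⟨y, rfl⟩
      exact mem_TyM.2 fun m => ⟨_, (Q_cf_mul _ _ _).symm⟩
  have hs : ∀ x ∈ TyM R ι N, P.star φ (1 ⊗ₜ g) x ∈ TyM R ι N := fun x hx => by
    obtain ⟨y, rfl⟩ := hN.1 hx
    exact hN.2 ⟨_, by rw [star_comm, h.fm.star]⟩
  have hU : ∀ x ∈ TyM R ι N, P.U φ x ∈ TyM R ι N := fun x hx => by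
    obtain ⟨y, rfl⟩ := hN.1 hx
    exact hN.2 ⟨_, h.fm.U _ _⟩
  have hc : ∀ x ∈ TyM R ι N, P.circ φ (P.U φ (1 ⊗ₜ g)) x ∈ TyM R ι N := fun x hx => by
    obtain ⟨y, rfl⟩ := hN.1 hx
    exact hN.2 ⟨_, by rw [circ_comm, h.fm.circ]⟩
  obtain ⟨r, b, w, F, hw, -, -, hF⟩ := hl.poly (N := N) (by
    rintro _ ⟨y, rfl⟩
    have hy : y ∈ Submodule.span K (Λ : Set H) := by rw [hl.top]; trivial
    refine Submodule.span_le.2 ?_ (Submodule.apply_mem_span_image_of_mem_span _ hy)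
    rintro _ ⟨y, hy, rfl⟩
    exact Submodule.subset_span ⟨Λ.mul_mem hp hy, y, rfl⟩) hφ' hg' hs
  rw [Alg.charpoly_conj (U := P.mat _ w (P.U φ)) (M' := P.mat _ w (P.circ φ (P.U φ (1 ⊗ₜ g))))
    hw.det_U.ne_zero (by
      rw [← hw.mat_comp _ hs, ← hw.mat_comp _ hU]
      exact congrArg _ (LinearMap.ext fun x => P.U_star φ _ _)),
    hw.Q_dec hc (θ := ![P.evl φ z₁ g, P.evl φ z₂ g]) ?_ h.li ?_] at hF
  · refine ⟨-F.coeff 1, F.coeff 0, ?_, ?_⟩
    · rw [map_neg, ← coeff_map, hF]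
      simp [mul_sub, sub_mul, coeff_C, ← pow_two, add_comm]
    · rw [← coeff_map, hF]
      simp
  · refine le_antisymm (Submodule.span_le.2 ?_) ?_
    · rintro _ ⟨i, rfl⟩
      fin_cases i <;> exact ⟨_, rfl⟩
    · rintro _ ⟨y, rfl⟩
      have : p * y = z₁ y • (p * e₁) + z₂ y • (p * e₂) := by
        conv_lhs => rw [h.pe, add_mul, h.pz₁, h.pz₂]
      rw [LinearMap.mulLeft_apply, this]
      exact Submodule.add_mem _ (Submodule.smul_mem _ _ (Submodule.subset_span ⟨0, rfl⟩))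
        (Submodule.smul_mem _ _ (Submodule.subset_span ⟨1, rfl⟩))
  · intro i
    fin_cases i
    · exact h.ty.evl_eig hφ (mul_comm p e₁ ▸ Q_mv h.fm h.vm₁) (fun c _ => h.pz₁ c) hg
    · exact h.ty.evl_eig hφ (mul_comm p e₂ ▸ Q_mv h.fm h.vm₂) (fun c _ => h.pz₂ c) hg

end Pk

end Vale.Agent.P287Q.Lz
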