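import Vale.Agent.P287Q.Lz.PkD

/-! Generating series. -/

namespace Vale.Agent.P287Q.Lz

open Finset TensorProduct

variable {K H R ι : Type} [Field K] [CommRing H] [Algebra K H] [DecidableEq R] (φ : ι → H)

omit [CommRing H] [Algebra K H] in
/-- **products of generating series** -/
theorem ser_cv [CharZero K] {A : Type} [Fintype A] (Φ Ψ : A → (R →₀ ℕ) → Ms H → K) :
    ser φ (cv fun d₁ t₁ d₂ t₂ => ∑ a, Φ a d₁ t₁ * Ψ a d₂ t₂) = ∑ a, ser φ (Φ a) * ser φ (Ψ a) :=
  (sum_ser_mul φ univ Φ Ψ).symm

omit [DecidableEq R] in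
theorem cf_tmul (m : R ⊕ ι →₀ ℕ) (s : Sr K R ι) (x : H) :
    cf m (s ⊗ₜ[K] x) = MvPowerSeries.coeff m s • x := rfl

omit [DecidableEq R] in
theorem cf_zero_mul (x y : Md K H R ι) : cf 0 (x * y) = cf 0 x * cf 0 y := by
  induction x using TensorProduct.induction_on with
  | zero => simp
  | add x x' hx hx' => rw [add_mul, map_add, map_add, hx, hx', add_mul]
  | tmul s x =>
    induction y using TensorProduct.induction_on with
    | zero => simp
    | add y y' hy hy' => rw [mul_add, map_add, map_add, hy, hy', mul_add]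
    | tmul t y =>
      rw [Algebra.TensorProduct.tmul_mul_tmul, cf_tmul, cf_tmul, cf_tmul, smul_mul_smul_comm]
      simp only [MvPowerSeries.coeff_zero_eq_constantCoeff, map_mul]

omit [DecidableEq R] in
theorem cf_zero_smul (s : Sr K R ι) (x : Md K H R ι) :
    cf 0 (s • x) = MvPowerSeries.constantCoeff s • cf 0 x := by
  induction x using TensorProduct.induction_on with
  | zero => simp
  | add x x' hx hx' => rw [smul_add, map_add, map_add, hx, hx', smul_add]
  | tmul t x =>
    rw [smul_tmul', cf_tmul, cf_tmul, smul_smul, smul_eq_mul]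
    simp only [MvPowerSeries.coeff_zero_eq_constantCoeff, map_mul]

open Classical in
theorem cf_smul (m : R ⊕ ι →₀ ℕ) (s : Sr K R ι) (x : Md K H R ι) :
    cf m (s • x) = ∑ p ∈ antidiagonal m, MvPowerSeries.coeff p.1 s • cf p.2 x := by
  induction x using TensorProduct.induction_on with
  | zero => simp
  | add x x' hx hx' => simp only [smul_add, map_add, hx, hx', sum_add_distrib]
  | tmul t x =>
    rw [smul_tmul', cf_tmul, smul_eq_mul, MvPowerSeries.coeff_mul, sum_smul]
    simp only [cf_tmul, smul_smul]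

omit [DecidableEq R] in
theorem PkS_repr {n : Type} [Fintype n] (b : Module.Basis n K H) (x : Md K H R ι) (i : n)
    (m : R ⊕ ι →₀ ℕ) : MvPowerSeries.coeff m
      ((Algebra.TensorProduct.basis (Sr K R ι) b).repr x i) = b.repr (cf m x) i := by
  induction x using TensorProduct.induction_on with
  | zero => simp
  | add x x' hx hx' => simp only [map_add, Finsupp.add_apply, hx, hx']
  | tmul t x =>
    rw [Algebra.TensorProduct.basis_repr_tmul, cf_tmul, map_smul, Finsupp.smul_apply,
      Finsupp.smul_apply, Finsupp.mapRange_apply, smul_eq_mul, smul_eq_mul]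
    exact MvPowerSeries.coeff_mul_C m t _

omit [DecidableEq R] in
theorem cf_ext [FiniteDimensional K H] {x y : Md K H R ι} (h : ∀ m, cf m x = cf m y) : x = y := by
  let b := Module.finBasis K H
  refine (Algebra.TensorProduct.basis (Sr K R ι) b).repr.injective (Finsupp.ext fun i => ?_)
  ext m
  rw [PkS_repr, PkS_repr, h]

omit [DecidableEq R] in
theorem PkS_cf_baseChange (g : H →ₗ[K] H) (m : R ⊕ ι →₀ ℕ) (x : Md K H R ι) :
    cf m (g.baseChange (Sr K R ι) x) = g (cf m x) := by
  induction x using TensorProduct.induction_on with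
  | zero => simp
  | add x x' hx hx' => simp only [map_add, hx, hx']
  | tmul t x => rw [LinearMap.baseChange_tmul, cf_tmul, cf_tmul, map_smul]

omit [DecidableEq R] in
theorem PkS_baseChange_mem {N : Submodule K H} {g : H →ₗ[K] H} (hg : ∀ y, g y ∈ N)
    (x : Md K H R ι) : g.baseChange (Sr K R ι) x ∈ TyM R ι N := by
  induction x using TensorProduct.induction_on with
  | zero => simp
  | add x x' hx hx' => rw [map_add]; exact add_mem hx hx'
  | tmul t x => exact Submodule.tmul_mem_baseChange_of_mem t (hg x)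

omit [DecidableEq R] in
theorem mem_TyM [FiniteDimensional K H] {N : Submodule K H} {x : Md K H R ι} :
    x ∈ TyM R ι N ↔ ∀ m, cf m x ∈ N := by
  constructor
  · intro hx m
    obtain ⟨y, rfl⟩ := Submodule.toBaseChange_surjective' _ _ hx
    induction y using TensorProduct.induction_on with
    | zero => simp
    | add y y' hy hy' =>
      rw [map_add, Submodule.coe_add, map_add]
      exact add_mem (hy (Subtype.prop _)) (hy' (Subtype.prop _))
    | tmul t y =>
      rw [Submodule.coe_toBaseChange_tmul, cf_tmul]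
      exact N.smul_mem _ y.2
  · intro h
    obtain ⟨N', hN⟩ := N.exists_isCompl
    let g : H →ₗ[K] H := N.subtype ∘ₗ N.projectionOnto N' hN
    have h1 : g.baseChange (Sr K R ι) x = x := cf_ext fun m => by
      rw [PkS_cf_baseChange]
      exact congrArg Subtype.val (Submodule.projectionOnto_apply_left hN ⟨_, h m⟩)
    rw [← h1]
    exact PkS_baseChange_mem (fun y => Subtype.prop _) x

omit [DecidableEq R] in
/-- an endomorphism that is the identity modulo the maximal ideal is bijective -/
theorem bij_of_cf [FiniteDimensional K H] (T : Md K H R ι →ₗ[Sr K R ι] Md K H R ι)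
    (h : ∀ x, cf 0 (T x) = cf 0 x) : Function.Bijective T := by
  classical
  let b := Module.finBasis K H
  let B := Algebra.TensorProduct.basis (Sr K R ι) b
  have h1 : (LinearMap.toMatrix B B T).map MvPowerSeries.constantCoeff = 1 := by
    ext i j
    rw [Matrix.map_apply, LinearMap.toMatrix_apply,
      ← MvPowerSeries.coeff_zero_eq_constantCoeff_apply, PkS_repr, h,
      Algebra.TensorProduct.basis_apply, cf_tmul]
    simp [Matrix.one_apply, Finsupp.single_apply, eq_comm]
  have h2 : IsUnit (LinearMap.toMatrix B B T).det := by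
    rw [MvPowerSeries.isUnit_iff_constantCoeff, RingHom.map_det, RingHom.mapMatrix_apply, h1,
      Matrix.det_one]
    exact isUnit_one
  exact (LinearEquiv.ofIsUnitDet h2).bijective

omit [DecidableEq R] in
theorem bijOn_of_cf [FiniteDimensional K H] (T : Md K H R ι →ₗ[Sr K R ι] Md K H R ι)
    (h : ∀ x, cf 0 (T x) = cf 0 x) {N : Submodule K H} (hN : ∀ x ∈ TyM R ι N, T x ∈ TyM R ι N) :
    Set.BijOn T (TyM R ι N) (TyM R ι N) := by
  refine ⟨fun x hx => hN x hx, (bij_of_cf T h).1.injOn, fun y hy => ?_⟩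
  obtain ⟨N', hc⟩ := N.exists_isCompl
  let g : H →ₗ[K] H := N.subtype ∘ₗ N.projectionOnto N' hc
  let G := g.baseChange (Sr K R ι)
  have hg : ∀ y ∈ N, g y = y := fun y hy =>
    congrArg Subtype.val (Submodule.projectionOnto_apply_left hc ⟨_, hy⟩)
  have hm : ∀ x, G x ∈ TyM R ι N := PkS_baseChange_mem fun y => Subtype.prop _
  have hG : ∀ x ∈ TyM R ι N, G x = x := fun x hx => cf_ext fun m => by
    rw [PkS_cf_baseChange]; exact hg _ (mem_TyM.1 hx m)
  obtain ⟨x, hx⟩ := (bij_of_cf (T ∘ₗ G + (LinearMap.id - G)) fun x => by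
    simp only [LinearMap.add_apply, LinearMap.comp_apply, LinearMap.sub_apply, LinearMap.id_apply,
      map_add, map_sub, h, add_sub_cancel]).2 y
  simp only [LinearMap.add_apply, LinearMap.comp_apply, LinearMap.sub_apply,
    LinearMap.id_apply] at hx
  have h1 : x - G x ∈ TyM R ι N := by
    rw [← sub_eq_iff_eq_add'.2 hx.symm]
    exact sub_mem hy (hN _ (hm x))
  have h2 := hG _ h1
  rw [map_sub, hG _ (hm x), sub_self] at h2
  exact ⟨G x, hm x, by rw [← hx, ← h2, add_zero]⟩

omit [DecidableEq R] in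
open Classical in
theorem coeff_sp0 (S : Set R) (s : Sr K R ι) (m : R ⊕ ι →₀ ℕ) :
    MvPowerSeries.coeff m (sp0 K ι S s) =
      if ↑(dgm m).support ⊆ S ∧ exm m = 0 then MvPowerSeries.coeff m s else 0 := by
  rw [sp0, MvPowerSeries.rescaleAlgHom_apply, MvPowerSeries.coeff_rescale]
  split_ifs with h
  · rw [Finsupp.prod, prod_eq_one, one_mul]
    rintro (r | a) hu
    · have : r ∈ S := h.1 (by simpa [dgm_apply] using hu)
      simp [this]
    · have h1 : m (.inr a) ≠ 0 := Finsupp.mem_support_iff.1 hu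
      exact absurd (DFunLike.congr_fun h.2 a) h1
  · refine mul_eq_zero_of_left ?_ _
    rcases not_and_or.1 h with h | h
    · obtain ⟨r, hr, hS⟩ := Set.not_subset.1 h
      have h1 : m (.inl r) ≠ 0 := (Finsupp.mem_support_iff (f := dgm m)).1 hr
      exact prod_eq_zero (Finsupp.mem_support_iff.2 h1) (by simp [hS, h1])
    · obtain ⟨a, ha⟩ := Finsupp.ne_iff.1 h
      have h1 : m (.inr a) ≠ 0 := ha
      exact prod_eq_zero (Finsupp.mem_support_iff.2 h1) (by simp [h1])

omit [DecidableEq R] in
open Classical in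
theorem cf_spM (S : Set R) (x : Md K H R ι) (m : R ⊕ ι →₀ ℕ) :
    cf m (spM K H ι S x) = if ↑(dgm m).support ⊆ S ∧ exm m = 0 then cf m x else 0 := by
  induction x using TensorProduct.induction_on with
  | zero => simp
  | add x x' hx hx' =>
    simp only [map_add, hx, hx']
    split_ifs <;> simp
  | tmul t x =>
    rw [spM, Algebra.TensorProduct.map_tmul, cf_tmul, cf_tmul, coeff_sp0]
    split_ifs <;> simp

omit [DecidableEq R] [Algebra K H] in
open Classical in
theorem sp0_ser (S : Set R) {Φ : (R →₀ ℕ) → Ms H → K} (h : ∀ d t, Φ d ((0, 0) ::ₘ t) = 0) :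
    sp0 K ι S (ser φ Φ) = ser (0 : ι → H) fun d t => if ↑d.support ⊆ S then Φ d t else 0 := by
  ext m
  rw [coeff_sp0, coeff_ser, coeff_ser]
  by_cases h2 : exm m = 0
  · simp only [ins, h2, map_zero, Multiset.map_zero, and_true]
    split_ifs <;> simp
  · rw [if_neg fun e => h2 e.2]
    obtain ⟨a, ha⟩ := Finsupp.ne_iff.1 h2
    have h3 : ((0, 0) : ℕ × H) ∈ ins (0 : ι → H) m :=
      Multiset.mem_map.2 ⟨a, (Finsupp.mem_toMultiset _ _).2 (Finsupp.mem_support_iff.2 ha), rfl⟩
    obtain ⟨t, ht⟩ := Multiset.exists_cons_of_mem h3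
    rw [ht, h]
    simp

theorem Pk.findim (P : Pk K H R) : FiniteDimensional K H :=
  Module.Finite.of_surjective (Fintype.linearCombination K P.f) fun x =>
    ⟨fun a => P.η (x * P.e a), P.cas x⟩

theorem Pk.ηM_tmul (P : Pk K H R) (s : Sr K R ι) (x : H) :
    P.ηM (s ⊗ₜ[K] x) = s * MvPowerSeries.C (P.η x) := by
  rw [Pk.ηM, LinearMap.liftBaseChange_tmul, smul_eq_mul]
  rfl

theorem Pk.coeff_ηM (P : Pk K H R) (x : Md K H R ι) (y : H) (m : R ⊕ ι →₀ ℕ) :
    MvPowerSeries.coeff m (P.ηM (x * 1 ⊗ₜ y)) = P.η (cf m x * y) := by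
  induction x using TensorProduct.induction_on with
  | zero => simp
  | add x x' hx hx' => simp only [add_mul, map_add, hx, hx']
  | tmul t x =>
    rw [Algebra.TensorProduct.tmul_mul_tmul, Pk.ηM_tmul, mul_one, cf_tmul, smul_mul_assoc, map_smul,
      MvPowerSeries.coeff_mul_C, smul_eq_mul]

end Vale.Agent.P287Q.Lz
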