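import Vale.Agent.P287Q.Lz.PkF

/-! Types are preserved. -/

set_option linter.unusedSectionVars false

namespace Vale.Agent.P287Q.Lz.Pk

open Finset TensorProduct

variable {K H R ι : Type} [Field K] [CharZero K] [CommRing H] [Algebra K H] [DecidableEq R]
  {P : Pk K H R} {φ : ι → H} {Ty : ℤ → Submodule K H}

/-- sums over the Casimir element do not depend on its presentation -/
theorem sum_cas (P : Pk K H R) {B V : Type} [Fintype B] [AddCommGroup V] [Module K V]
    {e f : B → H} (h : ∀ x, ∑ b, P.η (x * e b) • f b = x) {Φ : H → H → V}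
    (h1 : ∀ y, IsLinearMap K fun x => Φ x y) (h2 : ∀ x, IsLinearMap K fun y => Φ x y) :
    ∑ a, Φ (P.e a) (P.f a) = ∑ b, Φ (e b) (f b) := by
  have e1 : ∀ a, Φ (P.e a) (P.f a) = ∑ b, P.η (P.f a * e b) • Φ (P.e a) (f b) := fun a => by
    have := map_sum ((h2 (P.e a)).mk' _) (fun b => P.η (P.f a * e b) • f b) univ
    simp only [map_smul, IsLinearMap.mk'_apply, h] at this
    exact this
  have e2 : ∀ b, Φ (e b) (f b) = ∑ a, P.η (P.f a * e b) • Φ (P.e a) (f b) := fun b => by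
    have := map_sum ((h1 (f b)).mk' _) (fun a => P.η (P.f a * e b) • P.e a) univ
    simp only [map_smul, IsLinearMap.mk'_apply, P.cas'] at this
    exact this
  rw [sum_congr rfl fun a _ => e1 a, sum_congr rfl fun b _ => e2 b, sum_comm]

theorem PkT_split {α β : Type} (g : α → β) (u : Multiset β) : ∀ (t : Multiset α) (v : Multiset β),
    u + v = t.map g → ∃ t₁ t₂, t₁ + t₂ = t ∧ t₁.map g = u ∧ t₂.map g = v := by
  classical
  induction u using Multiset.induction_on with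
  | empty => exact fun t v h => ⟨0, t, zero_add t, rfl, by rw [← h, zero_add]⟩
  | cons b u ih =>
    intro t v h
    rw [Multiset.cons_add] at h
    obtain ⟨a, ha, rfl, h'⟩ := (Multiset.map_eq_cons g t (u + v) b).2 h.symm
    obtain ⟨t₁, t₂, e, rfl, rfl⟩ := ih _ v h'.symm
    exact ⟨a ::ₘ t₁, t₂, by rw [Multiset.cons_add, e, Multiset.cons_erase ha],
      Multiset.map_cons _ _ _, rfl⟩

theorem PkT_hm_cons {x : ℤ × ℕ × H} {s : Multiset (ℤ × ℕ × H)} (hx : x.2.2 ∈ Ty x.1)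
    (hs : Hm Ty s) : Hm Ty (x ::ₘ s) := fun y hy => by
  rcases Multiset.mem_cons.1 hy with rfl | hy
  exacts [hx, hs y hy]

theorem PkT_hm_zero : Hm Ty 0 := fun _ h => absurd h (Multiset.notMem_zero _)

theorem PkT_bil {V : Type} [AddCommGroup V] [Module (Sr K R ι) V]
    (B : Md K H R ι →ₗ[Sr K R ι] Md K H R ι →ₗ[Sr K R ι] V) {N₁ N₂ : Submodule K H}
    {Q : Submodule (Sr K R ι) V} (h : ∀ x ∈ N₁, ∀ y ∈ N₂, B (1 ⊗ₜ x) (1 ⊗ₜ y) ∈ Q)
    {x y : Md K H R ι} (hx : x ∈ TyM R ι N₁) (hy : y ∈ TyM R ι N₂) : B x y ∈ Q := by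
  rw [TyM, Submodule.baseChange_eq_span] at hx hy
  induction hx using Submodule.span_induction with
  | mem x hx =>
    obtain ⟨x, hx, rfl⟩ := hx
    induction hy using Submodule.span_induction with
    | mem y hy =>
      obtain ⟨y, hy, rfl⟩ := hy
      exact h x hx y hy
    | zero => rw [map_zero]; exact Q.zero_mem
    | add y z _ _ h1 h2 => rw [map_add]; exact Q.add_mem h1 h2
    | smul c y _ h1 => rw [map_smul]; exact Q.smul_mem c h1
  | zero => rw [map_zero]; exact Q.zero_mem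
  | add y z _ _ h1 h2 => rw [map_add]; exact Q.add_mem h1 h2
  | smul c y _ h1 => rw [map_smul]; exact Q.smul_mem c h1

namespace Typed

variable (h : P.Typed Ty)
include h

theorem η_eq {k : ℤ} (hk : k ≠ 0) {x : H} (hx : x ∈ Ty k) : P.η x = 0 := by
  have h1 := h.glob 0 ((k, 0, x) ::ₘ (0, 0, 1) ::ₘ (0, 0, 1) ::ₘ 0)
    (PkT_hm_cons hx (PkT_hm_cons h.one (PkT_hm_cons h.one PkT_hm_zero))) (by simpa using hk)
  have h2 := P.zero₀ x 1 1
  rw [mul_one, mul_one] at h2
  rw [← h2]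
  simpa using h1

theorem PkT_zero {k : ℤ} {x : H} (h1 : ∀ l, k + l ≠ 0 → ∀ y ∈ Ty l, P.η (x * y) = 0)
    (h2 : ∀ y ∈ Ty (-k), P.η (x * y) = 0) : x = 0 := by
  refine P.eq_of_η fun z => ?_
  rw [zero_mul, map_zero]
  have hz : z ∈ ⨆ l, Ty l := h.top ▸ Submodule.mem_top
  induction hz using Submodule.iSup_induction' with
  | mem l y hy =>
    by_cases e : k + l = 0
    · exact h2 y ((eq_neg_of_add_eq_zero_right e) ▸ hy)
    · exact h1 l e y hy
  | zero => rw [mul_zero, map_zero]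
  | add y z _ _ a b => rw [mul_add, map_add, a, b, add_zero]

/-- the projections to the types -/
theorem PkT_proj : ∃ π : ∀ k, H →ₗ[K] Ty k, (∀ k x (hx : x ∈ Ty k), π k x = ⟨x, hx⟩) ∧
    (∀ k l, l ≠ k → ∀ x ∈ Ty l, π k x = 0) ∧
    ∀ k x, ∀ y ∈ Ty (-k), P.η (π k x * y) = P.η (x * y) := by
  let N : ℤ → Submodule K H := fun k =>
    { carrier := {x | ∀ y ∈ Ty (-k), P.η (x * y) = 0}
      zero_mem' := fun y _ => by rw [zero_mul, map_zero]
      add_mem' := fun ha hb y hy => by rw [add_mul, map_add, ha y hy, hb y hy, add_zero]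
      smul_mem' := fun c x hx y hy => by rw [smul_mul_assoc, map_smul, hx y hy, smul_zero] }
  have hN : ∀ k l, l ≠ k → Ty l ≤ N k := fun k l e x hx y hy =>
    h.η_eq (by omega) (h.mul _ _ x hx y hy)
  have hc : ∀ k, IsCompl (Ty k) (N k) := fun k => by
    constructor
    · rw [Submodule.disjoint_def]
      exact fun x hx hx' => h.PkT_zero (fun l e y hy => h.η_eq e (h.mul _ _ x hx y hy)) hx'
    · rw [codisjoint_iff, eq_top_iff, ← h.top, iSup_le_iff]
      intro l
      by_cases e : l = k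
      · exact e ▸ le_sup_left
      · exact (hN k l e).trans le_sup_right
  refine ⟨fun k => (Ty k).projectionOnto (N k) (hc k),
    fun k x hx => Submodule.projectionOnto_apply_of_mem_left (hc k) hx,
    fun k l e x hx => Submodule.projectionOnto_apply_of_mem_right (hc k) (hN k l e hx),
    fun k x y hy => ?_⟩
  have := Submodule.sub_projection_mem (hc k) x y hy
  rw [sub_mul, map_sub, sub_eq_zero] at this
  exact this.symm

theorem mem_iff {k : ℤ} {x : H} :
    x ∈ Ty k ↔ ∀ l, k + l ≠ 0 → ∀ y ∈ Ty l, P.η (x * y) = 0 := by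
  refine ⟨fun hx l e y hy => h.η_eq e (h.mul _ _ x hx y hy), fun hx => ?_⟩
  obtain ⟨π, -, -, h3⟩ := h.PkT_proj
  have : x - π k x = 0 := h.PkT_zero (k := k)
    (fun l e y hy => by
      rw [sub_mul, map_sub, hx l e y hy, h.η_eq e (h.mul _ _ _ (π k x).2 y hy), sub_zero])
    (fun y hy => by rw [sub_mul, map_sub, h3 k x y hy, sub_self])
  rw [sub_eq_zero.1 this]
  exact (π k x).2

/-- a homogeneous presentation of the Casimir element -/
theorem exists_cas : ∃ (B : Type) (_ : Fintype B) (e f : B → H) (τ : B → ℤ),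
    (∀ b, e b ∈ Ty (τ b) ∧ f b ∈ Ty (-τ b)) ∧ ∀ x, ∑ b, P.η (x * e b) • f b = x := by
  classical
  obtain ⟨π, h1, h2, h3⟩ := h.PkT_proj
  choose s hs using fun a => Submodule.exists_finset_of_mem_iSup Ty
    (h.top ▸ Submodule.mem_top : P.f a ∈ ⨆ l, Ty l)
  set S := univ.biUnion s with hS
  have hsum : ∀ x, ∑ k ∈ S, (π k x : H) = x := by
    have a1 : ∀ x ∈ ⨆ k ∈ S, Ty k, ∑ k ∈ S, (π k x : H) = x := by
      intro x hx
      let L : H →ₗ[K] H := ∑ k ∈ S, (Ty k).subtype ∘ₗ π k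
      have hL : ∀ x, L x = ∑ k ∈ S, (π k x : H) := fun x => by
        simp only [L, LinearMap.sum_apply, LinearMap.comp_apply, Submodule.subtype_apply]
      have : (⨆ k ∈ S, Ty k) ≤ LinearMap.eqLocus L LinearMap.id := by
        refine iSup₂_le fun l hl y hy => ?_
        rw [LinearMap.mem_eqLocus, hL, sum_eq_single l, h1 l y hy]
        · rfl
        · intro k _ e
          rw [h2 k l e.symm y hy]; rfl
        · exact fun e => absurd hl e
      rw [← hL]
      exact this hx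
    intro x
    refine a1 x ?_
    rw [← P.cas x]
    refine Submodule.sum_mem _ fun a _ => Submodule.smul_mem _ _ ?_
    refine (iSup₂_le fun k hk => ?_ : (⨆ k ∈ s a, Ty k) ≤ ⨆ k ∈ S, Ty k) (hs a)
    exact le_iSup₂_of_le k (mem_biUnion.2 ⟨a, mem_univ a, hk⟩) le_rfl
  refine ⟨S × P.A, inferInstance, fun b => π (-b.1.1) (P.e b.2), fun b => π b.1.1 (P.f b.2),
    fun b => -b.1.1, fun b => ⟨(π _ _).2, by rw [neg_neg]; exact (π _ _).2⟩, fun x => ?_⟩
  rw [Fintype.sum_prod_type]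
  conv_rhs => rw [← hsum x, ← sum_coe_sort]
  refine sum_congr rfl fun k _ => ?_
  have e1 : ∀ a, P.η (x * π (-k.1) (P.e a)) = P.η (π k.1 x * P.e a) := fun a => by
    rw [← h3 k.1 x _ (π _ _).2, mul_comm, h3 (-k.1) _ _ (by rw [neg_neg]; exact (π _ _).2),
      mul_comm]
  have e2 := congrArg (π k.1) (P.cas (π k.1 x))
  rw [map_sum, h1 k.1 _ (π k.1 x).2] at e2
  have e3 := congrArg Subtype.val e2
  simp only [map_smul, Submodule.coe_sum, Submodule.coe_smul] at e3
  simp only [e1]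
  exact e3

theorem exists_dual (k : ℤ) {n : Type} [Fintype n] [DecidableEq n]
    (b : Module.Basis n K (Ty k)) :
    ∃ w : n → H, (∀ i, w i ∈ Ty (-k)) ∧ P.Dual (Ty k) (fun i => (b i).1) w := by
  obtain ⟨π, h1, -, h3⟩ := h.PkT_proj
  have key : ∀ i x (hx : x ∈ Ty k),
      P.η (x * π (-k) (∑ a, b.coord i (π k (P.f a)) • P.e a)) = b.coord i ⟨x, hx⟩ := by
    intro i x hx
    rw [mul_comm, h3 (-k) _ x (by rwa [neg_neg]), ← h1 k x hx]
    conv_rhs => rw [← P.cas x]
    simp only [sum_mul, map_sum, smul_mul_assoc, map_smul, smul_eq_mul]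
    exact sum_congr rfl fun a _ => by rw [mul_comm, mul_comm x]
  refine ⟨fun i => π (-k) (∑ a, b.coord i (π k (P.f a)) • P.e a), fun i => (π _ _).2,
    fun i => (b i).2, fun i j => ?_, fun x hx => ?_⟩
  · rw [key j _ (b i).2]
    simp [Finsupp.single_apply]
  · simp only [key _ x hx]
    have := congrArg Subtype.val (b.sum_repr ⟨x, hx⟩)
    simpa only [Submodule.coe_sum, Submodule.coe_smul, Module.Basis.coord_apply] using this

theorem T_eq (j d) {k : ℤ} {y : H} (hy : y ∈ Ty k) {t : Multiset (ℤ × ℕ × H)} (ht : Hm Ty t)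
    (hs : k + (t.map Prod.fst).sum ≠ 0) : P.T j d y (t.map Prod.snd) = 0 := by
  obtain ⟨c, hc⟩ := P.tlG j d (t.map Prod.snd)
  rw [hc]
  refine sum_eq_zero fun i _ => ?_
  have := h.glob d ((k, i, y) ::ₘ t) (PkT_hm_cons hy ht) (by simpa using hs)
  rw [Multiset.map_cons] at this
  exact mul_eq_zero_of_right _ this

/-- **(C5)** induction on the degree -/
theorem E_eq (d k) {s t : Multiset (ℤ × ℕ × H)} (h0 : s ≠ 0) (hs : Hm Ty s) (ht : Hm Ty t)
    (hn : (s.map Prod.fst).sum + (t.map Prod.fst).sum ≠ 0) :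
    P.E d k (s.map Prod.snd) (t.map Prod.snd) = 0 := by
  obtain ⟨B, _, e, f, τ, hef, hc⟩ := h.exists_cas
  induction d using WellFoundedLT.induction generalizing k s t with
  | ind d ih =>
  have step : ∀ k {s t : Multiset (ℤ × ℕ × H)}, s ≠ 0 → Hm Ty s → Hm Ty t →
      (s.map Prod.fst).sum + (t.map Prod.fst).sum ≠ 0 →
      P.E d (k + 1) (s.map Prod.snd) (t.map Prod.snd) = 0 := by
    intro k s t h0 hs ht hn
    obtain ⟨N, hN⟩ := P.tail d k (s.card - 1) t.card
    have h1 := hN (s.map Prod.snd) (t.map Prod.snd)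
      (by have := Multiset.card_pos.2 h0; rw [Multiset.card_map]; omega) (Multiset.card_map _ _)
    rw [cv_congr (Ψ := fun _ _ _ _ => 0), cv_zero] at h1
    · exact (mul_eq_zero.1 h1).resolve_left (Nat.cast_add_one_ne_zero k)
    intro d₁ t₁ d₂ t₂ hd ht'
    by_cases hd₂ : d₂ = 0
    · simp [hd₂, P.tl0]
    have hlt : d₁ < d := by
      rw [← hd]
      exact lt_add_of_pos_right _ (pos_iff_ne_zero.2 hd₂)
    obtain ⟨t₁, t₂, rfl, rfl, rfl⟩ := PkT_split Prod.snd t₁ t t₂ ht'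
    rw [sum_comm]
    refine sum_eq_zero fun j _ => ?_
    rw [P.sum_cas hc (Φ := fun x y => P.E d₁ k ((j, x) ::ₘ s.map Prod.snd) (t₁.map Prod.snd) *
      P.T j d₂ y (t₂.map Prod.snd))
      (fun y => ⟨fun a b => by rw [(P.linE₁ _ _ _ _ _).map_add, add_mul], fun c a => by
        rw [(P.linE₁ _ _ _ _ _).map_smul, smul_mul_assoc]⟩)
      (fun x => ⟨fun a b => by rw [(P.linT _ _ _).map_add, mul_add], fun c a => by
        rw [(P.linT _ _ _).map_smul, mul_smul_comm]⟩)]
    refine sum_eq_zero fun b _ => ?_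
    have ht₁ : Hm Ty t₁ := fun x hx => ht x (Multiset.mem_add.2 (Or.inl hx))
    have ht₂ : Hm Ty t₂ := fun x hx => ht x (Multiset.mem_add.2 (Or.inr hx))
    by_cases e1 : -τ b + (t₂.map Prod.fst).sum = 0
    · have := ih d₁ hlt k (s := (τ b, j, e b) ::ₘ s) (t := t₁) Multiset.cons_ne_zero
        (PkT_hm_cons (hef b).1 hs) ht₁ (by
          rw [Multiset.map_add, Multiset.sum_add] at hn
          rw [Multiset.map_cons, Multiset.sum_cons]
          dsimp only
          omega)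
      rw [Multiset.map_cons] at this
      exact mul_eq_zero_of_left this _
    · exact mul_eq_zero_of_right _ (h.T_eq j d₂ (hef b).2 ht₂ e1)
  cases k with
  | succ k => exact step k h0 hs ht hn
  | zero =>
    obtain ⟨x, hx⟩ := Multiset.exists_mem_of_ne_zero h0
    obtain ⟨s, rfl⟩ := Multiset.exists_cons_of_mem hx
    have hr : Hm Ty (s + t) := fun y hy => by
      rcases Multiset.mem_add.1 hy with hy | hy
      exacts [hs y (Multiset.mem_cons_of_mem hy), ht y hy]
    have hx' : x.2.2 ∈ Ty x.1 := hs x hx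
    have hn' : x.1 + ((s + t).map Prod.fst).sum ≠ 0 := by
      rw [Multiset.map_cons, Multiset.sum_cons, add_assoc] at hn
      rwa [Multiset.map_add, Multiset.sum_add]
    have e1 : P.E d 0 ((x ::ₘ s).map Prod.snd) (t.map Prod.snd) =
        P.E d 0 {x.2} ((s + t).map Prod.snd) := by
      rw [P.vtx d _ _ (by simp), P.vtx d {x.2} _ (by simp), Multiset.map_cons, Multiset.map_add,
        Multiset.singleton_add, Multiset.cons_add]
    obtain ⟨N, hN⟩ := P.sum d
    have e2 := hN {x.2} ((s + t).map Prod.snd) (by simp)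
    rw [sum_range_succ', sum_eq_zero, zero_add] at e2
    · rw [e1, ← e2]
      obtain ⟨c, hc⟩ := P.oneG x.2.1 d ((s + t).map Prod.snd)
      refine (hc x.2.2).trans (sum_eq_zero fun i _ => ?_)
      have := h.glob d ((x.1, i, x.2.2) ::ₘ (s + t)) (PkT_hm_cons hx' hr)
        (by rwa [Multiset.map_cons, Multiset.sum_cons])
      rw [Multiset.map_cons] at this
      exact mul_eq_zero_of_right _ this
    · intro k _
      exact step k (s := {x}) (t := s + t) (by simp) (PkT_hm_cons hx' PkT_hm_zero) hr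
        (by rwa [Multiset.map_singleton, Multiset.sum_singleton])

theorem C_eq (d) {s t : Multiset (ℤ × ℕ × H)} (hs : Hm Ty s) (ht : Hm Ty t)
    (hn : (s.map Prod.fst).sum + (t.map Prod.fst).sum ≠ 0) :
    P.C d (s.map Prod.snd) (t.map Prod.snd) = 0 := by
  by_cases h0 : s = 0
  · subst h0
    exact h.glob d t ht (by simpa using hn)
  · obtain ⟨N, hN⟩ := P.sum d
    rw [hN _ _ (by simpa using h0)]
    exact sum_eq_zero fun k _ => h.E_eq d k h0 hs ht hn

theorem cut (S : Set R) : (P.cut S).Typed Ty := by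
  classical
  refine ⟨h.top, h.one, h.mul, fun d t ht hn => ?_⟩
  change (if _ then P.C d 0 _ else 0) = 0
  rw [h.glob d t ht hn, ite_self]

theorem mul_mem {k l : ℤ} {x y : Md K H R ι} (hx : x ∈ TyM R ι (Ty k))
    (hy : y ∈ TyM R ι (Ty l)) : x * y ∈ TyM R ι (Ty (k + l)) :=
  PkT_bil (LinearMap.mul (Sr K R ι) (Md K H R ι)) (fun x hx y hy => by
    rw [LinearMap.mul_apply', Algebra.TensorProduct.tmul_mul_tmul]
    exact Submodule.tmul_mem_baseChange_of_mem _ (h.mul _ _ x hx y hy)) hx hy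

theorem PkT_op {B : H →ₗ[K] H →ₗ[K] H →ₗ[K] Sr K R ι} {k l : ℤ}
    (hB : ∀ x ∈ Ty k, ∀ y ∈ Ty l, ∀ j, k + l + j ≠ 0 → ∀ z ∈ Ty j, B x y z = 0)
    {x y : Md K H R ι} (hx : x ∈ TyM R ι (Ty k)) (hy : y ∈ TyM R ι (Ty l)) :
    P.op (ext3 B) x y ∈ TyM R ι (Ty (k + l)) := by
  have := P.findim
  refine PkT_bil (P.op (ext3 B)) (Q := TyM R ι (Ty (k + l))) (fun x hx y hy => ?_) hx hy
  rw [mem_TyM]
  intro m
  rw [h.mem_iff]
  intro j e z hz
  rw [← P.coeff_ηM, P.ηM_op, ext3_tmul, hB x hx y hy j e z hz, mul_zero, map_zero]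

variable (hφ : ∀ a, φ a ∈ Ty 0)
include hφ

theorem PkT_ser {Φ : (R →₀ ℕ) → Ms H → K} (hΦ : ∀ d (t : Multiset (ℤ × ℕ × H)), Hm Ty t →
    (t.map Prod.fst).sum = 0 → Φ d (t.map Prod.snd) = 0) : ser φ Φ = 0 := by
  ext m
  have := hΦ (dgm m) ((Finsupp.toMultiset (exm m)).map fun a => (0, 0, φ a))
    (fun x hx => by
      obtain ⟨a, -, rfl⟩ := Multiset.mem_map.1 hx
      exact hφ a) (by simp)
  rw [Multiset.map_map] at this
  rw [coeff_ser, map_zero]
  exact mul_eq_zero_of_right _ this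

theorem star_mem {k l : ℤ} {x y : Md K H R ι} (hx : x ∈ TyM R ι (Ty k))
    (hy : y ∈ TyM R ι (Ty l)) : P.star φ x y ∈ TyM R ι (Ty (k + l)) := by
  refine h.PkT_op (B := P.G0 φ) (fun x hx y hy j e z hz => ?_) hx hy
  refine h.PkT_ser hφ (Φ := fun d t => P.C d 0 ((0, x) ::ₘ (0, y) ::ₘ (0, z) ::ₘ t))
    fun d t ht hn => ?_
  have := h.glob d ((k, 0, x) ::ₘ (l, 0, y) ::ₘ (j, 0, z) ::ₘ t)
    (PkT_hm_cons hx (PkT_hm_cons hy (PkT_hm_cons hz ht)))
    (by simp only [Multiset.map_cons, Multiset.sum_cons, hn]; omega)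
  simpa only [Multiset.map_cons] using this

theorem circ_mem {k l : ℤ} {x y : Md K H R ι} (hx : x ∈ TyM R ι (Ty k))
    (hy : y ∈ TyM R ι (Ty l)) : P.circ φ x y ∈ TyM R ι (Ty (k + l)) := by
  refine h.PkT_op (B := P.D0 φ) (fun x hx y hy j e z hz => ?_) hx hy
  refine h.PkT_ser hφ (Φ := fun d t => P.C d {(0, x), (0, y), (0, z)} t) fun d t ht hn => ?_
  have := h.C_eq d (s := (k, 0, x) ::ₘ (l, 0, y) ::ₘ (j, 0, z) ::ₘ 0)
    (PkT_hm_cons hx (PkT_hm_cons hy (PkT_hm_cons hz PkT_hm_zero))) ht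
    (by simp only [Multiset.map_cons, Multiset.sum_cons, hn, Multiset.map_zero,
      Multiset.sum_zero]; omega)
  simp only [Multiset.map_cons, Multiset.map_zero] at this
  exact this

theorem mid_mem {k l : ℤ} {x y : Md K H R ι} (hx : x ∈ TyM R ι (Ty k))
    (hy : y ∈ TyM R ι (Ty l)) : P.mid φ x y ∈ TyM R ι (Ty (k + l)) := by
  refine h.PkT_op (B := P.M0 φ) (fun x hx y hy j e z hz => ?_) hx hy
  refine h.PkT_ser hφ (Φ := fun d t => P.C d {(0, y), (0, z)} ((0, x) ::ₘ t)) fun d t ht hn => ?_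
  have := h.C_eq d (s := (l, 0, y) ::ₘ (j, 0, z) ::ₘ 0) (t := (k, 0, x) ::ₘ t)
    (PkT_hm_cons hy (PkT_hm_cons hz PkT_hm_zero)) (PkT_hm_cons hx ht)
    (by simp only [Multiset.map_cons, Multiset.sum_cons, hn, Multiset.map_zero,
      Multiset.sum_zero]; omega)
  simp only [Multiset.map_cons, Multiset.map_zero] at this
  exact this

theorem unit_mem : P.unit φ ∈ TyM R ι (Ty 0) := by
  have := P.findim
  have h1 : (1 : Md K H R ι) ∈ TyM R ι (Ty 0) := Submodule.tmul_mem_baseChange_of_mem _ h.one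
  have hc : ∀ x, cf 0 (P.circ φ 1 x) = cf 0 x := fun x => by
    rw [P.cf_circ, ← cf_zero_mul, one_mul]
  obtain ⟨u, hu, e⟩ := (bijOn_of_cf (P.circ φ 1) hc (N := Ty 0) fun x hx => by
    simpa only [add_zero] using h.circ_mem hφ h1 hx).surjOn h1
  have : u = P.unit φ := (bij_of_cf _ hc).1 (by rw [e, P.circ_comm, P.unit_circ])
  exact this ▸ hu

theorem U_mem {k : ℤ} {x : Md K H R ι} (hx : x ∈ TyM R ι (Ty k)) :
    P.U φ x ∈ TyM R ι (Ty k) := by
  have := h.mid_mem hφ hx (h.unit_mem hφ)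
  rw [add_zero] at this
  exact this

end Typed

end Vale.Agent.P287Q.Lz.Pk
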