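import Vale.Agent.P269.Edg.PsiA

/-! The weight of an equivariant line bundle at a fixed point. -/

set_option linter.unusedSectionVars false
set_option linter.style.haveILetI false

namespace Vale.Agent.P269.WtP

open Set Function Topology Filter Module TensorProduct Vale.Agent.P291Z Vale.Agent.P269.Ch
  Vale.Agent.P269.Orb Vale.Agent.P269.Loc Vale.Agent.P269.LG

variable {σ : Type} [Fintype σ] {A B W W' P Q : Type} [NormedRing A] [NormedAlgebra ℂ A]
  [NormedRing B] [NormedAlgebra ℂ B] [NormedAddCommGroup W] [NormedSpace ℂ W]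
  [NormedAddCommGroup W'] [NormedSpace ℂ W'] [AddCommGroup P] [Module ℂ P] [TopologicalSpace P]
  [AddCommGroup Q] [Module ℂ Q] [TopologicalSpace Q] [IsTopologicalAddGroup Q] [ContinuousSMul ℂ Q]
  [T2Space Q] {r : ℕ}

/-- the character by which a stabiliser acts on a line -/
theorem exists_chr {G : Type} [Group G] [TopologicalSpace G] [IsTopologicalGroup G]
    {act : B → W → W} {S : Set W} {E : SD B W Q} (hE : E.Ok act S (r + 1) r) {θ : G →* Bˣ}
    (hθ : Continuous θ) {x : W} (hx : x ∈ S) (hB : ∀ g, E.B (act (θ g) x) = E.B x)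
    (hN : ∀ g, E.N (act (θ g) x) = E.N x) {v : Q} (h1 : v ∈ E.B x) (h2 : v ∉ E.N x) :
    ∃ α : G →ₜ* ℂˣ, ∀ g, E.ρ (θ g) v - (α g : ℂ) • v ∈ E.N x := by
  have := hE.fin
  have l0 := hE.famB.le x hx
  have l1 := hE.le x hx
  have fB : FiniteDimensional ℂ (E.B x) := Submodule.finiteDimensional_of_le l0
  have sp : ∀ w ∈ E.B x, ∃ a : ℂ, w - a • v ∈ E.N x := fun w hw => by
    have e : E.N x ⊔ ℂ ∙ v = E.B x := by
      refine Submodule.eq_of_le_of_finrank_le (sup_le l1 ((Submodule.span_singleton_le_iff_mem _ _).2 h1)) ?_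
      have : FiniteDimensional ℂ (E.N x ⊔ ℂ ∙ v : Submodule ℂ Q) := Submodule.finiteDimensional_of_le
        (sup_le l1 ((Submodule.span_singleton_le_iff_mem _ _).2 h1))
      have lt : E.N x < E.N x ⊔ ℂ ∙ v := lt_of_le_of_ne le_sup_left fun e =>
        h2 (e ▸ Submodule.mem_sup_right (Submodule.mem_span_singleton_self v))
      have := Submodule.finrank_lt_finrank_of_lt lt
      rw [hE.famB.rank x hx]
      rw [hE.famN.rank x hx] at this
      omega
    obtain ⟨n, hn, u, hu, rfl⟩ := Submodule.mem_sup.1 (e.ge hw)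
    obtain ⟨a, rfl⟩ := Submodule.mem_span_singleton.1 hu
    exact ⟨a, by simpa using hn⟩
  have un : ∀ a b : ℂ, ∀ w, w - a • v ∈ E.N x → w - b • v ∈ E.N x → a = b := fun a b w p q => by
    by_contra e
    have := Submodule.smul_mem _ (a - b)⁻¹ (sub_mem q p)
    rw [sub_sub_sub_cancel_left, ← sub_smul, inv_smul_smul₀ (sub_ne_zero.2 e)] at this
    exact h2 this
  choose a ha using fun g => sp _ (hB g ▸ hE.famB.inv x hx _ (θ g).isUnit v h1)
  have a1 : a 1 = 1 := un _ _ _ (ha 1) (by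
    rw [map_one, Units.val_one, hE.rep.one v (l0 h1), one_smul, sub_self]; exact zero_mem _)
  have am : ∀ g g', a (g * g') = a g * a g' := fun g g' => un _ _ _ (ha _) (by
    have k := hN g ▸ hE.famN.inv x hx _ (θ g).isUnit _ (ha g')
    have m := hE.rep.mem _ (θ g').isUnit v (l0 h1)
    rw [sub_eq_add_neg, ← neg_smul, hE.rep.add _ (θ g).isUnit _ m _ (Submodule.smul_mem _ _ (l0 h1)),
      hE.rep.smul _ (θ g).isUnit _ _ (l0 h1), ← hE.rep.mul _ _ (θ g).isUnit (θ g').isUnit _ (l0 h1)] at k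
    have := add_mem k (Submodule.smul_mem _ (a g') (ha g))
    rw [map_mul, Units.val_mul]
    convert this using 1
    rw [smul_sub, smul_smul, neg_smul, mul_comm (a g')]
    abel)
  obtain ⟨φ, φ1, φ2⟩ : ∃ φ : E.P₀ →ₗ[ℂ] ℂ, φ ⟨v, l0 h1⟩ = 1 ∧
      ∀ w : E.P₀, w.1 ∈ E.N x → φ w = 0 := by
    obtain ⟨φ, p, q⟩ := Submodule.exists_le_ker_of_notMem
      (p := (E.N x).comap E.P₀.subtype) (v := ⟨v, l0 h1⟩) h2
    exact ⟨(φ ⟨v, l0 h1⟩)⁻¹ • φ, inv_mul_cancel₀ p, fun w hw => by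
      rw [LinearMap.smul_apply, show φ w = 0 from q hw, smul_zero]⟩
  have ac : Continuous a := by
    have c : Continuous fun g => (⟨E.ρ (θ g) v, hE.rep.mem _ (θ g).isUnit v (l0 h1)⟩ : E.P₀) :=
      ((hE.rep.cont v (l0 h1)).comp hθ).subtype_mk _
    refine (φ.continuous_of_finiteDimensional.comp c).congr fun g => ?_
    have := φ2 (⟨E.ρ (θ g) v, hE.rep.mem _ (θ g).isUnit v (l0 h1)⟩ - a g • ⟨v, l0 h1⟩) (ha g)
    rwa [map_sub, map_smul, φ1, smul_eq_mul, mul_one, sub_eq_zero] at this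
  let α : G →* ℂˣ := MonoidHom.toHomUnits ⟨⟨a, a1⟩, am⟩
  exact ⟨⟨α, Units.continuous_iff.2 ⟨ac, (ac.comp continuous_inv).congr fun g =>
    congrArg Units.val (map_inv α g)⟩⟩, ha⟩

variable [FiniteDimensional ℂ A] [FiniteDimensional ℂ B] [FiniteDimensional ℂ W]
  [FiniteDimensional ℂ W'] [IsTopologicalAddGroup P] [ContinuousSMul ℂ P] [T2Space P]
  {act₀ : A → W → W} {act : B → W → W} {D : KD B W P} {Z : Set W} {c : TC σ act₀ act D Z}
  {M : ℕ} {act' : B → W' → W'} {Z' : Set W'}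

/-- on a fixed orbit a multiple of the torus action is given by a homomorphism -/
theorem exists_hom {x : W} (hx : x ∈ c.FZ) : ∃ m ≠ 0, ∃ ρ : Tor σ →* Aˣ, Continuous ρ ∧
    ∀ s, c.b (s ^ m) x = act₀ (ρ s) x := by
  haveI := FiniteDimensional.complete ℂ A
  haveI := FiniteDimensional.complete ℂ W
  obtain ⟨d, hd⟩ := c.h.toTS.exists_dat c.h.a_ph (c.pt_mem hx).1
  let l : Tor σ →* End ℂ A := (Algebra.lmul ℂ A).toRingHom.toMonoidHom.comp
    ((Units.coeHom A).comp d.ρ)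
  have hl : Continuous fun p : Tor σ × A => l p.1 p.2 :=
    (Units.continuous_val.comp (d.cρ.comp continuous_fst)).mul continuous_snd
  have h1 : ∀ s a, cx l s a = cx l s 1 * a := fun s a => by
    have := map_cx hl hl (f := LinearMap.mulRight ℂ a) (fun s _ v => mul_assoc _ _ _) s 1
    rw [LinearMap.mulRight_apply, LinearMap.mulRight_apply, one_mul] at this
    exact this.symm
  let ρ : Tor σ →* Aˣ := MonoidHom.toHomUnits ⟨⟨fun s => cx l s 1, by rw [(cx l).map_one, End.one_apply]⟩,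
    fun s s' => show cx l (s * s') 1 = cx l s 1 * cx l s' 1 by rw [(cx l).map_mul, End.mul_apply, h1]⟩
  have c1 : Continuous fun s => cx l s 1 :=
    (wtd_cx hl).cont₂.comp (continuous_id.prodMk continuous_const)
  refine ⟨d.m, d.hm, ρ, Units.continuous_iff.2 ⟨c1, (c1.comp continuous_inv).congr fun g =>
    congrArg Units.val (map_inv ρ g)⟩, fun s => ?_⟩
  obtain ⟨y, rfl⟩ := expT_surjective s
  refine congrFun (eq_of_im (f := fun y => c.b (expT y ^ d.m) x)
    (g := fun y => act₀ (ρ (expT y)) x) (fun y => ?_) (fun y => ?_) fun y hy => ?_) y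
  · simp only [← expT_nsmul]
    exact (c.wtd.an_expT x _).comp (f := fun y : σ → ℂ => d.m • y)
      ((d.m • ContinuousLinearMap.id ℂ (σ → ℂ)).analyticAt y)
  · exact AnalyticAt.comp (g := fun p : A × W => act₀ p.1 p.2) (f := fun y => ((ρ (expT y) : A), x))
      (c.isAct₀.an _ (ρ _).isUnit x trivial) (((wtd_cx hl).an_expT 1 y).prod analyticAt_const)
  · have e := congrArg c.Y.ι (hd (expT y))
    rw [c.h.eqv, ph_of_mem (pow_mem (expT_mem hy) _)] at e
    refine e.trans (congrArg (act₀ · x) ?_)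
    change _ = cx l _ 1
    rw [cx_eq hl (expT_mem hy)]
    exact (mul_one _).symm

variable (σ) in
/-- the point with the `m`-fold action -/
noncomputable def fdP {m : ℕ} (hm : m ≠ 0) : FD (TS.triv σ pt) where
  m := m
  hm := hm
  ρ := 1
  cρ := continuous_const
  abs _ := rfl
  F := pt
  i := Mor.id _
  fix _ _ := rfl
  comm _ _ := Commute.one_left _

/-- the element that fixes the point -/
noncomputable def el (c : TC σ act₀ act D Z) (m : ℕ) (ρ : Tor σ →* Aˣ) : Tor σ →* Bˣ :=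
  c.U.toMonoidHom.comp (MonoidHom.mk' (fun s => ((ρ s)⁻¹, s ^ m)) fun s s' =>
    Prod.ext (show (ρ (s * s'))⁻¹ = (ρ s)⁻¹ * (ρ s')⁻¹ by rw [mul_comm, map_mul, mul_inv_rev])
      (mul_pow _ _ _))

theorem el_apply (m : ℕ) (ρ : Tor σ →* Aˣ) (s : Tor σ) : el c m ρ s = c.U ((ρ s)⁻¹, s ^ m) := rfl

theorem continuous_el (m : ℕ) {ρ : Tor σ →* Aˣ} (hc : Continuous ρ) : Continuous (el c m ρ) :=
  c.continuous_U.comp (hc.inv.prodMk (continuous_id.pow _))

theorem act_el {x : W} {m : ℕ} {ρ : Tor σ →* Aˣ} (h1 : ∀ s, c.b (s ^ m) x = act₀ (ρ s) x)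
    (s : Tor σ) : act (el c m ρ s) x = x := by
  rw [el_apply, c.act_U, h1, ← c.isAct₀.mul _ _ (Units.isUnit _) (Units.isUnit _) _ trivial,
    Units.inv_mul, c.isAct₀.one x trivial]

theorem act_el' (L : c.Lv M act' Z') {x : W} {m : ℕ} {ρ : Tor σ →* Aˣ}
    (h1 : ∀ s, c.b (s ^ m) x = act₀ (ρ s) x) (s : Tor σ) (p : PM σ M) :
    act' (el c m ρ s) (L.μ (x, p.val)) = L.μ (x, (s ^ m • p).val) :=
  (L.eqvU _ x p.val).trans (congrArg (fun y => L.μ (y, (s ^ m • p).val))
    ((c.act_U _ x).symm.trans (act_el h1 s)))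

/-- **the weight of a line bundle at a fixed point** -/
theorem map_eu_pt (L : c.Lv M act' Z') {x : W} (hx : x ∈ Z) {m : ℕ} (hm : m ≠ 0)
    {ρ : Tor σ →* Aˣ} (hc : Continuous ρ) (h1 : ∀ s, c.b (s ^ m) x = act₀ (ρ s) x) {E : SD B W' Q}
    (hE : E.Ok act' Z' (r + 1) r) {α : Tor σ →ₜ* ℂˣ} {v : Q}
    (hB : ∀ p : PM σ M, v ∈ E.B (L.μ (x, p.val))) (hN : ∀ p : PM σ M, v ∉ E.N (L.μ (x, p.val)))
    (he : ∀ s (p : PM σ M), E.ρ (el c m ρ s) v - (α s : ℂ) • v ∈ E.N (L.μ (x, p.val)))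
    {n : ℤ} {w : σ → ℤ} (hα : ∀ s, α s ^ n = chr w s) {φ : C(Bs σ M, Quo act' Z')}
    (hφ : ∀ p, φ (bp p) = L.cl x hx p) :
    n • H.map φ (hcls (E.eu act' Z')) = lam M ((m : ℂ)⁻¹ • lin w) := by
  have := L.gd.isActZ
  have ho : Orb Bˣ (Holo.Sp act' Z') := L.gd.orbZ
  let d := fdP σ hm
  let μ : Mor (d.B M) (spA ho) := ⟨(el c m ρ).comp (MonoidHom.snd pt.G (Tor σ)),
    fun y : Unit × PM σ M => Holo.Sp.of act' _ (L.mem_pm hx y.2),
    (continuous_el m hc).comp continuous_snd,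
    (L.μ.continuous.comp (continuous_const.prodMk
      (PM.continuous_val.comp continuous_snd))).subtype_mk _,
    fun (k : pt.G × Tor σ) (y : Unit × PM σ M) => Holo.Sp.ext (act_el' L h1 k.2 y.2).symm⟩
  have h3 := Edg.map_eu_line ho hE μ (χ := α.comp (ContinuousMonoidHom.snd pt.G (Tor σ)))
    (v := fun _ => v) continuous_const (fun y => hB y.2) (fun y => hN y.2)
    fun (k : pt.G × Tor σ) (y : Unit × PM σ M) => he k.2 (k.2 ^ m • y.2)
  haveI : Subsingleton d.F.X := inferInstanceAs (Subsingleton Unit)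
  have e := d.isEmbedding_mor (IsEmbedding.of_subsingleton _) M
  have sj : Surjective (d.mor M).map := fun z => by
    obtain ⟨p, rfl⟩ := isOpenQuotientMap_bp.surjective z
    exact ⟨_, d.mor_π M () p⟩
  let ξ : C(Bs σ M, (d.B M).X) := (e.toHomeomorphOfSurjective sj).symm
  have x1 : (d.mor M).map.comp ξ = ContinuousMap.id _ :=
    ContinuousMap.ext (e.toHomeomorphOfSurjective sj).apply_symm_apply
  have x2 : φ = μ.map.comp ξ := ContinuousMap.ext fun z => by
    obtain ⟨p, rfl⟩ := isOpenQuotientMap_bp.surjective z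
    have : ξ (bp p) = (d.B M).π ((), p) :=
      e.injective ((DFunLike.congr_fun x1 _).trans (d.mor_π M () p).symm)
    exact (hφ p).trans ((μ.map_π ((), p)).symm.trans (congrArg μ.map this.symm))
  have x3 : α.comp (ContinuousMonoidHom.snd pt.G (Tor σ)) ^ n = (TS.triv σ d.F).ch (d.P M) w :=
    ContinuousMonoidHom.ext fun k => (map_zpow (evalC k) _ n).trans (hα k.2)
  have x4 := congrArg Subtype.val ((d.ev_lin M w).trans
    ((congrArg (c1 (Y := d.B M)) x3).symm.trans (c1_zpow _ n)))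
  refine (congrArg (fun f => n • H.map f _) x2).trans ((congrArg (n • ·)
    (H.map_map ξ μ.map _).symm).trans ((map_zsmul (H.map ξ) n _).symm.trans ?_))
  refine (congrArg (H.map ξ) ((congrArg (n • ·) h3).trans x4.symm)).trans ?_
  rw [d.coe_ev, d.e_apply, H.map_map, x1]
  exact H.map_id (fun _ => rfl) _

end Vale.Agent.P269.WtP
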